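import Crest.Agent.R152.AsmDefs
import Mathlib

-- ▼ part R152/Asm1
section

set_option autoImplicit false

/-! Row 152, ASM part 1: the part of `c` prime to `k_i`, averaging over `i`. -/

namespace Crest.Agent.R152.Asm

/-- the part of `m` prime to `K` (full prime powers of `m`) -/
def cop (m K : ℕ) : ℕ := ∏ q ∈ m.primeFactors.filter (fun q => ¬ q ∣ K), q ^ (m.factorization q)

/-- the complementary part -/
def ncop (m K : ℕ) : ℕ := ∏ q ∈ m.primeFactors.filter (fun q => q ∣ K), q ^ (m.factorization q)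

theorem cop_mul_ncop {m : ℕ} (hm : m ≠ 0) (K : ℕ) : cop m K * ncop m K = m := by
  unfold cop ncop
  rw [mul_comm, Finset.prod_filter_mul_prod_filter_not]
  exact Nat.factorization_prod_pow_eq_self hm

theorem cop_pos {m : ℕ} (hm : m ≠ 0) (K : ℕ) : 0 < cop m K := by
  have := cop_mul_ncop hm K
  exact Nat.pos_of_ne_zero fun h => hm (by rw [← this, h, zero_mul])

theorem cop_coprime_K (m K : ℕ) : Nat.Coprime (cop m K) K := by
  unfold cop
  refine Nat.Coprime.prod_left fun q hq => Nat.Coprime.pow_left _ ?_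
  rw [Finset.mem_filter] at hq
  exact (Nat.Prime.coprime_iff_not_dvd (Nat.prime_of_mem_primeFactors hq.1)).2 hq.2

theorem cop_coprime_ncop (m K : ℕ) : Nat.Coprime (cop m K) (ncop m K) := by
  unfold cop ncop
  refine Nat.Coprime.prod_left fun q hq => Nat.Coprime.prod_right fun r hr => ?_
  refine Nat.Coprime.pow _ _ ?_
  rw [Finset.mem_filter] at hq hr
  have h1 := Nat.prime_of_mem_primeFactors hq.1
  have h2 := Nat.prime_of_mem_primeFactors hr.1
  rw [Nat.coprime_primes h1 h2]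
  rintro rfl
  exact hq.2 hr.2

/-- `cop m K` is a unitary divisor of `m K²`. -/
theorem cop_unitary {m : ℕ} (hm : m ≠ 0) (K : ℕ) (hK : K ≠ 0) :
    cop m K ∣ m * K ^ 2 ∧ Nat.Coprime (cop m K) (m * K ^ 2 / cop m K) := by
  have h1 := cop_mul_ncop hm K
  have h2 : m * K ^ 2 = cop m K * (ncop m K * K ^ 2) := by
    rw [← mul_assoc, h1]
  refine ⟨⟨_, h2⟩, ?_⟩
  rw [h2, Nat.mul_div_cancel_left _ (cop_pos hm K)]
  exact Nat.Coprime.mul_right (cop_coprime_ncop m K) (Nat.Coprime.pow_right _ (cop_coprime_K m K))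

theorem log_cop {m : ℕ} (K : ℕ) : Real.log (cop m K) =
    ∑ q ∈ m.primeFactors.filter (fun q => ¬ q ∣ K), (m.factorization q : ℝ) * Real.log q := by
  unfold cop
  push_cast
  rw [Real.log_prod]
  · exact Finset.sum_congr rfl fun q _ => Real.log_pow _ _
  · intro q hq
    rw [Finset.mem_filter] at hq
    have := (Nat.prime_of_mem_primeFactors hq.1).pos
    positivity

theorem log_eq_sum {m : ℕ} (hm : m ≠ 0) : Real.log m =
    ∑ q ∈ m.primeFactors, (m.factorization q : ℝ) * Real.log q := by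
  conv_lhs => rw [← Nat.factorization_prod_pow_eq_self hm]
  rw [Finsupp.prod, Nat.support_factorization]
  push_cast
  rw [Real.log_prod]
  · exact Finset.sum_congr rfl fun q _ => Real.log_pow _ _
  · intro q hq
    have := (Nat.prime_of_mem_primeFactors hq).pos
    positivity

theorem log_cop_le {m : ℕ} (hm : m ≠ 0) (K : ℕ) : Real.log (cop m K) ≤ Real.log m := by
  have h0 := cop_pos hm K
  refine Real.log_le_log (by exact_mod_cast h0) ?_
  exact_mod_cast Nat.le_of_dvd (Nat.pos_of_ne_zero hm) ⟨_, (cop_mul_ncop hm K).symm⟩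

/-- Averaging: many indices `i` have a large part of `m` prime to `K i`. -/
theorem avg {ι : Type*} [Fintype ι] {m : ℕ} (hm : m ≠ 0) (K : ι → ℕ) {c1 Y : ℝ} (hY : 1 ≤ Y)
    (h : ∀ q : ℕ, q.Prime → c1 ≤ ((Finset.univ.filter (fun i => ¬ q ∣ K i)).card : ℝ)) :
    c1 * Real.log m ≤ ((Finset.univ.filter (fun i => Y ≤ (cop m (K i) : ℝ))).card : ℝ) * Real.log m +
      (Fintype.card ι : ℝ) * Real.log Y := by
  classical
  have hlm : 0 ≤ Real.log m := Real.log_natCast_nonneg m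
  have hlY : 0 ≤ Real.log Y := Real.log_nonneg hY
  have h1 : ∑ i, Real.log (cop m (K i)) = ∑ q ∈ m.primeFactors,
      ((Finset.univ.filter (fun i => ¬ q ∣ K i)).card : ℝ) *
        ((m.factorization q : ℝ) * Real.log q) := by
    simp_rw [log_cop, Finset.sum_filter]
    rw [Finset.sum_comm]
    refine Finset.sum_congr rfl fun q _ => ?_
    rw [← Finset.sum_filter, Finset.sum_const, nsmul_eq_mul]
  have h2 : c1 * Real.log m ≤ ∑ i, Real.log (cop m (K i)) := by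
    rw [h1, log_eq_sum hm, Finset.mul_sum]
    refine Finset.sum_le_sum fun q hq => ?_
    exact mul_le_mul_of_nonneg_right (h q (Nat.prime_of_mem_primeFactors hq))
      (mul_nonneg (Nat.cast_nonneg _) (Real.log_natCast_nonneg _))
  have h3 : ∀ i, Real.log (cop m (K i)) ≤
      (if Y ≤ (cop m (K i) : ℝ) then Real.log m else 0) + Real.log Y := by
    intro i
    split_ifs with hi
    · have := log_cop_le hm (K i)
      linarith
    · have h0 : (0 : ℝ) < cop m (K i) := by exact_mod_cast cop_pos hm (K i)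
      have := Real.log_le_log h0 (not_le.1 hi).le
      linarith
  calc c1 * Real.log m ≤ ∑ i, Real.log (cop m (K i)) := h2
    _ ≤ ∑ i, ((if Y ≤ (cop m (K i) : ℝ) then Real.log m else 0) + Real.log Y) :=
        Finset.sum_le_sum fun i _ => h3 i
    _ = _ := by
        rw [Finset.sum_add_distrib, ← Finset.sum_filter, Finset.sum_const, Finset.sum_const,
          nsmul_eq_mul, nsmul_eq_mul, Finset.card_univ]

end Crest.Agent.R152.Asm
end

-- ▼ part R152/Asm2
section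

set_option autoImplicit false

/-! Row 152, ASM part 2: the family of few giant-index lattices attached to a matrix. -/

namespace Crest.Agent.R152.Asm

def PART1 : Prop := ∀ (n : ℕ) (A : Matrix (Fin n) (Fin n) ℤ), A.det ≠ 0 → ∀ D E : ℕ,
    D * E = A.det.natAbs → Nat.Coprime D E →
    rng A ≤ kil A E ∧ (kil A E).index ≠ 0 ∧ D ≤ (kil A E).index

def PART1b : Prop := ∀ (n : ℕ) (A : Matrix (Fin n) (Fin n) ℤ), ∀ D E : ℕ,
    D * E = A.det.natAbs → ∀ x : Fin n → ℤ, Nat.Coprime (od A x) D → x ∈ kil A E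

def PART2 : Prop := ∀ (n : ℕ) (A : Matrix (Fin n) (Fin n) ℤ), A.transpose = A → A.det ≠ 0 →
    ∀ c o : ℕ, c * o ^ 2 = A.det.natAbs →
    ∃ x0 y0 : Fin n → ℤ, ∀ z : Fin n → ℤ, (∃ t : ℤ, bil A z z = t) → od A z = o →
      od A x0 = o ∧ od A y0 = o ∧
      ∃ f : ℕ, f ∣ o ∧ o ≤ 2 * c * f ^ 3 ∧ (z ∈ perp A x0 (o / f) ∨ z ∈ perp A y0 (o / f))

def PERPI : Prop := ∀ (n : ℕ) (A : Matrix (Fin n) (Fin n) ℤ), A.transpose = A → A.det ≠ 0 →
    ∀ (x : Fin n → ℤ) (o f : ℕ), od A x = o → f ∣ o →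
    rng A ≤ perp A x (o / f) ∧ (perp A x (o / f)).index ≠ 0 ∧ f ≤ (perp A x (o / f)).index

/-- the conclusion of DIV for one pair `n, z` -/
def DivAt (n : ℕ) (z ε : ℝ) : Prop := ∀ m : ℕ, 0 < m → (m : ℝ) ≤ (n : ℝ) ^ (n : ℝ) →
  ((m.divisors.filter (fun d : ℕ => (d : ℝ) ≤ (n : ℝ) ^ (z * n))).card : ℝ) ≤ (2 : ℝ) ^ (ε * n) ∧
  (∃ F : Finset ℕ, (F.card : ℝ) ≤ (2 : ℝ) ^ (ε * n) ∧ (∀ f ∈ F, f ∣ m ∧ (n : ℝ) ^ (z * n) ≤ f) ∧
    ∀ f : ℕ, f ∣ m → (n : ℝ) ^ (z * n) ≤ f → ∃ f' ∈ F, f' ∣ f) ∧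
  (∃ F : Finset ℕ, (F.card : ℝ) ≤ (2 : ℝ) ^ (ε * n) ∧
    (∀ f ∈ F, f ∣ m ∧ Nat.Coprime f (m / f) ∧ (n : ℝ) ^ (z * n) ≤ f) ∧
    ∀ f : ℕ, f ∣ m → Nat.Coprime f (m / f) → (n : ℝ) ^ (z * n) ≤ f → ∃ f' ∈ F, f' ∣ f)

def DIV : Prop := ∀ ε : ℝ, 0 < ε → ∃ z0 : ℝ, 0 < z0 ∧ ∀ z : ℝ, 0 < z → z ≤ z0 →
  ∃ n0 : ℕ, ∀ n : ℕ, n0 ≤ n → DivAt n z ε

/-- a lattice `A ℤⁿ ≤ L` of giant index -/
def Giant {n : ℕ} (A : Matrix (Fin n) (Fin n) ℤ) (z : ℝ) (L : AddSubgroup (Fin n → ℤ)) : Prop :=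
  rng A ≤ L ∧ (n : ℝ) ^ (z * n) ≤ (L.index : ℝ)

theorem perp_mono {n : ℕ} (A : Matrix (Fin n) (Fin n) ℤ) (x : Fin n → ℤ) {m m' : ℕ}
    (h : m ∣ m') : perp A x m ≤ perp A x m' := by
  rintro z ⟨t, ht⟩
  obtain ⟨a, rfl⟩ := h
  refine ⟨a * t, ?_⟩
  push_cast
  rw [← ht]
  ring

theorem cover_c (hP2 : PART2) (hPI : PERPI) {n : ℕ} {z κ η ε : ℝ}
    (hdiv : DivAt n z ε)
    (hnum : 4 * (n : ℝ) ^ ((3 * κ + 6 * z) * n) ≤ (n : ℝ) ^ (η * n)) (hn : 1 ≤ n)
    (A : Matrix (Fin n) (Fin n) ℤ) (hA : A.transpose = A) (hdet : A.det ≠ 0)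
    (hle : (A.det.natAbs : ℝ) ≤ (n : ℝ) ^ (n : ℝ))
    (hbig : (n : ℝ) ^ (η * n) < A.det.natAbs) (c : ℕ) (hc : (c : ℝ) ≤ (n : ℝ) ^ (κ * n)) :
    ∃ Ls : Finset (AddSubgroup (Fin n → ℤ)), (Ls.card : ℝ) ≤ 2 * (2 : ℝ) ^ (ε * n) ∧
      (∀ L ∈ Ls, Giant A z L) ∧
      ∀ x : Fin n → ℤ, (∃ t : ℤ, bil A x x = t) → c * (od A x) ^ 2 = A.det.natAbs →
        ∃ L ∈ Ls, x ∈ L := by
  classical
  by_cases hex : ∃ x : Fin n → ℤ, (∃ t : ℤ, bil A x x = t) ∧ c * (od A x) ^ 2 = A.det.natAbs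
  swap
  · refine ⟨∅, by simp; positivity, by simp, fun x h1 h2 => (hex ⟨x, h1, h2⟩).elim⟩
  obtain ⟨x1, hx1, hx1c⟩ := hex
  set o := od A x1 with ho
  have hm0 : 0 < A.det.natAbs := Int.natAbs_pos.2 hdet
  have hc0 : 0 < c := by
    rcases Nat.eq_zero_or_pos c with h | h
    · rw [h, zero_mul] at hx1c; omega
    · exact h
  have ho0 : 0 < o := by
    rcases Nat.eq_zero_or_pos o with h | h
    · rw [h] at hx1c; simp at hx1c; omega
    · exact h
  obtain ⟨x0, y0, hxy⟩ := hP2 n A hA hdet c o hx1c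
  have hole : (o : ℝ) ≤ (n : ℝ) ^ (n : ℝ) := by
    refine le_trans ?_ hle
    rw [← hx1c]
    have : o ≤ c * o ^ 2 := by nlinarith
    exact_mod_cast this
  obtain ⟨-, ⟨F, hFc, hF1, hF2⟩, -⟩ := hdiv o ho0 hole
  obtain ⟨hx0, hy0, -⟩ := hxy x1 hx1 rfl
  refine ⟨F.image (fun f => perp A x0 (o / f)) ∪ F.image (fun f => perp A y0 (o / f)), ?_, ?_, ?_⟩
  · have h1 := Finset.card_union_le (F.image (fun f => perp A x0 (o / f)))
      (F.image (fun f => perp A y0 (o / f)))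
    have h2 : (F.image (fun f => perp A x0 (o / f))).card ≤ F.card := Finset.card_image_le
    have h3 : (F.image (fun f => perp A y0 (o / f))).card ≤ F.card := Finset.card_image_le
    have h4 : ((F.image (fun f => perp A x0 (o / f)) ∪
      F.image (fun f => perp A y0 (o / f))).card : ℝ) ≤ 2 * F.card := by
      have : (F.image (fun f => perp A x0 (o / f)) ∪
        F.image (fun f => perp A y0 (o / f))).card ≤ 2 * F.card := by omega
      exact_mod_cast this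
    linarith
  · intro L hL
    rw [Finset.mem_union, Finset.mem_image, Finset.mem_image] at hL
    rcases hL with ⟨f, hf, rfl⟩ | ⟨f, hf, rfl⟩
    · obtain ⟨hfo, hfY⟩ := hF1 f hf
      obtain ⟨h1, -, h3⟩ := hPI n A hA hdet x0 o f hx0 hfo
      exact ⟨h1, hfY.trans (by exact_mod_cast h3)⟩
    · obtain ⟨hfo, hfY⟩ := hF1 f hf
      obtain ⟨h1, -, h3⟩ := hPI n A hA hdet y0 o f hy0 hfo
      exact ⟨h1, hfY.trans (by exact_mod_cast h3)⟩
  · intro x hx hxc
    have hxo : od A x = o := by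
      have h1 : c * (od A x) ^ 2 = c * o ^ 2 := hxc.trans hx1c.symm
      have h2 := Nat.eq_of_mul_eq_mul_left hc0 h1
      exact Nat.pow_left_injective (by norm_num : (2 : ℕ) ≠ 0) h2
    obtain ⟨-, -, f, hfo, hf3, hf⟩ := hxy x hx hxo
    have hn0 : (0 : ℝ) < n := by exact_mod_cast hn
    -- f is giant
    have hfY : (n : ℝ) ^ (z * n) ≤ f := by
      by_contra hlt
      push Not at hlt
      have h1 : (o : ℝ) ≤ 2 * c * (f : ℝ) ^ 3 := by exact_mod_cast hf3
      have hY0 : 0 < (n : ℝ) ^ (z * n) := Real.rpow_pos_of_pos hn0 _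
      have hK0 : 0 < (n : ℝ) ^ (κ * n) := Real.rpow_pos_of_pos hn0 _
      have h2 : (f : ℝ) ^ 3 ≤ ((n : ℝ) ^ (z * n)) ^ 3 := pow_le_pow_left₀ (Nat.cast_nonneg _) hlt.le 3
      have h3 : (o : ℝ) ≤ 2 * (n : ℝ) ^ (κ * n) * ((n : ℝ) ^ (z * n)) ^ 3 := by
        refine h1.trans ?_
        have hf30 : (0 : ℝ) ≤ (f : ℝ) ^ 3 := by positivity
        have : (c : ℝ) * (f : ℝ) ^ 3 ≤ (n : ℝ) ^ (κ * n) * ((n : ℝ) ^ (z * n)) ^ 3 :=
          mul_le_mul hc h2 hf30 hK0.le
        linarith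
      have h4 : (A.det.natAbs : ℝ) ≤ 4 * (n : ℝ) ^ ((3 * κ + 6 * z) * n) := by
        have e1 : (A.det.natAbs : ℝ) = c * (o : ℝ) ^ 2 := by rw [← hx1c]; push_cast; ring
        rw [e1]
        have h5 : (o : ℝ) ^ 2 ≤ (2 * (n : ℝ) ^ (κ * n) * ((n : ℝ) ^ (z * n)) ^ 3) ^ 2 :=
          pow_le_pow_left₀ (Nat.cast_nonneg _) h3 2
        have h6 : (c : ℝ) * (o : ℝ) ^ 2 ≤ (n : ℝ) ^ (κ * n) *
            (2 * (n : ℝ) ^ (κ * n) * ((n : ℝ) ^ (z * n)) ^ 3) ^ 2 :=
          mul_le_mul hc h5 (by positivity) hK0.le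
        refine h6.trans (le_of_eq ?_)
        have e2 : (n : ℝ) ^ ((3 * κ + 6 * z) * n) =
            ((n : ℝ) ^ (κ * n)) ^ 3 * ((n : ℝ) ^ (z * n)) ^ 6 := by
          rw [← Real.rpow_natCast ((n : ℝ) ^ (κ * n)) 3, ← Real.rpow_natCast ((n : ℝ) ^ (z * n)) 6,
            ← Real.rpow_mul hn0.le, ← Real.rpow_mul hn0.le, ← Real.rpow_add hn0]
          congr 1
          push_cast
          ring
        rw [e2]
        ring
      linarith
    obtain ⟨f', hf'F, hf'f⟩ := hF2 f hfo hfY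
    have hdv : o / f ∣ o / f' := by
      obtain ⟨a, rfl⟩ := hf'f
      obtain ⟨b, hb⟩ := hfo
      have ha0 : 0 < f' * a := Nat.pos_of_ne_zero fun h => by rw [h, zero_mul] at hb; omega
      have hf0 : 0 < f' := Nat.pos_of_mul_pos_right ha0 
      rw [hb, Nat.mul_div_cancel_left _ ha0, mul_assoc, Nat.mul_div_cancel_left _ hf0]
      exact ⟨a, by ring⟩
    rcases hf with hf | hf
    · exact ⟨_, Finset.mem_union_left _ (Finset.mem_image_of_mem _ hf'F), perp_mono A x0 hdv hf⟩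
    · exact ⟨_, Finset.mem_union_right _ (Finset.mem_image_of_mem _ hf'F), perp_mono A y0 hdv hf⟩

theorem exists_cover (hP1 : PART1) (hP1b : PART1b) (hP2 : PART2) (hPI : PERPI) {n : ℕ}
    {z κ η ε : ℝ} (hdiv : DivAt n z ε) (hdivκ : DivAt n κ ε)
    (hnum : 4 * (n : ℝ) ^ ((3 * κ + 6 * z) * n) ≤ (n : ℝ) ^ (η * n)) (hn : 1 ≤ n)
    (A : Matrix (Fin n) (Fin n) ℤ) (hA : A.transpose = A) (hdet : A.det ≠ 0)
    (hle : (A.det.natAbs : ℝ) ≤ (n : ℝ) ^ (n : ℝ)) :
    ∃ Ls : Finset (AddSubgroup (Fin n → ℤ)),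
      (Ls.card : ℝ) ≤ (2 : ℝ) ^ (ε * n) + (2 : ℝ) ^ (ε * n) * (2 * (2 : ℝ) ^ (ε * n)) ∧
      (∀ L ∈ Ls, Giant A z L) ∧
      (∀ x : Fin n → ℤ, (∃ D : ℕ, D ∣ A.det.natAbs ∧ Nat.Coprime D (A.det.natAbs / D) ∧
        (n : ℝ) ^ (z * n) ≤ D ∧ Nat.Coprime (od A x) D) → ∃ L ∈ Ls, x ∈ L) ∧
      (∀ x : Fin n → ℤ, (∃ t : ℤ, bil A x x = t) → (n : ℝ) ^ (η * n) < A.det.natAbs →
        (∃ c : ℕ, (c : ℝ) ≤ (n : ℝ) ^ (κ * n) ∧ c * (od A x) ^ 2 = A.det.natAbs) →
        ∃ L ∈ Ls, x ∈ L) := by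
  classical
  set m := A.det.natAbs with hm
  have hm0 : 0 < m := Int.natAbs_pos.2 hdet
  obtain ⟨-, -, ⟨F, hFc, hF1, hF2⟩⟩ := hdiv m hm0 hle
  obtain ⟨hCs, -, -⟩ := hdivκ m hm0 hle
  set Cs := m.divisors.filter (fun d : ℕ => (d : ℝ) ≤ (n : ℝ) ^ (κ * n)) with hCsd
  -- the second family
  have hII : ∃ G : Finset (AddSubgroup (Fin n → ℤ)),
      (G.card : ℝ) ≤ (2 : ℝ) ^ (ε * n) * (2 * (2 : ℝ) ^ (ε * n)) ∧ (∀ L ∈ G, Giant A z L) ∧
      (∀ x : Fin n → ℤ, (∃ t : ℤ, bil A x x = t) → (n : ℝ) ^ (η * n) < m →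
        (∃ c : ℕ, (c : ℝ) ≤ (n : ℝ) ^ (κ * n) ∧ c * (od A x) ^ 2 = m) → ∃ L ∈ G, x ∈ L) := by
    by_cases hbig : (n : ℝ) ^ (η * n) < m
    swap
    · exact ⟨∅, by simp; positivity, by simp, fun x _ h => (hbig h).elim⟩
    have hc : ∀ c : ℕ, ∃ Ls : Finset (AddSubgroup (Fin n → ℤ)), c ∈ Cs →
        (Ls.card : ℝ) ≤ 2 * (2 : ℝ) ^ (ε * n) ∧ (∀ L ∈ Ls, Giant A z L) ∧
        ∀ x : Fin n → ℤ, (∃ t : ℤ, bil A x x = t) → c * (od A x) ^ 2 = m → ∃ L ∈ Ls, x ∈ L := by
      intro c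
      by_cases hcC : c ∈ Cs
      · obtain ⟨Ls, h⟩ := cover_c hP2 hPI hdiv hnum hn A hA hdet hle hbig c
          (by rw [hCsd, Finset.mem_filter] at hcC; exact hcC.2)
        exact ⟨Ls, fun _ => h⟩
      · exact ⟨∅, fun h => (hcC h).elim⟩
    choose G hG using hc
    refine ⟨Cs.biUnion G, ?_, ?_, ?_⟩
    · have h1 : ((Cs.biUnion G).card : ℝ) ≤ ∑ c ∈ Cs, ((G c).card : ℝ) := by
        exact_mod_cast Finset.card_biUnion_le
      refine h1.trans ?_
      calc ∑ c ∈ Cs, ((G c).card : ℝ) ≤ ∑ c ∈ Cs, 2 * (2 : ℝ) ^ (ε * n) :=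
            Finset.sum_le_sum fun c hc => (hG c hc).1
        _ = (Cs.card : ℝ) * (2 * (2 : ℝ) ^ (ε * n)) := by rw [Finset.sum_const, nsmul_eq_mul]
        _ ≤ _ := mul_le_mul_of_nonneg_right hCs (by positivity)
    · intro L hL
      obtain ⟨c, hc, hLc⟩ := Finset.mem_biUnion.1 hL
      exact (hG c hc).2.1 L hLc
    · rintro x hx - ⟨c, hcκ, hceq⟩
      have hcC : c ∈ Cs := by
        rw [hCsd, Finset.mem_filter, Nat.mem_divisors]
        exact ⟨⟨⟨_, hceq.symm⟩, hm0.ne'⟩, hcκ⟩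
      obtain ⟨L, hL, hxL⟩ := (hG c hcC).2.2 x hx hceq
      exact ⟨L, Finset.mem_biUnion.2 ⟨c, hcC, hL⟩, hxL⟩
  obtain ⟨G, hGc, hG1, hG2⟩ := hII
  refine ⟨F.image (fun D => kil A (m / D)) ∪ G, ?_, ?_, ?_, ?_⟩
  · have h1 := Finset.card_union_le (F.image (fun D => kil A (m / D))) G
    have h2 : (F.image (fun D => kil A (m / D))).card ≤ F.card := Finset.card_image_le
    have h4 : ((F.image (fun D => kil A (m / D)) ∪ G).card : ℝ) ≤ F.card + G.card := by
      have : (F.image (fun D => kil A (m / D)) ∪ G).card ≤ F.card + G.card := by omega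
      exact_mod_cast this
    linarith
  · intro L hL
    rw [Finset.mem_union, Finset.mem_image] at hL
    rcases hL with ⟨D, hD, rfl⟩ | hL
    · obtain ⟨hDm, hDc, hDY⟩ := hF1 D hD
      obtain ⟨h1, -, h3⟩ := hP1 n A hdet D (m / D) (Nat.mul_div_cancel' hDm) hDc
      exact ⟨h1, hDY.trans (by exact_mod_cast h3)⟩
    · exact hG1 L hL
  · rintro x ⟨D, hDm, hDc, hDY, hxD⟩
    obtain ⟨D', hD'F, hD'D⟩ := hF2 D hDm hDc hDY
    obtain ⟨hD'm, -, -⟩ := hF1 D' hD'F
    refine ⟨kil A (m / D'), Finset.mem_union_left _ (Finset.mem_image_of_mem _ hD'F), ?_⟩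
    exact hP1b n A D' (m / D') (Nat.mul_div_cancel' hD'm) x (Nat.Coprime.coprime_dvd_right hD'D hxD)
  · intro x h1 h2 h3
    obtain ⟨L, hL, hxL⟩ := hG2 x h1 h2 h3
    exact ⟨L, Finset.mem_union_right _ hL, hxL⟩

end Crest.Agent.R152.Asm
end

-- ▼ part R152/Asm3
section

set_option autoImplicit false

/-! Row 152, ASM part 3: the sets `R n A` of candidate rows and their cardinality. -/

open Crest.FinProb Crest.ProbabilityR.SignMatrix Crest.Agent.R152.Base

namespace Crest.Agent.R152.Asm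

/-- the candidates for the deleted row -/
def RR (z κ η : ℝ) (C n : ℕ) (A : Matrix (Fin n) (Fin n) ℤ) : Set (Fin n → Bool) :=
  {x | ((∃ t : ℤ, bil A (sv x) (sv x) = t) ∧
      (((A.det.natAbs : ℝ) ≤ (n : ℝ) ^ (η * n) ∧ ∀ i, |qinv A (sv x) i| ≤ (n : ℚ) ^ C) ∨
       ((n : ℝ) ^ (η * n) < A.det.natAbs ∧
          ∃ c : ℕ, (c : ℝ) ≤ (n : ℝ) ^ (κ * n) ∧ c * (od A (sv x)) ^ 2 = A.det.natAbs))) ∨
    ∃ D : ℕ, D ∣ A.det.natAbs ∧ Nat.Coprime D (A.det.natAbs / D) ∧
        (n : ℝ) ^ (z * n) ≤ D ∧ Nat.Coprime (od A (sv x)) D}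

/-- few candidates if `A` satisfies the conclusions of GLO and T1'. -/
theorem ncard_RR_le (hP1 : PART1) (hP1b : PART1b) (hP2 : PART2) (hPI : PERPI) {n : ℕ}
    {z κ η ε b : ℝ} {C : ℕ} (hdiv : DivAt n z ε) (hdivκ : DivAt n κ ε)
    (hnum : 4 * (n : ℝ) ^ ((3 * κ + 6 * z) * n) ≤ (n : ℝ) ^ (η * n)) (hn : 1 ≤ n)
    (A : Matrix (Fin n) (Fin n) ℤ) (hA : A.transpose = A) (hdet : A.det ≠ 0)
    (hle : (A.det.natAbs : ℝ) ≤ (n : ℝ) ^ (n : ℝ))
    (hG : ∀ L : AddSubgroup (Fin n → ℤ), Giant A z L →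
      (Nat.card {x : Fin n → Bool // sv x ∈ L} : ℝ) ≤ (2 : ℝ) ^ (b * n))
    (hT : (A.det.natAbs : ℝ) ≤ (n : ℝ) ^ (η * n) →
      (Nat.card {x : Fin n → Bool // (∃ t : ℤ, bil A (sv x) (sv x) = t) ∧
        ∀ i, |qinv A (sv x) i| ≤ (n : ℚ) ^ C} : ℝ) ≤ (2 : ℝ) ^ (b * n)) :
    ((RR z κ η C n A).ncard : ℝ) ≤ (2 : ℝ) ^ (b * n) +
      ((2 : ℝ) ^ (ε * n) + (2 : ℝ) ^ (ε * n) * (2 * (2 : ℝ) ^ (ε * n))) * (2 : ℝ) ^ (b * n) := by
  classical
  obtain ⟨Ls, hLc, hLg, hL1, hL2⟩ :=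
    exists_cover hP1 hP1b hP2 hPI hdiv hdivκ hnum hn A hA hdet hle
  set T : Set (Fin n → Bool) := {x | (A.det.natAbs : ℝ) ≤ (n : ℝ) ^ (η * n) ∧
    ((∃ t : ℤ, bil A (sv x) (sv x) = t) ∧ ∀ i, |qinv A (sv x) i| ≤ (n : ℚ) ^ C)} with hTd
  have hsub : RR z κ η C n A ⊆ T ∪ ⋃ L ∈ Ls, {x : Fin n → Bool | sv x ∈ L} := by
    rintro x (⟨hx, (⟨h1, h2⟩ | ⟨h1, h2⟩)⟩ | hx)
    · exact Or.inl ⟨h1, hx, h2⟩
    · obtain ⟨L, hL, hxL⟩ := hL2 (sv x) hx h1 h2
      exact Or.inr (Set.mem_biUnion hL hxL)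
    · obtain ⟨L, hL, hxL⟩ := hL1 (sv x) hx
      exact Or.inr (Set.mem_biUnion hL hxL)
  have hTc : (T.ncard : ℝ) ≤ (2 : ℝ) ^ (b * n) := by
    by_cases hs : (A.det.natAbs : ℝ) ≤ (n : ℝ) ^ (η * n)
    · refine le_trans ?_ (hT hs)
      have : T = {x : Fin n → Bool | (∃ t : ℤ, bil A (sv x) (sv x) = t) ∧
          ∀ i, |qinv A (sv x) i| ≤ (n : ℚ) ^ C} := by
        rw [hTd]; ext x; exact ⟨fun h => h.2, fun h => ⟨hs, h⟩⟩
      rw [this]
      rfl
    · have : T = ∅ := by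
        rw [hTd, Set.eq_empty_iff_forall_notMem]
        rintro x ⟨h, -⟩
        exact hs h
      rw [this, Set.ncard_empty]
      simp only [Nat.cast_zero]
      positivity
  have hUc : ((⋃ L ∈ Ls, {x : Fin n → Bool | sv x ∈ L}).ncard : ℝ) ≤
      (Ls.card : ℝ) * (2 : ℝ) ^ (b * n) := by
    have h1 : (⋃ L ∈ Ls, {x : Fin n → Bool | sv x ∈ L}) =
        ((Ls.biUnion fun L => Finset.univ.filter fun x : Fin n → Bool => sv x ∈ L :
          Finset (Fin n → Bool)) : Set (Fin n → Bool)) := by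
      ext x; simp
    rw [h1, Set.ncard_coe_finset]
    have h2 : ((Ls.biUnion fun L => Finset.univ.filter fun x : Fin n → Bool => sv x ∈ L).card : ℝ) ≤
        ∑ L ∈ Ls, ((Finset.univ.filter fun x : Fin n → Bool => sv x ∈ L).card : ℝ) := by
      exact_mod_cast Finset.card_biUnion_le
    refine h2.trans ?_
    calc ∑ L ∈ Ls, ((Finset.univ.filter fun x : Fin n → Bool => sv x ∈ L).card : ℝ)
        ≤ ∑ L ∈ Ls, (2 : ℝ) ^ (b * n) := by
          refine Finset.sum_le_sum fun L hL => ?_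
          have := hG L (hLg L hL)
          rwa [Nat.card_eq_fintype_card, Fintype.card_subtype] at this
      _ = (Ls.card : ℝ) * (2 : ℝ) ^ (b * n) := by rw [Finset.sum_const, nsmul_eq_mul]
  have h1 : (RR z κ η C n A).ncard ≤ T.ncard +
      (⋃ L ∈ Ls, {x : Fin n → Bool | sv x ∈ L}).ncard :=
    (Set.ncard_le_ncard hsub (Set.toFinite _)).trans (Set.ncard_union_le _ _)
  have h2 : ((RR z κ η C n A).ncard : ℝ) ≤ T.ncard +
      (⋃ L ∈ Ls, {x : Fin n → Bool | sv x ∈ L}).ncard := by exact_mod_cast h1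
  refine h2.trans (add_le_add hTc (hUc.trans ?_))
  exact mul_le_mul_of_nonneg_right hLc (by positivity)

/-- the determinant of a sign matrix is at most `nⁿ` -/
theorem det_le {n : ℕ} (w : Sym2 (Fin n) → Bool) :
    ((symMat w).det.natAbs : ℝ) ≤ (n : ℝ) ^ (n : ℝ) := by
  have h := Matrix.det_le (A := symMat w) (abv := AbsoluteValue.abs) (x := (1 : ℤ)) (by
    intro i j
    rw [symMat_apply, AbsoluteValue.abs_apply]
    cases w s(i, j) <;> simp [sg])
  rw [AbsoluteValue.abs_apply] at h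
  simp only [Fintype.card_fin, one_pow, nsmul_eq_mul, mul_one] at h
  have h2 : ((symMat w).det.natAbs : ℤ) ≤ (n ^ n : ℕ) := by
    rw [Int.natCast_natAbs]
    refine h.trans ?_
    exact_mod_cast Nat.factorial_le_pow n
  have h3 : (symMat w).det.natAbs ≤ n ^ n := by exact_mod_cast h2
  rw [Real.rpow_natCast]
  exact_mod_cast h3

end Crest.Agent.R152.Asm
end

-- ▼ part R152/PartII
section

set_option autoImplicit false

/-! Row 152, ASM PART II (helper229): the triple lemma.  Three vectors `x, y, z` of the same order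
`o` in `ℤⁿ / A ℤⁿ`, isotropic mod 1, with `c o² = |det A|`, have pairings with denominators whose
product divides `2 c o²`; so two base points cover all of them. -/

open Matrix

namespace Crest.Agent.R152.Asm

variable {n : ℕ}

namespace P2

/-- integer vectors over `ℚ` -/
def qv (x : Fin n → ℤ) : Fin n → ℚ := fun i => (x i : ℚ)

/-- the matrix over `ℚ` -/
abbrev qm (A : Matrix (Fin n) (Fin n) ℤ) : Matrix (Fin n) (Fin n) ℚ := A.map (Int.cast : ℤ → ℚ)

theorem bil_def (A : Matrix (Fin n) (Fin n) ℤ) (x y : Fin n → ℤ) :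
    bil A x y = qv x ⬝ᵥ ((qm A)⁻¹ *ᵥ qv y) := rfl

theorem qv_mulVec (A : Matrix (Fin n) (Fin n) ℤ) (v : Fin n → ℤ) :
    qv (A *ᵥ v) = (qm A) *ᵥ qv v := by
  ext i
  simp [qv, mulVec, dotProduct]

theorem qv_injective {x y : Fin n → ℤ} (h : qv x = qv y) : x = y := by
  ext i
  have := congrFun h i
  simpa [qv] using this

theorem qv_zsmul (m : ℤ) (x : Fin n → ℤ) : qv (m • x) = (m : ℚ) • qv x := by
  ext i; simp [qv]

theorem det_map (A : Matrix (Fin n) (Fin n) ℤ) : (qm A).det = (A.det : ℚ) := by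
  have := (Int.castRingHom ℚ).map_det A
  simpa using this.symm

theorem isUnit_map {A : Matrix (Fin n) (Fin n) ℤ} (h : A.det ≠ 0) : IsUnit (qm A).det := by
  rw [det_map]
  exact isUnit_iff_ne_zero.2 (by exact_mod_cast h)

theorem mem_rng_iff {A : Matrix (Fin n) (Fin n) ℤ} (h : A.det ≠ 0) {x : Fin n → ℤ} :
    x ∈ rng A ↔ ∃ v : Fin n → ℤ, (qm A)⁻¹ *ᵥ qv x = qv v := by
  rw [mem_rng]
  constructor
  · rintro ⟨v, rfl⟩
    refine ⟨v, ?_⟩
    rw [qv_mulVec, mulVec_mulVec, nonsing_inv_mul _ (isUnit_map h), one_mulVec]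
  · rintro ⟨v, hv⟩
    refine ⟨v, qv_injective ?_⟩
    rw [qv_mulVec, ← hv, mulVec_mulVec, mul_nonsing_inv _ (isUnit_map h), one_mulVec]

theorem bil_comm {A : Matrix (Fin n) (Fin n) ℤ} (hs : A.transpose = A) (x y : Fin n → ℤ) :
    bil A x y = bil A y x := by
  rw [bil_def, bil_def, dotProduct_mulVec, dotProduct_comm, ← mulVec_transpose,
    transpose_nonsing_inv, ← transpose_map, hs]

theorem bil_zsmul_left (A : Matrix (Fin n) (Fin n) ℤ) (m : ℤ) (x z : Fin n → ℤ) :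
    bil A (m • x) z = m * bil A x z := by
  rw [bil_def, bil_def, qv_zsmul, smul_dotProduct, smul_eq_mul]

theorem bil_zsmul_right (A : Matrix (Fin n) (Fin n) ℤ) (m : ℤ) (x z : Fin n → ℤ) :
    bil A x (m • z) = m * bil A x z := by
  rw [bil_def, bil_def, qv_zsmul, mulVec_smul, dotProduct_smul, smul_eq_mul]

theorem bil_int_of_mem {A : Matrix (Fin n) (Fin n) ℤ} (h : A.det ≠ 0) {x : Fin n → ℤ}
    (hx : x ∈ rng A) (z : Fin n → ℤ) : ∃ t : ℤ, bil A z x = t := by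
  obtain ⟨v, hv⟩ := (mem_rng_iff h).1 hx
  refine ⟨z ⬝ᵥ v, ?_⟩
  rw [bil_def, hv]
  simp [qv, dotProduct]

theorem bil_single (A : Matrix (Fin n) (Fin n) ℤ) (i : Fin n) (x : Fin n → ℤ) :
    bil A (Pi.single i 1) x = ((qm A)⁻¹ *ᵥ qv x) i := by
  have : qv (Pi.single i 1 : Fin n → ℤ) = Pi.single i 1 := by
    ext j
    by_cases h : j = i
    · subst h; simp [qv]
    · simp [qv, h]
  rw [bil_def, this, single_one_dotProduct]

theorem mem_of_bil_int {A : Matrix (Fin n) (Fin n) ℤ} (h : A.det ≠ 0) {x : Fin n → ℤ}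
    (hx : ∀ z, ∃ t : ℤ, bil A z x = t) : x ∈ rng A := by
  rw [mem_rng_iff h]
  choose t ht using hx
  refine ⟨fun i => t (Pi.single i 1), ?_⟩
  ext i
  rw [← bil_single, ht]
  rfl

/-- the denominator of the pairing -/
noncomputable def dn (A : Matrix (Fin n) (Fin n) ℤ) (x y : Fin n → ℤ) : ℕ := (bil A x y).den

theorem den_dvd_of_mul {q : ℚ} {m : ℕ} (hm : m ≠ 0) {t : ℤ} (h : (m : ℚ) * q = t) : q.den ∣ m := by
  have hm' : (m : ℚ) ≠ 0 := by exact_mod_cast hm
  have hq : q = (t : ℚ) / ((m : ℤ) : ℚ) := by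
    rw [eq_div_iff (by exact_mod_cast hm)]
    rw [mul_comm]
    exact_mod_cast h
  have := Rat.den_dvd t (m : ℤ)
  rw [Rat.divInt_eq_div, ← hq] at this
  exact_mod_cast this

theorem dn_dvd {A : Matrix (Fin n) (Fin n) ℤ} (h : A.det ≠ 0) {x : Fin n → ℤ} {o : ℕ}
    (ho : od A x = o) (hpos : 0 < o) (z : Fin n → ℤ) : dn A z x ∣ o := by
  have h1 : (o : ℤ) • x ∈ rng A := od_dvd_iff.1 (by rw [ho])
  obtain ⟨t, ht⟩ := bil_int_of_mem h h1 z
  rw [bil_zsmul_right] at ht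
  exact den_dvd_of_mul hpos.ne' (by exact_mod_cast ht)

theorem dn_comm {A : Matrix (Fin n) (Fin n) ℤ} (hs : A.transpose = A) (x y : Fin n → ℤ) :
    dn A x y = dn A y x := by
  unfold dn
  rw [bil_comm hs]

theorem triple_dvd {T o Da Db De a b e : ℕ} (ho : o ^ 2 ∣ T)
    (hDa : Da ∣ o) (hDb : Db ∣ o) (hDe : De ∣ o)
    (ha : Nat.Coprime a Da) (hb : Nat.Coprime b Db) (he : Nat.Coprime e De)
    (h : Da * Db * De ∣ T * (a * b * e)) : Da * Db * De ∣ T := by
  rw [Nat.dvd_iff_prime_pow_dvd_dvd]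
  intro p k hp hk
  have key : ∀ {u v w : ℕ}, ¬ p ∣ u → v ∣ o → w ∣ o → p ^ k ∣ u * (v * w) → p ^ k ∣ T := by
    intro u v w hu hv hw hd
    have hc : Nat.Coprime (p ^ k) u :=
      Nat.Coprime.pow_left k ((Nat.Prime.coprime_iff_not_dvd hp).2 hu)
    have h1 : p ^ k ∣ v * w := hc.dvd_of_dvd_mul_left hd
    exact (h1.trans (mul_dvd_mul hv hw)).trans ((by rw [sq] : o * o = o ^ 2) ▸ ho)
  by_cases h1 : p ∣ Da
  · by_cases h2 : p ∣ Db
    · by_cases h3 : p ∣ De
      · have c1 : ¬ p ∣ a := fun hh => hp.one_lt.ne' (Nat.dvd_one.1 (ha ▸ Nat.dvd_gcd hh h1))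
        have c2 : ¬ p ∣ b := fun hh => hp.one_lt.ne' (Nat.dvd_one.1 (hb ▸ Nat.dvd_gcd hh h2))
        have c3 : ¬ p ∣ e := fun hh => hp.one_lt.ne' (Nat.dvd_one.1 (he ▸ Nat.dvd_gcd hh h3))
        have c : Nat.Coprime (p ^ k) (a * b * e) := by
          refine Nat.Coprime.pow_left k ((Nat.Prime.coprime_iff_not_dvd hp).2 ?_)
          intro hh
          rcases (Nat.Prime.dvd_mul hp).1 hh with h4 | h4
          · rcases (Nat.Prime.dvd_mul hp).1 h4 with h5 | h5
            · exact c1 h5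
            · exact c2 h5
          · exact c3 h4
        exact c.dvd_of_dvd_mul_right (hk.trans h)
      · refine key h3 hDa hDb ?_
        rw [mul_comm]; exact hk
    · refine key h2 hDa hDe ?_
      have : Db * (Da * De) = Da * Db * De := by ring
      rw [this]; exact hk
  · refine key h1 hDb hDe ?_
    rw [← mul_assoc]; exact hk

/-- the three columns -/
def X3 (x y z : Fin n → ℤ) : Matrix (Fin n) (Fin 3) ℤ := fun i j => ![x, y, z] j i

theorem gram_apply (A : Matrix (Fin n) (Fin n) ℤ) (x y z : Fin n → ℤ) (i j : Fin 3) :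
    (((X3 x y z).map (Int.cast : ℤ → ℚ))ᵀ * (qm A)⁻¹ * (X3 x y z).map (Int.cast : ℤ → ℚ)) i j =
      bil A (![x, y, z] i) (![x, y, z] j) := by
  rw [bil_def, Matrix.mul_assoc, Matrix.mul_apply]
  simp only [dotProduct, transpose_apply, map_apply, X3, qv]
  refine Finset.sum_congr rfl fun a _ => ?_
  congr 1

theorem det_gram_int {A : Matrix (Fin n) (Fin n) ℤ} (hdet : A.det ≠ 0) (x y z : Fin n → ℤ) :
    ∃ t : ℤ, (A.det : ℚ) * (((X3 x y z).map (Int.cast : ℤ → ℚ))ᵀ * (qm A)⁻¹ *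
      (X3 x y z).map (Int.cast : ℤ → ℚ)).det = t := by
  have hu := isUnit_map hdet
  have : Invertible (qm A) := invertibleOfIsUnitDet _ hu
  set X := X3 x y z with hX
  have h1 := det_fromBlocks₁₁ (qm A) (X.map (Int.cast : ℤ → ℚ)) (X.map (Int.cast : ℤ → ℚ))ᵀ 0
  rw [det_map, invOf_eq_nonsing_inv, zero_sub, det_neg, Fintype.card_fin] at h1
  have h2 : (fromBlocks (qm A) (X.map (Int.cast : ℤ → ℚ)) (X.map (Int.cast : ℤ → ℚ))ᵀ 0).det =
      (((fromBlocks A X Xᵀ 0).det : ℤ) : ℚ) := by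
    have h3 := (Int.castRingHom ℚ).map_det (fromBlocks A X Xᵀ 0)
    have h4 : (Int.castRingHom ℚ).mapMatrix (fromBlocks A X Xᵀ 0) =
        fromBlocks (qm A) (X.map (Int.cast : ℤ → ℚ)) (X.map (Int.cast : ℤ → ℚ))ᵀ 0 := by
      rw [RingHom.mapMatrix_apply, fromBlocks_map]
      congr 1
    rw [h4] at h3
    simpa using h3.symm
  rw [h2] at h1
  refine ⟨-(fromBlocks A X Xᵀ 0).det, ?_⟩
  rw [Int.cast_neg, h1]
  ring

/-- integrality of `2 det(A) a b e` -/
theorem two_det_int {A : Matrix (Fin n) (Fin n) ℤ} (hA : A.transpose = A) (hdet : A.det ≠ 0)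
    {c o : ℕ} (hco : c * o ^ 2 = A.det.natAbs) {x y z : Fin n → ℤ}
    (hx : ∃ t : ℤ, bil A x x = t) (hy : ∃ t : ℤ, bil A y y = t) (hz : ∃ t : ℤ, bil A z z = t)
    (ox : od A x = o) (oy : od A y = o) (oz : od A z = o) :
    ∃ t : ℤ, (2 * A.det : ℚ) * (bil A x y * bil A x z * bil A y z) = t := by
  obtain ⟨i1, h1⟩ := hx
  obtain ⟨i2, h2⟩ := hy
  obtain ⟨i3, h3⟩ := hz
  have hdn : ∃ s : ℤ, (A.det : ℚ) = s * (o : ℚ) ^ 2 := by
    rcases Int.natAbs_eq A.det with h | h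
    · refine ⟨c, ?_⟩
      rw [h, ← hco]; push_cast; ring
    · refine ⟨-c, ?_⟩
      rw [h, ← hco]; push_cast; ring
  obtain ⟨s, hs⟩ := hdn
  have hint : ∀ u v : Fin n → ℤ, od A v = o → ∃ t : ℤ, (o : ℚ) * bil A u v = t := by
    intro u v hv
    have h1 : (o : ℤ) • v ∈ rng A := od_dvd_iff.1 (by rw [hv])
    obtain ⟨t, ht⟩ := bil_int_of_mem hdet h1 u
    rw [bil_zsmul_right] at ht
    exact ⟨t, by exact_mod_cast ht⟩
  obtain ⟨ta, hta⟩ := hint x y oy
  obtain ⟨tb, htb⟩ := hint x z oz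
  obtain ⟨te, hte⟩ := hint y z oz
  obtain ⟨t, ht⟩ := det_gram_int hdet x y z
  rw [det_fin_three] at ht
  simp only [gram_apply] at ht
  simp only [Matrix.cons_val_zero, Matrix.cons_val_one, Matrix.cons_val] at ht
  rw [bil_comm hA y x, bil_comm hA z x, bil_comm hA z y, h1, h2, h3] at ht
  set a := bil A x y
  set b := bil A x z
  set e := bil A y z
  refine ⟨t - s * o ^ 2 * (i1 * i2 * i3) + s * (i1 * te ^ 2 + i2 * tb ^ 2 + i3 * ta ^ 2), ?_⟩
  rw [hs] at ht ⊢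
  push_cast
  rw [← hta, ← htb, ← hte, ← ht]
  ring

theorem coprime_num_den (q : ℚ) : Nat.Coprime q.num.natAbs q.den := q.reduced

theorem triple {A : Matrix (Fin n) (Fin n) ℤ} (hA : A.transpose = A) (hdet : A.det ≠ 0)
    {c o : ℕ} (hco : c * o ^ 2 = A.det.natAbs) {x y z : Fin n → ℤ}
    (hx : ∃ t : ℤ, bil A x x = t) (hy : ∃ t : ℤ, bil A y y = t) (hz : ∃ t : ℤ, bil A z z = t)
    (ox : od A x = o) (oy : od A y = o) (oz : od A z = o) :
    dn A x y * dn A x z * dn A y z ∣ 2 * c * o ^ 2 := by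
  have hopos : 0 < o := by
    rcases Nat.eq_zero_or_pos o with h | h
    · exfalso
      apply hdet
      rw [← Int.natAbs_eq_zero, ← hco, h]; simp
    · exact h
  obtain ⟨t, ht⟩ := two_det_int hA hdet hco hx hy hz ox oy oz
  refine triple_dvd (o := o) (Dvd.intro_left _ rfl) (dn_dvd hdet oy hopos x) (dn_dvd hdet oz hopos x)
    (dn_dvd hdet oz hopos y) (coprime_num_den (bil A x y)) (coprime_num_den (bil A x z))
    (coprime_num_den (bil A y z)) ?_
  have hn : ∀ q : ℚ, q = (q.num : ℚ) / (q.den : ℚ) := fun q => (Rat.num_div_den q).symm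
  have hd : ∀ q : ℚ, (q.den : ℚ) ≠ 0 := fun q => by exact_mod_cast q.den_nz
  have key : (2 * A.det) * ((bil A x y).num * (bil A x z).num * (bil A y z).num) =
      t * ((dn A x y : ℤ) * dn A x z * dn A y z) := by
    have h1 := hd (bil A x y)
    have h2 := hd (bil A x z)
    have h3 := hd (bil A y z)
    have h4 : (2 * A.det : ℚ) * (((bil A x y).num : ℚ) / ((bil A x y).den : ℚ) *
        (((bil A x z).num : ℚ) / ((bil A x z).den : ℚ)) *
        (((bil A y z).num : ℚ) / ((bil A y z).den : ℚ))) = t := by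
      rw [← hn, ← hn, ← hn]; exact ht
    have h5 : (2 * A.det : ℚ) * (((bil A x y).num : ℚ) * ((bil A x z).num : ℚ) *
        ((bil A y z).num : ℚ)) = t * (((bil A x y).den : ℚ) * (bil A x z).den * (bil A y z).den) := by
      rw [← h4]
      field_simp
    unfold dn
    exact_mod_cast h5
  have h6 := congrArg Int.natAbs key
  simp only [Int.natAbs_mul, Int.natAbs_natCast] at h6
  rw [← hco] at h6
  have h7 : 2 * c * o ^ 2 * ((bil A x y).num.natAbs * (bil A x z).num.natAbs *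
      (bil A y z).num.natAbs) = t.natAbs * (dn A x y * dn A x z * dn A y z) := by
    rw [← h6]
    simp [mul_assoc]
  rw [h7]
  exact Dvd.intro_left _ rfl

theorem det_smul_mem {A : Matrix (Fin n) (Fin n) ℤ} (z : Fin n → ℤ) : A.det • z ∈ rng A := by
  rw [mem_rng]
  refine ⟨A.adjugate *ᵥ z, ?_⟩
  rw [mulVec_mulVec, mul_adjugate, smul_mulVec, one_mulVec]

theorem index_rng_ne_zero {A : Matrix (Fin n) (Fin n) ℤ} (hdet : A.det ≠ 0) :
    (rng A).index ≠ 0 := by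
  have htor : IsAddTorsion ((Fin n → ℤ) ⧸ rng A) := by
    intro g
    obtain ⟨z, rfl⟩ := QuotientAddGroup.mk_surjective g
    rw [isOfFinAddOrder_iff_nsmul_eq_zero]
    refine ⟨A.det.natAbs, Int.natAbs_pos.2 hdet, ?_⟩
    rw [← QuotientAddGroup.mk_nsmul, QuotientAddGroup.eq_zero_iff]
    have h := det_smul_mem (A := A) z
    rcases Int.natAbs_eq A.det with h1 | h1
    · rw [h1, natCast_zsmul] at h; exact h
    · rw [h1, neg_smul, natCast_zsmul] at h
      simpa using (rng A).neg_mem h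
  have hfin : Finite ((Fin n → ℤ) ⧸ rng A) := AddCommGroup.finite_of_fg_isAddTorsion _ htor
  exact AddSubgroup.index_ne_zero_of_finite

theorem od_pos {A : Matrix (Fin n) (Fin n) ℤ} (hdet : A.det ≠ 0) (x : Fin n → ℤ) :
    0 < od A x := by
  have h : od A x ∣ A.det.natAbs := by
    rw [od_dvd_iff]
    have h := det_smul_mem (A := A) x
    rcases Int.natAbs_eq A.det with h1 | h1
    · rw [h1] at h; exact h
    · rw [h1, neg_smul] at h
      simpa using (rng A).neg_mem h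
  exact Nat.pos_of_dvd_of_pos h (Int.natAbs_pos.2 hdet)

theorem mem_perp_dn {A : Matrix (Fin n) (Fin n) ℤ} (z x : Fin n → ℤ) :
    z ∈ perp A x (dn A z x) := by
  rw [mem_perp]
  exact ⟨(bil A z x).num, by unfold dn; rw [mul_comm]; exact Rat.mul_den_eq_num _⟩

end P2

open P2

theorem two_base {n : ℕ} (A : Matrix (Fin n) (Fin n) ℤ) (hA : A.transpose = A) (hdet : A.det ≠ 0)
    {c o : ℕ} (hco : c * o ^ 2 = A.det.natAbs) :
    ∃ x0 y0 : Fin n → ℤ, ∀ z : Fin n → ℤ, (∃ t : ℤ, bil A z z = t) → od A z = o →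
      od A x0 = o ∧ od A y0 = o ∧
      ∃ f : ℕ, f ∣ o ∧ o ≤ 2 * c * f ^ 3 ∧ (z ∈ perp A x0 (o / f) ∨ z ∈ perp A y0 (o / f)) := by
  have hopos : 0 < o := by
    rcases Nat.eq_zero_or_pos o with h | h
    · exfalso
      apply hdet
      rw [← Int.natAbs_eq_zero, ← hco, h]; simp
    · exact h
  have hcpos : 0 < c := by
    rcases Nat.eq_zero_or_pos c with h | h
    · exfalso
      apply hdet
      rw [← Int.natAbs_eq_zero, ← hco, h]; simp
    · exact h
  -- the set of relevant vectors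
  let S : Set (Fin n → ℤ) := {z | (∃ t : ℤ, bil A z z = t) ∧ od A z = o}
  have hT : 0 < 2 * c * o ^ 2 := by positivity
  -- from a small denominator to the conclusion
  have fin : ∀ x0 z : Fin n → ℤ, od A x0 = o → dn A z x0 ^ 3 ≤ 2 * c * o ^ 2 →
      ∃ f : ℕ, f ∣ o ∧ o ≤ 2 * c * f ^ 3 ∧ z ∈ perp A x0 (o / f) := by
    intro x0 z hx0 hle
    have hd : dn A z x0 ∣ o := dn_dvd hdet hx0 hopos z
    obtain ⟨f, hf⟩ := hd
    have hdpos : 0 < dn A z x0 := by unfold dn; exact Rat.den_pos _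
    have hfpos : 0 < f := by
      rcases Nat.eq_zero_or_pos f with h | h
      · rw [h, mul_zero] at hf; omega
      · exact h
    refine ⟨f, Dvd.intro_left _ hf.symm, ?_, ?_⟩
    · have h1 : o ^ 3 ≤ 2 * c * f ^ 3 * o ^ 2 := by
        calc o ^ 3 = dn A z x0 ^ 3 * f ^ 3 := by rw [hf]; ring
          _ ≤ (2 * c * o ^ 2) * f ^ 3 := Nat.mul_le_mul_right _ hle
          _ = 2 * c * f ^ 3 * o ^ 2 := by ring
      have h2 : o * o ^ 2 ≤ 2 * c * f ^ 3 * o ^ 2 := by
        calc o * o ^ 2 = o ^ 3 := by ring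
          _ ≤ _ := h1
      exact Nat.le_of_mul_le_mul_right h2 (by positivity)
    · have h3 : o / f = dn A z x0 := by
        rw [hf]; exact Nat.mul_div_cancel _ hfpos
      rw [h3]
      exact mem_perp_dn z x0
  by_cases hbig : ∃ x0 ∈ S, ∃ y0 ∈ S, 2 * c * o ^ 2 < dn A x0 y0 ^ 3
  · obtain ⟨x0, hx0, y0, hy0, hb⟩ := hbig
    refine ⟨x0, y0, fun z hz1 hz2 => ⟨hx0.2, hy0.2, ?_⟩⟩
    have htr := triple hA hdet hco hx0.1 hy0.1 hz1 hx0.2 hy0.2 hz2
    have hle : dn A x0 y0 * dn A x0 z * dn A y0 z ≤ 2 * c * o ^ 2 := Nat.le_of_dvd hT htr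
    by_cases h1 : dn A z x0 ^ 3 ≤ 2 * c * o ^ 2
    · obtain ⟨f, hf1, hf2, hf3⟩ := fin x0 z hx0.2 h1
      exact ⟨f, hf1, hf2, Or.inl hf3⟩
    · by_cases h2 : dn A z y0 ^ 3 ≤ 2 * c * o ^ 2
      · obtain ⟨f, hf1, hf2, hf3⟩ := fin y0 z hy0.2 h2
        exact ⟨f, hf1, hf2, Or.inr hf3⟩
      · exfalso
        push Not at h1 h2
        rw [dn_comm hA] at h1 h2
        have h3 : (dn A x0 y0 * dn A x0 z * dn A y0 z) ^ 3 ≤ (2 * c * o ^ 2) ^ 3 :=
          Nat.pow_le_pow_left hle 3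
        have h4 : (2 * c * o ^ 2) ^ 3 <
            dn A x0 y0 ^ 3 * dn A x0 z ^ 3 * dn A y0 z ^ 3 := by
          calc (2 * c * o ^ 2) ^ 3 = (2 * c * o ^ 2) * (2 * c * o ^ 2) * (2 * c * o ^ 2) := by ring
            _ < dn A x0 y0 ^ 3 * dn A x0 z ^ 3 * dn A y0 z ^ 3 :=
              Nat.mul_lt_mul'' (Nat.mul_lt_mul'' hb h1) h2
        have h5 : dn A x0 y0 ^ 3 * dn A x0 z ^ 3 * dn A y0 z ^ 3 =
            (dn A x0 y0 * dn A x0 z * dn A y0 z) ^ 3 := by ring
        rw [h5] at h4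
        exact absurd h3 (not_le.2 h4)
  · push Not at hbig
    by_cases hne : S.Nonempty
    · obtain ⟨x0, hx0⟩ := hne
      refine ⟨x0, x0, fun z hz1 hz2 => ⟨hx0.2, hx0.2, ?_⟩⟩
      have h1 : dn A z x0 ^ 3 ≤ 2 * c * o ^ 2 := hbig z ⟨hz1, hz2⟩ x0 hx0
      obtain ⟨f, hf1, hf2, hf3⟩ := fin x0 z hx0.2 h1
      exact ⟨f, hf1, hf2, Or.inl hf3⟩
    · refine ⟨0, 0, fun z hz1 hz2 => ?_⟩
      exact absurd ⟨z, hz1, hz2⟩ hne

theorem perp_index {n : ℕ} (A : Matrix (Fin n) (Fin n) ℤ) (hA : A.transpose = A) (hdet : A.det ≠ 0)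
    {x : Fin n → ℤ} {o f : ℕ} (ho : od A x = o) (hf : f ∣ o) :
    rng A ≤ perp A x (o / f) ∧ (perp A x (o / f)).index ≠ 0 ∧ f ≤ (perp A x (o / f)).index := by
  have hle : rng A ≤ perp A x (o / f) := by
    intro z hz
    obtain ⟨t, ht⟩ := bil_int_of_mem hdet hz x
    rw [mem_perp]
    refine ⟨(o / f : ℕ) * t, ?_⟩
    rw [bil_comm hA, ht, Int.cast_mul, Int.cast_natCast]
  -- finite index of the image lattice
  have hfin : (perp A x (o / f)).index ≠ 0 := by
    have h1 : (rng A).index ≠ 0 := index_rng_ne_zero hdet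
    exact fun h => h1 (Nat.eq_zero_of_zero_dvd (h ▸ AddSubgroup.index_dvd_of_le hle))
  refine ⟨hle, hfin, ?_⟩
  set m := (perp A x (o / f)).index with hm
  have hmpos : 0 < m := Nat.pos_of_ne_zero hfin
  have h2 : ∀ z : Fin n → ℤ, (m : ℤ) • z ∈ perp A x (o / f) := by
    intro z
    rw [natCast_zsmul]
    exact AddSubgroup.nsmul_index_mem _ z
  have h3 : (((o / f) * m : ℕ) : ℤ) • x ∈ rng A := by
    refine mem_of_bil_int hdet fun z => ?_
    obtain ⟨t, ht⟩ := mem_perp.1 (h2 z)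
    refine ⟨t, ?_⟩
    rw [bil_zsmul_right, ← ht, bil_zsmul_left, Int.cast_natCast, Int.cast_natCast, Nat.cast_mul]
    ring
  have h4 : o ∣ (o / f) * m := by
    rw [← ho]; exact od_dvd_iff.2 (by rw [ho]; exact h3)
  obtain ⟨g, hg⟩ := hf
  rcases Nat.eq_zero_or_pos f with h0 | h0
  · rw [h0]; exact Nat.zero_le _
  rcases Nat.eq_zero_or_pos g with h5 | h5
  · exfalso
    have h8 := od_pos hdet x
    rw [ho, hg, h5] at h8
    simp at h8
  have h6 : o / f = g := by rw [hg]; exact Nat.mul_div_cancel_left _ h0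
  rw [h6, hg] at h4
  have h7 : f ∣ m := Nat.dvd_of_mul_dvd_mul_left h5 (by rwa [mul_comm g f])
  exact Nat.le_of_dvd hmpos h7

end Crest.Agent.R152.Asm
end

-- ▼ part R152/AsmP1
section

set_option autoImplicit false

/-! Row 152, ASM PART I: unitary divisors of the determinant. -/

open Matrix

namespace Crest.Agent.R152.Asm

theorem index_rng {n : ℕ} (A : Matrix (Fin n) (Fin n) ℤ) (hA : A.det ≠ 0) :
    (rng A).index = A.det.natAbs := by
  have hinj : Function.Injective (Matrix.mulVecLin A) := by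
    rw [← LinearMap.ker_eq_bot]
    have := Matrix.ker_mulVecLin_eq_bot_iff (M := A)
    rw [this]
    intro v hv
    exact Matrix.eq_zero_of_mulVec_eq_zero hA hv
  have h := Submodule.natAbs_det_equiv (Matrix.mulVecLin A).range (LinearEquiv.ofInjective _ hinj)
  have h2 : ((Matrix.mulVecLin A).range.subtype ∘ₗ
      AddMonoidHom.toIntLinearMap ((LinearEquiv.ofInjective (Matrix.mulVecLin A) hinj) :
        (Fin n → ℤ) →+ (Matrix.mulVecLin A).range)) = Matrix.mulVecLin A := by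
    ext x
    rfl
  rw [h2] at h
  have h3 : LinearMap.det (Matrix.mulVecLin A) = A.det := by
    rw [← Matrix.toLin'_apply', LinearMap.det_toLin']
  rw [h3] at h
  rw [h]
  rfl

theorem mem_kil_of_coprime {n : ℕ} (A : Matrix (Fin n) (Fin n) ℤ) {D E : ℕ}
    (hDE : D * E = A.det.natAbs) {x : Fin n → ℤ} (hx : Nat.Coprime (od A x) D) : x ∈ kil A E := by
  rw [mem_kil, ← od_dvd_iff]
  have h : od A x ∣ D * E := by
    rw [hDE, od_dvd_iff]
    have h := P2.det_smul_mem (A := A) x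
    rcases Int.natAbs_eq A.det with h1 | h1
    · rw [h1] at h; exact h
    · rw [h1, neg_smul] at h
      simpa using (rng A).neg_mem h
  exact hx.dvd_of_dvd_mul_left h

theorem kil_index {n : ℕ} (A : Matrix (Fin n) (Fin n) ℤ) (hA : A.det ≠ 0) {D E : ℕ}
    (hDE : D * E = A.det.natAbs) (hco : Nat.Coprime D E) :
    rng A ≤ kil A E ∧ (kil A E).index ≠ 0 ∧ D ≤ (kil A E).index := by
  have hle : rng A ≤ kil A E := by
    intro z hz
    rw [mem_kil]
    exact (rng A).zsmul_mem hz _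
  have hi0 : (kil A E).index ≠ 0 := by
    have h := AddSubgroup.index_dvd_of_le hle
    intro h0
    rw [h0, zero_dvd_iff] at h
    exact P2.index_rng_ne_zero hA h
  refine ⟨hle, hi0, ?_⟩
  refine Nat.le_of_dvd (Nat.pos_of_ne_zero hi0) ?_
  have hmul : (rng A).relIndex (kil A E) * (kil A E).index = D * E := by
    rw [AddSubgroup.relIndex_mul_index hle, index_rng A hA, hDE]
  have hr0 : (rng A).relIndex (kil A E) ≠ 0 := by
    intro h0
    rw [h0, zero_mul] at hmul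
    have : A.det.natAbs = 0 := by rw [← hDE, ← hmul]
    exact hA (Int.natAbs_eq_zero.1 this)
  have hcop : Nat.Coprime D ((rng A).relIndex (kil A E)) := by
    rw [Nat.coprime_iff_gcd_eq_one]
    by_contra hne
    obtain ⟨q, hq, hqd⟩ := Nat.exists_prime_and_dvd hne
    have hqD : q ∣ D := hqd.trans (Nat.gcd_dvd_left _ _)
    have hqr : q ∣ (rng A).relIndex (kil A E) := hqd.trans (Nat.gcd_dvd_right _ _)
    have : Fact q.Prime := ⟨hq⟩
    have hfin : Finite ((kil A E) ⧸ (rng A).addSubgroupOf (kil A E)) := by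
      refine Nat.finite_of_card_ne_zero ?_
      exact hr0
    obtain ⟨g, hg⟩ := exists_prime_addOrderOf_dvd_card' (G := (kil A E) ⧸ (rng A).addSubgroupOf (kil A E)) q
      (by exact hqr)
    obtain ⟨⟨z, hz⟩, rfl⟩ := QuotientAddGroup.mk_surjective g
    have hE : E • (QuotientAddGroup.mk ⟨z, hz⟩ : (kil A E) ⧸ (rng A).addSubgroupOf (kil A E)) = 0 := by
      rw [← QuotientAddGroup.mk_nsmul, QuotientAddGroup.eq_zero_iff]
      rw [AddSubgroup.mem_addSubgroupOf]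
      have h2 : (E : ℤ) • z ∈ rng A := mem_kil.1 hz
      simpa using h2
    have hqE : q ∣ E := by
      rw [← hg]
      exact addOrderOf_dvd_of_nsmul_eq_zero hE
    have := Nat.dvd_gcd hqD hqE
    rw [hco] at this
    exact hq.one_lt.ne' (Nat.dvd_one.1 this)
  have hD : D ∣ (rng A).relIndex (kil A E) * (kil A E).index := by
    rw [hmul]; exact Dvd.intro _ rfl
  exact hcop.dvd_of_dvd_mul_left hD

end Crest.Agent.R152.Asm
end

-- ▼ part R152/Adj1
section

set_option autoImplicit false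
set_option linter.unusedSectionVars false

/-! Row 152, module ADJ (helper847): corank one symmetric integer matrices, adjugate = c k kᵀ. -/

namespace Crest.Agent.R152.Adj

open Matrix

/-- deleted minor -/
def dl {n : ℕ} (M : Matrix (Fin (n + 1)) (Fin (n + 1)) ℤ) (i : Fin (n + 1)) :
    Matrix (Fin n) (Fin n) ℤ := M.submatrix i.succAbove i.succAbove

/-- deleted row -/
def rw' {n : ℕ} (M : Matrix (Fin (n + 1)) (Fin (n + 1)) ℤ) (i : Fin (n + 1)) : Fin n → ℤ :=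
  fun j => M i (i.succAbove j)

theorem adj_diag {n : ℕ} (M : Matrix (Fin (n + 1)) (Fin (n + 1)) ℤ) (i : Fin (n + 1)) :
    M.adjugate i i = (dl M i).det := by
  rw [Matrix.adjugate_fin_succ_eq_det_submatrix]
  have : (-1 : ℤ) ^ ((i : ℕ) + (i : ℕ)) = 1 := by
    rw [← two_mul, pow_mul]; norm_num
  rw [this, one_mul]
  rfl

/-- a vector in the kernel: rows different from `i` -/
theorem ker_del {n : ℕ} (M : Matrix (Fin (n + 1)) (Fin (n + 1)) ℤ) (hs : M.IsSymm)
    {k : Fin (n + 1) → ℤ} (hk : M.mulVec k = 0) (i : Fin (n + 1)) :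
    (dl M i).mulVec (fun j => k (i.succAbove j)) = -(k i) • rw' M i := by
  funext j
  have h := congrFun hk (i.succAbove j)
  simp only [Matrix.mulVec, dotProduct, Pi.zero_apply] at h
  rw [Fin.sum_univ_succAbove _ i] at h
  simp only [Matrix.mulVec, dotProduct, dl, rw', Matrix.submatrix_apply, Pi.smul_apply,
    smul_eq_mul]
  have h2 : M (i.succAbove j) i = M i (i.succAbove j) := by
    have := congrFun (congrFun hs i) (i.succAbove j)
    simpa [Matrix.transpose_apply] using this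
  rw [h2] at h
  linarith

/-- a vector in the kernel: row `i` -/
theorem ker_row {n : ℕ} (M : Matrix (Fin (n + 1)) (Fin (n + 1)) ℤ)
    {k : Fin (n + 1) → ℤ} (hk : M.mulVec k = 0) (i : Fin (n + 1)) :
    dotProduct (rw' M i) (fun j => k (i.succAbove j)) = -(M i i * k i) := by
  have h := congrFun hk i
  simp only [Matrix.mulVec, dotProduct, Pi.zero_apply] at h
  rw [Fin.sum_univ_succAbove _ i] at h
  simp only [dotProduct, rw']
  linarith

/-- kernel vectors vanishing at `i` vanish if the minor is nonsingular -/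
theorem ker_zero {n : ℕ} (M : Matrix (Fin (n + 1)) (Fin (n + 1)) ℤ) (hs : M.IsSymm)
    {v : Fin (n + 1) → ℤ} (hv : M.mulVec v = 0) {i : Fin (n + 1)} (h0 : (dl M i).det ≠ 0)
    (hi : v i = 0) : v = 0 := by
  have h := ker_del M hs hv i
  rw [hi, neg_zero, zero_smul] at h
  have h2 : (fun j => v (i.succAbove j)) = 0 := by
    by_contra hne
    exact h0 (Matrix.exists_mulVec_eq_zero_iff.1 ⟨_, hne, h⟩)
  funext j
  rcases Fin.eq_self_or_eq_succAbove i j with rfl | ⟨j', rfl⟩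
  · exact hi
  · exact congrFun h2 j'

/-- proportionality in the kernel -/
theorem ker_prop {n : ℕ} (M : Matrix (Fin (n + 1)) (Fin (n + 1)) ℤ) (hs : M.IsSymm)
    {v w : Fin (n + 1) → ℤ} (hv : M.mulVec v = 0) (hw : M.mulVec w = 0) {i : Fin (n + 1)}
    (h0 : (dl M i).det ≠ 0) : v i • w = w i • v := by
  have h : M.mulVec (v i • w - w i • v) = 0 := by
    rw [Matrix.mulVec_sub, Matrix.mulVec_smul, Matrix.mulVec_smul, hv, hw, smul_zero, smul_zero,
      sub_zero]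
  have := ker_zero M hs h h0 (by simp [mul_comm])
  exact sub_eq_zero.1 this

/-- primitive integer vectors -/
def Prim {ι : Type*} (k : ι → ℤ) : Prop := ∀ d : ℤ, (∀ i, d ∣ k i) → IsUnit d

/-- divide by the gcd -/
theorem exists_prim {ι : Type*} [Fintype ι] (v : ι → ℤ) (hv : v ≠ 0) :
    ∃ (g : ℤ) (k : ι → ℤ), g ≠ 0 ∧ Prim k ∧ v = g • k := by
  classical
  obtain ⟨i, hi⟩ := Function.ne_iff.1 hv
  obtain ⟨k, hk, hg⟩ := Finset.extract_gcd v (s := Finset.univ) ⟨i, Finset.mem_univ i⟩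
  refine ⟨Finset.univ.gcd v, k, ?_, ?_, ?_⟩
  · intro h
    rw [Finset.gcd_eq_zero_iff] at h
    exact hi (h i (Finset.mem_univ i))
  · intro d hd
    have : d ∣ Finset.univ.gcd k := Finset.dvd_gcd fun j _ => hd j
    rw [hg] at this
    exact isUnit_of_dvd_one this
  · funext j
    simpa using hk j (Finset.mem_univ j)

theorem Prim.dvd {ι : Type*} [Fintype ι] {k : ι → ℤ} (hk : Prim k) {a b : ℤ}
    (h : ∀ j, a ∣ b * k j) : a ∣ b := by
  classical
  have h1 : a ∣ Finset.univ.gcd (fun j => b * k j) := Finset.dvd_gcd fun j _ => h j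
  rw [Finset.gcd_mul_left] at h1
  have h2 : IsUnit (Finset.univ.gcd k) := hk _ fun i => Finset.gcd_dvd (Finset.mem_univ i)
  have h3 : Associated (normalize b * Finset.univ.gcd k) b :=
    ((associated_mul_unit_left _ _ h2)).trans (normalize_associated b)
  exact (h3.dvd_iff_dvd_right).1 h1

theorem ker_prim {n : ℕ} (M : Matrix (Fin (n + 1)) (Fin (n + 1)) ℤ) (hs : M.IsSymm)
    {k : Fin (n + 1) → ℤ} (hk : M.mulVec k = 0) (hp : Prim k) {i : Fin (n + 1)}
    (h0 : (dl M i).det ≠ 0) {w : Fin (n + 1) → ℤ} (hw : M.mulVec w = 0) :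
    ∃ c : ℤ, w = c • k := by
  have h1 := ker_prop M hs hk hw h0
  have hk0 : k i ≠ 0 := by
    intro h
    have hz := ker_zero M hs hk h0 h
    have h2 := hp 0 (fun j => by rw [hz]; simp)
    simp at h2
  have h2 : k i ∣ w i := by
    refine hp.dvd fun j => ?_
    have := congrFun h1 j
    simp only [Pi.smul_apply, smul_eq_mul] at this
    exact ⟨w j, this.symm⟩
  obtain ⟨c, hc⟩ := h2
  refine ⟨c, ?_⟩
  funext j
  have := congrFun h1 j
  simp only [Pi.smul_apply, smul_eq_mul] at this ⊢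
  rw [hc] at this
  exact mul_left_cancel₀ hk0 (by rw [this]; ring)

/-- **adjugate = c k kᵀ.** -/
theorem exists_adj {n : ℕ} (M : Matrix (Fin (n + 1)) (Fin (n + 1)) ℤ) (hs : M.IsSymm)
    (hd : M.det = 0) (i₀ : Fin (n + 1)) (h0 : (dl M i₀).det ≠ 0) :
    ∃ k : Fin (n + 1) → ℤ, M.mulVec k = 0 ∧ Prim k ∧ k ≠ 0 ∧
      (∀ w : Fin (n + 1) → ℤ, M.mulVec w = 0 → ∃ c : ℤ, w = c • k) ∧
      ∃ c : ℤ, c ≠ 0 ∧ (∀ i j, M.adjugate i j = c * (k i * k j)) ∧
        ∀ i, (dl M i).det = c * k i ^ 2 := by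
  have hMa : M * M.adjugate = 0 := by rw [Matrix.mul_adjugate, hd, zero_smul]
  have hcol : ∀ j, M.mulVec (fun i => M.adjugate i j) = 0 := by
    intro j
    funext i
    have := congrFun (congrFun hMa i) j
    simpa [Matrix.mul_apply, Matrix.mulVec, dotProduct] using this
  have hsa : ∀ i j, M.adjugate i j = M.adjugate j i := by
    intro i j
    have h : M.adjugateᵀ = M.adjugate := by rw [Matrix.adjugate_transpose, hs.eq]
    exact (congrFun (congrFun h j) i)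
  set v : Fin (n + 1) → ℤ := fun i => M.adjugate i i₀ with hv
  have hv0 : v i₀ ≠ 0 := by rw [hv]; simpa [adj_diag] using h0
  have hvne : v ≠ 0 := fun h => hv0 (by rw [h]; rfl)
  obtain ⟨g, k, hg, hp, hvk⟩ := exists_prim v hvne
  have hk : M.mulVec k = 0 := by
    have h1 := hcol i₀
    rw [← hv, hvk, Matrix.mulVec_smul] at h1
    exact (smul_eq_zero.1 h1).resolve_left hg
  have hun := fun w (hw : M.mulVec w = 0) => ker_prim M hs hk hp h0 hw
  have hk0 : k i₀ ≠ 0 := by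
    intro h
    apply hv0
    rw [hvk]; simp [h]
  choose c hc using fun j => hun _ (hcol j)
  have hc' : ∀ i j, M.adjugate i j = c j * k i := fun i j => by
    have := congrFun (hc j) i
    simpa using this
  have h2 : k i₀ ∣ c i₀ := by
    refine hp.dvd fun j => ⟨c j, ?_⟩
    rw [← hc' j i₀, hsa j i₀, hc' i₀ j, mul_comm]
  obtain ⟨e, he⟩ := h2
  have hce : ∀ j, c j = e * k j := by
    intro j
    have h3 : c j * k i₀ = c i₀ * k j := by rw [← hc' i₀ j, hsa, hc']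
    rw [he] at h3
    exact mul_right_cancel₀ hk0 (by rw [h3]; ring)
  have hadj : ∀ i j, M.adjugate i j = e * (k i * k j) := fun i j => by
    rw [hc' i j, hce j]; ring
  refine ⟨k, hk, hp, fun h => hk0 (by rw [h]; rfl), hun, e, ?_, hadj, ?_⟩
  · rintro rfl
    apply hv0
    rw [hv]
    simp [hadj]
  · intro i
    rw [← adj_diag, hadj]
    ring

/-- order of the deleted row modulo `A ℤⁿ` -/
theorem smul_mem_iff {n : ℕ} (M : Matrix (Fin (n + 1)) (Fin (n + 1)) ℤ) (hs : M.IsSymm)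
    {k : Fin (n + 1) → ℤ} (hk : M.mulVec k = 0) (hp : Prim k) {i : Fin (n + 1)}
    (h0 : (dl M i).det ≠ 0) (m : ℤ) :
    (∃ u : Fin n → ℤ, (dl M i).mulVec u = m • rw' M i) ↔ k i ∣ m := by
  have h1 := ker_del M hs hk i
  constructor
  · rintro ⟨u, hu⟩
    have h2 : (dl M i).mulVec (k i • u + m • fun j => k (i.succAbove j)) = 0 := by
      rw [Matrix.mulVec_add, Matrix.mulVec_smul, Matrix.mulVec_smul, hu, h1, smul_smul, smul_smul]
      rw [← add_smul]
      have : k i * m + m * -k i = 0 := by ring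
      rw [this, zero_smul]
    have h3 : (k i • u + m • fun j => k (i.succAbove j)) = 0 := by
      by_contra hne
      exact h0 (Matrix.exists_mulVec_eq_zero_iff.1 ⟨_, hne, h2⟩)
    refine hp.dvd fun j => ?_
    rcases Fin.eq_self_or_eq_succAbove i j with rfl | ⟨j', rfl⟩
    · exact Dvd.intro_left m rfl
    · have := congrFun h3 j'
      simp only [Pi.add_apply, Pi.smul_apply, smul_eq_mul, Pi.zero_apply] at this
      exact ⟨-u j', by linarith⟩
  · rintro ⟨e, rfl⟩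
    refine ⟨(-e) • fun j => k (i.succAbove j), ?_⟩
    rw [Matrix.mulVec_smul, h1, smul_smul]
    congr 1
    ring

end Crest.Agent.R152.Adj
end

-- ▼ part R152/Adj
section

set_option autoImplicit false

/-! Row 152, module ADJ (helper847): frozen statement `adj_main` of AsmDefs. -/

namespace Crest.Agent.R152.Asm

open Matrix

theorem adj_main {n : ℕ} (M : Matrix (Fin (n + 1)) (Fin (n + 1)) ℤ) (hM : M.transpose = M)
    (hdet : M.det = 0) (hex : ∃ i, (del M i).det ≠ 0) :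
    ∃ (k : Fin (n + 1) → ℤ) (c : ℤ), M.mulVec k = 0 ∧ k ≠ 0 ∧ Prim k ∧ c ≠ 0 ∧
      (∀ i, (del M i).det = c * k i ^ 2) ∧
      (∀ i, k i ≠ 0 → od (del M i) (row M i) = (k i).natAbs ∧
        bil (del M i) (row M i) (row M i) = M i i ∧
        ∀ j, qinv (del M i) (row M i) j = -((k (i.succAbove j) : ℚ) / k i)) := by
  obtain ⟨i₀, h0⟩ := hex
  obtain ⟨k, hk, hp, hkne, -, c, hc, -, hdets⟩ := Adj.exists_adj M hM hdet i₀ h0
  refine ⟨k, c, hk, hkne, hp, hc, hdets, ?_⟩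
  intro i hi
  have hdi : (del M i).det ≠ 0 := by
    rw [show (del M i).det = c * k i ^ 2 from hdets i]
    exact mul_ne_zero hc (pow_ne_zero 2 hi)
  have hkd : (del M i).mulVec (fun j => k (i.succAbove j)) = -(k i) • row M i :=
    Adj.ker_del M hM hk i
  have hq : ∀ j, qinv (del M i) (row M i) j = -((k (i.succAbove j) : ℚ) / k i) := by
    have hiq : (k i : ℚ) ≠ 0 := by exact_mod_cast hi
    set B : Matrix (Fin n) (Fin n) ℚ := (del M i).map (Int.cast : ℤ → ℚ) with hB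
    have hBdet : IsUnit B.det := by
      rw [isUnit_iff_ne_zero]
      have : B.det = ((del M i).det : ℚ) := by
        rw [hB]
        exact (RingHom.map_det (Int.castRingHom ℚ) (del M i)).symm
      rw [this]
      exact_mod_cast hdi
    have h1 : B.mulVec (fun j => -((k (i.succAbove j) : ℚ) / k i)) =
        fun j => ((row M i j : ℤ) : ℚ) := by
      funext j
      have h2 := congrFun hkd j
      simp only [Matrix.mulVec, dotProduct, Pi.smul_apply, smul_eq_mul] at h2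
      have h3 : ∑ x, ((del M i j x : ℤ) : ℚ) * (k (i.succAbove x) : ℚ) =
          -(k i : ℚ) * (row M i j : ℚ) := by exact_mod_cast h2
      simp only [Matrix.mulVec, dotProduct, hB, Matrix.map_apply]
      have h4 : ∑ x, ((del M i j x : ℤ) : ℚ) * -((k (i.succAbove x) : ℚ) / k i) =
          (∑ x, ((del M i j x : ℤ) : ℚ) * (k (i.succAbove x) : ℚ)) * (-(k i : ℚ)⁻¹) := by
        rw [Finset.sum_mul]
        exact Finset.sum_congr rfl fun x _ => by ring
      rw [h4, h3]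
      field_simp
    have h5 : B⁻¹.mulVec (fun j => ((row M i j : ℤ) : ℚ)) =
        fun j => -((k (i.succAbove j) : ℚ) / k i) := by
      rw [← h1, Matrix.mulVec_mulVec, Matrix.nonsing_inv_mul _ hBdet, Matrix.one_mulVec]
    intro j
    exact congrFun h5 j
  refine ⟨?_, ?_, hq⟩
  · have key : ∀ m : ℕ, od (del M i) (row M i) ∣ m ↔ (k i).natAbs ∣ m := by
      intro m
      rw [od_dvd_iff, mem_rng]
      have := Adj.smul_mem_iff M hM hk hp (i := i) hdi (m : ℤ)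
      rw [Int.natAbs_dvd_natAbs.symm, Int.natAbs_natCast] at this
      exact this
    exact Nat.dvd_antisymm ((key _).2 dvd_rfl) ((key _).1 dvd_rfl)
  · have hiq : (k i : ℚ) ≠ 0 := by exact_mod_cast hi
    have h6 := Adj.ker_row M hk i
    unfold bil
    have h7 : qinv (del M i) (row M i) = fun j => -((k (i.succAbove j) : ℚ) / k i) := funext hq
    rw [h7]
    simp only [dotProduct]
    have h8 : ∑ x, ((row M i x : ℤ) : ℚ) * (k (i.succAbove x) : ℚ) =
        -((M i i : ℚ) * (k i : ℚ)) := by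
      have : dotProduct (row M i) (fun j => k (i.succAbove j)) = -(M i i * k i) := h6
      simp only [dotProduct] at this
      exact_mod_cast this
    have h9 : ∑ x, ((row M i x : ℤ) : ℚ) * -((k (i.succAbove x) : ℚ) / k i) =
        (∑ x, ((row M i x : ℤ) : ℚ) * (k (i.succAbove x) : ℚ)) * (-(k i : ℚ)⁻¹) := by
      rw [Finset.sum_mul]
      exact Finset.sum_congr rfl fun x _ => by ring
    rw [h9, h8]
    field_simp

end Crest.Agent.R152.Asm
end

-- ▼ part R152/Asm4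
section

set_option autoImplicit false

/-! Row 152, ASM part 4: the deterministic heart: many indices `i` have their row in `R n A`. -/

open Crest.FinProb Crest.ProbabilityR.SignMatrix Crest.Agent.R152.Base

namespace Crest.Agent.R152.Asm

theorem part1 : PART1 := fun _ A hA _ _ hDE hco => kil_index A hA hDE hco
theorem part1b : PART1b := fun _ A _ _ hDE _ hx => mem_kil_of_coprime A hDE hx
theorem part2 : PART2 := fun _ A hA hdet _ _ hco => two_base A hA hdet hco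
theorem perpi : PERPI := fun _ A hA hdet _ _ _ ho hf => perp_index A hA hdet ho hf

/-- the deleted row as a coin vector -/
def rowB {n : ℕ} (w : Sym2 (Fin (n + 1)) → Bool) (i : Fin (n + 1)) : Fin n → Bool :=
  fun j => w s(i, i.succAbove j)

theorem sv_rowB {n : ℕ} (w : Sym2 (Fin (n + 1)) → Bool) (i : Fin (n + 1)) :
    sv (rowB w i) = row (symMat w) i := rfl

theorem cop_zero_right (m : ℕ) : cop m 0 = 1 := by
  unfold cop
  rw [Finset.filter_false_of_mem, Finset.prod_empty]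
  intro q _
  simp

/-- **Deterministic heart.** -/
theorem good_indices {n : ℕ} (w : Sym2 (Fin (n + 1)) → Bool) (hdet : (symMat w).det = 0)
    (hex : ∃ i, (del (symMat w) i).det ≠ 0) {c1 δ2 z κ η : ℝ} {C : ℕ} (hn : 2 ≤ n)
    (hz : 0 < z) (hκ : 0 < κ) (hzκ : z ≤ κ * (c1 / 4)) (hc1 : 0 < c1)
    (hC : ((n : ℚ) + 1) ^ C ≤ (n : ℚ) ^ (C + 1))
    (hSP : ∀ k : Fin (n + 1) → ℤ, (symMat w).mulVec k = 0 → Prim k → ∀ q : ℕ, q.Prime →
      c1 * ((n + 1 : ℕ) : ℝ) ≤ ((Finset.univ.filter fun j => ¬ (q : ℤ) ∣ k j).card : ℝ))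
    (hNM : ∀ k : Fin (n + 1) → ℤ, k ≠ 0 → (symMat w).mulVec k = 0 →
      δ2 * ((n + 1 : ℕ) : ℝ) ≤ ((Finset.univ.filter fun i => ∀ j,
        |k j| ≤ ((n + 1 : ℕ) : ℤ) ^ C * |k i|).card : ℝ)) :
    min (c1 / 2) δ2 * ((n + 1 : ℕ) : ℝ) ≤
      (Set.ncard {i | (del (symMat w) i).det ≠ 0 ∧
        rowB w i ∈ RR z κ η (C + 1) n (del (symMat w) i)} : ℝ) := by
  classical
  obtain ⟨k, c, hk, hk0, hprim, hc0, hdk, hmain⟩ := adj_main (symMat w) (symMat_symm w) hdet hex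
  have hnR : (2 : ℝ) ≤ n := by exact_mod_cast hn
  have hn0 : (0 : ℝ) < n := by linarith
  have hdetabs : ∀ i, (del (symMat w) i).det.natAbs = c.natAbs * (k i).natAbs ^ 2 := by
    intro i
    rw [hdk i, Int.natAbs_mul, Int.natAbs_pow]
  have hdne : ∀ i, k i ≠ 0 → (del (symMat w) i).det ≠ 0 := by
    intro i hi
    rw [hdk i]
    exact mul_ne_zero hc0 (pow_ne_zero 2 hi)
  -- a finset of indices included in the set
  have hfin : ∀ S : Finset (Fin (n + 1)), (∀ i ∈ S, k i ≠ 0 ∧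
      rowB w i ∈ RR z κ η (C + 1) n (del (symMat w) i)) →
      (S.card : ℝ) ≤ (Set.ncard {i | (del (symMat w) i).det ≠ 0 ∧
        rowB w i ∈ RR z κ η (C + 1) n (del (symMat w) i)} : ℝ) := by
    intro S hS
    rw [← Set.ncard_coe_finset]
    have : (S : Set (Fin (n + 1))) ⊆ {i | (del (symMat w) i).det ≠ 0 ∧
        rowB w i ∈ RR z κ η (C + 1) n (del (symMat w) i)} := by
      intro i hi
      have := hS i (by simpa using hi)
      exact ⟨hdne i this.1, this.2⟩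
    exact_mod_cast Set.ncard_le_ncard this (Set.toFinite _)
  by_cases hcase : (c.natAbs : ℝ) ≤ (n : ℝ) ^ (κ * n)
  · -- near-max indices
    refine le_trans ?_ (hfin (Finset.univ.filter fun i => ∀ j,
        |k j| ≤ ((n + 1 : ℕ) : ℤ) ^ C * |k i|) ?_)
    · refine le_trans ?_ (hNM k hk0 hk)
      exact mul_le_mul_of_nonneg_right (min_le_right _ _) (Nat.cast_nonneg _)
    · intro i hi
      rw [Finset.mem_filter] at hi
      have hki : k i ≠ 0 := by
        intro h0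
        apply hk0
        funext j
        have := hi.2 j
        rw [h0, abs_zero, mul_zero] at this
        simpa using this
      refine ⟨hki, Or.inl ?_⟩
      obtain ⟨hod, hbil, hq⟩ := hmain i hki
      rw [sv_rowB]
      refine ⟨⟨_, hbil⟩, ?_⟩
      by_cases hs : ((del (symMat w) i).det.natAbs : ℝ) ≤ (n : ℝ) ^ (η * n)
      · refine Or.inl ⟨hs, fun j => ?_⟩
        rw [hq j, abs_neg, abs_div]
        have hpos : (0 : ℚ) < |(k i : ℚ)| := abs_pos.2 (by exact_mod_cast hki)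
        rw [div_le_iff₀ hpos]
        have h1 : |(k (i.succAbove j) : ℚ)| ≤ ((n : ℚ) + 1) ^ C * |(k i : ℚ)| := by
          have := hi.2 (i.succAbove j)
          exact_mod_cast this
        exact h1.trans (mul_le_mul_of_nonneg_right hC hpos.le)
      · refine Or.inr ⟨not_le.1 hs, c.natAbs, hcase, ?_⟩
        rw [hod, hdetabs i]
  · -- averaging
    push Not at hcase
    have hm0 : c.natAbs ≠ 0 := Int.natAbs_ne_zero.2 hc0
    have hY1 : (1 : ℝ) < (n : ℝ) ^ (z * n) :=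
      Real.one_lt_rpow (by linarith) (by positivity)
    have havg := avg (ι := Fin (n + 1)) hm0 (fun i => (k i).natAbs) (c1 := c1 * ((n + 1 : ℕ) : ℝ))
      hY1.le (by
        intro q hq
        refine (hSP k hk hprim q hq).trans ?_
        apply le_of_eq
        congr 3
        ext j
        rw [Int.natCast_dvd])
    have hlogn : 0 < Real.log n := Real.log_pos (by linarith)
    have hlogY : Real.log ((n : ℝ) ^ (z * n)) = z * n * Real.log n := Real.log_rpow hn0 _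
    have hlogc : κ * n * Real.log n < Real.log (c.natAbs : ℝ) := by
      rw [← Real.log_rpow hn0]
      exact Real.log_lt_log (Real.rpow_pos_of_pos hn0 _) hcase
    have hlc0 : 0 < Real.log (c.natAbs : ℝ) := lt_trans (by positivity) hlogc
    rw [hlogY, Fintype.card_fin] at havg
    set S := Finset.univ.filter (fun i : Fin (n + 1) =>
      (n : ℝ) ^ (z * n) ≤ (cop c.natAbs (k i).natAbs : ℝ)) with hS
    have hSc : c1 / 2 * ((n + 1 : ℕ) : ℝ) ≤ (S.card : ℝ) := by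
      have h1 : z * n * Real.log n ≤ c1 / 4 * Real.log (c.natAbs : ℝ) := by
        have h2 : z * (n * Real.log n) ≤ κ * (c1 / 4) * (n * Real.log n) :=
          mul_le_mul_of_nonneg_right hzκ (by positivity)
        have h3 : (c1 / 4) * (κ * n * Real.log n) ≤ c1 / 4 * Real.log (c.natAbs : ℝ) :=
          mul_le_mul_of_nonneg_left hlogc.le (by positivity)
        nlinarith
      have hN : (0 : ℝ) < ((n + 1 : ℕ) : ℝ) := by positivity
      have h4 : ((n + 1 : ℕ) : ℝ) * (z * n * Real.log n) ≤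
          ((n + 1 : ℕ) : ℝ) * (c1 / 4 * Real.log (c.natAbs : ℝ)) :=
        mul_le_mul_of_nonneg_left h1 hN.le
      have h5 : (c1 / 2 * ((n + 1 : ℕ) : ℝ)) * Real.log (c.natAbs : ℝ) ≤
          (S.card : ℝ) * Real.log (c.natAbs : ℝ) := by
        have h6 : 0 ≤ c1 * ((n + 1 : ℕ) : ℝ) * Real.log (c.natAbs : ℝ) := by positivity
        nlinarith
      exact le_of_mul_le_mul_right h5 hlc0
    refine le_trans ?_ (hSc.trans (hfin S ?_))
    · exact mul_le_mul_of_nonneg_right (min_le_left _ _) (Nat.cast_nonneg _)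
    · intro i hi
      rw [hS, Finset.mem_filter] at hi
      have hki : k i ≠ 0 := by
        intro h0
        have h1 := hi.2
        rw [h0, Int.natAbs_zero, cop_zero_right] at h1
        simp only [Nat.cast_one] at h1
        linarith
      refine ⟨hki, Or.inr ⟨cop c.natAbs (k i).natAbs, ?_, ?_, hi.2, ?_⟩⟩
      · rw [hdetabs i]
        exact (cop_unitary hm0 _ (Int.natAbs_ne_zero.2 hki)).1
      · rw [hdetabs i]
        exact (cop_unitary hm0 _ (Int.natAbs_ne_zero.2 hki)).2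
      · rw [sv_rowB, (hmain i hki).1]
        exact (cop_coprime_K _ _).symm

end Crest.Agent.R152.Asm
end

-- ▼ part R152/Asm5

set_option autoImplicit false

/-! Row 152, ASM part 5: the two asymptotic statements used by the top level. -/

open Crest.FinProb Crest.ProbabilityR.SignMatrix Crest.Agent.R152.Base Filter Topology

namespace Crest.Agent.R152.Asm

/-- sparse kernels modulo primes are rare -/
def SPK (p : ℝ) : Prop := ∀ ε : ℝ, 0 < ε → ∃ c : ℝ, 0 < c ∧ ∃ n0 : ℕ, ∀ n : ℕ, n0 ≤ n →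
  bernoulliProb p {w : Sym2 (Fin n) → Bool | ∃ k : Fin n → ℤ, (symMat w).mulVec k = 0 ∧ Prim k ∧
    ∃ q : ℕ, q.Prime ∧ ((Finset.univ.filter fun j => ¬ (q : ℤ) ∣ k j).card : ℝ) < c * n} ≤
      (rate p + ε) ^ n

/-- kernels with few near-maximal entries are rare -/
def NMZ (p : ℝ) : Prop := ∀ ε : ℝ, 0 < ε → ∃ δ : ℝ, 0 < δ ∧ ∃ C : ℕ, ∃ n0 : ℕ, ∀ n : ℕ, n0 ≤ n →
  bernoulliProb p {w : Sym2 (Fin n) → Bool | ∃ k : Fin n → ℤ, k ≠ 0 ∧ (symMat w).mulVec k = 0 ∧
    ((Finset.univ.filter fun i => ∀ j, |k j| ≤ (n : ℤ) ^ C * |k i|).card : ℝ) < δ * n} ≤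
      (rate p + ε) ^ n

theorem two_mul_pow_le {a b : ℝ} (ha : 0 < a) (hab : a < b) :
    ∀ᶠ n : ℕ in atTop, a ^ (n + 1) + a ^ (n + 1) ≤ b ^ n := by
  have hb : 0 < b := ha.trans hab
  have hr1 : a / b < 1 := (div_lt_one hb).2 hab
  have hr0 : 0 ≤ a / b := by positivity
  have h := tendsto_pow_atTop_nhds_zero_of_lt_one hr0 hr1
  have h2 : ∀ᶠ n : ℕ in atTop, (a / b) ^ n < 1 / (2 * a) :=
    (tendsto_order.1 h).2 _ (by positivity)
  filter_upwards [h2] with n hn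
  rw [div_pow, div_lt_div_iff₀ (by positivity) (by positivity)] at hn
  have : a ^ (n + 1) + a ^ (n + 1) = a ^ n * (2 * a) := by ring
  rw [this]
  linarith

theorem eventually_le_rpow {c t : ℝ} (ht : 0 < t) :
    ∀ᶠ n : ℕ in atTop, c ≤ (n : ℝ) ^ (t * n) := by
  have h1 : ∀ᶠ n : ℕ in atTop, c ≤ (2 : ℝ) ^ (t * n) := by
    have h2 : Tendsto (fun n : ℕ => (2 : ℝ) ^ (t * n)) atTop atTop := by
      have h3 : Tendsto (fun n : ℕ => ((2 : ℝ) ^ t) ^ n) atTop atTop :=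
        tendsto_pow_atTop_atTop_of_one_lt (Real.one_lt_rpow (by norm_num) ht)
      refine h3.congr fun n => ?_
      rw [← Real.rpow_natCast, ← Real.rpow_mul (by norm_num)]
    exact h2.eventually_ge_atTop c
  filter_upwards [h1, eventually_ge_atTop 2] with n hn hn2
  refine hn.trans ?_
  exact Real.rpow_le_rpow (by norm_num) (by exact_mod_cast hn2) (by positivity)

theorem eventually_le_two_rpow {c t : ℝ} (ht : 0 < t) :
    ∀ᶠ n : ℕ in atTop, c ≤ (2 : ℝ) ^ (t * n) := by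
  have h3 : Tendsto (fun n : ℕ => ((2 : ℝ) ^ t) ^ n) atTop atTop :=
    tendsto_pow_atTop_atTop_of_one_lt (Real.one_lt_rpow (by norm_num) ht)
  have h2 : Tendsto (fun n : ℕ => (2 : ℝ) ^ (t * n)) atTop atTop := by
    refine h3.congr fun n => ?_
    rw [← Real.rpow_natCast, ← Real.rpow_mul (by norm_num)]
  exact h2.eventually_ge_atTop c

theorem eventually_succ_pow (C : ℕ) :
    ∀ᶠ n : ℕ in atTop, ((n : ℚ) + 1) ^ C ≤ (n : ℚ) ^ (C + 1) := by
  filter_upwards [eventually_ge_atTop (2 ^ C), eventually_ge_atTop 1] with n hn hn1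
  have h1 : (1 : ℚ) ≤ n := by exact_mod_cast hn1
  have h2 : ((2 : ℚ) ^ C) ≤ n := by exact_mod_cast hn
  calc ((n : ℚ) + 1) ^ C ≤ (2 * n) ^ C := pow_le_pow_left₀ (by linarith) (by linarith) C
    _ = 2 ^ C * (n : ℚ) ^ C := mul_pow _ _ _
    _ ≤ n * (n : ℚ) ^ C := mul_le_mul_of_nonneg_right h2 (by positivity)
    _ = (n : ℚ) ^ (C + 1) := by ring

/-- The hypothesis of the top level theorem. -/
theorem H_holds {p : ℝ} (hp0 : 0 < p) (hp1 : p < 1) (hG : GLO p) (hT : T1p p) (hS : SPK p)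
    (hN : NMZ p) (hD : DIV) : ∀ ε : ℝ, 0 < ε → ∃ δ : ℝ, 0 < δ ∧
    ∃ R : (n : ℕ) → Matrix (Fin n) (Fin n) ℤ → Set (Fin n → Bool),
    (∀ᶠ n : ℕ in atTop, bernoulliProb p {w : Sym2 (Fin (n + 1)) → Bool |
      (symMat w).det = 0 ∧ (∃ i, (del (symMat w) i).det ≠ 0) ∧
      (Set.ncard {i | (del (symMat w) i).det ≠ 0 ∧ rowB w i ∈ R n (del (symMat w) i)} : ℝ) <
        δ * ((n + 1 : ℕ) : ℝ)} ≤ (rate p + ε) ^ n) ∧
    (∀ᶠ n : ℕ in atTop, bernoulliProb p {w : Sym2 (Fin n) → Bool |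
      (symMat w).det ≠ 0 ∧ (1 + ε) ^ n < ((R n (symMat w)).ncard : ℝ)} ≤ (rate p + ε) ^ n) := by
  intro ε hε
  have hr := rate_pos p
  have hrh := half_le_rate p
  obtain ⟨c1, hc1, n1, hS1⟩ := hS (ε / 2) (by linarith)
  obtain ⟨δ2, hδ2, C, n2, hN1⟩ := hN (ε / 2) (by linarith)
  set L : ℝ := Real.logb 2 (1 + ε) with hL
  have hL0 : 0 < L := Real.logb_pos (by norm_num) (by linarith)
  have h2L : (2 : ℝ) ^ L = 1 + ε := Real.rpow_logb (by norm_num) (by norm_num) (by linarith)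
  obtain ⟨η, hη, n3, hT1⟩ := hT (C + 1) (L / 8) (by linarith)
  obtain ⟨z0, hz0, hD1⟩ := hD (L / 8) (by linarith)
  set κ : ℝ := min z0 (η / 12) with hκd
  have hκ : 0 < κ := lt_min hz0 (by linarith)
  set z : ℝ := min (min z0 (η / 24)) (κ * (c1 / 4)) with hzd
  have hz : 0 < z := lt_min (lt_min hz0 (by linarith)) (by positivity)
  have hzκ : z ≤ κ * (c1 / 4) := min_le_right _ _
  have hzz : z ≤ z0 := (min_le_left _ _).trans (min_le_left _ _)
  have hzη : z ≤ η / 24 := (min_le_left _ _).trans (min_le_right _ _)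
  have hκz : κ ≤ z0 := min_le_left _ _
  have hκη : κ ≤ η / 12 := min_le_right _ _
  obtain ⟨n4, hD2⟩ := hD1 z hz hzz
  obtain ⟨n5, hD3⟩ := hD1 κ hκ hκz
  obtain ⟨n6, hG1⟩ := hG z hz (L / 8) (by linarith)
  refine ⟨min (c1 / 2) δ2, lt_min (by linarith) hδ2, RR z κ η (C + 1), ?_, ?_⟩
  · filter_upwards [eventually_ge_atTop n1, eventually_ge_atTop n2, eventually_ge_atTop 2,
      eventually_succ_pow C, two_mul_pow_le (a := rate p + ε / 2) (b := rate p + ε)
        (by linarith) (by linarith)] with n hn1 hn2 hn hC hpow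
    have hsub : {w : Sym2 (Fin (n + 1)) → Bool |
        (symMat w).det = 0 ∧ (∃ i, (del (symMat w) i).det ≠ 0) ∧
        (Set.ncard {i | (del (symMat w) i).det ≠ 0 ∧
          rowB w i ∈ RR z κ η (C + 1) n (del (symMat w) i)} : ℝ) <
          min (c1 / 2) δ2 * ((n + 1 : ℕ) : ℝ)} ⊆
        {w : Sym2 (Fin (n + 1)) → Bool | ∃ k : Fin (n + 1) → ℤ, (symMat w).mulVec k = 0 ∧
          Prim k ∧ ∃ q : ℕ, q.Prime ∧
            ((Finset.univ.filter fun j => ¬ (q : ℤ) ∣ k j).card : ℝ) < c1 * ((n + 1 : ℕ) : ℝ)} ∪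
        {w : Sym2 (Fin (n + 1)) → Bool | ∃ k : Fin (n + 1) → ℤ, k ≠ 0 ∧
          (symMat w).mulVec k = 0 ∧ ((Finset.univ.filter fun i =>
            ∀ j, |k j| ≤ ((n + 1 : ℕ) : ℤ) ^ C * |k i|).card : ℝ) < δ2 * ((n + 1 : ℕ) : ℝ)} := by
      rintro w ⟨hdet, hex, hlt⟩
      by_contra hw
      rw [Set.mem_union, not_or] at hw
      obtain ⟨hw1, hw2⟩ := hw
      refine absurd hlt (not_lt.2 ?_)
      refine good_indices w hdet hex hn hz hκ hzκ hc1 hC ?_ ?_
      · intro k hk hp q hq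
        by_contra hlt'
        exact hw1 ⟨k, hk, hp, q, hq, not_le.1 hlt'⟩
      · intro k hk0 hk
        by_contra hlt'
        exact hw2 ⟨k, hk0, hk, not_le.1 hlt'⟩
    refine (prob_mono hp0.le hp1.le hsub).trans ((prob_union_le hp0.le hp1.le _ _).trans ?_)
    exact (add_le_add (hS1 (n + 1) (by omega)) (hN1 (n + 1) (by omega))).trans hpow
  · filter_upwards [eventually_ge_atTop n3, eventually_ge_atTop n4, eventually_ge_atTop n5,
      eventually_ge_atTop n6, eventually_ge_atTop 2,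
      eventually_le_rpow (c := 4) (t := η / 2) (by linarith),
      eventually_le_two_rpow (c := 4) (t := 5 / 8 * L) (by linarith)] with
      n hn3 hn4 hn5 hn6 hn h4 h4'
    have hnR : (2 : ℝ) ≤ n := by exact_mod_cast hn
    have hn0 : (0 : ℝ) < n := by linarith
    have hnum : 4 * (n : ℝ) ^ ((3 * κ + 6 * z) * n) ≤ (n : ℝ) ^ (η * n) := by
      have h5 : (n : ℝ) ^ ((3 * κ + 6 * z) * n) ≤ (n : ℝ) ^ (η / 2 * n) := by
        refine Real.rpow_le_rpow_of_exponent_le (by linarith) ?_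
        refine mul_le_mul_of_nonneg_right ?_ hn0.le
        linarith
      calc 4 * (n : ℝ) ^ ((3 * κ + 6 * z) * n) ≤ (n : ℝ) ^ (η / 2 * n) * (n : ℝ) ^ (η / 2 * n) :=
            mul_le_mul h4 h5 (by positivity) (by positivity)
        _ = (n : ℝ) ^ (η * n) := by
            rw [← Real.rpow_add hn0]; congr 1; ring
    have hsub : {w : Sym2 (Fin n) → Bool | (symMat w).det ≠ 0 ∧
        (1 + ε) ^ n < ((RR z κ η (C + 1) n (symMat w)).ncard : ℝ)} ⊆
        {w : Sym2 (Fin n) → Bool | (symMat w).det ≠ 0 ∧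
          ∃ L' : AddSubgroup (Fin n → ℤ), rng (symMat w) ≤ L' ∧ (n : ℝ) ^ (z * n) ≤ (L'.index : ℝ) ∧
            (2 : ℝ) ^ (L / 8 * n) < (Nat.card {x : Fin n → Bool // sv x ∈ L'} : ℝ)} ∪
        {w : Sym2 (Fin n) → Bool | (symMat w).det ≠ 0 ∧
          ((symMat w).det.natAbs : ℝ) ≤ (n : ℝ) ^ (η * n) ∧
          (2 : ℝ) ^ (L / 8 * n) < (Nat.card {x : Fin n → Bool //
            (∃ t : ℤ, bil (symMat w) (sv x) (sv x) = t) ∧
            ∀ i, |qinv (symMat w) (sv x) i| ≤ (n : ℚ) ^ (C + 1)} : ℝ)} := by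
      rintro w ⟨hdet, hlt⟩
      by_contra hw
      rw [Set.mem_union, not_or] at hw
      obtain ⟨hw1, hw2⟩ := hw
      refine absurd hlt (not_lt.2 ?_)
      have hmain := ncard_RR_le part1 part1b part2 perpi (C := C + 1) (b := L / 8)
        (hD2 n hn4) (hD3 n hn5) hnum (by omega) (symMat w) (symMat_symm w) hdet (det_le w)
        (by
          intro L' hL'
          by_contra hlt'
          exact hw1 ⟨hdet, L', hL'.1, hL'.2, not_le.1 hlt'⟩)
        (by
          intro hs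
          by_contra hlt'
          exact hw2 ⟨hdet, hs, not_le.1 hlt'⟩)
      refine hmain.trans ?_
      have hB : (1 : ℝ) ≤ (2 : ℝ) ^ (L / 8 * n) :=
        Real.one_le_rpow (by norm_num) (by positivity)
      have e1 : ((1 + ε) ^ n : ℝ) = (2 : ℝ) ^ (5 / 8 * L * n) * ((2 : ℝ) ^ (L / 8 * n)) ^ 3 := by
        rw [← h2L, ← Real.rpow_natCast, ← Real.rpow_natCast, ← Real.rpow_mul (by norm_num),
          ← Real.rpow_mul (by norm_num), ← Real.rpow_add (by norm_num)]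
        congr 1
        push_cast
        ring
      rw [e1]
      set B : ℝ := (2 : ℝ) ^ (L / 8 * n) with hBd
      have h6 : B + (B + B * (2 * B)) * B ≤ 4 * B ^ 3 := by
        have h7 : B ≤ B ^ 2 := by nlinarith
        have h8 : B ^ 2 ≤ B ^ 3 := by nlinarith [sq_nonneg B]
        nlinarith
      refine h6.trans ?_
      exact mul_le_mul_of_nonneg_right h4' (by positivity)
    refine (prob_mono hp0.le hp1.le hsub).trans ((prob_union_le hp0.le hp1.le _ _).trans ?_)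
    refine (add_le_add (hG1 n hn6) (hT1 n hn3)).trans ?_
    have h9 : (1 / 4 : ℝ) ^ n + (1 / 4 : ℝ) ^ n ≤ (1 / 2 : ℝ) ^ n := by
      have h10 : (1 / 4 : ℝ) ^ n = (1 / 2 : ℝ) ^ n * (1 / 2 : ℝ) ^ n := by
        rw [← mul_pow]; norm_num
      have h11 : (1 / 2 : ℝ) ^ n ≤ 1 / 2 := by
        calc (1 / 2 : ℝ) ^ n ≤ (1 / 2 : ℝ) ^ 1 :=
              pow_le_pow_of_le_one (by norm_num) (by norm_num) (by omega)
          _ = 1 / 2 := pow_one _
      have h12 : 0 < (1 / 2 : ℝ) ^ n := by positivity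
      rw [h10]
      nlinarith
    exact h9.trans (pow_le_pow_left₀ (by norm_num) (by linarith) n)

end Crest.Agent.R152.Asm
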