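import Mathlib
import Crest.Prelude.Def_FinProb
import Crest.Prelude.Def_SignMatrix

-- ▼ part R152/Base1
section

set_option autoImplicit false
set_option linter.unusedSectionVars false

/-! Row 152, BASE part 1: expectations under independent coins, product structure, relabelling. -/

open Crest.FinProb Crest.ProbabilityR.SignMatrix

namespace Crest.Agent.R152.Base

section Weights
variable {ι κ : Type*} [Fintype ι] [DecidableEq ι] [Fintype κ] [DecidableEq κ]

/-- expectation of a real function under independent `p`-coins -/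
noncomputable def ex (p : ℝ) (F : (ι → Bool) → ℝ) : ℝ :=
  ∑ ω, bernoulliWeight p ω * F ω

theorem weight_nonneg {p : ℝ} (hp0 : 0 ≤ p) (hp1 : p ≤ 1) (ω : ι → Bool) :
    0 ≤ bernoulliWeight p ω := by
  unfold bernoulliWeight
  refine Finset.prod_nonneg fun i _ => ?_
  split_ifs
  · exact hp0
  · linarith


theorem sum_weight_prod (g : ι → Bool → ℝ) :
    ∑ ω : ι → Bool, ∏ i, g i (ω i) = ∏ i, (g i true + g i false) := by
  have := Finset.prod_univ_sum (κ := fun _ : ι => Bool) (R := ℝ)
    (fun _ => (Finset.univ : Finset Bool)) (fun i b => g i b)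
  simp only [Fintype.piFinset_univ] at this
  rw [← this]
  simp

theorem sum_weight (p : ℝ) : ∑ ω : ι → Bool, bernoulliWeight p ω = 1 := by
  classical
  have := sum_weight_prod (fun (_ : ι) (b : Bool) => if b then p else 1 - p)
  simpa [bernoulliWeight] using this

theorem ex_const (p c : ℝ) : ex p (fun _ : ι → Bool => c) = c := by
  unfold ex
  rw [← Finset.sum_mul, sum_weight, one_mul]

theorem ex_add (p : ℝ) (F G : (ι → Bool) → ℝ) : ex p (fun ω => F ω + G ω) = ex p F + ex p G := by
  unfold ex
  rw [← Finset.sum_add_distrib]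
  exact Finset.sum_congr rfl fun ω _ => by ring

theorem ex_sum (p : ℝ) {α : Type*} (s : Finset α) (F : α → (ι → Bool) → ℝ) :
    ex p (fun ω => ∑ a ∈ s, F a ω) = ∑ a ∈ s, ex p (F a) := by
  unfold ex
  rw [Finset.sum_comm]
  exact Finset.sum_congr rfl fun ω _ => by rw [Finset.mul_sum]

theorem ex_smul (p c : ℝ) (F : (ι → Bool) → ℝ) : ex p (fun ω => c * F ω) = c * ex p F := by
  unfold ex
  rw [Finset.mul_sum]
  exact Finset.sum_congr rfl fun ω _ => by ring

theorem ex_mono {p : ℝ} (hp0 : 0 ≤ p) (hp1 : p ≤ 1) {F G : (ι → Bool) → ℝ}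
    (h : ∀ ω, F ω ≤ G ω) : ex p F ≤ ex p G :=
  Finset.sum_le_sum fun ω _ => mul_le_mul_of_nonneg_left (h ω) (weight_nonneg hp0 hp1 ω)

theorem ex_nonneg {p : ℝ} (hp0 : 0 ≤ p) (hp1 : p ≤ 1) {F : (ι → Bool) → ℝ}
    (h : ∀ ω, 0 ≤ F ω) : 0 ≤ ex p F :=
  Finset.sum_nonneg fun ω _ => mul_nonneg (weight_nonneg hp0 hp1 ω) (h ω)

theorem ex_congr (p : ℝ) {F G : (ι → Bool) → ℝ} (h : ∀ ω, F ω = G ω) : ex p F = ex p G := by
  rw [show F = G from funext h]

open Classical in
theorem prob_eq_ex (p : ℝ) (E : Set (ι → Bool)) :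
    bernoulliProb p E = ex p (fun ω => if ω ∈ E then 1 else 0) := by
  unfold bernoulliProb ex
  rw [Finset.sum_filter]
  exact Finset.sum_congr rfl fun ω _ => by by_cases h : ω ∈ E <;> simp [h]

theorem prob_eq_ind (p : ℝ) (E : Set (ι → Bool)) :
    bernoulliProb p E = ex p (E.indicator fun _ => 1) := by
  classical
  rw [prob_eq_ex]
  exact ex_congr p fun ω => by by_cases h : ω ∈ E <;> simp [h]

theorem prob_nonneg {p : ℝ} (hp0 : 0 ≤ p) (hp1 : p ≤ 1) (E : Set (ι → Bool)) :
    0 ≤ bernoulliProb p E := by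
  classical
  rw [prob_eq_ex]
  exact ex_nonneg hp0 hp1 fun ω => by split_ifs <;> norm_num

theorem prob_mono {p : ℝ} (hp0 : 0 ≤ p) (hp1 : p ≤ 1) {E F : Set (ι → Bool)}
    (h : E ⊆ F) : bernoulliProb p E ≤ bernoulliProb p F := by
  classical
  rw [prob_eq_ex, prob_eq_ex]
  refine ex_mono hp0 hp1 fun ω => ?_
  by_cases h1 : ω ∈ E
  · simp [h1, h h1]
  · simp only [h1, if_false]
    split_ifs <;> norm_num

theorem prob_le_one {p : ℝ} (hp0 : 0 ≤ p) (hp1 : p ≤ 1) (E : Set (ι → Bool)) :
    bernoulliProb p E ≤ 1 := by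
  classical
  rw [prob_eq_ex]
  calc _ ≤ ex p (fun _ : ι → Bool => (1 : ℝ)) := ex_mono hp0 hp1 fun ω => by split_ifs <;> norm_num
    _ = 1 := ex_const p 1


theorem prob_empty (p : ℝ) : bernoulliProb p (∅ : Set (ι → Bool)) = 0 := by
  classical
  rw [prob_eq_ex]
  simpa using ex_const (ι := ι) p 0

theorem prob_union_le {p : ℝ} (hp0 : 0 ≤ p) (hp1 : p ≤ 1) (E F : Set (ι → Bool)) :
    bernoulliProb p (E ∪ F) ≤ bernoulliProb p E + bernoulliProb p F := by
  classical
  rw [prob_eq_ex, prob_eq_ex, prob_eq_ex, ← ex_add]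
  refine ex_mono hp0 hp1 fun ω => ?_
  by_cases h1 : ω ∈ E <;> by_cases h2 : ω ∈ F <;> simp [h1, h2]

theorem prob_biUnion_le {p : ℝ} (hp0 : 0 ≤ p) (hp1 : p ≤ 1) {α : Type*}
    (s : Finset α) (E : α → Set (ι → Bool)) :
    bernoulliProb p (⋃ a ∈ s, E a) ≤ ∑ a ∈ s, bernoulliProb p (E a) := by
  classical
  induction s using Finset.induction_on with
  | empty => simp [prob_empty]
  | insert a s ha ih =>
    rw [Finset.set_biUnion_insert, Finset.sum_insert ha]
    exact (prob_union_le hp0 hp1 _ _).trans (by linarith)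

theorem prob_iUnion_le {p : ℝ} (hp0 : 0 ≤ p) (hp1 : p ≤ 1) {α : Type*} [Fintype α]
    (E : α → Set (ι → Bool)) :
    bernoulliProb p (⋃ a, E a) ≤ ∑ a, bernoulliProb p (E a) := by
  classical
  have := prob_biUnion_le hp0 hp1 (Finset.univ : Finset α) E
  simpa using this

/-- Markov's inequality. -/
theorem markov {p : ℝ} (hp0 : 0 ≤ p) (hp1 : p ≤ 1) {F : (ι → Bool) → ℝ}
    (hF : ∀ ω, 0 ≤ F ω) {t : ℝ} (ht : 0 < t) :
    bernoulliProb p {ω | t ≤ F ω} ≤ ex p F / t := by
  classical
  rw [prob_eq_ex, le_div_iff₀ ht, mul_comm, ← ex_smul]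
  refine ex_mono hp0 hp1 fun ω => ?_
  by_cases h : t ≤ F ω
  · simpa [h] using h
  · simpa [h] using hF ω

/-! relabelling -/

theorem weight_comp (e : ι ≃ κ) (p : ℝ) (ω : κ → Bool) :
    bernoulliWeight p (ω ∘ e) = bernoulliWeight p ω := by
  unfold bernoulliWeight
  exact Fintype.prod_equiv e _ _ fun i => rfl

theorem ex_comp (e : ι ≃ κ) (p : ℝ) (F : (ι → Bool) → ℝ) :
    ex p F = ex p (fun ω : κ → Bool => F (ω ∘ e)) := by
  unfold ex
  refine Fintype.sum_equiv (Equiv.arrowCongr e (Equiv.refl Bool)) _ _ fun ω => ?_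
  have h1 : ((Equiv.arrowCongr e (Equiv.refl Bool)) ω) ∘ e = ω := by
    funext i
    simp [Equiv.arrowCongr]
  have h2 : bernoulliWeight p ((Equiv.arrowCongr e (Equiv.refl Bool)) ω) = bernoulliWeight p ω := by
    rw [← weight_comp e p, h1]
  simp only [h1, h2]

theorem prob_comp (e : ι ≃ κ) (p : ℝ) (E : Set (ι → Bool)) :
    bernoulliProb p E = bernoulliProb p {ω : κ → Bool | ω ∘ e ∈ E} := by
  classical
  rw [prob_eq_ex, prob_eq_ex, ex_comp e]
  rfl

/-! product structure -/

theorem weight_sum (p : ℝ) (a : ι → Bool) (b : κ → Bool) :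
    bernoulliWeight p (Sum.elim a b) = bernoulliWeight p a * bernoulliWeight p b := by
  unfold bernoulliWeight
  rw [Fintype.prod_sum_type]
  rfl

theorem ex_sumType (p : ℝ) (F : (ι ⊕ κ → Bool) → ℝ) :
    ex p F = ex p (fun a : ι → Bool => ex p (fun b : κ → Bool => F (Sum.elim a b))) := by
  unfold ex
  rw [← Fintype.sum_equiv (Equiv.sumArrowEquivProdArrow ι κ Bool).symm
    (fun ab => bernoulliWeight p (Sum.elim ab.1 ab.2) * F (Sum.elim ab.1 ab.2)) _ (fun ab => rfl)]
  rw [Fintype.sum_prod_type]
  refine Finset.sum_congr rfl fun a _ => ?_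
  rw [Finset.mul_sum]
  refine Finset.sum_congr rfl fun b _ => ?_
  rw [weight_sum]
  ring

theorem ex_option (p : ℝ) (F : (Option ι → Bool) → ℝ) :
    ex p F = ex p (fun a : ι → Bool =>
      p * F (fun o => o.elim true a) + (1 - p) * F (fun o => o.elim false a)) := by
  have h := ex_comp (Equiv.optionEquivSumPUnit.{0} ι) p F
  rw [h, ex_sumType]
  refine ex_congr p fun a => ?_
  unfold ex
  rw [Fintype.sum_equiv (Equiv.funUnique PUnit Bool)
    (fun b : PUnit → Bool => bernoulliWeight p b *
      F (Sum.elim a b ∘ (Equiv.optionEquivSumPUnit.{0} ι)))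
    (fun c : Bool => (if c then p else 1 - p) * F (fun o => o.elim c a)) ?_]
  · simp
  · intro b
    have h1 : bernoulliWeight p b = if b PUnit.unit then p else 1 - p := by
      simp [bernoulliWeight]
    rw [h1]
    have h2 : (Sum.elim a b ∘ (Equiv.optionEquivSumPUnit.{0} ι)) =
        (fun o : Option ι => o.elim (b PUnit.unit) a) := by
      funext o
      cases o <;> simp
    rw [h2]
    rfl

end Weights

end Crest.Agent.R152.Base
end

-- ▼ part R152/Base2

set_option autoImplicit false
set_option linter.unusedSectionVars false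

/-! Row 152, BASE part 2: the symmetric sign matrix on an arbitrary finite index type, deletion of
one index. -/

open Crest.FinProb Crest.ProbabilityR.SignMatrix

namespace Crest.Agent.R152.Base

/-- sign of a coin -/
def sg (c : Bool) : ℤ := if c then 1 else -1

theorem sg_mul_self (c : Bool) : sg c * sg c = 1 := by cases c <;> simp [sg]


theorem sg_injective : Function.Injective sg := by
  intro a b h
  cases a <;> cases b <;> simp_all [sg]

/-- the symmetric sign matrix with coins indexed by unordered pairs -/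
def symMat {ι : Type*} (b : Sym2 ι → Bool) : Matrix ι ι ℤ :=
  Matrix.of fun i j => sg (b s(i, j))

theorem symMat_apply {ι : Type*} (b : Sym2 ι → Bool) (i j : ι) : symMat b i j = sg (b s(i, j)) :=
  rfl


theorem symMat_symm {ι : Type*} (b : Sym2 ι → Bool) : (symMat b).transpose = symMat b := by
  ext i j
  simp [symMat, Sym2.eq_swap]

theorem symMat_reindex {ι κ : Type*} (e : ι ≃ κ) (b : Sym2 κ → Bool) :
    symMat (b ∘ Sym2.map e) = (symMat b).submatrix e e := by
  ext i j
  simp [symMat]

/-- relabelling of unordered pairs -/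
def symEquiv {ι κ : Type*} (e : ι ≃ κ) : Sym2 ι ≃ Sym2 κ where
  toFun := Sym2.map e
  invFun := Sym2.map e.symm
  left_inv z := by simp [Sym2.map_map]
  right_inv z := by simp [Sym2.map_map]

theorem coe_symEquiv {ι κ : Type*} (e : ι ≃ κ) : ⇑(symEquiv e) = Sym2.map e := rfl


theorem singularProb_eq (n : ℕ) (p : ℝ) :
    singularProb n p = bernoulliProb p {b : Sym2 (Fin n) → Bool | (symMat b).det = 0} := rfl

/-- Invariance under relabelling of the index type. -/
theorem det_prob_congr {ι κ : Type*} [Fintype ι] [DecidableEq ι] [Fintype κ] [DecidableEq κ]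
    (e : ι ≃ κ) (p : ℝ) :
    bernoulliProb p {b : Sym2 ι → Bool | (symMat b).det = 0} =
      bernoulliProb p {b : Sym2 κ → Bool | (symMat b).det = 0} := by
  rw [prob_comp (symEquiv e)]
  congr 1
  ext b
  simp only [Set.mem_setOf_eq]
  have h : symMat (b ∘ (symEquiv e)) = (symMat b).submatrix e e := symMat_reindex e b
  rw [h, Matrix.det_submatrix_equiv_self]


/-! ### one more row -/

section Option
variable {α : Type*}

/-- unordered pairs of `Option α` = unordered pairs of `α` plus the row `Option α` of the new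
index (the value `none` is the diagonal entry) -/
def sym2Opt : Sym2 (Option α) ≃ Sym2 α ⊕ Option α where
  toFun z := Sym2.lift ⟨fun a b => match a, b with
    | some a, some b => Sum.inl s(a, b)
    | some a, none => Sum.inr (some a)
    | none, some b => Sum.inr (some b)
    | none, none => Sum.inr none, by
      intro a b
      cases a <;> cases b <;> simp [Sym2.eq_swap]⟩ z
  invFun := Sum.elim (Sym2.map some) (fun o => s(o, none))
  left_inv := by
    intro z
    induction z using Sym2.ind with
    | _ a b =>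
      cases a <;> cases b <;> simp [Sym2.eq_swap]
  right_inv := by
    intro w
    rcases w with z | o
    · induction z using Sym2.ind with
      | _ a b => simp
    · cases o <;> simp

@[simp] theorem sym2Opt_some (a b : α) : sym2Opt s(some a, some b) = Sum.inl s(a, b) := rfl
@[simp] theorem sym2Opt_some_none (a : α) : sym2Opt s(some a, none) = Sum.inr (some a) := rfl
@[simp] theorem sym2Opt_none_some (a : α) : sym2Opt s(none, some a) = Sum.inr (some a) := rfl
@[simp] theorem sym2Opt_none_none : sym2Opt (s(none, none) : Sym2 (Option α)) = Sum.inr none := rfl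

/-- coins of the bordered matrix -/
def glue (b : Sym2 α → Bool) (x : α → Bool) (d : Bool) : Sym2 (Option α) → Bool :=
  fun z => Sum.elim b (fun o => o.elim d x) (sym2Opt z)

@[simp] theorem glue_some (b : Sym2 α → Bool) (x : α → Bool) (d : Bool) (i j : α) :
    glue b x d s(some i, some j) = b s(i, j) := rfl
@[simp] theorem glue_some_none (b : Sym2 α → Bool) (x : α → Bool) (d : Bool) (i : α) :
    glue b x d s(some i, none) = x i := rfl
@[simp] theorem glue_none_some (b : Sym2 α → Bool) (x : α → Bool) (d : Bool) (i : α) :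
    glue b x d s(none, some i) = x i := rfl
@[simp] theorem glue_none_none (b : Sym2 α → Bool) (x : α → Bool) (d : Bool) :
    glue b x d s(none, none) = d := rfl

variable [Fintype α] [DecidableEq α]

/-- Product structure: expectation over the bordered matrix. -/
theorem ex_glue (p : ℝ) (F : (Sym2 (Option α) → Bool) → ℝ) :
    ex p F = ex p (fun b : Sym2 α → Bool => ex p (fun x : α → Bool =>
      p * F (glue b x true) + (1 - p) * F (glue b x false))) := by
  rw [ex_comp sym2Opt, ex_sumType]
  refine ex_congr p fun b => ?_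
  rw [ex_option]
  refine ex_congr p fun x => ?_
  rfl

end Option

/-- Deleting the index `i`: `ι ≃ Option {j // j ≠ i}`. -/
theorem ex_delete {ι : Type*} [Fintype ι] [DecidableEq ι] (i : ι) (p : ℝ)
    (F : Matrix ι ι ℤ → ℝ) :
    ex p (fun b : Sym2 ι → Bool => F (symMat b)) =
      ex p (fun b : Sym2 {j // j ≠ i} → Bool => ex p (fun x : {j // j ≠ i} → Bool =>
        p * F ((symMat (glue b x true)).submatrix (Equiv.optionSubtypeNe i).symm
            (Equiv.optionSubtypeNe i).symm) +
        (1 - p) * F ((symMat (glue b x false)).submatrix (Equiv.optionSubtypeNe i).symm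
            (Equiv.optionSubtypeNe i).symm))) := by
  rw [ex_comp (symEquiv (Equiv.optionSubtypeNe i).symm), ex_glue]
  refine ex_congr p fun b => ex_congr p fun x => ?_
  have h : ∀ c : Sym2 (Option {j // j ≠ i}) → Bool,
      symMat (c ∘ (symEquiv (Equiv.optionSubtypeNe i).symm)) =
        (symMat c).submatrix (Equiv.optionSubtypeNe i).symm (Equiv.optionSubtypeNe i).symm :=
    fun c => symMat_reindex _ c
  rw [h, h]

end Crest.Agent.R152.Base
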