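import Mathlib
import Crest.Agent.R152.Base3
import Crest.Agent.R152.LS1
import Crest.Agent.R152.AsmDefs

-- ▼ part R152/Sparse1
section

set_option autoImplicit false
set_option linter.unusedSectionVars false

/-! Row 152, SPARSE part 1: coins along an injection, iid rows, probability that a sign row kills
a vector, and the chain lemma. -/

open Crest.FinProb Crest.ProbabilityR.SignMatrix

namespace Crest.Agent.R152.Sparse

open Crest.Agent.R152.Base

section inj
variable {ι κ : Type*} [Fintype ι] [DecidableEq ι] [Fintype κ] [DecidableEq κ]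

/-- A function of the coins along an injection. -/
theorem ex_inj (p : ℝ) (φ : κ → ι) (hφ : Function.Injective φ) (G : (κ → Bool) → ℝ) :
    ex p (fun ω : ι → Bool => G (ω ∘ φ)) = ex p G := by
  classical
  let e1 : ι ≃ (Set.range φ) ⊕ ((Set.range φ)ᶜ : Set ι) := (Equiv.Set.sumCompl (Set.range φ)).symm
  let e2 : κ ≃ Set.range φ := Equiv.ofInjective φ hφ
  let e : ι ≃ κ ⊕ ((Set.range φ)ᶜ : Set ι) := e1.trans (Equiv.sumCongr e2.symm (Equiv.refl _))
  have he : ∀ k, e (φ k) = Sum.inl k := by
    intro k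
    have h1 : e1 (φ k) = Sum.inl (e2 k) := by
      simp only [e1, e2]
      rw [Equiv.symm_apply_eq]
      simp
    simp [e, h1]
  rw [ex_comp e, ex_sumType]
  have h2 : ∀ (a : κ → Bool) (b : ((Set.range φ)ᶜ : Set ι) → Bool),
      (fun ω : κ ⊕ ((Set.range φ)ᶜ : Set ι) → Bool => G ((ω ∘ e) ∘ φ)) (Sum.elim a b) = G a := by
    intro a b
    have : ((Sum.elim a b ∘ e) ∘ φ) = a := by
      funext k
      simp [he]
    simp only [this]
  refine ex_congr p fun a => ?_
  rw [ex_congr p (fun b => h2 a b), ex_const]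

end inj

section kill
variable {Y : Type*} [Fintype Y] [DecidableEq Y]

/-- value of the sign row `r` on the vector `w` -/
def dot {R : Type*} [CommRing R] (r : Y → Bool) (w : Y → R) : R := ∑ y, ((sg (r y) : ℤ) : R) * w y

theorem dot_update {R : Type*} [CommRing R] (r : Y → Bool) (w : Y → R) (i : Y) (c : Bool) :
    dot (Function.update r i c) w = ((sg c : ℤ) : R) * w i
      + ∑ y ∈ Finset.univ.erase i, ((sg (r y) : ℤ) : R) * w y := by
  unfold dot
  rw [← Finset.add_sum_erase _ _ (Finset.mem_univ i)]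
  congr 1
  · simp
  · refine Finset.sum_congr rfl fun y hy => ?_
    rw [Function.update_of_ne (Finset.ne_of_mem_erase hy)]

open Classical in
/-- A nonzero vector is killed by a sign row with probability at most `rate p`. -/
theorem kill_prob {K : Type*} [Field K] (h2 : (2 : K) ≠ 0) {p : ℝ} (hp0 : 0 ≤ p) (hp1 : p ≤ 1)
    (w : Y → K) (hw : w ≠ 0) :
    ex p (fun r : Y → Bool => if dot r w = 0 then 1 else 0) ≤ rate p := by
  have hq : 0 ≤ 1 - p := by linarith
  obtain ⟨i, hi⟩ : ∃ i, w i ≠ 0 := by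
    by_contra h
    push Not at h
    exact hw (funext h)
  by_cases hj : ∃ j, j ≠ i ∧ w j ≠ 0
  · obtain ⟨j, hji, hj⟩ := hj
    rw [LS.ex_update p i]
    rw [LS.ex_update p j]
    refine le_trans (ex_mono hp0 hp1 (G := fun _ => rate p) fun r => ?_) (ex_const p _).le
    set s : K := ∑ y ∈ (Finset.univ.erase i).erase j, ((sg (r y) : ℤ) : K) * w y with hs
    have hd : ∀ a b : Bool, dot (Function.update (Function.update r j b) i a) w =
        ((sg a : ℤ) : K) * w i + (((sg b : ℤ) : K) * w j + s) := by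
      intro a b
      rw [dot_update]
      congr 1
      rw [← Finset.add_sum_erase _ _ (Finset.mem_erase.2 ⟨hji, Finset.mem_univ j⟩)]
      congr 1
      · simp
      · refine Finset.sum_congr rfl fun y hy => ?_
        rw [Function.update_of_ne (Finset.ne_of_mem_erase hy)]
    simp only [hd]
    have e1 : ((sg true : ℤ) : K) = 1 := by simp [sg]
    have e2 : ((sg false : ℤ) : K) = -1 := by simp [sg]
    simp only [e1, e2]
    have k1 : ¬ (1 * w i + (1 * w j + s) = 0 ∧ (-1 : K) * w i + (1 * w j + s) = 0) := by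
      rintro ⟨h1, h3⟩
      have : 2 * w i = 0 := by linear_combination h1 - h3
      exact hi ((mul_eq_zero.1 this).resolve_left h2)
    have k2 : ¬ (1 * w i + (-1 * w j + s) = 0 ∧ (-1 : K) * w i + (-1 * w j + s) = 0) := by
      rintro ⟨h1, h3⟩
      have : 2 * w i = 0 := by linear_combination h1 - h3
      exact hi ((mul_eq_zero.1 this).resolve_left h2)
    have k3 : ¬ (1 * w i + (1 * w j + s) = 0 ∧ (1 : K) * w i + (-1 * w j + s) = 0) := by
      rintro ⟨h1, h3⟩
      have : 2 * w j = 0 := by linear_combination h1 - h3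
      exact hj ((mul_eq_zero.1 this).resolve_left h2)
    have k4 : ¬ ((-1 : K) * w i + (1 * w j + s) = 0 ∧ (-1 : K) * w i + (-1 * w j + s) = 0) := by
      rintro ⟨h1, h3⟩
      have : 2 * w j = 0 := by linear_combination h1 - h3
      exact hj ((mul_eq_zero.1 this).resolve_left h2)
    have key : ∀ (A B C D : Prop) [Decidable A] [Decidable B] [Decidable C] [Decidable D],
        ¬ (A ∧ B) → ¬ (C ∧ D) → ¬ (A ∧ C) → ¬ (B ∧ D) →
        p * (p * (if A then 1 else 0) + (1 - p) * (if B then 1 else 0))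
          + (1 - p) * (p * (if C then 1 else 0) + (1 - p) * (if D then 1 else 0)) ≤ rate p := by
      intro A B C D _ _ _ _ hAB hCD hAC hBD
      unfold rate
      by_cases hA : A
      · have hB : ¬ B := fun h => hAB ⟨hA, h⟩
        have hC : ¬ C := fun h => hAC ⟨hA, h⟩
        simp only [hA, hB, hC, if_true, if_false]
        split_ifs <;> nlinarith [mul_nonneg hp0 hq, mul_nonneg hp0 hp0, mul_nonneg hq hq]
      · by_cases hD : D
        · have hB : ¬ B := fun h => hBD ⟨h, hD⟩
          have hC : ¬ C := fun h => hCD ⟨h, hD⟩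
          simp only [hA, hB, hC, hD, if_true, if_false]
          nlinarith [mul_nonneg hp0 hq, mul_nonneg hp0 hp0, mul_nonneg hq hq]
        · simp only [hA, hD, if_false]
          split_ifs <;> nlinarith [mul_nonneg hp0 hq, sq_nonneg (p - (1 - p)), mul_nonneg hp0 hp0,
            mul_nonneg hq hq]
    exact key _ _ _ _ k1 k2 k3 k4
  · push Not at hj
    have h0 : ∀ r : Y → Bool, dot r w ≠ 0 := by
      intro r h
      have h1 : dot r w = ((sg (r i) : ℤ) : K) * w i := by
        unfold dot
        rw [Finset.sum_eq_single i]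
        · intro y _ hy
          rw [hj y hy, mul_zero]
        · intro h
          exact absurd (Finset.mem_univ i) h
      rw [h1] at h
      rcases mul_eq_zero.1 h with h | h
      · have : ((sg (r i) : ℤ) : K) * ((sg (r i) : ℤ) : K) = 1 := by
          rw [← Int.cast_mul, sg_mul_self, Int.cast_one]
        rw [h] at this
        simp at this
      · exact hi h
    simp only [h0, if_false]
    rw [ex_const]
    exact (rate_pos p).le

end kill

end Crest.Agent.R152.Sparse
end

-- ▼ part R152/Sparse2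
section

set_option autoImplicit false
set_option linter.unusedSectionVars false

/-! Row 152, SPARSE part 2: iid rows one after the other; the chain lemma. -/

open Crest.FinProb Crest.ProbabilityR.SignMatrix

namespace Crest.Agent.R152.Sparse

open Crest.Agent.R152.Base

variable {Y : Type*} [Fintype Y] [DecidableEq Y]

/-- `m` further iid rows, the functional depends on the set of rows -/
noncomputable def exS (p : ℝ) (F : Set (Y → Bool) → ℝ) : ℕ → Set (Y → Bool) → ℝ
  | 0, S => F S
  | m + 1, S => ex p (fun r => exS p F m (insert r S))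

theorem exS_zero (p : ℝ) (F : Set (Y → Bool) → ℝ) (S : Set (Y → Bool)) : exS p F 0 S = F S := rfl

theorem exS_succ (p : ℝ) (F : Set (Y → Bool) → ℝ) (m : ℕ) (S : Set (Y → Bool)) :
    exS p F (m + 1) S = ex p (fun r => exS p F m (insert r S)) := rfl

theorem exS_const (p c : ℝ) (m : ℕ) (S : Set (Y → Bool)) : exS p (fun _ => c) m S = c := by
  induction m generalizing S with
  | zero => rfl
  | succ m ih =>
    rw [exS_succ, ex_congr p (fun r => ih (insert r S)), ex_const]

theorem exS_mono_above {p : ℝ} (hp0 : 0 ≤ p) (hp1 : p ≤ 1) {F G : Set (Y → Bool) → ℝ} (m : ℕ)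
    (S : Set (Y → Bool)) (h : ∀ T, S ⊆ T → F T ≤ G T) : exS p F m S ≤ exS p G m S := by
  induction m generalizing S with
  | zero => exact h S subset_rfl
  | succ m ih =>
    rw [exS_succ, exS_succ]
    exact ex_mono hp0 hp1 fun r => ih _ fun T hT => h T ((Set.subset_insert r S).trans hT)

theorem exS_sum (p : ℝ) {α : Type*} (s : Finset α) (F : α → Set (Y → Bool) → ℝ) (m : ℕ)
    (S : Set (Y → Bool)) :
    exS p (fun T => ∑ a ∈ s, F a T) m S = ∑ a ∈ s, exS p (F a) m S := by
  induction m generalizing S with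
  | zero => rfl
  | succ m ih =>
    rw [exS_succ, ex_congr p (fun r => ih (insert r S)), ex_sum]
    rfl

/-- splitting off the first of `m + 1` rows of coins -/
def finRows (Y : Type*) (m : ℕ) : (Fin (m + 1) × Y) ≃ Y ⊕ (Fin m × Y) where
  toFun z := Fin.cases (motive := fun _ => Y ⊕ (Fin m × Y)) (Sum.inl z.2)
    (fun a => Sum.inr (a, z.2)) z.1
  invFun := Sum.elim (fun y => (0, y)) (fun ay => (ay.1.succ, ay.2))
  left_inv := by
    rintro ⟨i, y⟩
    refine Fin.cases ?_ (fun a => ?_) i <;> simp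
  right_inv := by
    rintro (y | ⟨a, y⟩) <;> simp

theorem exS_fin (p : ℝ) (F : Set (Y → Bool) → ℝ) (m : ℕ) (S : Set (Y → Bool)) :
    ex p (fun ω : Fin m × Y → Bool => F (S ∪ Set.range (fun z y => ω (z, y)))) = exS p F m S := by
  induction m generalizing S with
  | zero =>
    have : ∀ ω : Fin 0 × Y → Bool, F (S ∪ Set.range (fun z y => ω (z, y))) = F S := by
      intro ω
      rw [Set.range_eq_empty, Set.union_empty]
    rw [ex_congr p this, ex_const]
    rfl
  | succ m ih =>
    rw [ex_comp (finRows Y m), ex_sumType, exS_succ]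
    refine ex_congr p fun r => ?_
    rw [← ih (insert r S)]
    refine ex_congr p fun a => ?_
    congr 1
    ext t
    simp only [Set.mem_union, Set.mem_range, Set.mem_insert_iff]
    constructor
    · rintro (h | ⟨z, rfl⟩)
      · exact Or.inl (Or.inr h)
      · refine Fin.cases ?_ (fun z => ?_) z
        · exact Or.inl (Or.inl rfl)
        · exact Or.inr ⟨z, rfl⟩
    · rintro ((rfl | h) | ⟨z, rfl⟩)
      · exact Or.inr ⟨0, rfl⟩
      · exact Or.inl h
      · exact Or.inr ⟨z.succ, rfl⟩

theorem exS_rows {Z : Type*} [Fintype Z] [DecidableEq Z] (p : ℝ) (F : Set (Y → Bool) → ℝ)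
    (S : Set (Y → Bool)) :
    ex p (fun ω : Z × Y → Bool => F (S ∪ Set.range (fun z y => ω (z, y)))) =
      exS p F (Fintype.card Z) S := by
  rw [← exS_fin, ex_comp ((Fintype.equivFin Z).prodCongr (Equiv.refl Y))]
  refine ex_congr p fun ω => ?_
  congr 2
  ext t
  simp only [Set.mem_range]
  constructor
  · rintro ⟨z, rfl⟩
    exact ⟨Fintype.equivFin Z z, rfl⟩
  · rintro ⟨i, rfl⟩
    refine ⟨(Fintype.equivFin Z).symm i, ?_⟩
    funext y
    simp

/-- the vectors killed by all rows in `S` -/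
def ker (R : Type*) [CommRing R] (S : Set (Y → Bool)) : Submodule R (Y → R) where
  carrier := {w | ∀ r ∈ S, dot r w = 0}
  add_mem' := by
    intro a b ha hb r hr
    have : dot r (a + b) = dot r a + dot r b := by
      unfold dot
      rw [← Finset.sum_add_distrib]
      exact Finset.sum_congr rfl fun y _ => by simp [mul_add]
    rw [this, ha r hr, hb r hr, add_zero]
  zero_mem' := by
    intro r _
    unfold dot
    simp
  smul_mem' := by
    intro c a ha r hr
    have : dot r (c • a) = c * dot r a := by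
      unfold dot
      rw [Finset.mul_sum]
      exact Finset.sum_congr rfl fun y _ => by simp; ring
    rw [this, ha r hr, mul_zero]


theorem ker_anti {R : Type*} [CommRing R] {S T : Set (Y → Bool)} (h : S ⊆ T) :
    ker R T ≤ ker R S := fun _ hw r hr => hw r (h hr)

open Classical in
/-- **Chain lemma.** If every vector of `V₀` is killed by a row with probability `≤ ρ`, then some
vector of `V₀` is killed by `m` rows with probability at most `t^l (ρ + 1/t)^m`. -/
theorem chain {R : Type*} [CommRing R] (l : Submodule R (Y → R) → ℕ) (hl : StrictMono l)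
    (V₀ : Set (Y → R)) {p : ℝ} (hp0 : 0 ≤ p) (hp1 : p ≤ 1) {ρ : ℝ} (hρ0 : 0 ≤ ρ)
    (hρ : ∀ v ∈ V₀, ex p (fun r : Y → Bool => if dot r v = 0 then 1 else 0) ≤ ρ)
    {t : ℝ} (ht : 1 ≤ t) (m : ℕ) (S : Set (Y → Bool)) :
    exS p (fun T => if ∃ v ∈ V₀, v ∈ ker R T then 1 else 0) m S ≤
      t ^ l (ker R S) * (ρ + 1 / t) ^ m := by
  have ht0 : 0 < t := lt_of_lt_of_le one_pos ht
  have hX : 0 < ρ + 1 / t := by positivity
  induction m generalizing S with
  | zero =>
    rw [exS_zero, pow_zero, mul_one]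
    have : (1 : ℝ) ≤ t ^ l (ker R S) := one_le_pow₀ ht
    split_ifs
    · exact this
    · linarith
  | succ m ih =>
    rw [exS_succ]
    by_cases hS : ∃ v ∈ V₀, v ∈ ker R S
    · obtain ⟨v, hv, hvS⟩ := hS
      have step : ∀ r : Y → Bool,
          exS p (fun T => if ∃ v ∈ V₀, v ∈ ker R T then 1 else 0) m (insert r S) ≤
            (t ^ l (ker R S) * (ρ + 1 / t) ^ m) * ((if dot r v = 0 then 1 else 0) + 1 / t) := by
        intro r
        refine (ih (insert r S)).trans ?_
        have hle : ker R (insert r S) ≤ ker R S := ker_anti (Set.subset_insert r S)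
        rcases hle.eq_or_lt with h | h
        · have hrv : dot r v = 0 := by
            have : v ∈ ker R (insert r S) := by rw [h]; exact hvS
            exact this r (Set.mem_insert r S)
          rw [h, if_pos hrv]
          have h1 : 0 ≤ t ^ l (ker R S) * (ρ + 1 / t) ^ m := by positivity
          have h2 : 0 ≤ 1 / t := by positivity
          nlinarith
        · have h1 : l (ker R (insert r S)) + 1 ≤ l (ker R S) := hl h
          have h2 : t ^ l (ker R (insert r S)) * t ≤ t ^ l (ker R S) := by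
            rw [← pow_succ]
            exact pow_le_pow_right₀ ht h1
          have h3 : t ^ l (ker R (insert r S)) ≤ t ^ l (ker R S) * (1 / t) := by
            rw [mul_one_div, le_div_iff₀ ht0]
            exact h2
          calc t ^ l (ker R (insert r S)) * (ρ + 1 / t) ^ m
              ≤ (t ^ l (ker R S) * (1 / t)) * (ρ + 1 / t) ^ m :=
                mul_le_mul_of_nonneg_right h3 (by positivity)
            _ = (t ^ l (ker R S) * (ρ + 1 / t) ^ m) * (0 + 1 / t) := by ring
            _ ≤ _ := by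
              refine mul_le_mul_of_nonneg_left ?_ (by positivity)
              have : (0 : ℝ) ≤ if dot r v = 0 then 1 else 0 := by split_ifs <;> norm_num
              linarith
      refine (ex_mono hp0 hp1 step).trans ?_
      rw [ex_smul, ex_add, ex_const, pow_succ]
      have h1 := hρ v hv
      have h0 : 0 ≤ t ^ l (ker R S) * (ρ + 1 / t) ^ m := by positivity
      calc _ ≤ (t ^ l (ker R S) * (ρ + 1 / t) ^ m) * (ρ + 1 / t) :=
            mul_le_mul_of_nonneg_left (by linarith) h0
        _ = _ := by ring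
    · have h0 : ∀ r : Y → Bool,
          exS p (fun T => if ∃ v ∈ V₀, v ∈ ker R T then (1 : ℝ) else 0) m (insert r S) ≤ 0 := by
        intro r
        refine (exS_mono_above hp0 hp1 m (insert r S) (G := fun _ => 0) fun T hT => ?_).trans
          (exS_const p 0 m _).le
        rw [if_neg]
        rintro ⟨v, hv, hvT⟩
        exact hS ⟨v, hv, ker_anti ((Set.subset_insert r S).trans hT) hvT⟩
      refine (ex_mono hp0 hp1 h0).trans ?_
      rw [ex_const]
      positivity

end Crest.Agent.R152.Sparse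
end

-- ▼ part R152/Sparse3
section

set_option autoImplicit false
set_option linter.unusedSectionVars false

/-! Row 152, SPARSE part 3: kernels over a field, all odd primes at once, parity rows. -/

open Crest.FinProb Crest.ProbabilityR.SignMatrix
open scoped Matrix

namespace Crest.Agent.R152.Sparse

open Crest.Agent.R152.Base

variable {Y : Type*} [Fintype Y] [DecidableEq Y]

open Classical in
/-- General chain lemma. -/
theorem chain_aux {R : Type*} [CommRing R] (l : Submodule R (Y → R) → ℕ) (hl : StrictMono l)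
    (V₀ : Set (Y → R)) {p : ℝ} (hp0 : 0 ≤ p) (hp1 : p ≤ 1) {ρ : ℝ} (hρ0 : 0 ≤ ρ)
    (hρ : ∀ v ∈ V₀, ex p (fun r : Y → Bool => if dot r v = 0 then 1 else 0) ≤ ρ)
    {t : ℝ} (ht : 1 ≤ t) (F : Set (Y → Bool) → ℝ) {C : ℝ} (hC : 0 ≤ C) (hF : ∀ T, F T ≤ C)
    (hbase : ∀ S, (¬ ∃ v ∈ V₀, v ∈ ker R S) → ∀ m, exS p F m S ≤ C * (ρ + 1 / t) ^ m)
    (m : ℕ) (S : Set (Y → Bool)) :
    exS p F m S ≤ C * (t ^ l (ker R S) * (ρ + 1 / t) ^ m) := by
  have ht0 : 0 < t := lt_of_lt_of_le one_pos ht
  have hX : 0 < ρ + 1 / t := by positivity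
  induction m generalizing S with
  | zero =>
    rw [exS_zero, pow_zero, mul_one]
    have : (1 : ℝ) ≤ t ^ l (ker R S) := one_le_pow₀ ht
    exact (hF S).trans (le_mul_of_one_le_right hC this)
  | succ m ih =>
    by_cases hS : ∃ v ∈ V₀, v ∈ ker R S
    · rw [exS_succ]
      obtain ⟨v, hv, hvS⟩ := hS
      have step : ∀ r : Y → Bool,
          exS p F m (insert r S) ≤
            (C * (t ^ l (ker R S) * (ρ + 1 / t) ^ m)) * ((if dot r v = 0 then 1 else 0) + 1 / t) := by
        intro r
        refine (ih (insert r S)).trans ?_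
        rw [mul_assoc]
        refine mul_le_mul_of_nonneg_left ?_ hC
        have hle : ker R (insert r S) ≤ ker R S := ker_anti (Set.subset_insert r S)
        rcases hle.eq_or_lt with h | h
        · have hrv : dot r v = 0 := by
            have : v ∈ ker R (insert r S) := by rw [h]; exact hvS
            exact this r (Set.mem_insert r S)
          rw [h, if_pos hrv]
          have h1 : 0 ≤ t ^ l (ker R S) * (ρ + 1 / t) ^ m := by positivity
          have h2 : 0 ≤ 1 / t := by positivity
          nlinarith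
        · have h1 : l (ker R (insert r S)) + 1 ≤ l (ker R S) := hl h
          have h2 : t ^ l (ker R (insert r S)) * t ≤ t ^ l (ker R S) := by
            rw [← pow_succ]
            exact pow_le_pow_right₀ ht h1
          have h3 : t ^ l (ker R (insert r S)) ≤ t ^ l (ker R S) * (1 / t) := by
            rw [mul_one_div, le_div_iff₀ ht0]
            exact h2
          calc t ^ l (ker R (insert r S)) * (ρ + 1 / t) ^ m
              ≤ (t ^ l (ker R S) * (1 / t)) * (ρ + 1 / t) ^ m :=
                mul_le_mul_of_nonneg_right h3 (by positivity)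
            _ = (t ^ l (ker R S) * (ρ + 1 / t) ^ m) * (0 + 1 / t) := by ring
            _ ≤ _ := by
              refine mul_le_mul_of_nonneg_left ?_ (by positivity)
              have : (0 : ℝ) ≤ if dot r v = 0 then 1 else 0 := by split_ifs <;> norm_num
              linarith
      refine (ex_mono hp0 hp1 step).trans ?_
      rw [ex_smul, ex_add, ex_const, pow_succ]
      have h1 := hρ v hv
      have h0 : 0 ≤ C * (t ^ l (ker R S) * (ρ + 1 / t) ^ m) := by positivity
      calc _ ≤ (C * (t ^ l (ker R S) * (ρ + 1 / t) ^ m)) * (ρ + 1 / t) :=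
            mul_le_mul_of_nonneg_left (by linarith) h0
        _ = _ := by ring
    · refine (hbase S hS (m + 1)).trans ?_
      refine mul_le_mul_of_nonneg_left ?_ hC
      have : (1 : ℝ) ≤ t ^ l (ker R S) := one_le_pow₀ ht
      exact le_mul_of_one_le_left (by positivity) this

open Classical in
/-- Over a field of characteristic not two. -/
theorem chain_field {K : Type*} [Field K] (h2 : (2 : K) ≠ 0) {p : ℝ} (hp0 : 0 ≤ p) (hp1 : p ≤ 1)
    {t : ℝ} (ht : 1 ≤ t) (m : ℕ) (S : Set (Y → Bool)) :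
    exS p (fun T => if ∃ w ∈ ker K T, w ≠ 0 then 1 else 0) m S ≤
      t ^ (Module.finrank K (ker K S)) * (rate p + 1 / t) ^ m := by
  have h := chain (R := K) (fun W => Module.finrank K W)
    (fun a b hab => Submodule.finrank_lt_finrank_of_lt hab) {w | w ≠ 0} hp0 hp1 (rate_pos p).le
    (fun v hv => kill_prob h2 hp0 hp1 v hv) ht m S
  refine le_trans (le_of_eq ?_) h
  congr 1
  funext T
  congr 1
  exact propext ⟨fun ⟨w, h1, h2⟩ => ⟨w, h2, h1⟩, fun ⟨w, h1, h2⟩ => ⟨w, h2, h1⟩⟩

/-- a nonzero integer divisible by all primes modulo which the rows degenerate -/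
theorem exists_minor (S : Set (Y → Bool)) (hS : ker ℚ S = ⊥) :
    ∃ D : ℤ, D ≠ 0 ∧ |D| ≤ (Fintype.card Y).factorial ∧
      ∀ l : ℕ, l.Prime → (∃ w ∈ ker (ZMod l) S, w ≠ 0) → (l : ℤ) ∣ D := by
  classical
  set v : (Y → Bool) → (Y → ℚ) := fun r y => ((sg (r y) : ℤ) : ℚ) with hv
  have hspan : Submodule.span ℚ (v '' S) = ⊤ := by
    by_contra hne
    obtain ⟨f, hf0, hf⟩ := Submodule.exists_le_ker_of_lt_top _ (lt_top_iff_ne_top.2 hne)
    set w : Y → ℚ := fun y => f (Pi.single y 1) with hw
    have hfw : ∀ u : Y → ℚ, f u = ∑ y, u y * w y := by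
      intro u
      have : u = ∑ y, u y • (Pi.single y (1 : ℚ) : Y → ℚ) := by
        funext z
        simp [Finset.sum_apply, Pi.single_apply]
      conv_lhs => rw [this]
      rw [map_sum]
      exact Finset.sum_congr rfl fun y _ => by rw [map_smul, smul_eq_mul]
    have hwk : w ∈ ker ℚ S := by
      intro r hr
      have h1 : v r ∈ LinearMap.ker f := hf (Submodule.subset_span ⟨r, hr, rfl⟩)
      have h2 : f (v r) = 0 := h1
      rw [hfw] at h2
      exact h2
    rw [hS, Submodule.mem_bot] at hwk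
    apply hf0
    ext y
    have := congrFun hwk y
    simpa [hw] using this
  obtain ⟨b, hb, hbs, hbl⟩ := exists_linearIndependent ℚ (v '' S)
  rw [hspan] at hbs
  let B : Module.Basis b ℚ (Y → ℚ) := Module.Basis.mk hbl (by rw [Subtype.range_coe]; exact hbs.ge)
  have hcard : Nat.card b = Fintype.card Y := by
    have h1 := Module.finrank_eq_nat_card_basis B
    rw [Module.finrank_fintype_fun_eq_card] at h1
    exact h1.symm
  have : Fintype b := Module.Basis.fintypeIndexOfRankLtAleph0 B (by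
    exact Module.rank_lt_aleph0 ℚ (Y → ℚ))
  have e : Y ≃ b := Fintype.equivOfCardEq (by rw [← hcard, Nat.card_eq_fintype_card])
  choose g hgS hg using fun y : Y => hb (e y).2
  let A : Matrix Y Y ℤ := Matrix.of fun y z => sg (g y z)
  refine ⟨A.det, ?_, ?_, ?_⟩
  · have hli : LinearIndependent ℚ (fun y : Y => ((e y : b) : Y → ℚ)) := hbl.comp e e.injective
    have hrows : (A.map (Int.cast : ℤ → ℚ)).row = fun y : Y => ((e y : b) : Y → ℚ) := by
      funext y z
      have := congrFun (hg y) z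
      simpa [A, hv, Matrix.row] using this
    rw [← hrows, Matrix.linearIndependent_rows_iff_isUnit, Matrix.isUnit_iff_isUnit_det,
      isUnit_iff_ne_zero] at hli
    intro h0
    apply hli
    have : (A.map (Int.cast : ℤ → ℚ)).det = ((A.det : ℤ) : ℚ) := by
      rw [Int.cast_det]
    rw [this, h0, Int.cast_zero]
  · have h1 := Matrix.det_le (A := A) (abv := AbsoluteValue.abs) (x := 1) (fun i j => by
      simp only [A, Matrix.of_apply, AbsoluteValue.abs_apply]
      rcases g i j with _ | _ <;> simp [sg])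
    simpa using h1
  · intro l hl hw
    obtain ⟨w, hwk, hw0⟩ := hw
    have : Fact l.Prime := ⟨hl⟩
    have h1 : (A.map (Int.cast : ℤ → ZMod l)) *ᵥ w = 0 := by
      funext y
      have h2 := hwk (g y) (hgS y)
      simpa [Matrix.mulVec, dotProduct, A, dot] using h2
    have h2 : (A.map (Int.cast : ℤ → ZMod l)).det = 0 :=
      Matrix.exists_mulVec_eq_zero_iff.1 ⟨w, hw0, h1⟩
    have h3 : ((A.det : ℤ) : ZMod l) = 0 := by
      rw [Int.cast_det]; exact h2
    exact (ZMod.intCast_zmod_eq_zero_iff_dvd _ _).1 h3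

theorem card_primeFactors_le {D : ℤ} (hD : D ≠ 0) {s : ℕ} (h : |D| ≤ s.factorial) :
    D.natAbs.primeFactors.card ≤ s ^ 2 := by
  have h0 : D.natAbs ≠ 0 := Int.natAbs_ne_zero.2 hD
  have h1 : 2 ^ D.natAbs.primeFactors.card ≤ D.natAbs := by
    refine le_trans ?_ (Nat.le_of_dvd (Nat.pos_of_ne_zero h0) (Nat.prod_primeFactors_dvd _))
    exact Finset.pow_card_le_prod _ _ _ fun q hq => (Nat.prime_of_mem_primeFactors hq).two_le
  have h2 : D.natAbs ≤ s.factorial := by
    have : ((D.natAbs : ℕ) : ℤ) ≤ (s.factorial : ℤ) := by rw [Int.natCast_natAbs]; exact h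
    exact_mod_cast this
  have h3 : s.factorial ≤ 2 ^ (s ^ 2) := by
    refine (Nat.factorial_le_pow s).trans ?_
    rw [pow_two, pow_mul]
    exact Nat.pow_le_pow_left (Nat.lt_two_pow_self).le s
  exact (Nat.pow_le_pow_iff_right (by norm_num)).1 (h1.trans (h2.trans h3))

open Classical in
/-- **All odd primes at once.** -/
theorem chain_primes {p : ℝ} (hp0 : 0 ≤ p) (hp1 : p ≤ 1) {t : ℝ} (ht : 1 ≤ t) (m : ℕ)
    (S : Set (Y → Bool)) :
    exS p (fun T => if ∃ l : ℕ, l.Prime ∧ l ≠ 2 ∧ ∃ w ∈ ker (ZMod l) T, w ≠ 0 then 1 else 0) m S ≤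
      (((Fintype.card Y) ^ 2 + 1 : ℕ) * t ^ Fintype.card Y) *
        (t ^ (Module.finrank ℚ (ker ℚ S)) * (rate p + 1 / t) ^ m) := by
  have ht0 : 0 < t := lt_of_lt_of_le one_pos ht
  have htY : (1 : ℝ) ≤ t ^ Fintype.card Y := one_le_pow₀ ht
  refine chain_aux (R := ℚ) (fun W => Module.finrank ℚ W)
    (fun a b hab => Submodule.finrank_lt_finrank_of_lt hab) {w | w ≠ 0} hp0 hp1 (rate_pos p).le
    (fun v hv => kill_prob two_ne_zero hp0 hp1 v hv) ht _ (by positivity) ?_ ?_ m S
  · intro T
    have h1 : (1 : ℝ) ≤ ((Fintype.card Y ^ 2 + 1 : ℕ) : ℝ) := by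
      push_cast
      nlinarith [sq_nonneg ((Fintype.card Y : ℕ) : ℝ)]
    have : (1 : ℝ) ≤ ((Fintype.card Y ^ 2 + 1 : ℕ) : ℝ) * t ^ Fintype.card Y := by nlinarith
    split_ifs
    · exact this
    · linarith
  · intro S' hS' m'
    have hbot : ker ℚ S' = ⊥ := by
      rw [eq_bot_iff]
      intro w hw
      rw [Submodule.mem_bot]
      by_contra h
      exact hS' ⟨w, h, hw⟩
    obtain ⟨D, hD0, hDle, hDl⟩ := exists_minor S' hbot
    have hX : 0 < rate p + 1 / t := add_pos (rate_pos p) (by positivity)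
    have hbound : ∀ l ∈ D.natAbs.primeFactors.filter (fun l => l ≠ 2),
        exS p (fun T => if ∃ w ∈ ker (ZMod l) T, w ≠ 0 then 1 else 0) m' S' ≤
          t ^ Fintype.card Y * (rate p + 1 / t) ^ m' := by
      intro l hl
      rw [Finset.mem_filter] at hl
      have hlp := Nat.prime_of_mem_primeFactors hl.1
      have : Fact l.Prime := ⟨hlp⟩
      have h2 : (2 : ZMod l) ≠ 0 := by
        intro h
        have h3 : ((2 : ℕ) : ZMod l) = 0 := by exact_mod_cast h
        rw [ZMod.natCast_eq_zero_iff] at h3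
        exact hl.2 ((Nat.prime_dvd_prime_iff_eq hlp Nat.prime_two).1 h3)
      refine (chain_field (K := ZMod l) h2 hp0 hp1 ht m' S').trans ?_
      refine mul_le_mul_of_nonneg_right ?_ (by positivity)
      refine pow_le_pow_right₀ ht ?_
      refine (Submodule.finrank_le _).trans ?_
      rw [Module.finrank_fintype_fun_eq_card]
    have hcard : (((D.natAbs.primeFactors.filter (fun l => l ≠ 2)).card : ℕ) : ℝ) ≤
        ((Fintype.card Y ^ 2 + 1 : ℕ) : ℝ) := by
      have h1 : (D.natAbs.primeFactors.filter (fun l => l ≠ 2)).card ≤ Fintype.card Y ^ 2 + 1 :=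
        (Finset.card_filter_le _ _).trans ((card_primeFactors_le hD0 hDle).trans (Nat.le_succ _))
      exact_mod_cast h1
    calc exS p (fun T => if ∃ l : ℕ, l.Prime ∧ l ≠ 2 ∧ ∃ w ∈ ker (ZMod l) T, w ≠ 0 then 1 else 0)
          m' S'
        ≤ exS p (fun T => ∑ l ∈ D.natAbs.primeFactors.filter (fun l => l ≠ 2),
            if ∃ w ∈ ker (ZMod l) T, w ≠ 0 then 1 else 0) m' S' := by
          refine exS_mono_above hp0 hp1 m' S' fun T hT => ?_
          by_cases h : ∃ l : ℕ, l.Prime ∧ l ≠ 2 ∧ ∃ w ∈ ker (ZMod l) T, w ≠ 0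
          · rw [if_pos h]
            obtain ⟨l, hl, hl2, w, hw, hw0⟩ := h
            have hlD : (l : ℤ) ∣ D := hDl l hl ⟨w, ker_anti hT hw, hw0⟩
            have hmem : l ∈ D.natAbs.primeFactors.filter (fun l => l ≠ 2) := by
              rw [Finset.mem_filter, Nat.mem_primeFactors]
              exact ⟨⟨hl, Int.natCast_dvd.1 hlD, Int.natAbs_ne_zero.2 hD0⟩, hl2⟩
            refine le_trans ?_ (Finset.single_le_sum (f := fun l : ℕ =>
              if ∃ w ∈ ker (ZMod l) T, w ≠ 0 then (1 : ℝ) else 0)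
              (fun l _ => by positivity) hmem)
            have : ∃ w ∈ ker (ZMod l) T, w ≠ 0 := ⟨w, hw, hw0⟩
            simp only [this, if_true, le_refl]
          · rw [if_neg h]
            exact Finset.sum_nonneg fun l _ => by positivity
      _ = ∑ l ∈ D.natAbs.primeFactors.filter (fun l => l ≠ 2),
            exS p (fun T => if ∃ w ∈ ker (ZMod l) T, w ≠ 0 then 1 else 0) m' S' := exS_sum _ _ _ _ _
      _ ≤ ∑ l ∈ D.natAbs.primeFactors.filter (fun l => l ≠ 2),
            t ^ Fintype.card Y * (rate p + 1 / t) ^ m' := Finset.sum_le_sum hbound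
      _ = ((D.natAbs.primeFactors.filter (fun l => l ≠ 2)).card : ℝ) *
            (t ^ Fintype.card Y * (rate p + 1 / t) ^ m') := by rw [Finset.sum_const, nsmul_eq_mul]
      _ ≤ ((Fintype.card Y ^ 2 + 1 : ℕ) : ℝ) * (t ^ Fintype.card Y * (rate p + 1 / t) ^ m') :=
          mul_le_mul_of_nonneg_right hcard (by positivity)
      _ = _ := by ring

end Crest.Agent.R152.Sparse
end

-- ▼ part R152/Sparse4
section

set_option autoImplicit false
set_option linter.unusedSectionVars false

/-! Row 152, SPARSE part 4: parity rows; the rows of a symmetric matrix outside a set `Y`. -/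

open Crest.FinProb Crest.ProbabilityR.SignMatrix
open scoped Matrix

namespace Crest.Agent.R152.Sparse

open Crest.Agent.R152.Base

section flip
variable {Y : Type*} [Fintype Y] [DecidableEq Y]

open Classical in
/-- An event which is destroyed by flipping either of two coordinates. -/
theorem two_flip {p : ℝ} (hp0 : 0 ≤ p) (hp1 : p ≤ 1) (E : (Y → Bool) → Prop) {i j : Y}
    (hij : j ≠ i)
    (hi : ∀ r, ¬ (E (Function.update r i true) ∧ E (Function.update r i false)))
    (hj : ∀ r, ¬ (E (Function.update r j true) ∧ E (Function.update r j false))) :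
    ex p (fun r : Y → Bool => if E r then 1 else 0) ≤ rate p := by
  have hq : 0 ≤ 1 - p := by linarith
  rw [LS.ex_update p i]
  rw [LS.ex_update p j]
  refine le_trans (ex_mono hp0 hp1 (G := fun _ => rate p) fun r => ?_) (ex_const p _).le
  have key : ∀ (A B C D : Prop) [Decidable A] [Decidable B] [Decidable C] [Decidable D],
      ¬ (A ∧ B) → ¬ (C ∧ D) → ¬ (A ∧ C) → ¬ (B ∧ D) →
      p * (p * (if A then 1 else 0) + (1 - p) * (if B then 1 else 0))
        + (1 - p) * (p * (if C then 1 else 0) + (1 - p) * (if D then 1 else 0)) ≤ rate p := by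
    intro A B C D _ _ _ _ hAB hCD hAC hBD
    unfold rate
    by_cases hA : A
    · have hB : ¬ B := fun h => hAB ⟨hA, h⟩
      have hC : ¬ C := fun h => hAC ⟨hA, h⟩
      simp only [hA, hB, hC, if_true, if_false]
      split_ifs <;> nlinarith [mul_nonneg hp0 hq, mul_nonneg hp0 hp0, mul_nonneg hq hq]
    · by_cases hD : D
      · have hB : ¬ B := fun h => hBD ⟨h, hD⟩
        have hC : ¬ C := fun h => hCD ⟨h, hD⟩
        simp only [hA, hB, hC, hD, if_true, if_false]
        nlinarith [mul_nonneg hp0 hq, mul_nonneg hp0 hp0, mul_nonneg hq hq]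
      · simp only [hA, hD, if_false]
        split_ifs <;> nlinarith [mul_nonneg hp0 hq, sq_nonneg (p - (1 - p)), mul_nonneg hp0 hp0,
          mul_nonneg hq hq]
  have hcomm : ∀ a b : Bool, Function.update (Function.update r j b) i a =
      Function.update (Function.update r i a) j b := fun a b => Function.update_comm hij b a r
  refine key _ _ _ _ (hi _) (hi _) ?_ ?_
  · rw [hcomm, hcomm]; exact hj _
  · rw [hcomm, hcomm]; exact hj _

/-- twice the number of `false` entries, mod 4 -/
def par (r : Y → Bool) : ZMod 4 := ∑ y, if r y then 0 else 2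

theorem par_update (r : Y → Bool) (i : Y) (c : Bool) :
    par (Function.update r i c) = (if c then 0 else 2) +
      ∑ y ∈ Finset.univ.erase i, if r y then (0 : ZMod 4) else 2 := by
  unfold par
  rw [← Finset.add_sum_erase _ _ (Finset.mem_univ i)]
  congr 1
  · simp
  · refine Finset.sum_congr rfl fun y hy => ?_
    rw [Function.update_of_ne (Finset.ne_of_mem_erase hy)]

open Classical in
theorem par_prob {p : ℝ} (hp0 : 0 ≤ p) (hp1 : p ≤ 1) {i j : Y} (hij : j ≠ i) (τ : ZMod 4) :
    ex p (fun r : Y → Bool => if par r = τ then 1 else 0) ≤ rate p := by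
  have h : ∀ (i : Y) (r : Y → Bool),
      ¬ (par (Function.update r i true) = τ ∧ par (Function.update r i false) = τ) := by
    rintro i r ⟨h1, h2⟩
    rw [par_update] at h1 h2
    have h3 : (2 : ZMod 4) = 0 := by
      have := h2.trans h1.symm
      simpa using this
    exact absurd h3 (by decide)
  convert two_flip hp0 hp1 (fun r => par r = τ) hij (h i) (h j)

open Classical in
theorem par_rows {p : ℝ} (hp0 : 0 ≤ p) (hp1 : p ≤ 1) {i j : Y} (hij : j ≠ i) (τ : ZMod 4) (m : ℕ)
    (S : Set (Y → Bool)) :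
    exS p (fun T => if ∀ r ∈ T, par r = τ then 1 else 0) m S ≤ rate p ^ m := by
  induction m generalizing S with
  | zero =>
    rw [exS_zero, pow_zero]
    split_ifs <;> norm_num
  | succ m ih =>
    rw [exS_succ]
    have step : ∀ r : Y → Bool,
        exS p (fun T => if ∀ r ∈ T, par r = τ then 1 else 0) m (insert r S) ≤
          rate p ^ m * (if par r = τ then 1 else 0) := by
      intro r
      by_cases h : par r = τ
      · rw [if_pos h, mul_one]
        exact ih _
      · rw [if_neg h, mul_zero]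
        refine (exS_mono_above hp0 hp1 m (insert r S) (G := fun _ => 0) fun T hT => ?_).trans
          (exS_const p 0 m _).le
        rw [if_neg]
        intro hall
        exact h (hall r (hT (Set.mem_insert r S)))
    refine (ex_mono hp0 hp1 step).trans ?_
    rw [ex_smul, pow_succ]
    exact mul_le_mul_of_nonneg_left (par_prob hp0 hp1 hij τ) (pow_nonneg (rate_pos p).le m)

end flip

section sym
variable {ι : Type*} [Fintype ι] [DecidableEq ι]

/-- the rows with index outside `Y` and different from `i0` -/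
abbrev Out (Y : Finset ι) (i0 : ι) : Type _ := {i : ι // i ∉ Y ∧ i ≠ i0}

/-- the row `z` restricted to `Y` -/
def rw' (Y : Finset ι) (b : Sym2 ι → Bool) (z : ι) : Y → Bool := fun y => b s(z, (y : ι))

theorem out_card (Y : Finset ι) (i0 : ι) :
    Fintype.card ι ≤ Fintype.card (Out Y i0) + Y.card + 1 := by
  classical
  rw [Fintype.card_subtype]
  have h : (Finset.univ : Finset ι) ⊆
      (Finset.univ.filter fun i => i ∉ Y ∧ i ≠ i0) ∪ (Y ∪ {i0}) := by
    intro i _
    simp only [Finset.mem_union, Finset.mem_filter, Finset.mem_univ, true_and,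
      Finset.mem_singleton]
    tauto
  calc Fintype.card ι = (Finset.univ : Finset ι).card := rfl
    _ ≤ _ := Finset.card_le_card h
    _ ≤ (Finset.univ.filter fun i => i ∉ Y ∧ i ≠ i0).card + (Y ∪ {i0}).card :=
        Finset.card_union_le _ _
    _ ≤ (Finset.univ.filter fun i => i ∉ Y ∧ i ≠ i0).card + (Y.card + 1) := by
        gcongr
        exact (Finset.card_union_le _ _).trans (by simp)
    _ = _ := by ring

/-- the set of restricted rows -/
def rows (Y : Finset ι) (i0 : ι) (b : Sym2 ι → Bool) : Set (Y → Bool) :=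
  Set.range fun z : Out Y i0 => rw' Y b z

theorem ex_rows (p : ℝ) (Y : Finset ι) (i0 : ι) (F : Set (Y → Bool) → ℝ) :
    ex p (fun b : Sym2 ι → Bool => F (rows Y i0 b)) =
      exS p F (Fintype.card (Out Y i0)) ∅ := by
  classical
  rw [← exS_rows]
  let φ : Out Y i0 × Y → Sym2 ι := fun zy => s((zy.1 : ι), (zy.2 : ι))
  have hφ : Function.Injective φ := by
    rintro ⟨z, y⟩ ⟨z', y'⟩ h
    simp only [φ, Sym2.eq_iff] at h
    rcases h with ⟨h1, h2⟩ | ⟨h1, h2⟩
    · exact Prod.ext (Subtype.ext h1) (Subtype.ext h2)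
    · exfalso
      apply z.2.1
      rw [h1]
      exact y'.2
  rw [← ex_inj p φ hφ]
  refine ex_congr p fun b => ?_
  rw [Set.empty_union]
  rfl

theorem prob_rows (p : ℝ) (Y : Finset ι) (i0 : ι) (Q : Set (Y → Bool) → Prop) [DecidablePred Q] :
    bernoulliProb p {b : Sym2 ι → Bool | Q (rows Y i0 b)} =
      exS p (fun T => if Q T then 1 else 0) (Fintype.card (Out Y i0)) ∅ := by
  classical
  rw [prob_eq_ex, ← ex_rows]
  refine ex_congr p fun b => ?_
  by_cases h : Q (rows Y i0 b)
  · rw [if_pos h, if_pos (show b ∈ {b : Sym2 ι → Bool | Q (rows Y i0 b)} from h)]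
  · rw [if_neg h, if_neg (show b ∉ {b : Sym2 ι → Bool | Q (rows Y i0 b)} from h)]

theorem finrank_ker_le {K : Type*} [Field K] (Y : Finset ι) (S : Set (Y → Bool)) :
    Module.finrank K (ker K S) ≤ Y.card := by
  refine (Submodule.finrank_le _).trans ?_
  rw [Module.finrank_fintype_fun_eq_card, Fintype.card_coe]

/-- the restriction to `Y` of a vector supported in `Y` and killed by the rows `≠ i0` -/
theorem restrict_mem_ker {R : Type*} [CommRing R] (Y : Finset ι) (i0 : ι) (b : Sym2 ι → Bool)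
    (v : ι → R) (hY : ∀ i, i ∉ Y → v i = 0)
    (hv : ∀ i, i ≠ i0 → (((symMat b).map (Int.cast : ℤ → R)).mulVec v) i = 0) :
    (fun y : Y => v y) ∈ ker R (rows Y i0 b) := by
  classical
  rintro r ⟨z, rfl⟩
  have h1 := hv z z.2.2
  have h2 : (((symMat b).map (Int.cast : ℤ → R)).mulVec v) (z : ι) =
      ∑ i, ((sg (b s((z : ι), i)) : ℤ) : R) * v i := by
    simp [Matrix.mulVec, dotProduct, symMat]
  rw [h2] at h1
  unfold dot
  rw [← Finset.sum_subset (Finset.subset_univ Y) (fun i _ hi => by rw [hY i hi, mul_zero])] at h1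
  rw [← Finset.sum_coe_sort Y (fun i => ((sg (b s((z : ι), i)) : ℤ) : R) * v i)] at h1
  exact h1

end sym

end Crest.Agent.R152.Sparse
end

-- ▼ part R152/Sparse5
section

set_option autoImplicit false
set_option linter.unusedSectionVars false

/-! Row 152, SPARSE part 5: the final statement. -/

open Crest.FinProb Crest.ProbabilityR.SignMatrix
open scoped Matrix

namespace Crest.Agent.R152.Sparse

open Crest.Agent.R152.Base Crest.Agent.R152.Asm

section fixed
variable {ι : Type*} [Fintype ι] [DecidableEq ι]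

/-- degenerate over `ℚ` -/
def B0 (Y : Finset ι) (i0 : ι) : Set (Sym2 ι → Bool) :=
  {b | ∃ w ∈ ker ℚ (rows Y i0 b), w ≠ 0}

/-- degenerate modulo an odd prime -/
def B1 (Y : Finset ι) (i0 : ι) : Set (Sym2 ι → Bool) :=
  {b | ∃ l : ℕ, l.Prime ∧ l ≠ 2 ∧ ∃ w ∈ ker (ZMod l) (rows Y i0 b), w ≠ 0}

/-- degenerate modulo four -/
def B2 (Y : Finset ι) (i0 : ι) (τ : ZMod 4) : Set (Sym2 ι → Bool) :=
  {b | (∃ i j : Y, j ≠ i) ∧ ∀ r ∈ rows Y i0 b, par r = τ}

/-- the bad event for `Y`, `i0` -/
def BB (Y : Finset ι) (i0 : ι) : Set (Sym2 ι → Bool) :=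
  (B0 Y i0 ∪ B1 Y i0) ∪ ⋃ τ : ZMod 4, B2 Y i0 τ

theorem prob_BB {p : ℝ} (hp0 : 0 ≤ p) (hp1 : p ≤ 1) {t : ℝ} (ht : 1 ≤ t)
    (hX1 : rate p + 1 / t ≤ 1) (Y : Finset ι) (i0 : ι) :
    bernoulliProb p (BB Y i0) ≤ (((Fintype.card ι) ^ 2 + 6 : ℕ) / (rate p + 1 / t)) *
      (t ^ 2 / (rate p + 1 / t)) ^ Y.card * (rate p + 1 / t) ^ Fintype.card ι := by
  classical
  set X : ℝ := rate p + 1 / t with hX
  have ht0 : 0 < t := lt_of_lt_of_le one_pos ht
  have hX0 : 0 < X := add_pos (rate_pos p) (by positivity)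
  set m : ℕ := Fintype.card (Out Y i0) with hm
  have hYn : Y.card ≤ Fintype.card ι := Finset.card_le_univ Y
  have hT : (1 : ℝ) ≤ t ^ Y.card := one_le_pow₀ ht
  have h0 : bernoulliProb p (B0 Y i0) ≤ t ^ Y.card * X ^ m := by
    have h := prob_rows p Y i0 (fun T => ∃ w ∈ ker ℚ T, w ≠ 0)
    have h' := chain_field (K := ℚ) two_ne_zero hp0 hp1 ht m (∅ : Set (Y → Bool))
    unfold B0
    rw [h]
    refine le_trans (le_trans (le_of_eq ?_) h') ?_
    · congr
    · exact mul_le_mul_of_nonneg_right (pow_le_pow_right₀ ht (finrank_ker_le Y _)) (by positivity)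
  have h1 : bernoulliProb p (B1 Y i0) ≤
      (((Fintype.card ι) ^ 2 + 1 : ℕ) : ℝ) * (t ^ Y.card * t ^ Y.card) * X ^ m := by
    have h := prob_rows p Y i0
      (fun T => ∃ l : ℕ, l.Prime ∧ l ≠ 2 ∧ ∃ w ∈ ker (ZMod l) T, w ≠ 0)
    have h' := chain_primes hp0 hp1 ht m (∅ : Set (Y → Bool))
    unfold B1
    rw [h]
    refine le_trans (le_trans (le_of_eq ?_) h') ?_
    · congr
    · rw [Fintype.card_coe]
      have e1 : (((Y.card ^ 2 + 1 : ℕ) : ℝ)) ≤ (((Fintype.card ι) ^ 2 + 1 : ℕ) : ℝ) := by
        exact_mod_cast Nat.add_le_add_right (Nat.pow_le_pow_left hYn 2) 1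
      have e2 : t ^ Module.finrank ℚ (ker ℚ (∅ : Set (Y → Bool))) ≤ t ^ Y.card :=
        pow_le_pow_right₀ ht (finrank_ker_le Y _)
      calc ((Y.card ^ 2 + 1 : ℕ) : ℝ) * t ^ Y.card *
            (t ^ Module.finrank ℚ (ker ℚ (∅ : Set (Y → Bool))) * X ^ m)
          ≤ (((Fintype.card ι) ^ 2 + 1 : ℕ) : ℝ) * t ^ Y.card * (t ^ Y.card * X ^ m) := by
            gcongr
        _ = _ := by ring
  have h2 : ∀ τ : ZMod 4, bernoulliProb p (B2 Y i0 τ) ≤ X ^ m := by
    intro τ
    by_cases hY : ∃ i j : Y, j ≠ i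
    · obtain ⟨i, j, hij⟩ := hY
      have h := prob_rows p Y i0 (fun T => ∀ r ∈ T, par r = τ)
      have h' := par_rows hp0 hp1 hij τ m (∅ : Set (Y → Bool))
      have hsub : B2 Y i0 τ ⊆ {b : Sym2 ι → Bool | ∀ r ∈ rows Y i0 b, par r = τ} :=
        fun b hb => hb.2
      refine (prob_mono hp0 hp1 hsub).trans ?_
      rw [h]
      refine le_trans (le_trans (le_of_eq ?_) h') ?_
      · congr
      · refine pow_le_pow_left₀ (rate_pos p).le ?_ m
        have : 0 < 1 / t := by positivity
        linarith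
    · have : B2 Y i0 τ = ∅ := by
        ext b
        simp only [B2, Set.mem_setOf_eq, Set.mem_empty_iff_false, iff_false]
        exact fun h => hY h.1
      rw [this, prob_empty]
      positivity
  have h3 : bernoulliProb p (⋃ τ : ZMod 4, B2 Y i0 τ) ≤ 4 * X ^ m := by
    refine (prob_iUnion_le hp0 hp1 _).trans ?_
    refine (Finset.sum_le_sum fun τ _ => h2 τ).trans ?_
    rw [Finset.sum_const, nsmul_eq_mul]
    simp [ZMod.card]
  have hcard : Fintype.card ι ≤ m + Y.card + 1 := out_card Y i0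
  have hXm : X ^ m ≤ X ^ Fintype.card ι / (X ^ Y.card * X) := by
    rw [le_div_iff₀ (by positivity), ← pow_succ, ← pow_add]
    exact pow_le_pow_of_le_one hX0.le hX1 (by omega)
  have hTT : (1 : ℝ) ≤ t ^ Y.card * t ^ Y.card := by nlinarith
  have htot : bernoulliProb p (BB Y i0) ≤
      (((Fintype.card ι) ^ 2 + 6 : ℕ) : ℝ) * (t ^ Y.card * t ^ Y.card) * X ^ m := by
    have hu := (prob_union_le hp0 hp1 (B0 Y i0 ∪ B1 Y i0) (⋃ τ : ZMod 4, B2 Y i0 τ)).trans
      (add_le_add (prob_union_le hp0 hp1 (B0 Y i0) (B1 Y i0)) le_rfl)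
    have hXm0 : 0 ≤ X ^ m := by positivity
    have e1 : t ^ Y.card * X ^ m ≤ (t ^ Y.card * t ^ Y.card) * X ^ m := by
      refine mul_le_mul_of_nonneg_right ?_ hXm0
      nlinarith
    have e2 : 4 * X ^ m ≤ 4 * ((t ^ Y.card * t ^ Y.card) * X ^ m) := by
      nlinarith [mul_le_mul_of_nonneg_right hTT hXm0]
    have e3 : (((Fintype.card ι) ^ 2 + 6 : ℕ) : ℝ) = (((Fintype.card ι) ^ 2 + 1 : ℕ) : ℝ) + 5 := by
      push_cast; ring
    rw [e3]
    unfold BB
    calc _ ≤ _ := hu
      _ ≤ (t ^ Y.card * t ^ Y.card) * X ^ m +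
          (((Fintype.card ι) ^ 2 + 1 : ℕ) : ℝ) * (t ^ Y.card * t ^ Y.card) * X ^ m +
          4 * ((t ^ Y.card * t ^ Y.card) * X ^ m) := by
        refine add_le_add (add_le_add (h0.trans e1) h1) (h3.trans e2)
      _ = _ := by ring
  refine htot.trans ?_
  calc (((Fintype.card ι) ^ 2 + 6 : ℕ) : ℝ) * (t ^ Y.card * t ^ Y.card) * X ^ m
      ≤ (((Fintype.card ι) ^ 2 + 6 : ℕ) : ℝ) * (t ^ Y.card * t ^ Y.card) *
        (X ^ Fintype.card ι / (X ^ Y.card * X)) :=
        mul_le_mul_of_nonneg_left hXm (by positivity)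
    _ = _ := by
      rw [div_pow, ← pow_mul, two_mul, pow_add]
      field_simp

end fixed

/-- all almost-kernel vectors over `ℚ`, modulo odd primes and modulo four have more than `c n`
nonzero (resp. odd) entries -/
def Dense (c : ℝ) {n : ℕ} (M : Matrix (Fin n) (Fin n) ℤ) : Prop :=
  (∀ v : Fin n → ℚ, v ≠ 0 →
    (∃ i0, ∀ i, i ≠ i0 → ((M.map (Int.cast : ℤ → ℚ)).mulVec v) i = 0) →
      c * n < ((Finset.univ.filter fun i => v i ≠ 0).card : ℝ)) ∧
  (∀ l : ℕ, l.Prime → l ≠ 2 → ∀ w : Fin n → ZMod l, w ≠ 0 →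
    (∃ i0, ∀ i, i ≠ i0 → ((M.map (Int.cast : ℤ → ZMod l)).mulVec w) i = 0) →
      c * n < ((Finset.univ.filter fun i => w i ≠ 0).card : ℝ)) ∧
  (∀ w : Fin n → ZMod 4, (∃ i, 2 * w i ≠ 0) →
    (∃ i0, ∀ i, i ≠ i0 → ((M.map (Int.cast : ℤ → ZMod 4)).mulVec w) i = 0) →
      c * n < ((Finset.univ.filter fun i => 2 * w i ≠ 0).card : ℝ))

theorem two_mul_zmod4 (w : ZMod 4) (h : 2 * w ≠ 0) : 2 * w = 2 := by
  revert w; decide

theorem zmod4_cast_two (w : ZMod 4) : (ZMod.castHom (show 2 ∣ 4 by norm_num) (ZMod 2)) w =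
    if 2 * w ≠ 0 then 1 else 0 := by
  revert w; decide

/-- a failure of `Dense` is a bad event for some small `Y` -/
theorem not_dense_subset {n : ℕ} {c : ℝ} (hc : c * n + 2 ≤ n) (b : Sym2 (Fin n) → Bool)
    (hb : ¬ Dense c (symMat b)) :
    ∃ (Y : Finset (Fin n)) (i0 : Fin n), (Y.card : ℝ) ≤ c * n ∧ b ∈ BB Y i0 := by
  classical
  by_contra hcon
  push Not at hcon
  apply hb
  refine ⟨?_, ?_, ?_⟩
  · rintro v hv ⟨i0, hi0⟩
    by_contra hlt
    push Not at hlt
    refine hcon (Finset.univ.filter fun i => v i ≠ 0) i0 hlt (Or.inl (Or.inl ?_))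
    refine ⟨_, restrict_mem_ker _ i0 b v (fun i hi => ?_) hi0, ?_⟩
    · simpa using hi
    · intro h
      apply hv
      funext i
      by_contra hi
      have : i ∈ Finset.univ.filter fun i => v i ≠ 0 := by simpa using hi
      exact hi (congrFun h ⟨i, this⟩)
  · rintro l hl hl2 v hv ⟨i0, hi0⟩
    by_contra hlt
    push Not at hlt
    refine hcon (Finset.univ.filter fun i => v i ≠ 0) i0 hlt (Or.inl (Or.inr ⟨l, hl, hl2, ?_⟩))
    refine ⟨_, restrict_mem_ker _ i0 b v (fun i hi => ?_) hi0, ?_⟩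
    · simpa using hi
    · intro h
      apply hv
      funext i
      by_contra hi
      have : i ∈ Finset.univ.filter fun i => v i ≠ 0 := by simpa using hi
      exact hi (congrFun h ⟨i, this⟩)
  · rintro w ⟨i1, hi1⟩ ⟨i0, hi0⟩
    by_contra hlt
    push Not at hlt
    set Y : Finset (Fin n) := Finset.univ.filter fun i => 2 * w i ≠ 0 with hY
    -- the value of the parity
    have hpar : ∀ z : Out Y i0, par (rw' Y b z) = ∑ j, w j := by
      intro z
      have h1 := hi0 z z.2.2
      have h2 : (((symMat b).map (Int.cast : ℤ → ZMod 4)).mulVec w) (z : Fin n) =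
          ∑ i, ((sg (b s((z : Fin n), i)) : ℤ) : ZMod 4) * w i := by
        simp [Matrix.mulVec, dotProduct, symMat]
      rw [h2] at h1
      have h3 : ∀ i, ((sg (b s((z : Fin n), i)) : ℤ) : ZMod 4) * w i =
          w i - (if b s((z : Fin n), i) then 0 else 2 * w i) := by
        intro i
        cases b s((z : Fin n), i) <;> simp [sg]
        ring
      rw [Finset.sum_congr rfl fun i _ => h3 i, Finset.sum_sub_distrib, sub_eq_zero] at h1
      rw [h1]
      unfold par rw'
      rw [Finset.sum_coe_sort Y (fun i => if b s((z : Fin n), i) then (0 : ZMod 4) else 2)]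
      rw [← Finset.sum_subset (Finset.subset_univ Y) (f := fun i =>
        if b s((z : Fin n), i) then (0 : ZMod 4) else 2 * w i) (fun i _ hi => ?_)]
      · refine Finset.sum_congr rfl fun i hi => ?_
        rw [hY, Finset.mem_filter] at hi
        rw [two_mul_zmod4 (w i) hi.2]
      · have : 2 * w i = 0 := by
          by_contra h
          exact hi (by rw [hY, Finset.mem_filter]; exact ⟨Finset.mem_univ _, h⟩)
        simp [this]
    -- an outside row exists
    have hout : Nonempty (Out Y i0) := by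
      rw [← Fintype.card_pos_iff]
      have h1 := out_card Y i0
      rw [Fintype.card_fin] at h1
      have h2 : (Y.card : ℝ) + 2 ≤ n := by linarith
      have h3 : Y.card + 2 ≤ n := by exact_mod_cast h2
      omega
    obtain ⟨z⟩ := hout
    have h2Y : ∃ i j : Y, j ≠ i := by
      have hi1Y : i1 ∈ Y := by rw [hY, Finset.mem_filter]; exact ⟨Finset.mem_univ _, hi1⟩
      by_contra hno
      push Not at hno
      have hYs : Y = {i1} := by
        ext j
        rw [Finset.mem_singleton]
        constructor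
        · intro hj
          exact congrArg Subtype.val (hno ⟨i1, hi1Y⟩ ⟨j, hj⟩)
        · rintro rfl; exact hi1Y
      have h1 := congrArg (ZMod.castHom (show 2 ∣ 4 by norm_num) (ZMod 2)) (hpar z)
      rw [map_sum, Finset.sum_congr rfl fun j _ => zmod4_cast_two (w j)] at h1
      have h3 : ∑ j : Fin n, (if 2 * w j ≠ 0 then (1 : ZMod 2) else 0) = 1 := by
        rw [← Finset.sum_filter, ← hY, hYs, Finset.sum_singleton]
      rw [h3] at h1
      unfold par at h1
      rw [map_sum] at h1
      have h4 : ∀ y : Y, (ZMod.castHom (show 2 ∣ 4 by norm_num) (ZMod 2))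
          (if rw' Y b z y then (0 : ZMod 4) else 2) = 0 := by
        intro y
        split_ifs <;> decide
      rw [Finset.sum_congr rfl fun y _ => h4 y] at h1
      simp at h1
    refine hcon Y i0 hlt (Or.inr ?_)
    rw [Set.mem_iUnion]
    refine ⟨∑ j, w j, h2Y, ?_⟩
    rintro r ⟨z, rfl⟩
    exact hpar z

end Crest.Agent.R152.Sparse
end

-- ▼ part R152/Sparse6

set_option autoImplicit false
set_option linter.unusedSectionVars false

/-! Row 152, SPARSE part 6: the probability bound `sp4` and its consequences for kernel vectors. -/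

open Crest.FinProb Crest.ProbabilityR.SignMatrix Filter Topology
open scoped Matrix

namespace Crest.Agent.R152.Sparse

open Crest.Agent.R152.Base Crest.Agent.R152.Asm

theorem sum_small {ι : Type*} [Fintype ι] [DecidableEq ι] {g u s : ℝ} (hg : 0 ≤ g) (hu : 1 ≤ u) :
    ∑ Y ∈ (Finset.univ : Finset (Finset ι)).filter (fun Y => (Y.card : ℝ) ≤ s), g ^ Y.card ≤
      u ^ s * (1 + g / u) ^ Fintype.card ι := by
  classical
  have hu0 : 0 < u := lt_of_lt_of_le one_pos hu
  have h1 : ∀ Y ∈ (Finset.univ : Finset (Finset ι)).filter (fun Y => (Y.card : ℝ) ≤ s),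
      g ^ Y.card ≤ u ^ s * (g / u) ^ Y.card := by
    intro Y hY
    rw [Finset.mem_filter] at hY
    have h2 : u ^ Y.card ≤ u ^ s := by
      rw [← Real.rpow_natCast]
      exact Real.rpow_le_rpow_of_exponent_le hu hY.2
    have h3 : g ^ Y.card = u ^ Y.card * (g / u) ^ Y.card := by
      rw [← mul_pow, mul_div_cancel₀ _ hu0.ne']
    rw [h3]
    exact mul_le_mul_of_nonneg_right h2 (by positivity)
  refine (Finset.sum_le_sum h1).trans ?_
  rw [← Finset.mul_sum]
  refine mul_le_mul_of_nonneg_left ?_ (Real.rpow_nonneg hu0.le s)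
  calc _ ≤ ∑ Y : Finset ι, (g / u) ^ Y.card :=
        Finset.sum_le_sum_of_subset_of_nonneg (Finset.filter_subset _ _)
          (fun Y _ _ => by positivity)
    _ = (g / u + 1) ^ Fintype.card ι := by
        have := Finset.sum_pow_mul_eq_add_pow (g / u) 1 (Finset.univ : Finset ι)
        simp only [one_pow, mul_one, Finset.powerset_univ] at this
        rw [this]
        rfl
    _ = _ := by rw [add_comm]

/-- **SPARSE.** -/
theorem sp4 {p : ℝ} (hp0 : 0 < p) (hp1 : p < 1) : ∀ ε : ℝ, 0 < ε → ∃ c : ℝ, 0 < c ∧ ∃ n0 : ℕ,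
    ∀ n : ℕ, n0 ≤ n →
      bernoulliProb p {b : Sym2 (Fin n) → Bool | ¬ Dense c (symMat b)} ≤ (rate p + ε) ^ n := by
  classical
  intro ε hε
  have ha0 := rate_pos p
  rcases le_or_gt 1 (rate p + ε) with h1 | h1
  · refine ⟨1, one_pos, 0, fun n _ => ?_⟩
    exact (prob_le_one hp0.le hp1.le _).trans (one_le_pow₀ h1)
  set t : ℝ := 4 / ε with ht
  have ht1 : 1 ≤ t := by
    rw [ht, le_div_iff₀ hε]
    linarith
  have ht0 : 0 < t := lt_of_lt_of_le one_pos ht1
  have ht' : 1 / t = ε / 4 := by rw [ht, one_div_div]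
  set X : ℝ := rate p + 1 / t with hX
  have hX0 : 0 < X := add_pos ha0 (by positivity)
  have hX1 : X ≤ 1 := by rw [hX, ht']; linarith
  have hXε : X < rate p + ε := by rw [hX, ht']; linarith
  set g : ℝ := t ^ 2 / X with hg
  have hg0 : 0 < g := by positivity
  set L : ℝ := Real.log ((rate p + ε) / X) with hL
  have hL0 : 0 < L := Real.log_pos (by rw [lt_div_iff₀ hX0]; linarith)
  set u : ℝ := max 1 (4 * g / L) with hu
  have hu1 : 1 ≤ u := le_max_left _ _
  have hu0 : 0 < u := lt_of_lt_of_le one_pos hu1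
  have hgu : g / u ≤ L / 4 := by
    rw [div_le_iff₀ hu0]
    have : 4 * g / L ≤ u := le_max_right _ _
    rw [div_le_iff₀ hL0] at this
    nlinarith
  have hlu : 0 ≤ Real.log u := Real.log_nonneg hu1
  set c : ℝ := min (1 / 4) (L / (4 * (Real.log u + 1))) with hc
  have hc0 : 0 < c := lt_min (by norm_num) (by positivity)
  have hc4 : c ≤ 1 / 4 := min_le_left _ _
  have hcu : c * Real.log u ≤ L / 4 := by
    have h2 : c ≤ L / (4 * (Real.log u + 1)) := min_le_right _ _
    rw [le_div_iff₀ (by positivity)] at h2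
    nlinarith
  have hr : 1 < Real.exp (L / 2) := by
    rw [← Real.exp_zero]
    exact Real.exp_lt_exp.2 (by linarith)
  have hlim := tendsto_pow_const_div_const_pow_of_one_lt 3 hr
  have hev : ∀ᶠ n : ℕ in atTop, (n : ℝ) ^ 3 / Real.exp (L / 2) ^ n ≤ X / 7 :=
    ((tendsto_order.1 hlim).2 _ (by positivity)).mono fun n hn => hn.le
  obtain ⟨n1, hn1⟩ := eventually_atTop.1 hev
  refine ⟨c, hc0, max n1 3, fun n hn => ?_⟩
  have hn3 : 3 ≤ n := (le_max_right _ _).trans hn
  have hn1' := hn1 n ((le_max_left _ _).trans hn)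
  have hnR : (3 : ℝ) ≤ n := by exact_mod_cast hn3
  have hcn : c * n + 2 ≤ n := by nlinarith
  -- the union bound
  set 𝒴 : Finset (Finset (Fin n)) :=
    (Finset.univ : Finset (Finset (Fin n))).filter (fun Y => (Y.card : ℝ) ≤ c * n) with h𝒴
  have hsub : {b : Sym2 (Fin n) → Bool | ¬ Dense c (symMat b)} ⊆
      ⋃ Y ∈ 𝒴, ⋃ i0 : Fin n, BB Y i0 := by
    intro b hb
    obtain ⟨Y, i0, hY, hbb⟩ := not_dense_subset hcn b hb
    simp only [Set.mem_iUnion]
    exact ⟨Y, by rw [h𝒴, Finset.mem_filter]; exact ⟨Finset.mem_univ _, hY⟩, i0, hbb⟩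
  set Q : ℝ := (n : ℝ) * (((n : ℝ) ^ 2 + 6) / X) with hQ
  have hb1 : ∀ Y ∈ 𝒴, bernoulliProb p (⋃ i0 : Fin n, BB Y i0) ≤ Q * X ^ n * g ^ Y.card := by
    intro Y _
    refine (prob_iUnion_le hp0.le hp1.le _).trans ?_
    refine (Finset.sum_le_sum fun i0 _ => prob_BB hp0.le hp1.le ht1 hX1 Y i0).trans ?_
    rw [Finset.sum_const, nsmul_eq_mul, Finset.card_univ, Fintype.card_fin]
    rw [hQ, hg, hX]
    push_cast
    apply le_of_eq
    ring
  have hpoly : Q ≤ Real.exp (L / 2) ^ n := by
    rw [div_le_iff₀ (by positivity)] at hn1'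
    have h2 : (n : ℝ) * ((n : ℝ) ^ 2 + 6) ≤ 7 * (n : ℝ) ^ 3 := by nlinarith [sq_nonneg (n : ℝ)]
    rw [hQ, ← mul_div_assoc, div_le_iff₀ hX0]
    nlinarith
  calc bernoulliProb p {b : Sym2 (Fin n) → Bool | ¬ Dense c (symMat b)}
      ≤ bernoulliProb p (⋃ Y ∈ 𝒴, ⋃ i0 : Fin n, BB Y i0) := prob_mono hp0.le hp1.le hsub
    _ ≤ ∑ Y ∈ 𝒴, bernoulliProb p (⋃ i0 : Fin n, BB Y i0) := prob_biUnion_le hp0.le hp1.le _ _
    _ ≤ ∑ Y ∈ 𝒴, Q * X ^ n * g ^ Y.card := Finset.sum_le_sum hb1
    _ = Q * X ^ n * ∑ Y ∈ 𝒴, g ^ Y.card := by rw [Finset.mul_sum]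
    _ ≤ Q * X ^ n * (u ^ (c * n) * (1 + g / u) ^ n) := by
        have h2 := sum_small (ι := Fin n) (s := c * n) hg0.le hu1
        rw [Fintype.card_fin] at h2
        exact mul_le_mul_of_nonneg_left h2 (by positivity)
    _ ≤ Real.exp (L / 2) ^ n * X ^ n * (Real.exp (L / 4) ^ n * Real.exp (L / 4) ^ n) := by
        have h2 : u ^ (c * n) ≤ Real.exp (L / 4) ^ n := by
          rw [Real.rpow_def_of_pos hu0, ← Real.exp_nat_mul]
          refine Real.exp_le_exp.2 ?_
          calc Real.log u * (c * n) = (n : ℝ) * (c * Real.log u) := by ring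
            _ ≤ (n : ℝ) * (L / 4) := mul_le_mul_of_nonneg_left hcu (by positivity)
        have h3 : (1 + g / u) ^ n ≤ Real.exp (L / 4) ^ n := by
          refine pow_le_pow_left₀ (by positivity) ?_ n
          have := Real.add_one_le_exp (L / 4)
          linarith
        gcongr
    _ = Real.exp L ^ n * X ^ n := by
        rw [← mul_pow, ← mul_pow, ← mul_pow, ← mul_pow]
        congr 1
        have : Real.exp L = Real.exp (L / 2) * (Real.exp (L / 4) * Real.exp (L / 4)) := by
          rw [← Real.exp_add, ← Real.exp_add]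
          congr 1
          ring
        rw [this]
        ring
    _ = (rate p + ε) ^ n := by
        rw [hL, Real.exp_log (by positivity), ← mul_pow, div_mul_cancel₀ _ hX0.ne']


/-- primitive kernel vectors have many entries prime to `q`, for every prime `q` -/
theorem Dense.prime {c : ℝ} {n : ℕ} {M : Matrix (Fin n) (Fin n) ℤ} (h : Dense c M)
    {k : Fin n → ℤ} (hMk : M.mulVec k = 0) (hk : Prim k) {q : ℕ} (hq : q.Prime) :
    c * n < ((Finset.univ.filter fun j => ¬ (q : ℤ) ∣ k j).card : ℝ) := by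
  classical
  obtain ⟨j, hj⟩ : ∃ j, ¬ (q : ℤ) ∣ k j := by
    by_contra hno
    push Not at hno
    have h1 := hk q hno
    rw [Int.isUnit_iff] at h1
    have h2 := hq.two_le
    omega
  have hmul : ∀ (m : ℕ) (i : Fin n),
      ((M.map (Int.cast : ℤ → ZMod m)).mulVec (fun i => (k i : ZMod m))) i = 0 := by
    intro m i
    have h2 := congrFun hMk i
    simp only [Matrix.mulVec, dotProduct, Pi.zero_apply] at h2
    simp only [Matrix.mulVec, dotProduct, Matrix.map_apply]
    have h3 := congrArg (Int.cast : ℤ → ZMod m) h2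
    push_cast at h3
    exact h3
  by_cases hq2 : q = 2
  · subst hq2
    have hiff : ∀ i, 2 * ((k i : ℤ) : ZMod 4) ≠ 0 ↔ ¬ ((2 : ℕ) : ℤ) ∣ k i := by
      intro i
      have e : 2 * ((k i : ℤ) : ZMod 4) = ((2 * k i : ℤ) : ZMod 4) := by push_cast; ring
      rw [e, Ne, ZMod.intCast_zmod_eq_zero_iff_dvd]
      constructor
      · intro h1 h2
        apply h1
        obtain ⟨m, hm⟩ := h2
        exact ⟨m, by rw [hm]; push_cast; ring⟩
      · intro h1 h2
        apply h1
        obtain ⟨m, hm⟩ := h2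
        exact ⟨m, by push_cast at hm ⊢; linarith⟩
    have h1 := h.2.2 (fun i => ((k i : ℤ) : ZMod 4)) ⟨j, (hiff j).2 hj⟩ ⟨j, fun i _ => hmul 4 i⟩
    have h2 : (Finset.univ.filter fun i => 2 * ((k i : ℤ) : ZMod 4) ≠ 0) =
        Finset.univ.filter fun i => ¬ ((2 : ℕ) : ℤ) ∣ k i := by
      ext i
      simp only [Finset.mem_filter, Finset.mem_univ, true_and]
      exact hiff i
    rw [h2] at h1
    exact h1
  · have hiff : ∀ i, ((k i : ℤ) : ZMod q) ≠ 0 ↔ ¬ (q : ℤ) ∣ k i := by
      intro i
      rw [Ne, ZMod.intCast_zmod_eq_zero_iff_dvd]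
    have h1 := h.2.1 q hq hq2 (fun i => ((k i : ℤ) : ZMod q))
      (fun h0 => (hiff j).2 hj (congrFun h0 j)) ⟨j, fun i _ => hmul q i⟩
    have h2 : (Finset.univ.filter fun i => ((k i : ℤ) : ZMod q) ≠ 0) =
        Finset.univ.filter fun i => ¬ (q : ℤ) ∣ k i := by
      ext i
      simp only [Finset.mem_filter, Finset.mem_univ, true_and]
      exact hiff i
    rw [h2] at h1
    exact h1

end Crest.Agent.R152.Sparse
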