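import Mathlib
import Crest.Agent.R152.Base2

-- ▼ part R152/ROD1
section

set_option autoImplicit false

/-! Row 152, ROD part 1: robust Odlyzko lemma (exponential moment version). -/

open Crest.FinProb Crest.Agent.R152.Base Module
open scoped InnerProductSpace

namespace Crest.Agent.R152.ROD

section Resample
variable {ι : Type*} [Fintype ι] [DecidableEq ι]

/-- resampling one coordinate -/
theorem ex_update (p : ℝ) (i : ι) (F : (ι → Bool) → ℝ) :
    ex p F = ex p (fun x => p * F (Function.update x i true) +
      (1 - p) * F (Function.update x i false)) := by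
  have e := (Equiv.optionSubtypeNe i).symm
  have key : ∀ (b c : Bool) (a : {j // j ≠ i} → Bool),
      Function.update ((fun o : Option {j // j ≠ i} => o.elim b a) ∘
        (Equiv.optionSubtypeNe i).symm) i c =
      (fun o : Option {j // j ≠ i} => o.elim c a) ∘ (Equiv.optionSubtypeNe i).symm := by
    intro b c a
    funext j
    by_cases hj : j = i
    · subst hj
      simp
    · rw [Function.update_of_ne hj]
      simp [Equiv.optionSubtypeNe_symm_of_ne hj]
  rw [ex_comp (Equiv.optionSubtypeNe i).symm p F, ex_option,
    ex_comp (Equiv.optionSubtypeNe i).symm p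
      (fun x => p * F (Function.update x i true) + (1 - p) * F (Function.update x i false)),
    ex_option]
  refine ex_congr p fun a => ?_
  simp only [key]
  ring

end Resample

section Proj
variable {ι : Type*} [Fintype ι] [DecidableEq ι]







end Proj

end Crest.Agent.R152.ROD
end

-- ▼ part R152/ROD3
section

set_option autoImplicit false
set_option linter.unusedSectionVars false
set_option linter.unusedVariables false
set_option linter.deprecated false

/-! Row 152, ROD part 3: Odlyzko's lemma over an arbitrary field, weighted version, arbitrary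
two-valued coordinates; any family of linear conditions. -/

open Crest.FinProb Crest.Agent.R152.Base Module

namespace Crest.Agent.R152.ROD


section Field
variable {ι : Type*} [Fintype ι] [DecidableEq ι] {K : Type*} [Field K]

/-- the two-valued vector with values `a i` (heads) and `b i` (tails) -/
def two (a b : ι → K) (z : ι → Bool) : ι → K := fun i => if z i then a i else b i

theorem finrank_inf_ker (A : Submodule K (Module.Dual K (ι → K)))
    (g : Module.Dual K (ι → K) →ₗ[K] K) :
    finrank K A ≤ finrank K (A ⊓ LinearMap.ker g : Submodule K (Module.Dual K (ι → K))) + 1 := by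
  have h1 := Submodule.finrank_sup_add_finrank_inf_eq A (LinearMap.ker g)
  have h2 := LinearMap.finrank_range_add_finrank_ker g
  have h3 : finrank K (LinearMap.range g) ≤ 1 := by
    have := Submodule.finrank_le (LinearMap.range g)
    simpa using this
  have h4 := Submodule.finrank_le (A ⊔ LinearMap.ker g)
  omega

/-- Odlyzko, functional form -/
theorem odlyzko_dual {p M : ℝ} (hp0 : 0 ≤ p) (hp1 : p ≤ 1) (hpM : p ≤ M) (hqM : 1 - p ≤ M)
    (hM1 : M ≤ 1) (a b : ι → K) (hab : ∀ i, a i ≠ b i) (c : Module.Dual K (ι → K) → K) :
    ∀ (t : ℕ) (A : Submodule K (Module.Dual K (ι → K))), t ≤ finrank K A →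
      bernoulliProb p {z : ι → Bool | ∀ f ∈ A, f (two a b z) = c f} ≤ M ^ t := by
  classical
  have hM0 : 0 ≤ M := le_trans hp0 hpM
  intro t
  induction t with
  | zero =>
    intro A _
    rw [pow_zero]
    exact prob_le_one hp0 hp1 _
  | succ t ih =>
    intro A hA
    -- a nonzero functional in A
    have hne : A ≠ ⊥ := by
      intro h
      rw [h, finrank_bot] at hA
      omega
    obtain ⟨f0, hf0A, hf0⟩ := Submodule.exists_mem_ne_zero_of_ne_bot hne
    obtain ⟨i, hi⟩ : ∃ i, f0 (Pi.single i 1) ≠ 0 := by
      by_contra hcon
      push Not at hcon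
      apply hf0
      apply LinearMap.pi_ext'
      intro i
      ext
      simpa using hcon i
    set g : Module.Dual K (ι → K) →ₗ[K] K := LinearMap.applyₗ (Pi.single i (1 : K)) with hg
    have h1 := finrank_inf_ker A g
    have h2 := ih (A ⊓ LinearMap.ker g) (by omega)
    have hup : ∀ (z : ι → Bool) (β : Bool), two a b (Function.update z i β) =
        two a b z + ((if β then a i else b i) - (if z i then a i else b i)) • Pi.single i (1 : K) := by
      intro z β
      funext j
      by_cases hj : j = i
      · subst hj
        simp [two]
      · simp [two, hj]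
    have hind : ∀ (z : ι → Bool) (β : Bool) (f : Module.Dual K (ι → K)), f ∈ A ⊓ LinearMap.ker g →
        f (two a b (Function.update z i β)) = f (two a b z) := by
      intro z β f hf
      have hfk : f (Pi.single i (1 : K)) = 0 := by
        have := (Submodule.mem_inf.1 hf).2
        rw [LinearMap.mem_ker] at this
        simpa [hg] using this
      rw [hup, map_add, map_smul, hfk, smul_zero, add_zero]
    rw [prob_eq_ind] at h2 ⊢
    rw [ex_update p i]
    calc _ ≤ ex p (fun z : ι → Bool => M * ({z : ι → Bool | ∀ f ∈ A ⊓ LinearMap.ker g,
            f (two a b z) = c f}.indicator (fun _ => (1 : ℝ)) z)) := by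
          refine ex_mono hp0 hp1 fun z => ?_
          simp only [Set.indicator, Set.mem_setOf_eq]
          have himp : ∀ β : Bool, (∀ f ∈ A, f (two a b (Function.update z i β)) = c f) →
              (∀ f ∈ A ⊓ LinearMap.ker g, f (two a b z) = c f) := by
            intro β h f hf
            rw [← hind z β f hf]
            exact h f (Submodule.mem_inf.1 hf).1
          have hnot : ¬ ((∀ f ∈ A, f (two a b (Function.update z i true)) = c f) ∧
              (∀ f ∈ A, f (two a b (Function.update z i false)) = c f)) := by
            rintro ⟨ht, hf⟩
            have e1 := ht f0 hf0A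
            have e2 := hf f0 hf0A
            rw [hup, map_add, map_smul] at e1 e2
            have e3 : (a i - b i) * f0 (Pi.single i (1 : K)) = 0 := by
              have : f0 (two a b z) + (a i - (if z i then a i else b i)) • f0 (Pi.single i 1) =
                  f0 (two a b z) + (b i - (if z i then a i else b i)) • f0 (Pi.single i 1) := by
                have e1' := e1
                have e2' := e2
                simp only [if_true, Bool.false_eq_true, if_false] at e1' e2'
                rw [e1', e2']
              simp only [smul_eq_mul] at this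
              linear_combination this
            rcases mul_eq_zero.1 e3 with h | h
            · exact hab i (sub_eq_zero.1 h)
            · exact hi h
          by_cases ht : ∀ f ∈ A, f (two a b (Function.update z i true)) = c f
          · have hf : ¬ ∀ f ∈ A, f (two a b (Function.update z i false)) = c f :=
              fun h => hnot ⟨ht, h⟩
            rw [if_pos ht, if_neg hf, if_pos (himp true ht)]
            linarith
          · rw [if_neg ht]
            by_cases hf : ∀ f ∈ A, f (two a b (Function.update z i false)) = c f
            · rw [if_pos hf, if_pos (himp false hf)]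
              linarith
            · rw [if_neg hf]
              split_ifs
              · simpa using hM0
              · simp
      _ = M * ex p ({z : ι → Bool | ∀ f ∈ A ⊓ LinearMap.ker g,
            f (two a b z) = c f}.indicator (fun _ => (1 : ℝ))) := by
          rw [ex_smul]
      _ ≤ M * M ^ t := by gcongr
      _ = _ := by ring

/-- Odlyzko's lemma, weighted, over an arbitrary field: an affine subspace. -/
theorem odlyzko {p M : ℝ} (hp0 : 0 ≤ p) (hp1 : p ≤ 1) (hpM : p ≤ M) (hqM : 1 - p ≤ M)
    (hM1 : M ≤ 1) (a b : ι → K) (hab : ∀ i, a i ≠ b i) (V : Submodule K (ι → K)) (x0 : ι → K) :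
    bernoulliProb p {z : ι → Bool | two a b z - x0 ∈ V} ≤
      M ^ (Fintype.card ι - finrank K V) := by
  have h1 := odlyzko_dual hp0 hp1 hpM hqM hM1 a b hab (fun f => f x0)
    (Fintype.card ι - finrank K V) V.dualAnnihilator (by
      have := Subspace.finrank_add_finrank_dualAnnihilator_eq V
      rw [Module.finrank_fintype_fun_eq_card] at this
      omega)
  refine le_trans (prob_mono hp0 hp1 ?_) h1
  intro z hz f hf
  rw [Submodule.mem_dualAnnihilator] at hf
  have := hf _ hz
  rw [map_sub, sub_eq_zero] at this
  exact this

/-- Odlyzko's lemma for sign vectors. -/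
theorem odlyzko_sign {p M : ℝ} (hp0 : 0 ≤ p) (hp1 : p ≤ 1) (hpM : p ≤ M) (hqM : 1 - p ≤ M)
    (hM1 : M ≤ 1) (h2 : (2 : K) ≠ 0) (V : Submodule K (ι → K)) (x0 : ι → K) :
    bernoulliProb p {z : ι → Bool | (fun i => ((sg (z i) : ℤ) : K)) - x0 ∈ V} ≤
      M ^ (Fintype.card ι - finrank K V) := by
  have h := odlyzko hp0 hp1 hpM hqM hM1 (fun _ : ι => (1 : K)) (fun _ => (-1 : K)) (by
    intro _ h
    apply h2
    have : (1 : K) + 1 = 0 := by
      nth_rewrite 1 [h]
      ring
    linear_combination this) V x0
  refine le_trans (prob_mono hp0 hp1 ?_) h
  intro z hz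
  have : two (fun _ : ι => (1 : K)) (fun _ => (-1 : K)) z = (fun i => ((sg (z i) : ℤ) : K)) := by
    funext i
    by_cases hi : z i <;> simp [two, sg, hi]
  change two (fun _ : ι => (1 : K)) (fun _ => (-1 : K)) z - x0 ∈ V
  rw [this]
  exact hz

end Field

end Crest.Agent.R152.ROD
end

-- ▼ part R152/ROD4

set_option autoImplicit false
set_option linter.unusedSectionVars false
set_option linter.unusedVariables false
set_option linter.deprecated false

/-! Row 152, ROD part 4: asymptotic form of the robust Odlyzko lemma. -/

open Crest.FinProb Crest.Agent.R152.Base Module Filter Topology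
open scoped InnerProductSpace

namespace Crest.Agent.R152.ROD


universe u



theorem prob_half_eq {ι : Type*} [Fintype ι] [DecidableEq ι] (s : Finset (ι → Bool)) :
    bernoulliProb (1 / 2) (s : Set (ι → Bool)) = (s.card : ℝ) / 2 ^ Fintype.card ι := by
  classical
  have hw : ∀ z : ι → Bool, bernoulliWeight (1 / 2) z = (1 / 2) ^ Fintype.card ι := by
    intro z
    unfold bernoulliWeight
    rw [Finset.prod_congr rfl (g := fun _ => (1 / 2 : ℝ))]
    · rw [Finset.prod_const, Finset.card_univ]
    · intro i _
      split_ifs <;> norm_num
  rw [prob_eq_ex]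
  unfold ex
  simp only [hw, Finset.mem_coe, mul_ite, mul_one, mul_zero]
  rw [Finset.sum_ite_mem, Finset.univ_inter, Finset.sum_const, nsmul_eq_mul, one_div, inv_pow]
  rfl


end Crest.Agent.R152.ROD
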