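import Crest.Agent.R152.TP1
import Crest.Agent.R152.ROD4
import Mathlib
import Crest.Agent.R152.Base2

-- ▼ part R152/TP2
section

set_option autoImplicit false

/-!
# Row 152, module TP (helper199), part 2: the lattice `A⁻¹ ℤⁿ`

Its Gram matrix is `G = (A⁻¹)ᵀ A⁻¹`; all sub-determinants are at least `1 / (det A)²`.
-/

namespace Crest.Agent.R152.TP

open Matrix Module Crest.Agent.R152.WRM Crest.Agent.R152.WRM3

/-- index of the image of an integer matrix -/
theorem card_quot_range {m : ℕ} (A : Matrix (Fin m) (Fin m) ℤ) (hA : A.det ≠ 0) :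
    Nat.card ((Fin m → ℤ) ⧸ LinearMap.range A.mulVecLin) = A.det.natAbs := by
  have hinj : Function.Injective A.mulVecLin := by
    rw [Matrix.coe_mulVecLin]
    exact Matrix.mulVec_injective_of_det_ne_zero hA
  let e : (Fin m → ℤ) ≃ₗ[ℤ] LinearMap.range A.mulVecLin := LinearEquiv.ofInjective _ hinj
  let bN : Basis (Fin m) ℤ (LinearMap.range A.mulVecLin) := (Pi.basisFun ℤ (Fin m)).map e
  have h := Submodule.natAbs_det_basis_change (Pi.basisFun ℤ (Fin m)) _ bN
  rw [← h, Pi.basisFun_det_apply]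
  congr 1
  rw [← Matrix.det_transpose]
  congr 1
  ext i j
  simp [bN, e, Matrix.transpose_apply]


/-- the Gram matrix of `A⁻¹ ℤᵐ` -/
noncomputable def gi {m : ℕ} (A : Matrix (Fin m) (Fin m) ℤ) : Matrix (Fin m) (Fin m) ℝ :=
  ((im A)⁻¹)ᵀ * (im A)⁻¹

theorem im_det_ne {m : ℕ} {A : Matrix (Fin m) (Fin m) ℤ} (hA : A.det ≠ 0) : (im A).det ≠ 0 := by
  rw [im_det]; exact_mod_cast hA

theorem gi_posDef {m : ℕ} {A : Matrix (Fin m) (Fin m) ℤ} (hA : A.det ≠ 0) : (gi A).PosDef := by
  have h1 : IsUnit (im A).det := isUnit_iff_ne_zero.mpr (im_det_ne hA)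
  have hinj : Function.Injective ((im A)⁻¹).mulVec := by
    rw [Matrix.mulVec_injective_iff_isUnit, Matrix.isUnit_nonsing_inv_iff, Matrix.isUnit_iff_isUnit_det]
    exact h1
  have h2 := (Matrix.PosDef.one (n := Fin m) (R := ℝ)).conjTranspose_mul_mul_same hinj
  simpa [gi, Matrix.conjTranspose_eq_transpose_of_trivial] using h2

theorem qf_gi {m : ℕ} (A : Matrix (Fin m) (Fin m) ℤ) (x : Fin m → ℝ) :
    qf (gi A) x = ∑ i, ((im A)⁻¹ *ᵥ x) i ^ 2 := qf_AtA _ x

/-- **sub-determinants of `A⁻¹ ℤᵐ`** -/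
theorem detGe_gi {m : ℕ} {A : Matrix (Fin m) (Fin m) ℤ} (hA : A.det ≠ 0) :
    DetGe (1 / (A.det : ℝ) ^ 2) (gi A) := by
  intro k Z hZ
  have hdA : 0 < (A.det : ℝ) ^ 2 := by
    have : (A.det : ℝ) ≠ 0 := by exact_mod_cast hA
    positivity
  have hZpos := det_gr_pos (gi_posDef hA) hZ
  set Rg : Submodule ℤ (Fin m → ℤ) := LinearMap.range A.mulVecLin with hRg
  set K : Submodule ℤ (Fin k → ℤ) := Submodule.comap Z.mulVecLin Rg with hK
  have hcard := card_quot_range A hA
  have hfin : Finite ((Fin m → ℤ) ⧸ Rg) :=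
    Nat.finite_of_card_ne_zero (by rw [hcard]; exact Int.natAbs_ne_zero.mpr hA)
  let φ : ((Fin k → ℤ) ⧸ K) →ₗ[ℤ] ((Fin m → ℤ) ⧸ Rg) := Submodule.mapQ K Rg Z.mulVecLin le_rfl
  have hφ : Function.Injective φ := by
    rw [← LinearMap.ker_eq_bot, Submodule.ker_mapQ]
    exact Submodule.mkQ_map_self K
  have hfinK : Finite ((Fin k → ℤ) ⧸ K) := Finite.of_injective φ hφ
  have hcardK : Nat.card ((Fin k → ℤ) ⧸ K) ≤ A.det.natAbs := by
    rw [← hcard]; exact Nat.card_le_card_of_injective φ hφ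
  have hrank : Module.finrank ℤ K = k := by
    rw [(Submodule.finiteQuotient_iff K).mp hfinK]; simp
  let bK : Basis (Fin k) ℤ K := (Module.finBasis ℤ K).reindex (finCongr hrank)
  set P : Matrix (Fin k) (Fin k) ℤ := Matrix.of fun i j => (bK j : Fin k → ℤ) i with hP
  have hPdet : P.det.natAbs = Nat.card ((Fin k → ℤ) ⧸ K) := by
    rw [← Submodule.natAbs_det_basis_change (Pi.basisFun ℤ (Fin k)) K bK, Pi.basisFun_det_apply,
      ← Matrix.det_transpose]
    rfl
  have hP0 : P.det ≠ 0 := by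
    intro h
    have h1 : Nat.card ((Fin k → ℤ) ⧸ K) ≠ 0 := Nat.card_pos.ne'
    rw [← hPdet, h] at h1
    simp at h1
  have hmem : ∀ j, ∃ y : Fin m → ℤ, A *ᵥ y = Z *ᵥ (bK j : Fin k → ℤ) := by
    intro j
    have h1 : Z.mulVecLin (bK j : Fin k → ℤ) ∈ Rg := (bK j).2
    obtain ⟨y, hy⟩ := h1
    exact ⟨y, by simpa using hy⟩
  choose y hy using hmem
  set Y : Matrix (Fin m) (Fin k) ℤ := Matrix.of fun i j => y j i with hY
  have hZP : Z * P = A * Y := by
    ext i j
    have h1 := congrFun (hy j) i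
    simp only [Matrix.mulVec, dotProduct] at h1
    rw [Matrix.mul_apply, Matrix.mul_apply]
    simp only [hP, hY, Matrix.of_apply]
    exact h1.symm
  have hinv : (im A)⁻¹ * im A = 1 :=
    Matrix.nonsing_inv_mul _ (isUnit_iff_ne_zero.mpr (im_det_ne hA))
  have hgr : gr (gi A) (Z * P) = im (Yᵀ * Y) := by
    unfold gr gi
    rw [hZP, WRM3.im_mul, WRM3.im_mul, WRM3.im_transpose]
    rw [Matrix.transpose_mul]
    have e1 : (im Y)ᵀ * (im A)ᵀ * (((im A)⁻¹)ᵀ * (im A)⁻¹) * (im A * im Y) =
        (im Y)ᵀ * ((im A)⁻¹ * im A)ᵀ * (((im A)⁻¹ * im A) * im Y) := by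
      rw [Matrix.transpose_mul]
      simp only [Matrix.mul_assoc]
    rw [e1, hinv]
    simp
  have hdet1 : (gr (gi A) (Z * P)).det = (P.det : ℝ) ^ 2 * (gr (gi A) Z).det := by
    rw [gr_mul, det_gr]
  have hPr : (0:ℝ) < (P.det : ℝ) ^ 2 := by
    have : (P.det : ℝ) ≠ 0 := by exact_mod_cast hP0
    positivity
  have h1 : (1:ℝ) ≤ (P.det : ℝ) ^ 2 * (gr (gi A) Z).det := by
    rw [← hdet1, hgr, im_det]
    have h2 : (0:ℝ) < ((Yᵀ * Y).det : ℝ) := by
      rw [← im_det, ← hgr, hdet1]; positivity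
    have h3 : 0 < (Yᵀ * Y).det := by exact_mod_cast h2
    exact_mod_cast h3
  have h4 : (P.det : ℝ) ^ 2 ≤ (A.det : ℝ) ^ 2 := by
    have h5 : P.det.natAbs ≤ A.det.natAbs := by rw [hPdet]; exact hcardK
    have h6 : |P.det| ≤ |A.det| := by
      rw [Int.abs_eq_natAbs, Int.abs_eq_natAbs]; exact_mod_cast h5
    have h7 : |(P.det : ℝ)| ≤ |(A.det : ℝ)| := by exact_mod_cast h6
    exact sq_le_sq.mpr h7
  rw [div_le_iff₀ hdA]
  calc (1:ℝ) ≤ (P.det : ℝ) ^ 2 * (gr (gi A) Z).det := h1
    _ ≤ (A.det : ℝ) ^ 2 * (gr (gi A) Z).det := by gcongr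
    _ = (gr (gi A) Z).det * (A.det : ℝ) ^ 2 := by ring

end Crest.Agent.R152.TP
end

-- ▼ part R152/TP3
section

set_option autoImplicit false

/-!
# Row 152, module TP (helper199), part 3: counting sign vectors with `A⁻¹ x` bounded
-/

open Crest.FinProb Crest.ProbabilityR.SignMatrix Crest.Agent.R152.Base

namespace Crest.Agent.R152.TP

open Matrix Module Crest.Agent.R152.WRM Crest.Agent.R152.WRM3

theorem half_pow_mul {k n : ℕ} (h : k ≤ n) : ((1/2 : ℝ)) ^ (n - k) * 2 ^ n = 2 ^ k := by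
  obtain ⟨j, rfl⟩ := Nat.exists_eq_add_of_le h
  rw [Nat.add_sub_cancel_left, one_div, inv_pow, pow_add]
  field_simp

/-- a fibre of a linear map contains at most `2 ^ dim ker` sign vectors -/
theorem count_fiber {n l : ℕ} (T : (Fin n → ℝ) →ₗ[ℝ] (Fin l → ℝ)) (y : Fin l → ℝ)
    (s : Finset (Fin n → Bool)) (hs : ∀ x ∈ s, T (fun i => ((sg (x i) : ℤ) : ℝ)) = y) :
    s.card ≤ 2 ^ finrank ℝ (LinearMap.ker T) := by
  classical
  rcases s.eq_empty_or_nonempty with rfl | ⟨x0, hx0⟩
  · simp
  set z0 : Fin n → ℝ := fun i => ((sg (x0 i) : ℤ) : ℝ) with hz0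
  have h1 := ROD.odlyzko_sign (K := ℝ) (p := 1/2) (M := 1/2) (by norm_num) (by norm_num) le_rfl
    (by norm_num) (by norm_num) (by norm_num) (LinearMap.ker T) z0
  have h2 : (s : Set (Fin n → Bool)) ⊆
      {z : Fin n → Bool | (fun i => ((sg (z i) : ℤ) : ℝ)) - z0 ∈ LinearMap.ker T} := by
    intro x hx
    simp only [Set.mem_ofPred_eq, LinearMap.mem_ker, map_sub]
    rw [hs x hx, hs x0 hx0, sub_self]
  have h3 := (prob_mono (by norm_num) (by norm_num) h2).trans h1
  rw [ROD.prob_half_eq, Fintype.card_fin, div_le_iff₀ (by positivity)] at h3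
  have hk : finrank ℝ (LinearMap.ker T) ≤ n := by
    have := Submodule.finrank_le (LinearMap.ker T)
    rwa [Module.finrank_fintype_fun_eq_card, Fintype.card_fin] at this
  rw [half_pow_mul hk] at h3
  exact_mod_cast h3

/-- coordinates of `A⁻¹ x` -/
noncomputable def vv {n : ℕ} (A : Matrix (Fin n) (Fin n) ℤ) (x : Fin n → Bool) : Fin n → ℝ :=
  (im A)⁻¹ *ᵥ (fun i => ((sg (x i) : ℤ) : ℝ))

theorem im_mul_vv {n : ℕ} {A : Matrix (Fin n) (Fin n) ℤ} (hA : A.det ≠ 0) (x : Fin n → Bool) :
    im A *ᵥ vv A x = fun i => ((sg (x i) : ℤ) : ℝ) := by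
  unfold vv
  rw [Matrix.mulVec_mulVec, Matrix.mul_nonsing_inv _ (isUnit_iff_ne_zero.mpr (im_det_ne hA)),
    Matrix.one_mulVec]

theorem sg_sub_sq (a b : Bool) : (((sg a : ℤ) : ℝ) - ((sg b : ℤ) : ℝ)) ^ 2 ≤ 4 := by
  cases a <;> cases b <;> norm_num [sg]

/-- **main count** (deterministic) -/
theorem count_main {δ : ℝ} (hδ : 0 < δ) : ∃ n0 : ℕ, ∀ n : ℕ, n0 ≤ n → 1 ≤ n ∧
    ∀ A : Matrix (Fin n) (Fin n) ℤ, A.det ≠ 0 →
    ∀ (m : ℕ) (c : Fin m → (Fin n → ℝ) →ₗ[ℝ] ℝ) (t2 : ℝ), 0 < t2 → m ≤ n ^ 2 →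
    (∀ l v, (c l v) ^ 2 ≤ ∑ j, v j ^ 2) →
    (∀ v, ∑ j, v j ^ 2 ≤ ∑ l, (c l v) ^ 2 + (∑ q, (im A *ᵥ v) q ^ 2) / t2) →
    ∀ E : ℝ, 1 < E → ∀ (B : ℝ) (K : ℕ), 0 ≤ B → (n : ℝ) ^ 2 * B + 1 ≤ K →
    ∀ s : Finset (Fin n → Bool), (∀ x ∈ s, ∀ i, |vv A x i| ≤ B) →
    ∃ k : ℕ, E ^ k ≤ E * (A.det : ℝ) ^ 2 ∧
      (s.card : ℝ) ≤ ((2 * K + 1 : ℕ) : ℝ) ^ m *
        Real.exp (2 * (n : ℝ) ^ (1 - δ / 4) +
          Real.pi * (n : ℝ) ^ (2 * δ) * (E ^ 2 * (1 + 4 * n / t2))) * 2 ^ k := by
  classical
  obtain ⟨n0, h⟩ := rwrm hδ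
  refine ⟨n0, fun n hn => ?_⟩
  obtain ⟨hn1, h⟩ := h n hn
  refine ⟨hn1, fun A hA m c t2 ht2 hm h2 h1 E hE B K hB hK s hs => ?_⟩
  have hdA : 0 < (A.det : ℝ) ^ 2 := by
    have : (A.det : ℝ) ≠ 0 := by exact_mod_cast hA
    positivity
  obtain ⟨k, l, T, hTs, hlk, hEk, hT⟩ := h n le_rfl (gi A) (gi_posDef hA) _ E hdA hE (detGe_gi hA)
  refine ⟨k, hEk, ?_⟩
  have hnpos : (0:ℝ) < n := by exact_mod_cast hn1
  have hker : finrank ℝ (LinearMap.ker T) = k := by
    have e1 := T.finrank_range_add_finrank_ker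
    rw [LinearMap.range_eq_top.mpr hTs, finrank_top, Module.finrank_fintype_fun_eq_card,
      Module.finrank_fintype_fun_eq_card, Fintype.card_fin, Fintype.card_fin] at e1
    omega
  set r : ℝ := 1 + 4 * n / t2 with hr
  obtain ⟨hfin, hcard⟩ := hT r
  set X : Set (Fin l → ℝ) := (fun z : Fin n → ℤ => T (iv z)) '' {z | qf (gi A) (iv z) ≤ r} with hX
  set M : ℝ := Real.exp (2 * (n : ℝ) ^ (1 - δ / 4) +
          Real.pi * (n : ℝ) ^ (2 * δ) * (E ^ 2 * r)) with hM
  -- cells
  let cell : (Fin n → Bool) → (Fin m → ℤ) := fun x l => ⌊(n : ℝ) * c l (vv A x)⌋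
  have hcell : ∀ x ∈ s, cell x ∈ Fintype.piFinset (fun _ : Fin m => Finset.Icc (-(K : ℤ)) K) := by
    intro x hx
    rw [Fintype.mem_piFinset]
    intro l
    have e1 : (c l (vv A x)) ^ 2 ≤ (n * B) ^ 2 := by
      refine (h2 l _).trans ?_
      calc ∑ j, vv A x j ^ 2 ≤ ∑ _j : Fin n, B ^ 2 := by
            refine Finset.sum_le_sum fun j _ => ?_
            rw [← sq_abs]
            exact pow_le_pow_left₀ (abs_nonneg _) (hs x hx j) 2
        _ = n * B ^ 2 := by simp
        _ ≤ (n * B) ^ 2 := by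
            rw [mul_pow]
            have : (1:ℝ) ≤ n := by exact_mod_cast hn1
            have h4 : (n:ℝ) ≤ n ^ 2 := by nlinarith
            exact mul_le_mul_of_nonneg_right h4 (sq_nonneg B)
    have e2 : |c l (vv A x)| ≤ n * B := by
      apply abs_le_of_sq_le_sq e1 (by positivity) 
    have e3 : |(n : ℝ) * c l (vv A x)| ≤ n ^ 2 * B := by
      rw [abs_mul, abs_of_pos hnpos]
      calc (n:ℝ) * |c l (vv A x)| ≤ n * (n * B) := by gcongr
        _ = n ^ 2 * B := by ring
    obtain ⟨e4, e5⟩ := abs_le.mp e3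
    rw [Finset.mem_Icc]
    constructor
    · have e6 := Int.lt_floor_add_one ((n : ℝ) * c l (vv A x))
      have e7 : (-(K:ℝ)) ≤ (⌊(n : ℝ) * c l (vv A x)⌋ : ℝ) := by linarith
      have : ((-(K:ℤ) : ℤ) : ℝ) ≤ ((⌊(n : ℝ) * c l (vv A x)⌋ : ℤ) : ℝ) := by push_cast; linarith
      exact_mod_cast this
    · have e6 := Int.floor_le ((n : ℝ) * c l (vv A x))
      have : ((⌊(n : ℝ) * c l (vv A x)⌋ : ℤ) : ℝ) ≤ ((K:ℤ) : ℝ) := by push_cast; linarith
      exact_mod_cast this
  -- distances in a cell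
  have hdist : ∀ x ∈ s, ∀ x' ∈ s, cell x = cell x' →
      qf (gi A) (iv (fun i => sg (x i) - sg (x' i))) ≤ r := by
    intro x hx x' hx' hcc
    have e0 : iv (fun i => sg (x i) - sg (x' i)) =
        (fun i => ((sg (x i) : ℤ) : ℝ)) - (fun i => ((sg (x' i) : ℤ) : ℝ)) := by
      ext i; simp [iv]
    rw [qf_gi, e0, Matrix.mulVec_sub]
    change ∑ i, ((vv A x - vv A x') i) ^ 2 ≤ r
    refine (h1 _).trans ?_
    rw [hr]
    have e1 : ∑ l, (c l (vv A x - vv A x')) ^ 2 ≤ 1 := by
      have e2 : ∀ l, (c l (vv A x - vv A x')) ^ 2 ≤ 1 / (n:ℝ) ^ 2 := by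
        intro l
        have e3 : cell x l = cell x' l := congrFun hcc l
        have e4 : |(n : ℝ) * c l (vv A x) - (n : ℝ) * c l (vv A x')| < 1 :=
          Int.abs_sub_lt_one_of_floor_eq_floor e3
        rw [← mul_sub, ← map_sub, abs_mul, abs_of_pos hnpos] at e4
        rw [le_div_iff₀ (by positivity), ← sq_abs, ← mul_pow]
        have e5 : 0 ≤ |c l (vv A x - vv A x')| * n := by positivity
        have e6 : |c l (vv A x - vv A x')| * n ≤ 1 := by rw [mul_comm]; exact e4.le
        nlinarith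
      calc ∑ l, (c l (vv A x - vv A x')) ^ 2 ≤ ∑ _l : Fin m, 1 / (n:ℝ) ^ 2 :=
            Finset.sum_le_sum fun l _ => e2 l
        _ = m / (n:ℝ) ^ 2 := by simp [div_eq_mul_inv]
        _ ≤ 1 := by
            rw [div_le_one (by positivity)]
            exact_mod_cast hm
    have e2 : (∑ q, (im A *ᵥ (vv A x - vv A x')) q ^ 2) ≤ 4 * n := by
      rw [Matrix.mulVec_sub, im_mul_vv hA, im_mul_vv hA]
      calc ∑ q, (((fun i => ((sg (x i) : ℤ) : ℝ)) - (fun i => ((sg (x' i) : ℤ) : ℝ))) q) ^ 2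
          ≤ ∑ _q : Fin n, (4:ℝ) := Finset.sum_le_sum fun q _ => sg_sub_sq _ _
        _ = 4 * n := by simp [mul_comm]
    have e3 : (∑ q, (im A *ᵥ (vv A x - vv A x')) q ^ 2) / t2 ≤ 4 * n / t2 := by gcongr
    linarith
  -- one cell
  have hone : ∀ a : Fin m → ℤ, ((s.filter fun x => cell x = a).card : ℝ) ≤ M * 2 ^ k := by
    intro a
    set sa := s.filter fun x => cell x = a with hsa
    rcases sa.eq_empty_or_nonempty with he | ⟨x0, hx0⟩
    · rw [he]; simp; positivity
    have hx0' := Finset.mem_filter.mp hx0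
    let f : (Fin n → Bool) → (Fin l → ℝ) := fun x => T (fun i => ((sg (x i) : ℤ) : ℝ))
    have hfib : ∀ y ∈ sa.image f, (sa.filter fun x => f x = y).card ≤ 2 ^ k := by
      intro y _
      rw [← hker]
      exact count_fiber T y _ fun x hx => (Finset.mem_filter.mp hx).2
    have hc1 : sa.card ≤ 2 ^ k * (sa.image f).card :=
      Finset.card_le_mul_card_image sa (2 ^ k) hfib
    have himg : ((sa.image f).card : ℝ) ≤ M := by
      refine le_trans ?_ hcard
      have hsub : ((sa.image f : Finset (Fin l → ℝ)) : Set (Fin l → ℝ)) ⊆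
          (fun y => y + f x0) '' X := by
        intro y hy
        rw [Finset.mem_coe, Finset.mem_image] at hy
        obtain ⟨x, hx, rfl⟩ := hy
        have hx' := Finset.mem_filter.mp hx
        refine ⟨T (iv (fun i => sg (x i) - sg (x0 i))), ⟨_, ?_, rfl⟩, ?_⟩
        · exact hdist x hx'.1 x0 hx0'.1 (by rw [hx'.2, hx0'.2])
        · change T (iv (fun i => sg (x i) - sg (x0 i))) + f x0 = f x
          have e0 : iv (fun i => sg (x i) - sg (x0 i)) =
              (fun i => ((sg (x i) : ℤ) : ℝ)) - (fun i => ((sg (x0 i) : ℤ) : ℝ)) := by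
            ext i; simp [iv]
          rw [e0, map_sub]
          exact sub_add_cancel _ _
      have e1 : (sa.image f).card ≤ X.ncard := by
        rw [← Set.ncard_coe_finset]
        refine (Set.ncard_le_ncard hsub (hfin.image _)).trans ?_
        exact Set.ncard_image_le hfin
      exact_mod_cast e1
    calc ((sa.card : ℕ) : ℝ) ≤ ((2 ^ k * (sa.image f).card : ℕ) : ℝ) := by exact_mod_cast hc1
      _ = (sa.image f).card * 2 ^ k := by push_cast; ring
      _ ≤ M * 2 ^ k := by gcongr
  -- sum over the cells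
  have hsum : s.card = ∑ a ∈ s.image cell, (s.filter fun x => cell x = a).card :=
    Finset.card_eq_sum_card_image cell s
  have hcells : ((s.image cell).card : ℝ) ≤ ((2 * K + 1 : ℕ) : ℝ) ^ m := by
    have e1 : s.image cell ⊆ Fintype.piFinset (fun _ : Fin m => Finset.Icc (-(K : ℤ)) K) := by
      intro y hy
      obtain ⟨x, hx, rfl⟩ := Finset.mem_image.mp hy
      exact hcell x hx
    have e2 := Finset.card_le_card e1
    rw [Fintype.card_piFinset, Finset.prod_const, Finset.card_univ, Fintype.card_fin,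
      Int.card_Icc] at e2
    have e3 : ((K:ℤ) + 1 - -(K:ℤ)).toNat = 2 * K + 1 := by omega
    rw [e3] at e2
    exact_mod_cast e2
  rw [hsum]
  push_cast
  calc ∑ a ∈ s.image cell, ((s.filter fun x => cell x = a).card : ℝ)
      ≤ ∑ _a ∈ s.image cell, M * 2 ^ k := Finset.sum_le_sum fun a _ => hone a
    _ = (s.image cell).card * (M * 2 ^ k) := by simp
    _ ≤ ((2 * K + 1 : ℕ) : ℝ) ^ m * (M * 2 ^ k) := by gcongr
    _ = _ := by push_cast; ring

end Crest.Agent.R152.TP
end

-- ▼ part R152/TPS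
section

set_option autoImplicit false
set_option linter.unusedSectionVars false

/-!
# Row 152, module T1' (helper876 for helper199): coordinates along the small eigenvectors
-/

namespace Crest.Agent.R152.TP

open Matrix Module

/-- if a symmetric matrix has no `4L`-dimensional small subspace, then `< 4L` coordinates and
`|A v|` control `|v|`. -/
theorem exists_coords {n : ℕ} (A : Matrix (Fin n) (Fin n) ℝ) (hA : A.transpose = A) (L : ℕ)
    (_hL : 0 < L) (t2 : ℝ) (ht : 0 < t2)
    (hbad : ¬ ∃ U : Submodule ℝ (Fin n → ℝ), 4 * L ≤ Module.finrank ℝ U ∧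
      ∀ u ∈ U, ∑ q, (∑ j, A q j * u j) ^ 2 ≤ t2 * ∑ j, u j ^ 2) :
    ∃ (c : Fin (4 * L) → (Fin n → ℝ) →ₗ[ℝ] ℝ),
      (∀ l v, (c l v) ^ 2 ≤ ∑ j, v j ^ 2) ∧
      (∀ v, ∑ j, v j ^ 2 ≤ ∑ l, (c l v) ^ 2 + (∑ q, (A *ᵥ v) q ^ 2) / t2) := by
  classical
  have hA' : A.IsHermitian := by
    rw [IsHermitian, conjTranspose_eq_transpose_of_trivial, hA]
  set b := hA'.eigenvectorBasis with hb
  set μ := hA'.eigenvalues with hμ
  set w : Fin n → (Fin n → ℝ) := fun i => ⇑(b i) with hw
  have hinner : ∀ i (v : Fin n → ℝ), inner ℝ (b i) (WithLp.toLp 2 v) = w i ⬝ᵥ v := by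
    intro i v
    simp [PiLp.inner_apply, dotProduct, hw, mul_comm]
  -- Parseval
  have hpars : ∀ v : Fin n → ℝ, ∑ i, (w i ⬝ᵥ v) ^ 2 = ∑ j, v j ^ 2 := by
    intro v
    have h1 := b.sum_sq_norm_inner_right (WithLp.toLp 2 v)
    simp only [hinner, Real.norm_eq_abs, sq_abs] at h1
    rw [h1, EuclideanSpace.norm_sq_eq]
    simp
  have heig : ∀ i (v : Fin n → ℝ), w i ⬝ᵥ (A *ᵥ v) = μ i * (w i ⬝ᵥ v) := by
    intro i v
    have h1 : A *ᵥ w i = μ i • w i := hA'.mulVec_eigenvectorBasis i
    rw [dotProduct_mulVec, ← mulVec_transpose, hA, h1, smul_dotProduct, smul_eq_mul]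
  have hAv : ∀ v : Fin n → ℝ, ∑ q, (A *ᵥ v) q ^ 2 = ∑ i, μ i ^ 2 * (w i ⬝ᵥ v) ^ 2 := by
    intro v
    rw [← hpars (A *ᵥ v)]
    apply Finset.sum_congr rfl
    intro i _
    rw [heig]; ring
  set small : Finset (Fin n) := Finset.univ.filter (fun i => μ i ^ 2 ≤ t2) with hsmall
  have hmem : ∀ i, i ∈ small ↔ μ i ^ 2 ≤ t2 := by intro i; simp [hsmall]
  -- number of small eigenvalues
  have hcard : small.card < 4 * L := by
    by_contra hge
    push Not at hge
    apply hbad
    refine ⟨Submodule.span ℝ (Set.range fun i : small => w i), ?_, ?_⟩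
    · have hli0 : LinearIndependent ℝ w := by
        have h1 := b.toBasis.linearIndependent.map' (WithLp.linearEquiv 2 ℝ (Fin n → ℝ)).toLinearMap
          (LinearEquiv.ker _)
        have h2 : (⇑(WithLp.linearEquiv 2 ℝ (Fin n → ℝ)).toLinearMap ∘ ⇑b.toBasis) = w := by
          funext i
          simp [hw]
        rwa [h2] at h1
      have hli : LinearIndependent ℝ (fun i : small => w i) :=
        hli0.comp _ Subtype.val_injective
      rw [finrank_span_eq_card hli]
      simpa using hge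
    · intro u hu
      have h0 : ∀ i, i ∉ small → w i ⬝ᵥ u = 0 := by
        intro i hi
        induction hu using Submodule.span_induction with
        | mem x hx =>
          obtain ⟨j, rfl⟩ := hx
          have hij : i ≠ j := fun h => hi (h ▸ j.2)
          have h1 := b.orthonormal.2 hij
          have h2 := hinner i (w j)
          rw [← h2]
          exact h1
        | zero => simp
        | add x y _ _ hx hy => rw [dotProduct_add, hx, hy, add_zero]
        | smul a x _ hx => rw [dotProduct_smul, hx, smul_zero]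
      have h1 : ∑ q, (∑ j, A q j * u j) ^ 2 = ∑ q, (A *ᵥ u) q ^ 2 := rfl
      rw [h1, hAv, ← hpars u, Finset.mul_sum]
      apply Finset.sum_le_sum
      intro i _
      by_cases hi : i ∈ small
      · have h2 := (hmem i).1 hi
        gcongr
      · rw [h0 i hi]; simp
  -- the coordinates
  let e : Fin small.card ≃ small := small.equivFin.symm
  let cf : Fin n → (Fin n → ℝ) →ₗ[ℝ] ℝ := fun i =>
    { toFun := fun v => w i ⬝ᵥ v
      map_add' := fun x y => dotProduct_add _ _ _
      map_smul' := fun a x => by rw [dotProduct_smul, RingHom.id_apply] }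
  have hcf : ∀ i v, cf i v = w i ⬝ᵥ v := fun _ _ => rfl
  let c : Fin (4 * L) → (Fin n → ℝ) →ₗ[ℝ] ℝ := fun l =>
    if h : l.val < small.card then cf (e ⟨l.val, h⟩) else 0
  have hc1 : ∀ l (h : l.val < small.card), c l = cf (e ⟨l.val, h⟩) := fun l h => dif_pos h
  have hc0 : ∀ l, ¬ l.val < small.card → c l = 0 := fun l h => dif_neg h
  refine ⟨c, ?_, ?_⟩
  · intro l v
    by_cases h : l.val < small.card
    · rw [hc1 l h, hcf, ← hpars v]
      exact Finset.single_le_sum (f := fun i => (w i ⬝ᵥ v) ^ 2) (fun i _ => sq_nonneg _)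
        (Finset.mem_univ _)
    · rw [hc0 l h, LinearMap.zero_apply]
      have : 0 ≤ ∑ j, v j ^ 2 := Finset.sum_nonneg fun i _ => sq_nonneg _
      simpa using this
  · intro v
    have h1 : ∑ i ∈ small, (w i ⬝ᵥ v) ^ 2 ≤ ∑ l, (c l v) ^ 2 := by
      have h2 : ∑ i ∈ small, (w i ⬝ᵥ v) ^ 2 = ∑ k : Fin small.card, (w (e k) ⬝ᵥ v) ^ 2 := by
        rw [← Finset.sum_coe_sort small (fun i => (w i ⬝ᵥ v) ^ 2), ← e.sum_comp]
      have h3 : ∑ k : Fin small.card, (w (e k) ⬝ᵥ v) ^ 2 =
          ∑ l ∈ Finset.univ.map (Fin.castLEEmb hcard.le), (c l v) ^ 2 := by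
        rw [Finset.sum_map]
        apply Finset.sum_congr rfl
        intro k _
        have h4 : (Fin.castLEEmb hcard.le k).val < small.card := k.2
        rw [hc1 _ h4, hcf]
        rfl
      rw [h2, h3]
      exact Finset.sum_le_univ_sum_of_nonneg fun l => sq_nonneg _
    have h5 : ∑ i ∈ smallᶜ, (w i ⬝ᵥ v) ^ 2 ≤ (∑ q, (A *ᵥ v) q ^ 2) / t2 := by
      rw [le_div_iff₀ ht, hAv, Finset.sum_mul]
      calc ∑ i ∈ smallᶜ, (w i ⬝ᵥ v) ^ 2 * t2 ≤ ∑ i ∈ smallᶜ, μ i ^ 2 * (w i ⬝ᵥ v) ^ 2 := by
            apply Finset.sum_le_sum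
            intro i hi
            have h6 : t2 < μ i ^ 2 := by
              by_contra hle
              push Not at hle
              exact (Finset.mem_compl.1 hi) ((hmem i).2 hle)
            rw [mul_comm]
            gcongr
        _ ≤ ∑ i, μ i ^ 2 * (w i ⬝ᵥ v) ^ 2 :=
            Finset.sum_le_univ_sum_of_nonneg fun i => by positivity
    rw [← hpars v, ← Finset.sum_add_sum_compl small]
    linarith

end Crest.Agent.R152.TP
end

-- ▼ part R152/Spec1
section

set_option autoImplicit false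
set_option linter.unusedSectionVars false

/-! Row 152, SPEC part 1: exponential moment of a quadratic form (a contraction) at the half
difference of two independent biased sign vectors. -/

open Crest.FinProb Crest.ProbabilityR.SignMatrix

namespace Crest.Agent.R152.Spec

open Base

section Quad
variable {ι : Type*} [Fintype ι]

/-- bilinear form of a real matrix -/
def Bf (P : ι → ι → ℝ) (x y : ι → ℝ) : ℝ := ∑ i, ∑ j, x i * P i j * y j

/-- quadratic form of a real matrix -/
def Qf (P : ι → ι → ℝ) (x : ι → ℝ) : ℝ := Bf P x x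

theorem Bf_comm {P : ι → ι → ℝ} (h : ∀ i j, P i j = P j i) (x y : ι → ℝ) :
    Bf P x y = Bf P y x := by
  unfold Bf
  rw [Finset.sum_comm]
  refine Finset.sum_congr rfl fun i _ => Finset.sum_congr rfl fun j _ => ?_
  rw [h j i]; ring

theorem Bf_sub_left (P : ι → ι → ℝ) (x y z : ι → ℝ) :
    Bf P (x - y) z = Bf P x z - Bf P y z := by
  unfold Bf
  simp only [Pi.sub_apply, sub_mul, Finset.sum_sub_distrib]

theorem Bf_sub_right (P : ι → ι → ℝ) (x y z : ι → ℝ) :
    Bf P x (y - z) = Bf P x y - Bf P x z := by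
  unfold Bf
  simp only [Pi.sub_apply, mul_sub, Finset.sum_sub_distrib]

theorem Bf_single_left [DecidableEq ι] (P : ι → ι → ℝ) (i : ι) (y : ι → ℝ) :
    Bf P (Pi.single i 1) y = ∑ j, P i j * y j := by
  unfold Bf
  rw [Finset.sum_eq_single i]
  · simp
  · intro b _ hb
    simp [Pi.single_apply, hb]
  · simp

/-- symmetric, `0 ≤ P ≤ I` -/
structure Contr (P : ι → ι → ℝ) : Prop where
  symm : ∀ i j, P i j = P j i
  nonneg : ∀ x, 0 ≤ Qf P x
  le : ∀ x, Qf P x ≤ ∑ i, x i ^ 2

theorem Contr.col_sq {P : ι → ι → ℝ} (h : Contr P) (i : ι) : ∑ j, P i j ^ 2 ≤ P i i := by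
  classical
  have h1 := h.nonneg (Pi.single i 1 - (fun j => P i j))
  have h2 := h.le (fun j => P i j)
  have h3 : Qf P (Pi.single i 1 - (fun j => P i j)) =
      P i i - 2 * (∑ j, P i j ^ 2) + Qf P (fun j => P i j) := by
    unfold Qf
    rw [Bf_sub_left, Bf_sub_right, Bf_sub_right,
      Bf_comm h.symm (fun j => P i j) (Pi.single i 1), Bf_single_left, Bf_single_left]
    have h4 : ∑ j, P i j * (Pi.single i (1:ℝ) : ι → ℝ) j = P i i := by
      rw [Finset.sum_eq_single i]
      · simp
      · intro b _ hb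
        simp [Pi.single_apply, hb]
      · simp
    rw [h4]
    have h5 : ∑ j, P i j * P i j = ∑ j, P i j ^ 2 :=
      Finset.sum_congr rfl fun j _ => by ring
    rw [h5]
    ring
  rw [h3] at h1
  linarith

theorem Contr.diag_nonneg {P : ι → ι → ℝ} (h : Contr P) (i : ι) : 0 ≤ P i i :=
  le_trans (Finset.sum_nonneg fun _ _ => sq_nonneg _) (h.col_sq i)

theorem Contr.diag_le_one {P : ι → ι → ℝ} (h : Contr P) (i : ι) : P i i ≤ 1 := by
  classical
  have h1 := h.col_sq i
  have h2 : P i i ^ 2 ≤ ∑ j, P i j ^ 2 :=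
    Finset.single_le_sum (f := fun j => P i j ^ 2) (fun _ _ => sq_nonneg _) (Finset.mem_univ i)
  have h3 := h.diag_nonneg i
  nlinarith

end Quad

section Opt
variable {α : Type*} [Fintype α]

/-- the half difference of two signs, in `{-1, 0, 1}` -/
noncomputable def hd (a b : Bool) : ℝ := ((sg a : ℝ) - (sg b : ℝ)) / 2

theorem Qf_option (P : Option α → Option α → ℝ) (hs : ∀ i j, P i j = P j i) (x : Option α → ℝ) :
    Qf P x = Qf (fun i j => P (some i) (some j)) (fun i => x (some i)) +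
      2 * x none * (∑ i, P none (some i) * x (some i)) + P none none * x none ^ 2 := by
  unfold Qf Bf
  rw [Fintype.sum_option]
  simp only [Fintype.sum_option]
  rw [Finset.sum_add_distrib]
  have h1 : ∑ i : α, x (some i) * P (some i) none * x none =
      x none * ∑ i, P none (some i) * x (some i) := by
    rw [Finset.mul_sum]
    refine Finset.sum_congr rfl fun i _ => ?_
    rw [hs (some i) none]; ring
  have h2 : ∑ i : α, x none * P none (some i) * x (some i) =
      x none * ∑ i, P none (some i) * x (some i) := by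
    rw [Finset.mul_sum]
    refine Finset.sum_congr rfl fun i _ => ?_
    ring
  rw [h1, h2]
  ring

theorem Qf_rank_one (P : α → α → ℝ) (v : α → ℝ) (c : ℝ) (x : α → ℝ) :
    Qf (fun i j => P i j - c * (v i * v j)) x = Qf P x - c * (∑ i, v i * x i) ^ 2 := by
  unfold Qf Bf
  rw [sq, Finset.sum_mul_sum, Finset.mul_sum, ← Finset.sum_sub_distrib]
  refine Finset.sum_congr rfl fun i _ => ?_
  rw [Finset.mul_sum, ← Finset.sum_sub_distrib]
  refine Finset.sum_congr rfl fun j _ => ?_
  ring

theorem Contr.sub {P : Option α → Option α → ℝ} (h : Contr P) :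
    Contr (fun i j : α => P (some i) (some j)) := by
  refine ⟨fun i j => h.symm _ _, fun x => ?_, fun x => ?_⟩
  · have h1 := h.nonneg (fun o => o.elim 0 x)
    rw [Qf_option P h.symm] at h1
    simpa using h1
  · have h1 := h.le (fun o => o.elim 0 x)
    rw [Qf_option P h.symm, Fintype.sum_option] at h1
    simpa using h1

theorem Contr.schur {P : Option α → Option α → ℝ} (h : Contr P) {l : ℝ} (hl0 : 0 ≤ l)
    (hl1 : l ≤ 1 / 2) :
    Contr (fun i j : α => P (some i) (some j) - 2 * l * (P none (some i) * P none (some j))) := by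
  refine ⟨fun i j => ?_, fun x => ?_, fun x => ?_⟩
  · show P (some i) (some j) - _ = P (some j) (some i) - _
    rw [h.symm (some i) (some j)]; ring
  · rw [Qf_rank_one]
    set s := ∑ i, P none (some i) * x i with hs
    have h1 := h.nonneg (fun o => o.elim (-(2 * l * s)) x)
    rw [Qf_option P h.symm] at h1
    simp only [Option.elim_none, Option.elim_some] at h1
    rw [← hs] at h1
    have h2 := h.diag_le_one none
    have h3 : 0 ≤ (1 - P none none) * (2 * l * s) ^ 2 :=
      mul_nonneg (by linarith) (sq_nonneg _)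
    have h4 : 0 ≤ l * (1 - 2 * l) * s ^ 2 :=
      mul_nonneg (mul_nonneg hl0 (by linarith)) (sq_nonneg _)
    nlinarith
  · rw [Qf_rank_one]
    have h1 := h.sub.le x
    have h2 : 0 ≤ 2 * l * (∑ i, P none (some i) * x i) ^ 2 := by positivity
    linarith

end Opt

theorem exp_le_one_sub_half {s : ℝ} (h0 : 0 ≤ s) (h1 : s ≤ 1) : Real.exp (-s) ≤ 1 - s / 2 := by
  have h2 : Real.exp (-s) ≤ 1 - s + s ^ 2 / 2 := by
    have h3 := Real.abs_exp_sub_one_sub_id_le (x := -s) (by rw [abs_neg, abs_of_nonneg h0]; exact h1)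
    -- |exp x - 1 - x| ≤ x^2 : too weak; use a direct argument
    have h4 : (1 + s + s ^ 2 / 2) ≤ Real.exp s := by
      have := Real.quadratic_le_exp_of_nonneg h0
      linarith
    have h5 : 0 < 1 + s + s ^ 2 / 2 := by positivity
    rw [Real.exp_neg]
    have h6 : (Real.exp s)⁻¹ ≤ (1 + s + s ^ 2 / 2)⁻¹ := inv_anti₀ h5 h4
    refine h6.trans ?_
    rw [inv_le_iff_one_le_mul₀ h5]
    nlinarith [sq_nonneg s, pow_nonneg h0 3, pow_nonneg h0 4]
  nlinarith

theorem cosh_bound (u : ℝ) : Real.exp u + Real.exp (-u) ≤ 2 * Real.exp (u ^ 2 / 2) := by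
  have := Real.cosh_le_exp_half_sq u
  rw [Real.cosh_eq] at this
  linarith

theorem Qf_comp {ι κ : Type*} [Fintype ι] [Fintype κ] (e : ι ≃ κ) (P : κ → κ → ℝ) (x : κ → ℝ) :
    Qf (fun i j => P (e i) (e j)) (x ∘ e) = Qf P x := by
  unfold Qf Bf
  refine Fintype.sum_equiv e _ _ fun i => ?_
  exact Fintype.sum_equiv e _ _ fun j => rfl

theorem Contr.comp {ι κ : Type*} [Fintype ι] [Fintype κ] (e : ι ≃ κ) {P : κ → κ → ℝ}
    (h : Contr P) : Contr (fun i j => P (e i) (e j)) := by
  refine ⟨fun i j => h.symm _ _, fun x => ?_, fun x => ?_⟩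
  · have h1 := h.nonneg (x ∘ e.symm)
    rw [← Qf_comp e] at h1
    simpa [Function.comp_def] using h1
  · have h1 := h.le (x ∘ e.symm)
    rw [← Qf_comp e] at h1
    have h2 : ∑ i, (x ∘ e.symm) i ^ 2 = ∑ i, x i ^ 2 :=
      (Fintype.sum_equiv e _ _ fun i => by simp).symm
    rw [h2] at h1
    simpa [Function.comp_def] using h1

/-- The exponential moment bound. -/
theorem moment (p : ℝ) (hp0 : 0 ≤ p) (hp1 : p ≤ 1) (l : ℝ) (hl0 : 0 ≤ l) (hl1 : l ≤ 1 / 2)
    (ι : Type*) [Fintype ι] [DecidableEq ι] :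
    ∀ P : ι → ι → ℝ, Contr P →
      ex p (fun x : ι → Bool => ex p (fun y : ι → Bool =>
        Real.exp (-(l * Qf P (fun i => hd (x i) (y i)))))) ≤
      Real.exp (-(p * (1 - p) * l / 2 * ∑ i, P i i)) := by
  classical
  revert ι
  intro ι inst1 inst2
  have key := Fintype.induction_empty_option (P := fun (α : Type _) [Fintype α] =>
    ∀ [DecidableEq α], ∀ P : α → α → ℝ, Contr P →
      ex p (fun x : α → Bool => ex p (fun y : α → Bool =>
        Real.exp (-(l * Qf P (fun i => hd (x i) (y i)))))) ≤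
      Real.exp (-(p * (1 - p) * l / 2 * ∑ i, P i i))) ?_ ?_ ?_ ι
  · exact key
  · intro α β _ e IH _ P hP
    letI : Fintype α := Fintype.ofEquiv β e.symm
    letI : DecidableEq α := Classical.decEq α
    have h1 := IH (fun i j => P (e i) (e j)) (hP.comp e)
    have h2 : ∑ i, P (e i) (e i) = ∑ i, P i i := Fintype.sum_equiv e _ _ fun i => rfl
    rw [h2] at h1
    rw [ex_comp e.symm p]
    refine le_trans (le_of_eq ?_) h1
    refine ex_congr p fun x => ?_
    rw [ex_comp e.symm p]
    refine ex_congr p fun y => ?_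
    rw [← Qf_comp e]
    simp only [Function.comp_def, Equiv.symm_apply_apply]
  · intro _ P hP
    have h0 : ∀ x : PEmpty → ℝ, Qf P x = 0 := by
      intro x; unfold Qf Bf; simp
    simp only [h0]
    simp [ex_const]
  · intro α _ IH inst P hP
    letI dα : DecidableEq α := Classical.decEq α
    obtain rfl : inst = (fun a b => Option.instDecidableEq a b) := Subsingleton.elim _ _
    set P' : α → α → ℝ := fun i j => P (some i) (some j) with hP'
    set P'' : α → α → ℝ := fun i j =>
      P (some i) (some j) - 2 * l * (P none (some i) * P none (some j)) with hP''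
    set t := P none none with ht
    set a := p * (1 - p) with ha
    have ha0 : 0 ≤ a := mul_nonneg hp0 (by linarith)
    have ha4 : a ≤ 1 / 4 := by rw [ha]; nlinarith [sq_nonneg (p - 1/2)]
    have ht0 := hP.diag_nonneg none
    have ht1 := hP.diag_le_one none
    have I1 := IH P' hP.sub
    have I2 := IH P'' (hP.schur hl0 hl1)
    -- traces
    have tr0 : ∑ i, P i i = t + ∑ i, P' i i := by rw [Fintype.sum_option]
    have tr2 : ∑ i, P' i i - 2 * l * t ≤ ∑ i, P'' i i := by
      have h1 := hP.col_sq none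
      rw [Fintype.sum_option] at h1
      have h2 : ∑ i, P'' i i = ∑ i, P' i i - 2 * l * ∑ i, P none (some i) ^ 2 := by
        rw [Finset.mul_sum, ← Finset.sum_sub_distrib]
        refine Finset.sum_congr rfl fun i _ => ?_
        simp only [hP', hP'']; ring
      rw [h2]
      have h3 : ∑ i, P none (some i) ^ 2 ≤ t := by nlinarith [sq_nonneg t]
      nlinarith
    set T := ∑ i, P' i i with hT
    -- pointwise bound
    have pt : ∀ x y : α → Bool,
        p * (p * Real.exp (-(l * Qf P (fun o => hd (o.elim true x) (o.elim true y)))) +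
          (1 - p) * Real.exp (-(l * Qf P (fun o => hd (o.elim true x) (o.elim false y))))) +
        (1 - p) * (p * Real.exp (-(l * Qf P (fun o => hd (o.elim false x) (o.elim true y)))) +
          (1 - p) * Real.exp (-(l * Qf P (fun o => hd (o.elim false x) (o.elim false y))))) ≤
        (1 - 2 * a) * Real.exp (-(l * Qf P' (fun i => hd (x i) (y i)))) +
        2 * a * Real.exp (-(l * t)) * Real.exp (-(l * Qf P'' (fun i => hd (x i) (y i)))) := by
      intro x y
      set h : α → ℝ := fun i => hd (x i) (y i) with hh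
      set s := ∑ i, P none (some i) * h i with hs
      have q : ∀ c d : Bool, Qf P (fun o => hd (o.elim c x) (o.elim d y)) =
          Qf P' h + 2 * hd c d * s + t * hd c d ^ 2 := by
        intro c d
        rw [Qf_option P hP.symm]
        simp only [Option.elim_none, Option.elim_some]
        rfl
      rw [q, q, q, q]
      have e1 : hd true true = 0 := by simp [hd]
      have e2 : hd false false = 0 := by simp [hd]
      have e3 : hd true false = 1 := by norm_num [hd, sg]
      have e4 : hd false true = -1 := by norm_num [hd, sg]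
      rw [e1, e2, e3, e4]
      have r : Qf P'' h = Qf P' h - 2 * l * s ^ 2 := Qf_rank_one P' _ _ h
      rw [r]
      have c1 := cosh_bound (2 * l * s)
      have c2 : Real.exp (-(l * (Qf P' h + 2 * 1 * s + t * 1 ^ 2))) =
          Real.exp (-(l * t)) * Real.exp (-(l * Qf P' h)) * Real.exp (-(2 * l * s)) := by
        rw [← Real.exp_add, ← Real.exp_add]; congr 1; ring
      have c3 : Real.exp (-(l * (Qf P' h + 2 * (-1) * s + t * (-1) ^ 2))) =
          Real.exp (-(l * t)) * Real.exp (-(l * Qf P' h)) * Real.exp (2 * l * s) := by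
        rw [← Real.exp_add, ← Real.exp_add]; congr 1; ring
      have c4 : Real.exp (-(l * (Qf P' h + 2 * 0 * s + t * 0 ^ 2))) = Real.exp (-(l * Qf P' h)) := by
        congr 1; ring
      have c5 : Real.exp (-(l * (Qf P' h - 2 * l * s ^ 2))) =
          Real.exp (-(l * Qf P' h)) * Real.exp ((2 * l * s) ^ 2 / 2) := by
        rw [← Real.exp_add]; congr 1; ring
      rw [c2, c3, c4, c5]
      set E0 := Real.exp (-(l * Qf P' h)) with hE0
      have hE0p : 0 < E0 := Real.exp_pos _
      set Et := Real.exp (-(l * t)) with hEt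
      have hEtp : 0 < Et := Real.exp_pos _
      have c6 : a * (Et * E0) * (Real.exp (2 * l * s) + Real.exp (-(2 * l * s))) ≤
          a * (Et * E0) * (2 * Real.exp ((2 * l * s) ^ 2 / 2)) :=
        mul_le_mul_of_nonneg_left c1 (mul_nonneg ha0 (mul_pos hEtp hE0p).le)
      have c7 : p * (p * E0 + (1 - p) * (Et * E0 * Real.exp (-(2 * l * s)))) +
          (1 - p) * (p * (Et * E0 * Real.exp (2 * l * s)) + (1 - p) * E0) =
          (1 - 2 * a) * E0 + a * (Et * E0) * (Real.exp (2 * l * s) + Real.exp (-(2 * l * s))) := by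
        rw [ha]; ring
      rw [c7]
      nlinarith
    -- integrate
    have step : ex p (fun x : Option α → Bool => ex p (fun y : Option α → Bool =>
        Real.exp (-(l * Qf P (fun i => hd (x i) (y i)))))) ≤
        (1 - 2 * a) * Real.exp (-(a * l / 2 * T)) +
        2 * a * Real.exp (-(l * t)) * Real.exp (-(a * l / 2 * (T - 2 * l * t))) := by
      rw [ex_option]
      have s1 : ∀ x : α → Bool,
          p * ex p (fun y : Option α → Bool =>
            Real.exp (-(l * Qf P (fun i => hd (i.elim true x) (y i))))) +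
          (1 - p) * ex p (fun y : Option α → Bool =>
            Real.exp (-(l * Qf P (fun i => hd (i.elim false x) (y i))))) ≤
          (1 - 2 * a) * ex p (fun y : α → Bool =>
            Real.exp (-(l * Qf P' (fun i => hd (x i) (y i))))) +
          2 * a * Real.exp (-(l * t)) * ex p (fun y : α → Bool =>
            Real.exp (-(l * Qf P'' (fun i => hd (x i) (y i))))) := by
        intro x
        rw [ex_option, ex_option, ← ex_smul, ← ex_smul, ← ex_smul, ← ex_smul, ← ex_add, ← ex_add]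
        exact ex_mono hp0 hp1 fun y => pt x y
      refine (ex_mono hp0 hp1 s1).trans ?_
      rw [ex_add, ex_smul, ex_smul]
      have b1 : 0 ≤ 1 - 2 * a := by linarith
      have b2 : 0 ≤ 2 * a * Real.exp (-(l * t)) := by positivity
      refine add_le_add (mul_le_mul_of_nonneg_left ?_ b1) (mul_le_mul_of_nonneg_left ?_ b2)
      · exact I1
      · refine I2.trans (Real.exp_le_exp.mpr ?_)
        have : a * l / 2 * (T - 2 * l * t) ≤ a * l / 2 * ∑ i, P'' i i :=
          mul_le_mul_of_nonneg_left tr2 (by positivity)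
        linarith
    refine step.trans ?_
    rw [tr0]
    have f1 : Real.exp (-(a * l / 2 * (T - 2 * l * t))) =
        Real.exp (-(a * l / 2 * T)) * Real.exp (a * l * l * t) := by
      rw [← Real.exp_add]; congr 1; ring
    have f2 : Real.exp (-(a * l / 2 * (t + T))) =
        Real.exp (-(a * l / 2 * T)) * Real.exp (-(a * l / 2 * t)) := by
      rw [← Real.exp_add]; congr 1; ring
    rw [f1, f2]
    set s := l * t - a * l * l * t with hs
    have g1 : Real.exp (-(l * t)) * Real.exp (a * l * l * t) = Real.exp (-s) := by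
      rw [← Real.exp_add]; congr 1; rw [hs]; ring
    have lt0 : 0 ≤ l * t := mul_nonneg hl0 ht0
    have lt1 : l * t ≤ 1 / 2 := by nlinarith
    have al : a * l ≤ 1 / 2 := by nlinarith
    have al0 : 0 ≤ a * l := mul_nonneg ha0 hl0
    have s0 : l * t / 2 ≤ s := by rw [hs]; nlinarith
    have s1 : s ≤ 1 := by
      rw [hs]
      have : 0 ≤ a * l * l * t := by positivity
      linarith
    have s2 := exp_le_one_sub_half (s := s) (by linarith) s1
    have g2 : (1 - 2 * a) + 2 * a * Real.exp (-s) ≤ Real.exp (-(a * l / 2 * t)) := by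
      have g3 : (1 - 2 * a) + 2 * a * Real.exp (-s) ≤ 1 - a * s := by nlinarith
      have g4 : 1 - a * s ≤ 1 - a * l / 2 * t := by nlinarith
      have g5 := Real.add_one_le_exp (-(a * l / 2 * t))
      linarith
    have hE := Real.exp_pos (-(a * l / 2 * T))
    calc (1 - 2 * a) * Real.exp (-(a * l / 2 * T)) +
        2 * a * Real.exp (-(l * t)) * (Real.exp (-(a * l / 2 * T)) * Real.exp (a * l * l * t))
        = Real.exp (-(a * l / 2 * T)) * ((1 - 2 * a) +
          2 * a * (Real.exp (-(l * t)) * Real.exp (a * l * l * t))) := by ring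
      _ ≤ Real.exp (-(a * l / 2 * T)) * Real.exp (-(a * l / 2 * t)) := by
        rw [g1]
        exact mul_le_mul_of_nonneg_left g2 hE.le

end Crest.Agent.R152.Spec
end

-- ▼ part R152/Spec2
section

set_option autoImplicit false
set_option linter.unusedSectionVars false

/-! Row 152, SPEC part 2: small ball estimate for biased sign vectors; marginals; chains of
independent vectors. -/

open Crest.FinProb Crest.ProbabilityR.SignMatrix

namespace Crest.Agent.R152.Spec

open Base

section Small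
variable {ι : Type*} [Fintype ι] [DecidableEq ι]

/-- a sign vector as a real vector -/
noncomputable def sv (x : ι → Bool) : ι → ℝ := fun i => (sg (x i) : ℝ)

/-- an orthonormal family of real vectors (coordinates) -/
structure ON {κ : Type*} [Fintype κ] (u : κ → ι → ℝ) : Prop where
  norm : ∀ l, ∑ i, u l i ^ 2 = 1
  bessel : ∀ x : ι → ℝ, ∑ l, (∑ i, u l i * x i) ^ 2 ≤ ∑ i, x i ^ 2

theorem ON.contr {κ : Type*} [Fintype κ] {u : κ → ι → ℝ} (h : ON u) :
    Contr (fun i j => ∑ l, u l i * u l j) ∧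
      (∀ x, Qf (fun i j => ∑ l, u l i * u l j) x = ∑ l, (∑ i, u l i * x i) ^ 2) := by
  have hq : ∀ x, Qf (fun i j => ∑ l, u l i * u l j) x = ∑ l, (∑ i, u l i * x i) ^ 2 := by
    intro x
    unfold Qf Bf
    have h1 : ∀ i j, x i * (∑ l, u l i * u l j) * x j = ∑ l, (u l i * x i) * (u l j * x j) := by
      intro i j
      rw [Finset.mul_sum, Finset.sum_mul]
      exact Finset.sum_congr rfl fun l _ => by ring
    simp only [h1]
    have h2 : ∀ l, (∑ i, u l i * x i) ^ 2 = ∑ i, ∑ j, (u l i * x i) * (u l j * x j) := by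
      intro l
      rw [sq, Finset.sum_mul_sum]
    simp only [h2]
    rw [Finset.sum_comm' (t' := Finset.univ) (s' := fun _ => Finset.univ) (by simp)]
    rw [Finset.sum_comm]
    have h3 : ∀ i : ι, ∑ j, ∑ l, u l i * x i * (u l j * x j) =
        ∑ l, ∑ j, u l i * x i * (u l j * x j) := fun i => Finset.sum_comm
    simp only [h3]
    rw [Finset.sum_comm]
  refine ⟨⟨fun i j => ?_, fun x => ?_, fun x => ?_⟩, hq⟩
  · exact Finset.sum_congr rfl fun l _ => by ring
  · rw [hq]; positivity
  · rw [hq]; exact h.bessel x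

theorem ON.trace {κ : Type*} [Fintype κ] {u : κ → ι → ℝ} (h : ON u) :
    ∑ i, ∑ l, u l i * u l i = Fintype.card κ := by
  rw [Finset.sum_comm]
  have : ∀ l, ∑ i, u l i * u l i = 1 := by
    intro l
    rw [← h.norm l]
    exact Finset.sum_congr rfl fun i _ => by ring
  simp [this]

/-- Small ball probability. -/
theorem small_ball {p : ℝ} (hp0 : 0 ≤ p) (hp1 : p ≤ 1) {κ : Type*} [Fintype κ] {u : κ → ι → ℝ}
    (h : ON u) (v : κ → ℝ) (r2 : ℝ) (hr : r2 ≤ p * (1 - p) * Fintype.card κ / 4) :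
    bernoulliProb p {x : ι → Bool | ∑ l, (∑ i, u l i * sv x i - v l) ^ 2 ≤ r2} ≤
      Real.exp (-(p * (1 - p) * Fintype.card κ / 16)) := by
  classical
  set a := p * (1 - p) with ha
  set k : ℝ := ((Fintype.card κ : ℕ) : ℝ) with hk
  set E : Set (ι → Bool) := {x : ι → Bool | ∑ l, (∑ i, u l i * sv x i - v l) ^ 2 ≤ r2} with hE
  obtain ⟨hC, hQ⟩ := h.contr
  have hm := moment p hp0 hp1 (1 / 2) (by norm_num) le_rfl ι _ hC
  rw [h.trace] at hm
  have h1 : bernoulliProb p E * bernoulliProb p E ≤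
      ex p (fun x : ι → Bool => ex p (fun y : ι → Bool =>
        Real.exp (r2 / 2) * Real.exp (-(1 / 2 * Qf (fun i j => ∑ l, u l i * u l j)
          (fun i => hd (x i) (y i)))))) := by
    have h2 : bernoulliProb p E * bernoulliProb p E =
        ex p (fun x : ι → Bool => ex p (fun y : ι → Bool =>
          (if x ∈ E then (1:ℝ) else 0) * (if y ∈ E then (1:ℝ) else 0))) := by
      simp only [ex_smul]
      have : ∀ x : ι → Bool, (if x ∈ E then (1:ℝ) else 0) *
          ex p (fun y : ι → Bool => if y ∈ E then (1:ℝ) else 0) =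
          ex p (fun y : ι → Bool => if y ∈ E then (1:ℝ) else 0) * (if x ∈ E then (1:ℝ) else 0) :=
        fun x => mul_comm _ _
      simp only [this, ex_smul]
      rw [prob_eq_ex]
    rw [h2]
    refine ex_mono hp0 hp1 fun x => ex_mono hp0 hp1 fun y => ?_
    by_cases hx : x ∈ E
    · by_cases hy : y ∈ E
      · simp only [hx, hy, if_true, mul_one]
        rw [← Real.exp_add]
        refine Real.one_le_exp ?_
        rw [hQ]
        have h3 : ∑ l, (∑ i, u l i * hd (x i) (y i)) ^ 2 ≤ r2 := by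
          have hx' : ∑ l, (∑ i, u l i * sv x i - v l) ^ 2 ≤ r2 := hx
          have hy' : ∑ l, (∑ i, u l i * sv y i - v l) ^ 2 ≤ r2 := hy
          have h4 : ∑ l, (∑ i, u l i * hd (x i) (y i)) ^ 2 ≤
              (∑ l, (∑ i, u l i * sv x i - v l) ^ 2 + ∑ l, (∑ i, u l i * sv y i - v l) ^ 2) / 2 := by
            rw [← Finset.sum_add_distrib, Finset.sum_div]
            refine Finset.sum_le_sum fun l _ => ?_
            have h5 : ∑ i, u l i * hd (x i) (y i) =
                ((∑ i, u l i * sv x i - v l) - (∑ i, u l i * sv y i - v l)) / 2 := by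
              have h6 : ∑ i, u l i * hd (x i) (y i) =
                  (∑ i, u l i * sv x i - ∑ i, u l i * sv y i) / 2 := by
                rw [← Finset.sum_sub_distrib, Finset.sum_div]
                refine Finset.sum_congr rfl fun i _ => ?_
                simp only [hd, sv]; ring
              rw [h6]; ring
            rw [h5]
            nlinarith [sq_nonneg ((∑ i, u l i * sv x i - v l) + (∑ i, u l i * sv y i - v l))]
          linarith
        linarith
      · simp only [hy, if_false, mul_zero]; positivity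
    · simp only [hx, if_false, zero_mul]; positivity
  simp only [ex_smul] at h1
  have h7 : bernoulliProb p E ^ 2 ≤ Real.exp (-(a * k / 16)) ^ 2 := by
    calc bernoulliProb p E ^ 2 = bernoulliProb p E * bernoulliProb p E := sq _
      _ ≤ _ := h1
      _ ≤ Real.exp (r2 / 2) * Real.exp (-(a * (1 / 2) / 2 * k)) :=
        mul_le_mul_of_nonneg_left hm (Real.exp_pos _).le
      _ = Real.exp (r2 / 2 - a * k / 4) := by rw [← Real.exp_add]; congr 1; ring
      _ ≤ Real.exp (-(a * k / 16) + -(a * k / 16)) := Real.exp_le_exp.mpr (by linarith)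
      _ = Real.exp (-(a * k / 16)) ^ 2 := by rw [Real.exp_add, sq]
  exact le_of_sq_le_sq h7 (Real.exp_pos _).le

end Small

end Crest.Agent.R152.Spec
end

-- ▼ part R152/Spec3
section

set_option autoImplicit false
set_option linter.unusedSectionVars false

/-! Row 152, SPEC part 3: marginals of independent coins; chains of fresh rows. -/

open Crest.FinProb Crest.ProbabilityR.SignMatrix

namespace Crest.Agent.R152.Spec

open Base

section Marg
variable {κ μ : Type*} [Fintype κ] [DecidableEq κ] [Fintype μ] [DecidableEq μ]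

/-- Marginals: the coins picked out by an injection are again independent coins. -/
theorem ex_marg (p : ℝ) {φ : κ → μ} (hφ : Function.Injective φ) (F : (κ → Bool) → ℝ) :
    ex p (fun b : μ → Bool => F (b ∘ φ)) = ex p F := by
  classical
  let e : κ ⊕ {m // m ∈ (Set.range φ)ᶜ} ≃ μ :=
    (Equiv.sumCongr (Equiv.ofInjective φ hφ) (Equiv.refl _)).trans (Equiv.Set.sumCompl (Set.range φ))
  have he : ∀ k, e (Sum.inl k) = φ k := by
    intro k
    simp [e]
  rw [ex_comp e.symm p, ex_sumType]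
  refine ex_congr p fun a => ?_
  have h : ∀ b : {m // m ∈ (Set.range φ)ᶜ} → Bool, ((Sum.elim a b) ∘ e.symm) ∘ φ = a := by
    intro b
    funext k
    simp only [Function.comp_apply]
    rw [← he k, Equiv.symm_apply_apply]
    rfl
  simp only [h]
  exact ex_const p _

theorem prob_marg (p : ℝ) {φ : κ → μ} (hφ : Function.Injective φ) (E : Set (κ → Bool)) :
    bernoulliProb p {b : μ → Bool | b ∘ φ ∈ E} = bernoulliProb p E := by
  classical
  rw [prob_eq_ex, prob_eq_ex]
  exact ex_marg p hφ (fun ω => if ω ∈ E then 1 else 0)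

end Marg

section Chain
variable {R : Type*} [Fintype R] [DecidableEq R]

/-- splitting off the last row -/
def lastRow (L : ℕ) : Fin (L + 1) × R ≃ (Fin L × R) ⊕ R where
  toFun z := if h : z.1.val < L then Sum.inl (⟨z.1.val, h⟩, z.2) else Sum.inr z.2
  invFun := Sum.elim (fun z => (Fin.castSucc z.1, z.2)) (fun q => (Fin.last L, q))
  left_inv := by
    rintro ⟨i, q⟩
    by_cases h : i.val < L
    · simp only [h, dif_pos, Sum.elim_inl]
      rfl
    · simp only [h, dif_neg, not_false_iff, Sum.elim_inr]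
      have : i = Fin.last L := by
        apply Fin.ext
        have := i.isLt
        simp only [Fin.val_last]
        omega
      rw [this]
  right_inv := by
    rintro (⟨i, q⟩ | q)
    · simp
    · simp

theorem lastRow_lt {L : ℕ} (i : ℕ) (h : i < L) (q : R) :
    lastRow L ((⟨i, Nat.lt_succ_of_lt h⟩ : Fin (L + 1)), q) = Sum.inl (⟨i, h⟩, q) := by
  simp [lastRow, h]

theorem lastRow_last {L : ℕ} (h : L < L + 1) (q : R) :
    lastRow L ((⟨L, h⟩ : Fin (L + 1)), q) = Sum.inr q := by
  simp [lastRow]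

/-- the chain event -/
def chainEv (S : (m : ℕ) → (Fin m → R → Bool) → Set (R → Bool)) (L : ℕ) :
    Set (Fin L × R → Bool) :=
  {X | ∀ (l : ℕ) (hl : l < L), (fun q => X (⟨l, hl⟩, q)) ∈
    S l (fun (i : Fin l) q => X (⟨i.val, lt_trans i.isLt hl⟩, q))}

theorem chain {p : ℝ} (hp0 : 0 ≤ p) (hp1 : p ≤ 1) {ρ : ℝ} (hρ : 0 ≤ ρ)
    (S : (m : ℕ) → (Fin m → R → Bool) → Set (R → Bool)) :
    ∀ L : ℕ, (∀ m < L, ∀ X, bernoulliProb p (S m X) ≤ ρ) →
      bernoulliProb p (chainEv S L) ≤ ρ ^ L := by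
  classical
  intro L
  induction L with
  | zero =>
    intro _
    simpa using prob_le_one hp0 hp1 (chainEv S 0)
  | succ L ih =>
    intro hS
    have ih' := ih fun m hm X => hS m (by omega) X
    rw [prob_eq_ex, ex_comp (lastRow L) p, ex_sumType]
    have hstep : ∀ X' : Fin L × R → Bool,
        ex p (fun x : R → Bool => if (Sum.elim X' x) ∘ (lastRow L) ∈ chainEv S (L + 1)
          then (1:ℝ) else 0) ≤ ρ * (if X' ∈ chainEv S L then (1:ℝ) else 0) := by
      intro X'
      by_cases hX : X' ∈ chainEv S L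
      · simp only [hX, if_true, mul_one]
        refine le_trans ?_ (hS L (by omega) (fun i q => X' (i, q)))
        rw [prob_eq_ex]
        refine ex_mono hp0 hp1 fun x => ?_
        by_cases h1 : (Sum.elim X' x) ∘ (lastRow L) ∈ chainEv S (L + 1)
        · have h2 := h1 L (Nat.lt_succ_self L)
          have h3 : (fun q => ((Sum.elim X' x) ∘ (lastRow L)) ((⟨L, Nat.lt_succ_self L⟩ : Fin (L+1)), q))
              = x := by
            funext q
            simp only [Function.comp_apply, lastRow_last, Sum.elim_inr]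
          have h4 : (fun (i : Fin L) q => ((Sum.elim X' x) ∘ (lastRow L))
              ((⟨i.val, lt_trans i.isLt (Nat.lt_succ_self L)⟩ : Fin (L+1)), q)) =
              (fun i q => X' (i, q)) := by
            funext i q
            simp only [Function.comp_apply]
            rw [lastRow_lt i.val i.isLt q]
            rfl
          rw [h3, h4] at h2
          simp [h1, h2]
        · simp only [h1, if_false]
          split_ifs <;> norm_num
      · simp only [hX, if_false, mul_zero]
        refine le_of_eq ?_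
        have h1 : ∀ x : R → Bool, (Sum.elim X' x) ∘ (lastRow L) ∉ chainEv S (L + 1) := by
          intro x h1
          apply hX
          intro l hl
          have h2 := h1 l (by omega)
          have h3 : (fun q => ((Sum.elim X' x) ∘ (lastRow L)) ((⟨l, by omega⟩ : Fin (L+1)), q))
              = (fun q => X' (⟨l, hl⟩, q)) := by
            funext q
            simp only [Function.comp_apply]
            rw [lastRow_lt l hl q]
            rfl
          have h4 : (fun (i : Fin l) q => ((Sum.elim X' x) ∘ (lastRow L))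
              ((⟨i.val, lt_trans i.isLt (by omega)⟩ : Fin (L+1)), q)) =
              (fun (i : Fin l) q => X' (⟨i.val, lt_trans i.isLt hl⟩, q)) := by
            funext i q
            simp only [Function.comp_apply]
            rw [lastRow_lt i.val (lt_trans i.isLt hl) q]
            rfl
          rw [h3, h4] at h2
          exact h2
        simp only [h1, if_false]
        exact ex_const p 0
    refine (ex_mono hp0 hp1 hstep).trans ?_
    rw [ex_smul, ← prob_eq_ex, pow_succ, mul_comm]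
    exact mul_le_mul_of_nonneg_right ih' hρ

end Chain

end Crest.Agent.R152.Spec
end

-- ▼ part R152/Spec4
section

set_option autoImplicit false
set_option linter.unusedSectionVars false

/-! Row 152, SPEC part 4: linear algebra (orthonormal families orthogonal to a subspace, pivots,
pivot sequences). -/

open scoped InnerProductSpace

namespace Crest.Agent.R152.Spec

open Base

section LA
variable {ι : Type*} [Fintype ι] [DecidableEq ι]

/-- the Euclidean vector of a coordinate vector -/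
noncomputable def eu (x : ι → ℝ) : EuclideanSpace ℝ ι := WithLp.toLp 2 x

theorem inner_eu (x y : ι → ℝ) : ⟪eu x, eu y⟫_ℝ = ∑ i, x i * y i := by
  simp [eu, PiLp.inner_apply, mul_comm]

theorem norm_eu (x : ι → ℝ) : ‖eu x‖ ^ 2 = ∑ i, x i ^ 2 := by
  rw [← real_inner_self_eq_norm_sq, inner_eu]
  exact Finset.sum_congr rfl fun i _ => by ring

/-- coordinate subspace of `ι → ℝ` as a subspace of Euclidean space -/
noncomputable def euS (H : Submodule ℝ (ι → ℝ)) : Submodule ℝ (EuclideanSpace ℝ ι) :=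
  H.map (WithLp.linearEquiv 2 ℝ (ι → ℝ)).symm.toLinearMap

theorem eu_mem {H : Submodule ℝ (ι → ℝ)} {x : ι → ℝ} (h : x ∈ H) : eu x ∈ euS H :=
  ⟨x, h, rfl⟩

theorem mem_of_euS {H : Submodule ℝ (ι → ℝ)} {y : EuclideanSpace ℝ ι} (h : y ∈ euS H) :
    y.ofLp ∈ H := by
  obtain ⟨x, hx, rfl⟩ := h
  exact hx

theorem finrank_euS (H : Submodule ℝ (ι → ℝ)) :
    Module.finrank ℝ (euS H) = Module.finrank ℝ H :=
  LinearEquiv.finrank_map_eq _ _

/-- coordinates of an orthonormal family -/
theorem ON_of_orthonormal {κ : Type*} [Fintype κ] {v : κ → EuclideanSpace ℝ ι}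
    (hv : Orthonormal ℝ v) : ON (fun l => (v l).ofLp) := by
  have he : ∀ l, eu ((v l).ofLp) = v l := fun l => rfl
  refine ⟨fun l => ?_, fun x => ?_⟩
  · rw [← norm_eu, he, hv.1 l]; norm_num
  · have h := hv.sum_inner_products_le (s := Finset.univ) (eu x)
    rw [norm_eu] at h
    refine le_trans (le_of_eq ?_) h
    refine Finset.sum_congr rfl fun l _ => ?_
    rw [← he l, inner_eu, Real.norm_eq_abs, sq_abs]
    rfl

/-- an orthonormal family orthogonal to `H` -/
theorem exists_ON (H : Submodule ℝ (ι → ℝ)) (k : ℕ)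
    (hk : Module.finrank ℝ H + k ≤ Fintype.card ι) :
    ∃ u : Fin k → ι → ℝ, ON u ∧ ∀ l, ∀ h ∈ H, ∑ i, u l i * h i = 0 := by
  have h1 := (euS H).finrank_add_finrank_orthogonal
  rw [finrank_euS, finrank_euclideanSpace] at h1
  have h2 : k ≤ Module.finrank ℝ ((euS H)ᗮ : Submodule ℝ (EuclideanSpace ℝ ι)) := by omega
  let b := stdOrthonormalBasis ℝ ((euS H)ᗮ : Submodule ℝ (EuclideanSpace ℝ ι))
  let v : Fin k → EuclideanSpace ℝ ι := fun l => (b (Fin.castLE h2 l) : EuclideanSpace ℝ ι)
  have hv : Orthonormal ℝ v := by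
    have hb : Orthonormal ℝ (fun l => ((b l : ((euS H)ᗮ : Submodule ℝ (EuclideanSpace ℝ ι))) :
        EuclideanSpace ℝ ι)) := b.orthonormal.comp_linearIsometry
          ((euS H)ᗮ : Submodule ℝ (EuclideanSpace ℝ ι)).subtypeₗᵢ
    exact hb.comp _ (Fin.castLE_injective h2)
  refine ⟨fun l => (v l).ofLp, ON_of_orthonormal hv, fun l h hh => ?_⟩
  have h3 := (b (Fin.castLE h2 l)).2
  rw [Submodule.mem_orthogonal'] at h3
  have h4 := h3 (eu h) (eu_mem hh)
  rw [← inner_eu]
  exact h4

/-- a pivot vector in a subspace of dimension at least `m` -/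
theorem exists_pivot (V : Submodule ℝ (ι → ℝ)) (m : ℕ) (hm : 0 < m)
    (hV : m ≤ Module.finrank ℝ V) :
    ∃ i, ∃ u ∈ V, u i = 1 ∧ ∑ j, u j ^ 2 ≤ (Fintype.card ι : ℝ) / m := by
  classical
  set d := Module.finrank ℝ (euS V) with hd
  have hd' : m ≤ d := by rw [hd, finrank_euS]; exact hV
  let b := stdOrthonormalBasis ℝ (euS V)
  let v : Fin d → EuclideanSpace ℝ ι := fun l => (b l : EuclideanSpace ℝ ι)
  have hv : Orthonormal ℝ v := b.orthonormal.comp_linearIsometry (euS V).subtypeₗᵢ
  have hON := ON_of_orthonormal hv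
  set w : Fin d → ι → ℝ := fun l => (v l).ofLp with hw
  have hwV : ∀ l, w l ∈ V := fun l => mem_of_euS (b l).2
  set s : ι → ℝ := fun i => ∑ l, w l i ^ 2 with hs
  have hsum : ∑ i, s i = d := by
    simp only [hs]
    rw [Finset.sum_comm]
    have : ∀ l, ∑ i, w l i ^ 2 = 1 := hON.norm
    simp [this]
  have hex : ∃ i, (d : ℝ) / Fintype.card ι ≤ s i := by
    by_contra hcon
    push Not at hcon
    have hne : Nonempty ι := by
      by_contra hne
      rw [not_nonempty_iff] at hne
      have : ∑ i, s i = 0 := by simp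
      rw [this] at hsum
      have : (d : ℝ) ≠ 0 := by
        have : 0 < d := lt_of_lt_of_le hm hd'
        positivity
      exact this hsum.symm
    have hcard : (0 : ℝ) < Fintype.card ι := by exact_mod_cast Fintype.card_pos
    have h1 : ∑ i, s i < ∑ _i : ι, (d : ℝ) / Fintype.card ι :=
      Finset.sum_lt_sum_of_nonempty Finset.univ_nonempty fun i _ => hcon i
    rw [hsum, Finset.sum_const, Finset.card_univ, nsmul_eq_mul, mul_div_cancel₀ _ hcard.ne'] at h1
    exact lt_irrefl _ h1
  obtain ⟨i, hi⟩ := hex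
  have hcard : (0 : ℝ) < Fintype.card ι := by
    have : Nonempty ι := ⟨i⟩
    exact_mod_cast Fintype.card_pos
  have hm' : (0 : ℝ) < m := by exact_mod_cast hm
  have hmd : (m : ℝ) ≤ d := by exact_mod_cast hd'
  have hsi : (m : ℝ) / Fintype.card ι ≤ s i :=
    le_trans (div_le_div_of_nonneg_right hmd hcard.le) hi
  have hsi0 : 0 < s i := lt_of_lt_of_le (div_pos hm' hcard) hsi
  refine ⟨i, ∑ l, (w l i / s i) • w l, ?_, ?_, ?_⟩
  · exact V.sum_mem fun l _ => V.smul_mem _ (hwV l)
  · rw [Finset.sum_apply]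
    have : ∀ l, ((w l i / s i) • w l) i = w l i ^ 2 / s i := by
      intro l
      simp only [Pi.smul_apply, smul_eq_mul]
      ring
    simp only [this]
    rw [← Finset.sum_div]
    exact div_self hsi0.ne'
  · have h1 : ∑ j, (∑ l, (w l i / s i) • w l) j ^ 2 = 1 / s i := by
      have h2 : eu (∑ l, (w l i / s i) • w l) = ∑ l, (w l i / s i) • v l := by
        simp only [eu, hw]
        ext j
        simp
      rw [← norm_eu, h2]
      rw [← real_inner_self_eq_norm_sq, hv.inner_sum]
      have h3 : ∀ l, (starRingEnd ℝ) (w l i / s i) * (w l i / s i) = w l i ^ 2 / s i ^ 2 := by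
        intro l
        simp only [conj_trivial]
        ring
      simp only [h3]
      rw [← Finset.sum_div]
      have h4 : ∑ l, w l i ^ 2 = s i := rfl
      rw [h4]
      field_simp
    rw [h1]
    rw [div_le_div_iff₀ hsi0 hm']
    have := (div_le_iff₀ hcard).mp hsi
    linarith

theorem finrank_inf_vanish (U : Submodule ℝ (ι → ℝ)) (T : Finset ι) :
    Module.finrank ℝ U ≤ Module.finrank ℝ
      (U ⊓ ⨅ i ∈ T, LinearMap.ker (LinearMap.proj i : (ι → ℝ) →ₗ[ℝ] ℝ) : Submodule ℝ (ι → ℝ)) +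
      T.card := by
  classical
  induction T using Finset.induction_on with
  | empty =>
    have h0 : (⨅ i ∈ (∅ : Finset ι), LinearMap.ker (LinearMap.proj i : (ι → ℝ) →ₗ[ℝ] ℝ)) = ⊤ := by
      simp
    rw [h0, inf_top_eq]
    simp
  | insert a T ha ih =>
    rw [Finset.card_insert_of_notMem ha]
    rw [Finset.iInf_insert]
    set W : Submodule ℝ (ι → ℝ) :=
      U ⊓ ⨅ i ∈ T, LinearMap.ker (LinearMap.proj i : (ι → ℝ) →ₗ[ℝ] ℝ) with hW
    set K : Submodule ℝ (ι → ℝ) := LinearMap.ker (LinearMap.proj a : (ι → ℝ) →ₗ[ℝ] ℝ) with hK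
    have h1 : U ⊓ (K ⊓ ⨅ i ∈ T, LinearMap.ker (LinearMap.proj i : (ι → ℝ) →ₗ[ℝ] ℝ)) = W ⊓ K := by
      rw [hW]
      ac_rfl
    rw [h1]
    have h2 := Submodule.finrank_sup_add_finrank_inf_eq W K
    have h3 : Module.finrank ℝ (W ⊔ K : Submodule ℝ (ι → ℝ)) ≤ Fintype.card ι := by
      have := Submodule.finrank_le (W ⊔ K)
      rwa [Module.finrank_pi] at this
    have h4 : Fintype.card ι ≤ Module.finrank ℝ K + 1 := by
      have h5 := LinearMap.finrank_range_add_finrank_ker (LinearMap.proj a : (ι → ℝ) →ₗ[ℝ] ℝ)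
      rw [Module.finrank_pi] at h5
      have h6 : Module.finrank ℝ (LinearMap.range (LinearMap.proj a : (ι → ℝ) →ₗ[ℝ] ℝ)) ≤ 1 := by
        have := Submodule.finrank_le (LinearMap.range (LinearMap.proj a : (ι → ℝ) →ₗ[ℝ] ℝ))
        simpa using this
      have h7 : Module.finrank ℝ K =
        Module.finrank ℝ (LinearMap.ker (LinearMap.proj a : (ι → ℝ) →ₗ[ℝ] ℝ)) := by rw [hK]
      omega
    omega

/-- pivot sequences -/
theorem exists_pivots (U : Submodule ℝ (ι → ℝ)) (J : Finset ι) (m : ℕ) (hm : 0 < m) :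
    ∀ L : ℕ, J.card + L + m ≤ Module.finrank ℝ U + 1 →
      ∃ (i : Fin L → ι) (u : Fin L → ι → ℝ), (∀ l, i l ∉ J) ∧
        (∀ l, u l ∈ U) ∧ (∀ l, ∀ j ∈ J, u l j = 0) ∧
        (∀ l l', l' < l → u l (i l') = 0) ∧ (∀ l, u l (i l) = 1) ∧
        (∀ l, ∑ j, u l j ^ 2 ≤ (Fintype.card ι : ℝ) / m) := by
  classical
  intro L
  induction L with
  | zero =>
    intro _
    exact ⟨Fin.elim0, Fin.elim0, fun l => l.elim0, fun l => l.elim0, fun l => l.elim0,
      fun l => l.elim0, fun l => l.elim0, fun l => l.elim0⟩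
  | succ L ih =>
    intro hL
    obtain ⟨i, u, h1, h2, h3, h4, h5, h6⟩ := ih (by omega)
    set T : Finset ι := J ∪ Finset.univ.image i with hT
    have hTc : T.card ≤ J.card + L := by
      refine (Finset.card_union_le _ _).trans ?_
      have := Finset.card_image_le (s := (Finset.univ : Finset (Fin L))) (f := i)
      rw [Finset.card_univ, Fintype.card_fin] at this
      omega
    have hV := finrank_inf_vanish U T
    set V : Submodule ℝ (ι → ℝ) :=
      U ⊓ ⨅ i ∈ T, LinearMap.ker (LinearMap.proj i : (ι → ℝ) →ₗ[ℝ] ℝ) with hVdef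
    obtain ⟨j, w, hw, hw1, hw2⟩ := exists_pivot V m hm (by omega)
    have hwU : w ∈ U := (Submodule.mem_inf.mp hw).1
    have hwT : ∀ q ∈ T, w q = 0 := by
      intro q hq
      have := (Submodule.mem_inf.mp hw).2
      rw [Submodule.mem_iInf] at this
      have := this q
      rw [Submodule.mem_iInf] at this
      exact this hq
    have hjT : j ∉ T := by
      intro hj
      have := hwT j hj
      rw [hw1] at this
      exact one_ne_zero this
    refine ⟨Fin.snoc i j, Fin.snoc u w, ?_, ?_, ?_, ?_, ?_, ?_⟩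
    · intro l
      refine Fin.lastCases ?_ (fun l => ?_) l
      · rw [Fin.snoc_last]
        exact fun hj => hjT (by rw [hT]; exact Finset.mem_union_left _ hj)
      · rw [Fin.snoc_castSucc]; exact h1 l
    · intro l
      refine Fin.lastCases ?_ (fun l => ?_) l
      · rw [Fin.snoc_last]; exact hwU
      · rw [Fin.snoc_castSucc]; exact h2 l
    · intro l
      refine Fin.lastCases ?_ (fun l => ?_) l
      · rw [Fin.snoc_last]
        exact fun q hq => hwT q (by rw [hT]; exact Finset.mem_union_left _ hq)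
      · rw [Fin.snoc_castSucc]; exact h3 l
    · intro l
      refine Fin.lastCases ?_ (fun l => ?_) l
      · intro l' hl'
        rw [Fin.snoc_last]
        induction l' using Fin.lastCases with
        | last => exact absurd hl' (lt_irrefl _)
        | cast l' =>
          rw [Fin.snoc_castSucc]
          exact hwT _ (by
            rw [hT]
            exact Finset.mem_union_right _ (Finset.mem_image_of_mem _ (Finset.mem_univ _)))
      · intro l' hl'
        rw [Fin.snoc_castSucc]
        induction l' using Fin.lastCases with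
        | last => exact absurd hl' (not_lt.mpr (Fin.le_last _))
        | cast l' =>
          rw [Fin.snoc_castSucc]
          exact h4 l l' (by simpa using hl')
    · intro l
      refine Fin.lastCases ?_ (fun l => ?_) l
      · rw [Fin.snoc_last, Fin.snoc_last]; exact hw1
      · rw [Fin.snoc_castSucc, Fin.snoc_castSucc]; exact h5 l
    · intro l
      refine Fin.lastCases ?_ (fun l => ?_) l
      · rw [Fin.snoc_last]; exact hw2
      · rw [Fin.snoc_castSucc]; exact h6 l

end LA

end Crest.Agent.R152.Spec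
end

-- ▼ part R152/Spec5
section

set_option autoImplicit false
set_option linter.unusedSectionVars false

/-! Row 152, SPEC part 5: a symmetric sign matrix has no subspace of dimension `4L` on which it is
at most `τ`, outside an event of probability `n^L exp(-a L^2/16)`. -/

open Crest.FinProb Crest.ProbabilityR.SignMatrix

namespace Crest.Agent.R152.Spec

open Base

/-- the real symmetric sign matrix -/
noncomputable def AR {ι : Type*} (b : Sym2 ι → Bool) (i j : ι) : ℝ := (sg (b s(i, j)) : ℝ)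


section Fixed
variable {R : Type*} [Fintype R] [DecidableEq R] (J' : R → Prop) [DecidablePred J']

/-- the subspace spanned by the columns outside `J'` and the rows revealed so far -/
noncomputable def Hsp (B : Sym2 R → Bool) (m : ℕ) (X : Fin m → R → Bool) :
    Submodule ℝ (R → ℝ) :=
  Submodule.span ℝ (Set.range (Sum.elim (fun (q' : {q : R // ¬ J' q}) (q : R) => AR B q q'.val)
    (fun (i : Fin m) => sv (X i))))

theorem finrank_Hsp (B : Sym2 R → Bool) (m : ℕ) (X : Fin m → R → Bool) :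
    Module.finrank ℝ (Hsp J' B m X) ≤ Fintype.card {q : R // ¬ J' q} + m := by
  unfold Hsp
  refine (finrank_range_le_card _).trans ?_
  rw [Fintype.card_sum, Fintype.card_fin]

/-- the step event -/
def stepEv (B : Sym2 R → Bool) (r2 : ℝ) (m : ℕ) (X : Fin m → R → Bool) : Set (R → Bool) :=
  {x | ∃ h ∈ Hsp J' B m X, ∑ q, (sv x q - h q) ^ 2 ≤ r2}

theorem prob_stepEv {p : ℝ} (hp0 : 0 ≤ p) (hp1 : p ≤ 1) (B : Sym2 R → Bool) (r2 : ℝ) (m : ℕ)
    (X : Fin m → R → Bool) (k : ℕ) (hk : m + k ≤ Fintype.card {q : R // J' q})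
    (hr : r2 ≤ p * (1 - p) * k / 4) :
    bernoulliProb p (stepEv J' B r2 m X) ≤ Real.exp (-(p * (1 - p) * k / 16)) := by
  classical
  have h0 := finrank_Hsp J' B m X
  have hc : Fintype.card {q : R // ¬ J' q} + Fintype.card {q : R // J' q} = Fintype.card R := by
    have := Fintype.card_subtype_compl J'
    have h2 := Fintype.card_subtype_le J'
    omega
  obtain ⟨u, hu, hu0⟩ := exists_ON (Hsp J' B m X) k (by omega)
  refine le_trans (prob_mono hp0 hp1 ?_)
    (le_trans (small_ball hp0 hp1 hu (fun _ => 0) r2 (by simpa using hr)) (by simp))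
  rintro x ⟨h, hh, hx⟩
  simp only [Set.mem_ofPred_eq, sub_zero]
  refine le_trans (le_trans (le_of_eq ?_) (hu.bessel (fun q => sv x q - h q))) hx
  refine Finset.sum_congr rfl fun l _ => ?_
  congr 1
  have : ∑ q, u l q * (sv x q - h q) = ∑ q, u l q * sv x q - ∑ q, u l q * h q := by
    rw [← Finset.sum_sub_distrib]
    exact Finset.sum_congr rfl fun q _ => by ring
  rw [this, hu0 l h hh, sub_zero]

/-- the whole event for fixed pivots -/
def fixEv (r2 : ℝ) (L : ℕ) : Set (Sym2 R ⊕ (Fin L × R) → Bool) :=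
  {c | (fun z => c (Sum.inr z)) ∈ chainEv (stepEv J' (fun s => c (Sum.inl s)) r2) L}

theorem prob_fixEv {p : ℝ} (hp0 : 0 ≤ p) (hp1 : p ≤ 1) (r2 : ℝ) (L : ℕ) (k : ℕ)
    (hk : L + k ≤ Fintype.card {q : R // J' q} + 1) (hr : r2 ≤ p * (1 - p) * k / 4) :
    bernoulliProb p (fixEv J' r2 L) ≤ Real.exp (-(p * (1 - p) * k / 16)) ^ L := by
  classical
  rw [prob_eq_ex, ex_sumType]
  have h1 : ∀ B : Sym2 R → Bool, ex p (fun X : Fin L × R → Bool =>
      if Sum.elim B X ∈ fixEv J' r2 L then (1:ℝ) else 0) ≤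
      Real.exp (-(p * (1 - p) * k / 16)) ^ L := by
    intro B
    refine le_trans (le_of_eq ?_) (chain hp0 hp1 (Real.exp_pos _).le (stepEv J' B r2) L
      fun m hm X => prob_stepEv J' hp0 hp1 B r2 m X k (by omega) hr)
    rw [prob_eq_ex]
    rfl
  refine (ex_mono hp0 hp1 h1).trans ?_
  rw [ex_const]

end Fixed

section Pivots
variable {ι : Type*} [Fintype ι] [DecidableEq ι]

/-- rows not among the pivots -/
abbrev Rs {L : ℕ} (i : Fin L → ι) : Type _ := {q : ι // ∀ l, q ≠ i l}

/-- the coins of `B` and of the pivot rows -/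
def phi {L : ℕ} (i : Fin L → ι) : Sym2 (Rs i) ⊕ (Fin L × Rs i) → Sym2 ι :=
  Sum.elim (Sym2.map Subtype.val) (fun z => s(i (Fin.rev z.1), z.2.val))

theorem phi_injective {L : ℕ} {i : Fin L → ι} (hi : Function.Injective i) :
    Function.Injective (phi i) := by
  refine Function.Injective.sumElim (Sym2.map.injective Subtype.val_injective) ?_ ?_
  · rintro ⟨l, q⟩ ⟨l', q'⟩ h
    simp only [Sym2.eq_iff] at h
    rcases h with ⟨h1, h2⟩ | ⟨h1, h2⟩
    · have h3 := Fin.rev_injective (hi h1)
      have h4 := Subtype.val_injective h2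
      rw [h3, h4]
    · exact absurd h1.symm (q'.2 _)
  · rintro s ⟨l, q⟩ h
    induction s using Sym2.ind with
    | _ x y =>
      simp only [Sym2.map_mk, Sym2.eq_iff] at h
      rcases h with ⟨h1, _⟩ | ⟨_, h2⟩
      · exact x.2 _ h1
      · exact y.2 _ h2

/-- the deterministic heart -/
theorem mem_fixEv (b : Sym2 ι → Bool) (J : Finset ι) (L : ℕ) (i : Fin L → ι)
    (u : Fin L → ι → ℝ) (hi : Function.Injective i)
    (h3 : ∀ l, ∀ j ∈ J, u l j = 0) (h4 : ∀ l l', l' < l → u l (i l') = 0)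
    (h5 : ∀ l, u l (i l) = 1) (r2 : ℝ)
    (h6 : ∀ l, ∑ q, (∑ j, AR b q j * u l j) ^ 2 ≤ r2) :
    b ∘ phi i ∈ fixEv (fun q : Rs i => q.val ∈ J) r2 L := by
  classical
  intro m hm
  set l : Fin L := Fin.rev ⟨m, hm⟩ with hl
  -- the approximating vector
  refine ⟨fun q => sv (fun q : Rs i => b s(i l, q.val)) q - ∑ j, AR b q.val j * u l j, ?_, ?_⟩
  · -- membership
    have hdec : ∀ q : Rs i, ∑ j, AR b q.val j * u l j =
        ∑ l', AR b q.val (i l') * u l (i l') + ∑ q' : Rs i, AR b q.val q'.val * u l q'.val := by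
      intro q
      have e := Finset.sum_filter_add_sum_filter_not (Finset.univ : Finset ι)
        (fun j => ∃ l', j = i l') (fun j => AR b q.val j * u l j)
      rw [← e]
      congr 1
      · have himg : (Finset.univ.filter fun j => ∃ l', j = i l') = Finset.univ.image i := by
          ext j
          simp [eq_comm]
        rw [himg, Finset.sum_image fun x _ y _ h => hi h]
      · rw [← Finset.sum_subtype_eq_sum_filter]
        refine Finset.sum_bij' (fun q' _ => (⟨q'.val, fun l' h => q'.2 ⟨l', h⟩⟩ : Rs i))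
          (fun q' _ => ⟨q'.val, fun ⟨l', h⟩ => q'.2 l' h⟩) ?_ ?_ ?_ ?_ ?_
        · intro a _; exact Finset.mem_univ _
        · intro a _; simp
        · intro a _; rfl
        · intro a _; rfl
        · intro a _; rfl
    have hfun : (fun q : Rs i => sv (fun q : Rs i => b s(i l, q.val)) q -
        ∑ j, AR b q.val j * u l j) =
        -(∑ l' ∈ Finset.univ.filter (fun l' => l < l'), u l (i l') •
          sv (fun q : Rs i => b s(i l', q.val))) -
        ∑ q' : {q : Rs i // ¬ (q.val ∈ J)}, u l q'.val.val • (fun q : Rs i => AR b q.val q'.val.val)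
        := by
      funext q
      simp only [Pi.sub_apply, Pi.neg_apply, Finset.sum_apply, Pi.smul_apply, smul_eq_mul]
      rw [hdec q]
      have e1 : ∑ l', AR b q.val (i l') * u l (i l') =
          sv (fun q : Rs i => b s(i l, q.val)) q + ∑ l' ∈ Finset.univ.filter (fun l' => l < l'),
            u l (i l') * sv (fun q : Rs i => b s(i l', q.val)) q := by
        rw [← Finset.sum_filter_add_sum_filter_not Finset.univ (fun l' => l < l'), add_comm]
        congr 1
        · rw [Finset.sum_eq_single l]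
          · rw [h5, mul_one]
            simp only [AR, sv]
            rw [Sym2.eq_swap]
          · intro l' hl' hne
            simp only [Finset.mem_filter, Finset.mem_univ, true_and, not_lt] at hl'
            rw [h4 l l' (lt_of_le_of_ne hl' hne), mul_zero]
          · intro h
            simp at h
        · refine Finset.sum_congr rfl fun l' _ => ?_
          simp only [AR, sv]
          rw [Sym2.eq_swap]
          ring
      have e2 : ∑ q' : Rs i, AR b q.val q'.val * u l q'.val =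
          ∑ q' : {q : Rs i // ¬ (q.val ∈ J)}, u l q'.val.val * AR b q.val q'.val.val := by
        rw [← Fintype.sum_subtype_add_sum_subtype (fun q' : Rs i => q'.val ∈ J)
          (fun q' : Rs i => AR b q.val q'.val * u l q'.val)]
        have e20 : ∑ q' : {q' : Rs i // q'.val ∈ J}, AR b q.val q'.val.val * u l q'.val.val = 0 :=
          Finset.sum_eq_zero fun q' _ => by rw [h3 l _ q'.2, mul_zero]
        rw [e20, zero_add]
        exact Finset.sum_congr rfl fun q' _ => mul_comm _ _
      rw [e1, e2]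
      ring
    rw [hfun]
    refine Submodule.sub_mem _ (Submodule.neg_mem _ (Submodule.sum_mem _ fun l' hl' =>
      Submodule.smul_mem _ _ (Submodule.subset_span ?_))) (Submodule.sum_mem _ fun q' _ =>
      Submodule.smul_mem _ _ (Submodule.subset_span ⟨Sum.inl q', rfl⟩))
    have hlt : l < l' := by simpa using hl'
    have hv : (Fin.rev l').val < m := by
      have h1 : Fin.rev l' < Fin.rev l := Fin.rev_lt_rev.mpr hlt
      rw [hl, Fin.rev_rev] at h1
      exact h1
    refine ⟨Sum.inr ⟨(Fin.rev l').val, hv⟩, ?_⟩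
    have : (fun (q : Rs i) => (b ∘ phi i)
        (Sum.inr ((⟨(Fin.rev l').val, lt_trans hv hm⟩ : Fin L), q))) =
        (fun q : Rs i => b s(i l', q.val)) := by
      funext q
      simp only [Function.comp_apply, phi, Sum.elim_inr]
      have : (⟨(Fin.rev l').val, lt_trans hv hm⟩ : Fin L) = Fin.rev l' := rfl
      rw [this, Fin.rev_rev]
    rw [← this]
    rfl
  · refine le_trans ?_ (h6 l)
    have e3 : ∀ q : Rs i, (sv (fun q : Rs i => (b ∘ phi i) (Sum.inr (⟨m, hm⟩, q))) q -
        (sv (fun q : Rs i => b s(i l, q.val)) q - ∑ j, AR b q.val j * u l j)) ^ 2 =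
        (∑ j, AR b q.val j * u l j) ^ 2 := by
      intro q
      have : sv (fun q : Rs i => (b ∘ phi i) (Sum.inr (⟨m, hm⟩, q))) q =
          sv (fun q : Rs i => b s(i l, q.val)) q := rfl
      rw [this]
      ring
    simp only [e3]
    rw [← Fintype.sum_subtype_add_sum_subtype (fun q : ι => ∀ l, q ≠ i l)
      (fun q => (∑ j, AR b q j * u l j) ^ 2)]
    have : 0 ≤ ∑ q : {q : ι // ¬ ∀ l, q ≠ i l}, (∑ j, AR b q.val j * u l j) ^ 2 :=
      Finset.sum_nonneg fun q _ => sq_nonneg _
    linarith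

theorem card_J {L : ℕ} (i : Fin L → ι) (J : Finset ι) (hJ : ∀ l, i l ∉ J) :
    Fintype.card {q : Rs i // q.val ∈ J} = J.card := by
  classical
  rw [← Fintype.card_coe]
  refine Fintype.card_congr ⟨fun q => ⟨q.val.val, q.2⟩,
    fun q => ⟨⟨q.val, fun l h => hJ l (h ▸ q.2)⟩, q.2⟩, fun _ => rfl, fun _ => rfl⟩

/-- the event of SPEC -/
def badEv (ι : Type*) [Fintype ι] (L : ℕ) (t2 : ℝ) : Set (Sym2 ι → Bool) :=
  {b | ∃ U : Submodule ℝ (ι → ℝ), 4 * L ≤ Module.finrank ℝ U ∧
    ∀ u ∈ U, ∑ q, (∑ j, AR b q j * u j) ^ 2 ≤ t2 * ∑ j, u j ^ 2}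

/-- **SPEC**: outside an event of probability `n^L exp(-a L^2/16)` a symmetric sign matrix is
larger than `τ` somewhere on every subspace of dimension `4L`, as soon as `τ² n ≤ a L²/4`. -/
theorem spec_main {p : ℝ} (hp0 : 0 ≤ p) (hp1 : p ≤ 1) (L : ℕ) (t2 : ℝ) (ht : 0 ≤ t2)
    (hL : t2 * Fintype.card ι ≤ p * (1 - p) * (L : ℝ) ^ 2 / 4) :
    bernoulliProb p (badEv ι L t2) ≤
      (Fintype.card ι : ℝ) ^ L * Real.exp (-(p * (1 - p) * (L : ℝ) ^ 2 / 16)) := by
  classical
  by_cases hn : 4 * L ≤ Fintype.card ι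
  swap
  · have : badEv ι L t2 = ∅ := by
      ext b
      simp only [badEv, Set.mem_ofPred_eq, Set.mem_empty_iff_false, iff_false]
      rintro ⟨U, hU, -⟩
      have := Submodule.finrank_le U
      rw [Module.finrank_pi] at this
      omega
    rw [this, prob_empty]
    positivity
  obtain ⟨J, -, hJ⟩ := Finset.exists_subset_card_eq (s := (Finset.univ : Finset ι)) (n := 2 * L)
    (by rw [Finset.card_univ]; omega)
  set a := p * (1 - p) with ha
  have ha0 : 0 ≤ a := mul_nonneg hp0 (by linarith)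
  set n : ℝ := (Fintype.card ι : ℝ) with hndef
  set r2 : ℝ := t2 * (n / ((L + 1 : ℕ) : ℝ)) with hr2
  have hL1 : (0:ℝ) < ((L + 1 : ℕ) : ℝ) := by positivity
  have hr : r2 ≤ a * ((L + 1 : ℕ) : ℝ) / 4 := by
    rw [hr2, ← mul_div_assoc, div_le_iff₀ hL1]
    refine hL.trans ?_
    have : (L : ℝ) ^ 2 ≤ ((L + 1 : ℕ) : ℝ) * ((L + 1 : ℕ) : ℝ) := by push_cast; nlinarith
    nlinarith [mul_le_mul_of_nonneg_left this ha0]
  let E : (Fin L → ι) → Set (Sym2 ι → Bool) := fun i =>
    if Function.Injective i ∧ ∀ l, i l ∉ J then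
      {b | b ∘ phi i ∈ fixEv (fun q : Rs i => q.val ∈ J) r2 L} else ∅
  have hsub : badEv ι L t2 ⊆ ⋃ i, E i := by
    rintro b ⟨U, hU, hb⟩
    obtain ⟨i, u, h1, h2, h3, h4, h5, h6⟩ := exists_pivots U J (L + 1) (Nat.succ_pos _) L (by omega)
    have hi : Function.Injective i := by
      intro l l' h
      by_contra hne
      rcases lt_or_gt_of_ne hne with hlt | hlt
      · have := h4 l' l hlt
        rw [h, h5] at this
        exact one_ne_zero this
      · have := h4 l l' hlt
        rw [← h, h5] at this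
        exact one_ne_zero this
    refine Set.mem_iUnion.mpr ⟨i, ?_⟩
    simp only [E, hi, h1, not_false_iff, implies_true, and_self, if_true, Set.mem_ofPred_eq]
    refine mem_fixEv b J L i u hi h3 h4 h5 r2 fun l => (hb (u l) (h2 l)).trans ?_
    exact mul_le_mul_of_nonneg_left (h6 l) ht
  have hE : ∀ i, bernoulliProb p (E i) ≤ Real.exp (-(a * ((L + 1 : ℕ) : ℝ) / 16)) ^ L := by
    intro i
    by_cases hi : Function.Injective i ∧ ∀ l, i l ∉ J
    · simp only [E, hi, not_false_iff, implies_true, and_self, if_true]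
      rw [prob_marg p (phi_injective hi.1)]
      exact prob_fixEv _ hp0 hp1 r2 L (L + 1) (by rw [card_J i J hi.2, hJ]; omega) hr
    · simp only [E, hi, if_false, prob_empty]
      positivity
  refine (prob_mono hp0 hp1 hsub).trans ((prob_iUnion_le hp0 hp1 E).trans ?_)
  refine (Finset.sum_le_sum fun i _ => hE i).trans ?_
  rw [Finset.sum_const, Finset.card_univ, Fintype.card_fun, Fintype.card_fin, nsmul_eq_mul]
  push_cast
  refine mul_le_mul_of_nonneg_left ?_ (by positivity)
  rw [← Real.exp_nat_mul]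
  refine Real.exp_le_exp.mpr ?_
  have : (0:ℝ) ≤ L := Nat.cast_nonneg L
  nlinarith [mul_nonneg ha0 this]

end Pivots

end Crest.Agent.R152.Spec
end

-- ▼ part R152/Spec6

set_option autoImplicit false
set_option linter.unusedSectionVars false

/-! Row 152, SPEC part 6: asymptotic forms. -/

open Crest.FinProb Crest.ProbabilityR.SignMatrix
open Filter Topology

namespace Crest.Agent.R152.Spec

open Base

/-- the numerical bound -/
theorem num_bound {a : ℝ} (ha : 0 < a) {c d : ℝ} (hc : c < 1 / 2) (hcd : c < d) :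
    ∃ n0 : ℕ, ∀ n : ℕ, n0 ≤ n → ∀ L : ℕ, L = ⌊(n : ℝ) ^ (1 - c) / 4⌋₊ →
      (n : ℝ) ^ (1 - 2 * d) * n ≤ a * (L : ℝ) ^ 2 / 4 ∧
      (n : ℝ) ^ L * Real.exp (-(a * (L : ℝ) ^ 2 / 16)) ≤ (1 / 4 : ℝ) ^ n := by
  have hnat := tendsto_natCast_atTop_atTop (R := ℝ)
  have h1 : ∀ᶠ n : ℕ in atTop, (8 : ℝ) ≤ (n : ℝ) ^ (1 - c) :=
    ((tendsto_rpow_atTop (by linarith : 0 < 1 - c)).comp hnat).eventually_ge_atTop 8
  have h2 : ∀ᶠ n : ℕ in atTop, 256 / a ≤ (n : ℝ) ^ (2 * (d - c)) :=
    ((tendsto_rpow_atTop (by linarith : 0 < 2 * (d - c))).comp hnat).eventually_ge_atTop _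
  have h3 : ∀ᶠ n : ℕ in atTop, 2048 * Real.log 4 / a ≤ (n : ℝ) ^ (1 - 2 * c) :=
    ((tendsto_rpow_atTop (by linarith : 0 < 1 - 2 * c)).comp hnat).eventually_ge_atTop _
  have h4 : ∀ᶠ n : ℕ in atTop, Real.log n ≤ a / 256 * (n : ℝ) ^ (1 - c) := by
    have := (isLittleO_log_rpow_atTop (by linarith : 0 < 1 - c)).def (by positivity : 0 < a / 256)
    have h5 := hnat.eventually this
    filter_upwards [h5] with n hn
    rw [Real.norm_eq_abs, Real.norm_eq_abs] at hn
    refine (le_abs_self _).trans (hn.trans ?_)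
    rw [abs_of_nonneg (by positivity)]
  have h6 : ∀ᶠ n : ℕ in atTop, 1 ≤ n := eventually_ge_atTop 1
  obtain ⟨n0, hn0⟩ := eventually_atTop.mp (h1.and (h2.and (h3.and (h4.and h6))))
  refine ⟨n0, fun n hn L hL => ?_⟩
  obtain ⟨g1, g2, g3, g4, g6⟩ := hn0 n hn
  have hnpos : (0 : ℝ) < n := by exact_mod_cast g6
  set x : ℝ := (n : ℝ) ^ (1 - c) with hx
  have hLx : x / 8 ≤ (L : ℝ) := by
    have : x / 4 < (L : ℝ) + 1 := by rw [hL]; exact Nat.lt_floor_add_one _
    linarith
  have hx0 : 0 < x := by linarith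
  have hLx2 : x ^ 2 / 64 ≤ (L : ℝ) ^ 2 := by nlinarith
  have hxx : x ^ 2 = (n : ℝ) ^ (2 - 2 * c) := by
    rw [hx, ← Real.rpow_natCast, ← Real.rpow_mul hnpos.le]
    congr 1
    push_cast
    ring
  constructor
  · have e1 : (n : ℝ) ^ (1 - 2 * d) * n * (n : ℝ) ^ (2 * (d - c)) = x ^ 2 := by
      rw [hxx]
      nth_rewrite 2 [← Real.rpow_one (n : ℝ)]
      rw [← Real.rpow_add hnpos, ← Real.rpow_add hnpos]
      congr 1
      ring
    have e2 : 0 < (n : ℝ) ^ (1 - 2 * d) * n := by positivity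
    have e3 : (n : ℝ) ^ (1 - 2 * d) * n * (256 / a) ≤ x ^ 2 := by
      rw [← e1]
      exact mul_le_mul_of_nonneg_left g2 e2.le
    have e4 : (n : ℝ) ^ (1 - 2 * d) * n ≤ a * x ^ 2 / 256 := by
      rw [le_div_iff₀ (by norm_num)]
      have := mul_le_mul_of_nonneg_left e3 ha.le
      have e5 : a * ((n : ℝ) ^ (1 - 2 * d) * n * (256 / a)) = (n : ℝ) ^ (1 - 2 * d) * n * 256 := by
        field_simp
      rw [e5] at this
      exact this
    nlinarith [mul_le_mul_of_nonneg_left hLx2 ha.le]
  · have e1 : (n : ℝ) ^ L = Real.exp (L * Real.log n) := by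
      rw [mul_comm, Real.exp_mul, Real.exp_log hnpos, Real.rpow_natCast]
    have e2 : (1 / 4 : ℝ) ^ n = Real.exp (-(n * Real.log 4)) := by
      rw [Real.exp_neg, mul_comm, Real.exp_mul, Real.exp_log (by norm_num), Real.rpow_natCast,
        one_div, inv_pow]
    rw [e1, e2, ← Real.exp_add]
    refine Real.exp_le_exp.mpr ?_
    have hL0 : (0 : ℝ) ≤ L := Nat.cast_nonneg L
    have e3 : L * Real.log n ≤ a * (L : ℝ) ^ 2 / 32 := by
      have : Real.log n ≤ a * L / 32 := by
        refine g4.trans ?_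
        nlinarith [mul_le_mul_of_nonneg_left hLx ha.le]
      nlinarith [mul_le_mul_of_nonneg_left this hL0]
    have e4 : n * Real.log 4 ≤ a * (L : ℝ) ^ 2 / 32 := by
      have e5 : (n : ℝ) * (n : ℝ) ^ (1 - 2 * c) = x ^ 2 := by
        rw [hxx]
        nth_rewrite 1 [← Real.rpow_one (n : ℝ)]
        rw [← Real.rpow_add hnpos]
        congr 1
        ring
      have e6 : n * (2048 * Real.log 4 / a) ≤ x ^ 2 := by
        rw [← e5]
        exact mul_le_mul_of_nonneg_left g3 hnpos.le
      have e7 : n * Real.log 4 * 2048 ≤ a * x ^ 2 := by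
        have := mul_le_mul_of_nonneg_left e6 ha.le
        have e8 : a * (n * (2048 * Real.log 4 / a)) = n * Real.log 4 * 2048 := by
          field_simp
        rw [e8] at this
        exact this
      nlinarith [mul_le_mul_of_nonneg_left hLx2 ha.le]
    linarith

/-- **SPEC**, coordinate form: outside probability `4^{-n}` there is no subspace of dimension
`≥ n^{1-c}` on which `|A u| ≤ n^{1/2-d} |u|`. -/
theorem spec_coord {p : ℝ} (hp0 : 0 < p) (hp1 : p < 1) {c d : ℝ} (hc : c < 1 / 2) (hcd : c < d) :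
    ∃ n0 : ℕ, ∀ n : ℕ, n0 ≤ n → bernoulliProb p {b : Sym2 (Fin n) → Bool |
      ∃ U : Submodule ℝ (Fin n → ℝ), (n : ℝ) ^ (1 - c) ≤ (Module.finrank ℝ U : ℝ) ∧
        ∀ u ∈ U, ∑ q, (∑ j, ((symMat b q j : ℤ) : ℝ) * u j) ^ 2 ≤
          (n : ℝ) ^ (1 - 2 * d) * ∑ j, u j ^ 2} ≤ (1 / 4 : ℝ) ^ n := by
  have ha : 0 < p * (1 - p) := mul_pos hp0 (by linarith)
  obtain ⟨n0, hn0⟩ := num_bound ha hc hcd
  refine ⟨n0, fun n hn => ?_⟩
  obtain ⟨h1, h2⟩ := hn0 n hn _ rfl
  set L := ⌊(n : ℝ) ^ (1 - c) / 4⌋₊ with hL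
  refine le_trans (prob_mono hp0.le hp1.le ?_) ((spec_main (ι := Fin n) hp0.le hp1.le L
    ((n : ℝ) ^ (1 - 2 * d)) (by positivity) (by simpa using h1)).trans (by simpa using h2))
  rintro b ⟨U, hU, hb⟩
  refine ⟨U, ?_, hb⟩
  have h3 : ((4 * L : ℕ) : ℝ) ≤ (n : ℝ) ^ (1 - c) := by
    have : (L : ℝ) ≤ (n : ℝ) ^ (1 - c) / 4 := Nat.floor_le (by positivity)
    push_cast
    linarith
  exact_mod_cast h3.trans hU



end Crest.Agent.R152.Spec
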