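import Mathlib
import Crest.Agent.R152.TopP

-- ▼ part R152/TopB
section

set_option autoImplicit false
set_option linter.unusedSectionVars false

/-! Row 152, module TOP, part B: the largest binomial weight is at most `4 / √(s p (1-p))`. -/

namespace Crest.Agent.R152.Top

/-- binomial weight -/
noncomputable def bw (s : ℕ) (p : ℝ) (r : ℕ) : ℝ := (s.choose r : ℝ) * (p ^ r * (1 - p) ^ (s - r))

theorem bw_nonneg {s : ℕ} {p : ℝ} (hp0 : 0 ≤ p) (hp1 : p ≤ 1) (r : ℕ) : 0 ≤ bw s p r := by
  unfold bw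
  have : 0 ≤ 1 - p := by linarith
  positivity

theorem bw_sum {s : ℕ} {p : ℝ} : ∑ r ∈ Finset.range (s + 1), bw s p r = 1 := by
  have h := (Commute.all p (1 - p)).add_pow s
  rw [show p + (1 - p) = 1 by ring, one_pow] at h
  rw [h]
  refine Finset.sum_congr rfl fun r _ => ?_
  unfold bw
  ring

theorem bw_zero {s : ℕ} {p : ℝ} {r : ℕ} (h : s < r) : bw s p r = 0 := by
  unfold bw
  rw [Nat.choose_eq_zero_of_lt h]
  simp

theorem bw_window {s : ℕ} {p : ℝ} (hp0 : 0 ≤ p) (hp1 : p ≤ 1) (r J : ℕ) :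
    ∑ j ∈ Finset.range (J + 1), bw s p (r + j) ≤ 1 := by
  rw [← bw_sum (s := s) (p := p)]
  have h1 : ∑ j ∈ Finset.range (J + 1), bw s p (r + j) =
      ∑ i ∈ (Finset.range (J + 1)).image (fun j => r + j), bw s p i := by
    rw [Finset.sum_image]
    intro a _ b _ h
    exact Nat.add_left_cancel h
  rw [h1]
  calc ∑ i ∈ (Finset.range (J + 1)).image (fun j => r + j), bw s p i
      ≤ ∑ i ∈ (Finset.range (J + 1)).image (fun j => r + j) ∪ Finset.range (s + 1), bw s p i :=
        Finset.sum_le_sum_of_subset_of_nonneg Finset.subset_union_left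
          fun i _ _ => bw_nonneg hp0 hp1 i
    _ = ∑ i ∈ Finset.range (s + 1), bw s p i := by
        symm
        refine Finset.sum_subset Finset.subset_union_right fun i _ hi => ?_
        refine bw_zero ?_
        rw [Finset.mem_range] at hi
        omega

theorem bw_succ {s : ℕ} {p : ℝ} {k : ℕ} (hk : k < s) :
    bw s p (k + 1) * ((k + 1 : ℝ) * (1 - p)) = bw s p k * (((s : ℝ) - k) * p) := by
  unfold bw
  have h1 : (s.choose (k + 1) : ℝ) * (k + 1) = (s.choose k : ℝ) * ((s : ℝ) - k) := by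
    have := Nat.choose_succ_right_eq s k
    have h2 : ((s.choose (k + 1) * (k + 1) : ℕ) : ℝ) = ((s.choose k * (s - k) : ℕ) : ℝ) := by
      rw [this]
    push_cast at h2
    rw [Nat.cast_sub hk.le] at h2
    exact h2
  have h3 : s - k = (s - (k + 1)) + 1 := by omega
  rw [h3, pow_succ, pow_succ]
  linear_combination (p ^ k * p * (1 - p) ^ (s - (k + 1)) * (1 - p)) * h1

theorem bw_step {s : ℕ} {p : ℝ} (hp0 : 0 < p) (hp1 : p < 1) {r i : ℕ} (hr : (r : ℝ) ≤ s * p)
    (hi : ((i : ℝ) + 1) ≤ s * p * (1 - p)) :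
    bw s p (r + i) * (1 - ((i : ℝ) + 1) / (s * p * (1 - p))) ≤ bw s p (r + i + 1) := by
  set X : ℝ := s * p * (1 - p) with hX
  have hq : 0 < 1 - p := by linarith
  have hX0 : 0 < X := by
    have : (0 : ℝ) ≤ i := Nat.cast_nonneg i
    linarith
  have hks : r + i < s := by
    by_contra hcon
    push Not at hcon
    have h1 : (s : ℝ) ≤ r + i := by exact_mod_cast hcon
    have h2 : (s : ℝ) * (1 - p) ≤ i := by nlinarith
    have h3 : X ≤ i := by
      have : X = p * (s * (1 - p)) := by rw [hX]; ring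
      rw [this]
      have hi0 : (0 : ℝ) ≤ i := Nat.cast_nonneg i
      nlinarith
    linarith
  have hb := bw_nonneg (s := s) hp0.le hp1.le (r + i)
  have hs := bw_succ (s := s) (p := p) hks
  push_cast at hs
  have hden : 0 < ((r : ℝ) + i + 1) * (1 - p) := by positivity
  have h4 : bw s p (r + i + 1) = bw s p (r + i) * ((((s : ℝ) - (r + i)) * p) / (((r : ℝ) + i + 1) * (1 - p))) := by
    field_simp
    linarith
  rw [h4]
  refine mul_le_mul_of_nonneg_left ?_ hb
  rw [le_div_iff₀ hden]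
  have hi0 : (0 : ℝ) ≤ i := Nat.cast_nonneg i
  have h5 : (s : ℝ) * (1 - p) ≤ s - r := by nlinarith
  have h6 : (s * (1 - p) - i) * p ≤ ((s : ℝ) - (r + i)) * p := by nlinarith
  have h7 : ((r : ℝ) + i + 1) * (1 - p) ≤ X + (i + 1) * (1 - p) := by
    rw [hX]; nlinarith
  have h8 : 0 ≤ 1 - ((i : ℝ) + 1) / X := by
    rw [sub_nonneg, div_le_one hX0]
    exact hi
  have h9 : (1 - ((i : ℝ) + 1) / X) * (X + (i + 1) * (1 - p)) ≤ (s * (1 - p) - i) * p := by
    have e1 : (1 - ((i : ℝ) + 1) / X) * (X + (i + 1) * (1 - p)) =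
        X - (i + 1) * p - ((i + 1) * (i + 1) * (1 - p)) / X := by
      field_simp
      ring
    have e2 : (s * (1 - p) - (i : ℝ)) * p = X - i * p := by rw [hX]; ring
    rw [e1, e2]
    have e3 : 0 ≤ (((i : ℝ) + 1) * (i + 1) * (1 - p)) / X := by positivity
    nlinarith
  calc (1 - ((i : ℝ) + 1) / X) * (((r : ℝ) + i + 1) * (1 - p))
      ≤ (1 - ((i : ℝ) + 1) / X) * (X + (i + 1) * (1 - p)) := mul_le_mul_of_nonneg_left h7 h8
    _ ≤ _ := h9.trans h6

theorem bw_low {s : ℕ} {p : ℝ} (hp0 : 0 < p) (hp1 : p < 1) {r : ℕ} (hr : (r : ℝ) ≤ s * p)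
    (j : ℕ) (hj : (j : ℝ) ≤ s * p * (1 - p)) (hX0 : 0 < s * p * (1 - p)) :
    bw s p r * (1 - (j * (j + 1) : ℝ) / (2 * (s * p * (1 - p)))) ≤ bw s p (r + j) := by
  induction j with
  | zero => simp
  | succ j ih =>
    push_cast at hj ⊢
    have h1 := ih (by linarith)
    have h2 := bw_step hp0 hp1 hr hj
    set X : ℝ := s * p * (1 - p)
    have hb := bw_nonneg (s := s) hp0.le hp1.le r
    have hj0 : (0 : ℝ) ≤ j := Nat.cast_nonneg j
    have h8 : 0 ≤ 1 - ((j : ℝ) + 1) / X := by
      rw [sub_nonneg, div_le_one hX0]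
      exact hj
    calc bw s p r * (1 - ((j : ℝ) + 1) * (j + 1 + 1) / (2 * X))
        ≤ bw s p r * ((1 - j * (j + 1) / (2 * X)) * (1 - ((j : ℝ) + 1) / X)) := by
          refine mul_le_mul_of_nonneg_left ?_ hb
          have e : (1 - (j : ℝ) * (j + 1) / (2 * X)) * (1 - ((j : ℝ) + 1) / X) =
            1 - ((j : ℝ) + 1) * (j + 1 + 1) / (2 * X) + (j * (j + 1) / (2 * X)) * ((j + 1) / X) := by
            field_simp
            ring
          rw [e]
          have : 0 ≤ ((j : ℝ) * (j + 1) / (2 * X)) * ((j + 1) / X) := by positivity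
          linarith
      _ = (bw s p r * (1 - j * (j + 1) / (2 * X))) * (1 - ((j : ℝ) + 1) / X) := by ring
      _ ≤ bw s p (r + j) * (1 - ((j : ℝ) + 1) / X) := mul_le_mul_of_nonneg_right h1 h8
      _ ≤ _ := h2

theorem bw_le_aux {s : ℕ} {p : ℝ} (hp0 : 0 < p) (hp1 : p < 1) (hs : 0 < s) {r : ℕ}
    (hr : (r : ℝ) ≤ s * p) : bw s p r ≤ 4 / √(s * p * (1 - p)) := by
  set X : ℝ := s * p * (1 - p) with hX
  have hq : 0 < 1 - p := by linarith
  have hs' : (0 : ℝ) < s := by exact_mod_cast hs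
  have hX0 : 0 < X := by positivity
  have hsq : 0 < √X := Real.sqrt_pos.2 hX0
  have hsqX : √X * √X = X := Real.mul_self_sqrt hX0.le
  have hb1 : bw s p r ≤ 1 := by
    have := bw_window (s := s) hp0.le hp1.le r 0
    simpa using this
  by_cases hX1 : X < 1
  · refine hb1.trans ?_
    rw [le_div_iff₀ hsq]
    nlinarith
  push Not at hX1
  have hsq1 : 1 ≤ √X := by rw [Real.one_le_sqrt]; exact hX1
  set J := ⌊√X / 2⌋₊ with hJ
  have hJ1 : (J : ℝ) ≤ √X / 2 := Nat.floor_le (by positivity)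
  have hJ2 : √X / 2 < J + 1 := Nat.lt_floor_add_one _
  have hb := bw_nonneg (s := s) hp0.le hp1.le r
  have h1 : ∀ j ∈ Finset.range (J + 1), bw s p r * (1 / 2) ≤ bw s p (r + j) := by
    intro j hj
    have hj' : (j : ℝ) ≤ J := by
      exact_mod_cast Nat.lt_succ_iff.1 (Finset.mem_range.1 hj)
    have hj0 : (0 : ℝ) ≤ j := Nat.cast_nonneg j
    have h2 := bw_low hp0 hp1 hr j (by nlinarith) hX0
    refine le_trans (mul_le_mul_of_nonneg_left ?_ hb) h2
    have h3 : (j * (j + 1) : ℝ) / (2 * X) ≤ 1 / 2 := by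
      rw [div_le_iff₀ (by positivity)]
      nlinarith
    linarith
  have h2 := Finset.sum_le_sum h1
  rw [Finset.sum_const, Finset.card_range, nsmul_eq_mul] at h2
  have h3 := h2.trans (bw_window (s := s) hp0.le hp1.le r J)
  push_cast at h3
  rw [le_div_iff₀ hsq]
  nlinarith

/-- **Largest binomial weight.** -/
theorem bw_le {s : ℕ} {p : ℝ} (hp0 : 0 < p) (hp1 : p < 1) (hs : 0 < s) (r : ℕ) (hr : r ≤ s) :
    bw s p r ≤ 4 / √(s * p * (1 - p)) := by
  by_cases h : (r : ℝ) ≤ s * p
  · exact bw_le_aux hp0 hp1 hs h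
  · push Not at h
    have h1 : bw s p r = bw s (1 - p) (s - r) := by
      unfold bw
      rw [Nat.choose_symm hr, Nat.sub_sub_self hr]
      ring
    have h2 := bw_le_aux (s := s) (p := 1 - p) (by linarith) (by linarith) hs (r := s - r) (by
      rw [Nat.cast_sub hr]; linarith)
    rw [h1]
    have h3 : (s : ℝ) * (1 - p) * (1 - (1 - p)) = s * p * (1 - p) := by ring
    rw [h3] at h2
    exact h2

end Crest.Agent.R152.Top
end

-- ▼ part R152/TopA
section

set_option autoImplicit false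
set_option linter.unusedSectionVars false

/-! Row 152, module TOP, part A: anticoncentration for biased signs (two coordinates: `rate p`;
many coordinates of the same sign: LYM). -/

open Crest.FinProb Crest.ProbabilityR.SignMatrix

namespace Crest.Agent.R152.Top

open Crest.Agent.R152.Base

variable {ι : Type*} [Fintype ι] [DecidableEq ι]

theorem rate_ge (p : ℝ) : 2 * p * (1 - p) ≤ rate p := by
  unfold rate
  nlinarith [sq_nonneg (p - (1 - p))]

/-- Two coordinates whose flips leave the event: probability at most `p²+(1-p)²`. -/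
theorem two_coord {p : ℝ} (hp0 : 0 ≤ p) (hp1 : p ≤ 1) (V : Set (ι → Bool)) {s t : ι} (hst : s ≠ t)
    (hs : ∀ ω : ι → Bool, Function.update ω s true ∈ V → Function.update ω s false ∉ V)
    (ht : ∀ ω : ι → Bool, Function.update ω t true ∈ V → Function.update ω t false ∉ V) :
    bernoulliProb p V ≤ rate p := by
  classical
  rw [prob_eq_ex, LS.ex_update p s, LS.ex_update p t]
  rw [← ex_const (ι := ι) p (rate p)]
  refine ex_mono hp0 hp1 fun ω => ?_
  set f : Bool → Bool → ℝ := fun a b =>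
    if Function.update (Function.update ω t b) s a ∈ V then (1 : ℝ) else 0 with hf
  have h1 : ∀ b, f true b = 0 ∨ f false b = 0 := by
    intro b
    by_cases h : Function.update (Function.update ω t b) s true ∈ V
    · right
      simp only [hf]
      rw [if_neg (hs _ h)]
    · left
      simp only [hf]
      rw [if_neg h]
  have h2 : ∀ a, f a true = 0 ∨ f a false = 0 := by
    intro a
    by_cases h : Function.update (Function.update ω t true) s a ∈ V
    · right
      simp only [hf]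
      rw [Function.update_comm hst.symm] at h
      rw [Function.update_comm hst.symm]
      rw [if_neg (ht _ h)]
    · left
      simp only [hf]
      rw [if_neg h]
  have h3 : ∀ a b, f a b = 0 ∨ f a b = 1 := by
    intro a b
    simp only [hf]
    split_ifs <;> simp
  change p * (p * f true true + (1 - p) * f false true) +
    (1 - p) * (p * f true false + (1 - p) * f false false) ≤ rate p
  have hq : 0 ≤ 1 - p := by linarith
  have hpq : 0 ≤ p * (1 - p) := mul_nonneg hp0 hq
  have hr := rate_ge p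
  have hr2 : rate p = p ^ 2 + (1 - p) ^ 2 := rfl
  have hr1 : p ^ 2 ≤ rate p := by rw [hr2]; nlinarith [sq_nonneg (1 - p)]
  have hr3 : (1 - p) ^ 2 ≤ rate p := by rw [hr2]; nlinarith [sq_nonneg p]
  rcases h3 true true with e1 | e1 <;> rcases h3 true false with e2 | e2 <;>
    rcases h3 false true with e3 | e3 <;> rcases h3 false false with e4 | e4 <;>
    rw [e1, e2, e3, e4] <;>
    first
    | (exfalso; rcases h1 true with h | h <;> linarith)
    | (exfalso; rcases h1 false with h | h <;> linarith)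
    | (exfalso; rcases h2 true with h | h <;> linarith)
    | (exfalso; rcases h2 false with h | h <;> linarith)
    | nlinarith

/-- LYM for biased coins: an antichain has probability at most the largest binomial weight. -/
theorem antichain_prob {p B : ℝ} (_hp0 : 0 ≤ p) (hp1 : p ≤ 1) (V : Set (ι → Bool))
    (hV : ∀ x ∈ V, ∀ y ∈ V, (∀ i, x i = true → y i = true) → x = y)
    (hB : ∀ r ≤ Fintype.card ι,
      ((Fintype.card ι).choose r : ℝ) * (p ^ r * (1 - p) ^ (Fintype.card ι - r)) ≤ B) :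
    bernoulliProb p V ≤ B := by
  classical
  set s := Fintype.card ι with hs
  let g : (ι → Bool) → Finset ι := fun x => Finset.univ.filter fun i => x i = true
  have hg : Function.Injective g := by
    intro x y h
    funext i
    have h1 : i ∈ g x ↔ i ∈ g y := by rw [h]
    simp only [g, Finset.mem_filter, Finset.mem_univ, true_and] at h1
    cases hx : x i <;> cases hy : y i <;> simp_all
  let VV : Finset (ι → Bool) := Finset.univ.filter (· ∈ V)
  let 𝒜 : Finset (Finset ι) := VV.image g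
  have hw : ∀ x : ι → Bool, bernoulliWeight p x = p ^ (g x).card * (1 - p) ^ (s - (g x).card) := by
    intro x
    unfold bernoulliWeight
    rw [Finset.prod_ite, Finset.prod_const, Finset.prod_const]
    congr 2
    have h1 := Finset.card_filter_add_card_filter_not (s := (Finset.univ : Finset ι)) (fun i => x i = true)
    rw [Finset.card_univ] at h1
    simp only [g]
    omega
  have hanti : IsAntichain (· ⊆ ·) (𝒜 : Set (Finset ι)) := by
    intro a ha b hb hab hsub
    simp only [𝒜, VV, Finset.coe_image, Set.mem_image, Finset.mem_coe, Finset.mem_filter,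
      Finset.mem_univ, true_and] at ha hb
    obtain ⟨x, hx, rfl⟩ := ha
    obtain ⟨y, hy, rfl⟩ := hb
    refine hab ?_
    rw [hV x hx y hy ?_]
    intro i hi
    have : i ∈ g y := hsub (by simp [g, hi])
    simpa [g] using this
  have hlym := Finset.lubell_yamamoto_meshalkin_inequality_sum_card_div_choose (𝕜 := ℝ) hanti
  have hP : bernoulliProb p V = ∑ a ∈ 𝒜, p ^ a.card * (1 - p) ^ (s - a.card) := by
    unfold bernoulliProb
    rw [Finset.sum_image (fun x _ y _ h => hg h)]
    exact Finset.sum_congr (by ext; simp [VV]) fun x _ => hw x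
  have hP2 : ∑ a ∈ 𝒜, p ^ a.card * (1 - p) ^ (s - a.card) =
      ∑ r ∈ Finset.range (s + 1), ((𝒜.slice r).card : ℝ) * (p ^ r * (1 - p) ^ (s - r)) := by
    rw [← Finset.sum_fiberwise_of_maps_to (t := Finset.range (s + 1)) (g := fun a => a.card)]
    · refine Finset.sum_congr rfl fun r _ => ?_
      have h1 : (𝒜.filter fun a => a.card = r) = 𝒜.slice r := by
        ext a
        simp [Finset.mem_slice]
      rw [h1, ← nsmul_eq_mul, ← Finset.sum_const]
      refine Finset.sum_congr rfl fun a ha => ?_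
      rw [(Finset.mem_slice.1 ha).2]
    · intro a _
      rw [Finset.mem_range, hs]
      exact Nat.lt_succ_of_le (Finset.card_le_univ a)
  rw [hP, hP2]
  have hB0 : 0 ≤ B := le_trans (by have : 0 ≤ 1 - p := by linarith
                                   positivity) (hB 0 (Nat.zero_le _))
  calc ∑ r ∈ Finset.range (s + 1), ((𝒜.slice r).card : ℝ) * (p ^ r * (1 - p) ^ (s - r))
      ≤ ∑ r ∈ Finset.range (s + 1), ((𝒜.slice r).card : ℝ) / (s.choose r : ℝ) * B := by
        refine Finset.sum_le_sum fun r hr => ?_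
        have hr' : r ≤ s := Nat.lt_succ_iff.1 (Finset.mem_range.1 hr)
        have hc : (0 : ℝ) < (s.choose r : ℝ) := by exact_mod_cast Nat.choose_pos hr'
        have := hB r hr'
        rw [div_mul_eq_mul_div, le_div_iff₀ hc]
        have h5 : ((𝒜.slice r).card : ℝ) * (p ^ r * (1 - p) ^ (s - r)) * (s.choose r : ℝ) =
          ((𝒜.slice r).card : ℝ) * ((s.choose r : ℝ) * (p ^ r * (1 - p) ^ (s - r))) := by ring
        rw [h5]
        exact mul_le_mul_of_nonneg_left this (by positivity)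
    _ = (∑ r ∈ Finset.range (s + 1), ((𝒜.slice r).card : ℝ) / (s.choose r : ℝ)) * B := by
        rw [Finset.sum_mul]
    _ ≤ 1 * B := mul_le_mul_of_nonneg_right hlym hB0
    _ = B := one_mul B

/-- Antichain in the coordinates of `S`, for every choice of the others. -/
theorem many_coord {p : ℝ} (hp0 : 0 < p) (hp1 : p < 1) (V : Set (ι → Bool)) (S : Finset ι)
    (hS : 0 < S.card)
    (hV : ∀ x ∈ V, ∀ y ∈ V, (∀ i, i ∉ S → x i = y i) → (∀ i ∈ S, x i = true → y i = true) → x = y) :
    bernoulliProb p V ≤ 4 / √(S.card * p * (1 - p)) := by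
  classical
  let e : ι ≃ {i // i ∉ S} ⊕ {i // i ∈ S} :=
    (Equiv.sumCompl (· ∈ S)).symm.trans (Equiv.sumComm _ _)
  have he1 : ∀ i (h : i ∈ S), e i = Sum.inr ⟨i, h⟩ := by
    intro i h
    simp [e, Equiv.sumCompl_symm_apply_of_pos h]
  have he2 : ∀ i (h : i ∉ S), e i = Sum.inl ⟨i, h⟩ := by
    intro i h
    simp [e, Equiv.sumCompl_symm_apply_of_neg h]
  rw [prob_eq_ex, ex_comp e, ex_sumType]
  rw [← ex_const (ι := {i // i ∉ S}) p (4 / √(S.card * p * (1 - p)))]
  refine ex_mono hp0.le hp1.le fun a => ?_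
  have h1 : ex p (fun b : {i // i ∈ S} → Bool => if (Sum.elim a b ∘ e) ∈ V then (1 : ℝ) else 0) =
      bernoulliProb p {b : {i // i ∈ S} → Bool | (Sum.elim a b ∘ e) ∈ V} := by
    rw [prob_eq_ex]
    rfl
  rw [h1]
  have hcard : Fintype.card {i // i ∈ S} = S.card := Fintype.card_coe S
  refine antichain_prob hp0.le hp1.le _ ?_ ?_
  · intro x hx y hy hxy
    have h2 := hV _ hx _ hy (fun i hi => by simp [he2 i hi])
      (fun i hi => by simpa [he1 i hi] using hxy ⟨i, hi⟩)
    funext i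
    have h3 := congrFun h2 i.1
    simpa [he1 i.1 i.2] using h3
  · intro r hr
    rw [hcard] at hr ⊢
    exact bw_le hp0 hp1 hS r hr

/-- linear form in the signs -/
noncomputable def lf (z : ι → ℝ) (x : ι → Bool) : ℝ := ∑ i, (sg (x i) : ℝ) * z i

theorem lf_update (z : ι → ℝ) (x : ι → Bool) (t : ι) (c : Bool) :
    lf z (Function.update x t c) = lf z x + ((sg c : ℝ) - sg (x t)) * z t := by
  unfold lf
  rw [← Finset.add_sum_erase Finset.univ _ (Finset.mem_univ t),
    ← Finset.add_sum_erase Finset.univ (fun i => (sg (x i) : ℝ) * z i) (Finset.mem_univ t)]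
  have h : ∑ i ∈ Finset.univ.erase t, (sg (Function.update x t c i) : ℝ) * z i =
      ∑ i ∈ Finset.univ.erase t, (sg (x i) : ℝ) * z i := by
    refine Finset.sum_congr rfl fun i hi => ?_
    rw [Function.update_of_ne (Finset.ne_of_mem_erase hi)]
  rw [h, Function.update_self]
  ring

theorem lf_excl {z : ι → ℝ} {c L : ℝ} {t : ι} (ht : L ≤ |z t|) (ω : ι → Bool)
    (h1 : Function.update ω t true ∈ {x | |lf z x - c| < L}) :
    Function.update ω t false ∉ {x | |lf z x - c| < L} := by
  intro h2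
  have h1' : |lf z (Function.update ω t true) - c| < L := h1
  have h2' : |lf z (Function.update ω t false) - c| < L := h2
  rw [lf_update] at h1' h2'
  have e1 : (sg true : ℝ) = 1 := by simp [sg]
  have e2 : (sg false : ℝ) = -1 := by simp [sg]
  rw [e1] at h1'
  rw [e2] at h2'
  rw [abs_lt] at h1' h2'
  rcases abs_cases (z t) with ⟨h, _⟩ | ⟨h, _⟩ <;> rw [h] at ht <;> nlinarith

/-- two coordinates of size at least `L`: probability at most `p²+(1-p)²` -/
theorem lf_two {p : ℝ} (hp0 : 0 ≤ p) (hp1 : p ≤ 1) (z : ι → ℝ) (c : ℝ) {L : ℝ} {s t : ι}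
    (hst : s ≠ t) (hs : L ≤ |z s|) (ht : L ≤ |z t|) :
    bernoulliProb p {x | |lf z x - c| < L} ≤ rate p :=
  two_coord hp0 hp1 _ hst (fun ω => lf_excl hs ω) (fun ω => lf_excl ht ω)

theorem lf_pos {p : ℝ} (hp0 : 0 < p) (hp1 : p < 1) (z : ι → ℝ) (c : ℝ) {L : ℝ} (hL : 0 < L)
    (S : Finset ι) (hS : 0 < S.card) (hz : ∀ i ∈ S, L ≤ z i) :
    bernoulliProb p {x | |lf z x - c| < L} ≤ 4 / √(S.card * p * (1 - p)) := by
  classical
  refine many_coord hp0 hp1 _ S hS ?_
  intro x hx y hy hoff hon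
  by_contra hne
  have hx' : |lf z x - c| < L := hx
  have hy' : |lf z y - c| < L := hy
  obtain ⟨i, hi⟩ := Function.ne_iff.1 hne
  have hiS : i ∈ S := by
    by_contra h
    exact hi (hoff i h)
  have hxi : x i = false := by
    cases hxi : x i
    · rfl
    · exact absurd (hxi.trans (hon i hiS hxi).symm) hi
  have hyi : y i = true := by
    cases hyi : y i
    · exact absurd (hxi.trans hyi.symm) hi
    · rfl
  have hdiff : lf z y - lf z x = ∑ j, ((sg (y j) : ℝ) - sg (x j)) * z j := by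
    unfold lf
    rw [← Finset.sum_sub_distrib]
    exact Finset.sum_congr rfl fun j _ => by ring
  have hterm : ∀ j, 0 ≤ ((sg (y j) : ℝ) - sg (x j)) * z j := by
    intro j
    by_cases hj : j ∈ S
    · have hzj : 0 ≤ z j := hL.le.trans (hz j hj)
      refine mul_nonneg ?_ hzj
      cases hxj : x j
      · cases hyj : y j <;> simp [sg]
      · rw [hon j hj hxj]; simp
    · rw [hoff j hj]; simp
  have hge : ((sg (y i) : ℝ) - sg (x i)) * z i ≤ ∑ j, ((sg (y j) : ℝ) - sg (x j)) * z j :=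
    Finset.single_le_sum (f := fun j => ((sg (y j) : ℝ) - sg (x j)) * z j)
      (fun j _ => hterm j) (Finset.mem_univ i)
  rw [hxi, hyi] at hge
  have e1 : (sg true : ℝ) = 1 := by simp [sg]
  have e2 : (sg false : ℝ) = -1 := by simp [sg]
  rw [e1, e2, ← hdiff] at hge
  have := hz i hiS
  rw [abs_lt] at hx' hy'
  linarith

theorem lf_neg (z : ι → ℝ) (x : ι → Bool) : lf (fun i => - z i) x = - lf z x := by
  unfold lf
  rw [← Finset.sum_neg_distrib]
  exact Finset.sum_congr rfl fun i _ => by ring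

/-- `2m` coordinates of size at least `L`. -/
theorem lf_many {p : ℝ} (hp0 : 0 < p) (hp1 : p < 1) (z : ι → ℝ) (c : ℝ) {L : ℝ} (hL : 0 < L)
    (S : Finset ι) {m : ℕ} (hm : 0 < m) (hS : 2 * m ≤ S.card) (hz : ∀ i ∈ S, L ≤ |z i|) :
    bernoulliProb p {x | |lf z x - c| < L} ≤ 4 / √(m * p * (1 - p)) := by
  classical
  have hq : 0 < 1 - p := by linarith
  have key : ∀ T : Finset ι, m ≤ T.card →
      4 / √(T.card * p * (1 - p)) ≤ 4 / √(m * p * (1 - p)) := by
    intro T hT
    have hm' : (0 : ℝ) < m := by exact_mod_cast hm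
    have h1 : 0 < √(m * p * (1 - p)) := Real.sqrt_pos.2 (by positivity)
    refine div_le_div_of_nonneg_left (by norm_num) h1 (Real.sqrt_le_sqrt ?_)
    have : (m : ℝ) ≤ T.card := by exact_mod_cast hT
    gcongr
  set Sp := S.filter (fun i => 0 ≤ z i) with hSp
  set Sn := S.filter (fun i => ¬ 0 ≤ z i) with hSn
  have hsum : Sp.card + Sn.card = S.card := Finset.card_filter_add_card_filter_not _
  by_cases h : m ≤ Sp.card
  · refine (lf_pos hp0 hp1 z c hL Sp (by omega) ?_).trans (key Sp h)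
    intro i hi
    rw [hSp, Finset.mem_filter] at hi
    have := hz i hi.1
    rwa [abs_of_nonneg hi.2] at this
  · have h' : m ≤ Sn.card := by omega
    have h2 : {x : ι → Bool | |lf z x - c| < L} = {x | |lf (fun i => - z i) x - (-c)| < L} := by
      ext x
      simp only [Set.mem_ofPred_eq]
      rw [lf_neg, ← abs_neg (lf z x - c)]
      ring_nf
    rw [h2]
    refine (lf_pos hp0 hp1 (fun i => - z i) (-c) hL Sn (by omega) ?_).trans (key Sn h')
    intro i hi
    rw [hSn, Finset.mem_filter] at hi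
    have h3 := hz i hi.1
    rwa [abs_of_neg (not_le.1 hi.2)] at h3

end Crest.Agent.R152.Top
end

-- ▼ part R152/TopN1
section

set_option autoImplicit false
set_option linter.unusedSectionVars false

/-! Row 152, module TOP, part N1: the grid lemma. -/

open Crest.FinProb Crest.ProbabilityR.SignMatrix

namespace Crest.Agent.R152.Top

open Crest.Agent.R152.Base

variable {ι : Type*} [Fintype ι] [DecidableEq ι]

/-- the probability that one fresh row nearly kills `z` -/
noncomputable def rowp (p : ℝ) (z : ι → ℤ) (L : ℝ) : ℝ :=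
  bernoulliProb p {x : {i // z i ≠ 0} → Bool | |lf (fun i => (z i.1 : ℝ)) x - 0| < L}

theorem mulVec_eq_lf (w : Sym2 ι → Bool) (z : ι → ℤ) (j : ι) :
    (((symMat w).mulVec z j : ℤ) : ℝ) =
      lf (fun i : {i // z i ≠ 0} => (z i.1 : ℝ)) (fun i => w s(j, i.1)) := by
  classical
  unfold lf Matrix.mulVec dotProduct
  push_cast
  have h : ∀ i, (symMat w j i : ℝ) * (z i : ℝ) = (sg (w s(j, i)) : ℝ) * z i := fun i => rfl
  simp only [h]
  have h1 : ∑ i, (sg (w s(j, i)) : ℝ) * z i =
      ∑ i ∈ Finset.univ.filter (fun i => z i ≠ 0), (sg (w s(j, i)) : ℝ) * z i := by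
    symm
    refine Finset.sum_filter_of_ne fun i _ hi h0 => hi ?_
    rw [h0]
    simp
  rw [h1]
  exact Finset.sum_subtype _ (fun x => by simp) (fun i => (sg (w s(j, i)) : ℝ) * z i)

theorem prob_kill {p : ℝ} (hp0 : 0 ≤ p) (hp1 : p ≤ 1) (z : ι → ℤ) (L : ℝ) :
    bernoulliProb p {w : Sym2 ι → Bool | ∀ j, |(((symMat w).mulVec z j : ℤ) : ℝ)| < L} ≤
      rowp p z L ^ (Fintype.card ι - (Finset.univ.filter fun i => z i ≠ 0).card) := by
  classical
  let g : {i // ¬ z i ≠ 0} × {i // z i ≠ 0} → Sym2 ι := fun q => s(q.1.1, q.2.1)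
  have hg : Function.Injective g := by
    rintro ⟨a, b⟩ ⟨c, d⟩ h
    simp only [g, Sym2.eq_iff] at h
    rcases h with ⟨h1, h2⟩ | ⟨h1, h2⟩
    · exact Prod.ext (Subtype.ext h1) (Subtype.ext h2)
    · exact absurd (h1 ▸ d.2) a.2
  have hsub : {w : Sym2 ι → Bool | ∀ j, |(((symMat w).mulVec z j : ℤ) : ℝ)| < L} ⊆
      {w : Sym2 ι → Bool | (w ∘ g) ∈ {ω : {i // ¬ z i ≠ 0} × {i // z i ≠ 0} → Bool | ∀ j,
        (fun t => ω (j, t)) ∈ {x : {i // z i ≠ 0} → Bool |
          |lf (fun i => (z i.1 : ℝ)) x - 0| < L}}} := by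
    intro w hw j
    have h1 := hw j.1
    rw [mulVec_eq_lf] at h1
    change |lf (fun i : {i // z i ≠ 0} => (z i.1 : ℝ)) (fun i => w s(j.1, i.1)) - 0| < L
    rwa [sub_zero]
  refine (prob_mono hp0 hp1 hsub).trans ?_
  rw [prob_inj hg]
  have hcard : Fintype.card {i // ¬ z i ≠ 0} =
      Fintype.card ι - (Finset.univ.filter fun i => z i ≠ 0).card := by
    rw [Fintype.card_subtype_compl, Fintype.card_subtype]
  rw [← hcard]
  exact prob_rows hp0 hp1 (fun _ => {x : {i // z i ≠ 0} → Bool |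
    |lf (fun i => (z i.1 : ℝ)) x - 0| < L}) fun j => le_refl _

/-- the grid: integer vectors with at most `m` nonzero entries, all at most `Z` -/
noncomputable def gr (ι : Type*) [Fintype ι] [DecidableEq ι] (Z : ℕ) : ℕ → Finset (ι → ℤ)
  | 0 => {0}
  | m + 1 => (gr ι Z m ×ˢ ((Finset.univ : Finset ι) ×ˢ Finset.Icc (-(Z : ℤ)) Z)).image
      fun q => Function.update q.1 q.2.1 q.2.2

theorem card_gr (Z m : ℕ) : (gr ι Z m).card ≤ (Fintype.card ι * (2 * Z + 1)) ^ m := by
  induction m with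
  | zero => simp [gr]
  | succ m ih =>
    rw [gr]
    refine Finset.card_image_le.trans ?_
    rw [Finset.card_product, Finset.card_product, Finset.card_univ, Int.card_Icc, pow_succ]
    refine Nat.mul_le_mul ih (Nat.mul_le_mul_left _ ?_)
    omega

theorem zero_mem_gr [Nonempty ι] (Z m : ℕ) : (0 : ι → ℤ) ∈ gr ι Z m := by
  induction m with
  | zero => simp [gr]
  | succ m ih =>
    rw [gr, Finset.mem_image]
    obtain ⟨i⟩ := ‹Nonempty ι›
    refine ⟨(0, i, 0), ?_, ?_⟩
    · simp only [Finset.mem_product, Finset.mem_univ, true_and, Finset.mem_Icc]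
      exact ⟨ih, by omega, by omega⟩
    · simp

theorem mem_gr [Nonempty ι] {Z : ℕ} (m : ℕ) (z : ι → ℤ) (hz : ∀ i, |z i| ≤ Z)
    (hm : (Finset.univ.filter fun i => z i ≠ 0).card ≤ m) : z ∈ gr ι Z m := by
  induction m generalizing z with
  | zero =>
    have h0 : z = 0 := by
      funext i
      by_contra h
      have h1 : i ∈ Finset.univ.filter fun i => z i ≠ 0 := by
        rw [Finset.mem_filter]; exact ⟨Finset.mem_univ _, h⟩
      rw [Finset.card_eq_zero.1 (Nat.le_zero.1 hm)] at h1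
      simp at h1
    rw [h0]
    exact zero_mem_gr Z 0
  | succ m ih =>
    by_cases h0 : z = 0
    · rw [h0]; exact zero_mem_gr Z _
    · obtain ⟨i, hi⟩ := Function.ne_iff.1 h0
      rw [gr, Finset.mem_image]
      refine ⟨(Function.update z i 0, i, z i), ?_, ?_⟩
      · simp only [Finset.mem_product, Finset.mem_univ, true_and, Finset.mem_Icc]
        refine ⟨ih _ ?_ ?_, abs_le.1 (hz i)⟩
        · intro j
          by_cases hj : j = i
          · subst hj; simp
          · rw [Function.update_of_ne hj]; exact hz j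
        · have h2 : (Finset.univ.filter fun j => Function.update z i 0 j ≠ 0) ⊆
              (Finset.univ.filter fun j => z j ≠ 0).erase i := by
            intro j hj
            rw [Finset.mem_filter] at hj
            rw [Finset.mem_erase, Finset.mem_filter]
            have hji : j ≠ i := by
              rintro rfl
              simp at hj
            rw [Function.update_of_ne hji] at hj
            exact ⟨hji, Finset.mem_univ _, hj.2⟩
          have h3 := Finset.card_le_card h2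
          rw [Finset.card_erase_of_mem (by rw [Finset.mem_filter]; exact ⟨Finset.mem_univ _, hi⟩)] at h3
          omega
      · simp

/-- **Grid lemma.** -/
theorem grid [Nonempty ι] {p α : ℝ} (hp0 : 0 ≤ p) (hp1 : p ≤ 1) (hα0 : 0 ≤ α) (hα1 : α ≤ 1)
    (m Z : ℕ) (L : ℝ) :
    bernoulliProb p {w : Sym2 ι → Bool | ∃ z : ι → ℤ,
      (Finset.univ.filter fun i => z i ≠ 0).card ≤ m ∧ (∀ i, |z i| ≤ Z) ∧ rowp p z L ≤ α ∧
      ∀ j, |(((symMat w).mulVec z j : ℤ) : ℝ)| < L} ≤
    ((Fintype.card ι : ℝ) * (2 * Z + 1)) ^ m * α ^ (Fintype.card ι - m) := by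
  classical
  set G := (gr ι Z m).filter fun z =>
    (Finset.univ.filter fun i => z i ≠ 0).card ≤ m ∧ rowp p z L ≤ α with hG
  have hsub : {w : Sym2 ι → Bool | ∃ z : ι → ℤ,
      (Finset.univ.filter fun i => z i ≠ 0).card ≤ m ∧ (∀ i, |z i| ≤ Z) ∧ rowp p z L ≤ α ∧
      ∀ j, |(((symMat w).mulVec z j : ℤ) : ℝ)| < L} ⊆
      ⋃ z ∈ G, {w : Sym2 ι → Bool | ∀ j, |(((symMat w).mulVec z j : ℤ) : ℝ)| < L} := by
    rintro w ⟨z, h1, h2, h3, h4⟩
    rw [Set.mem_iUnion₂]
    refine ⟨z, ?_, h4⟩
    rw [hG, Finset.mem_filter]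
    exact ⟨mem_gr m z h2 h1, h1, h3⟩
  refine (prob_mono hp0 hp1 hsub).trans ((prob_biUnion_le hp0 hp1 _ _).trans ?_)
  have hterm : ∀ z ∈ G, bernoulliProb p
      {w : Sym2 ι → Bool | ∀ j, |(((symMat w).mulVec z j : ℤ) : ℝ)| < L} ≤
      α ^ (Fintype.card ι - m) := by
    intro z hz
    rw [hG, Finset.mem_filter] at hz
    refine (prob_kill hp0 hp1 z L).trans ?_
    have h1 : 0 ≤ rowp p z L := prob_nonneg hp0 hp1 _
    calc rowp p z L ^ (Fintype.card ι - (Finset.univ.filter fun i => z i ≠ 0).card)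
        ≤ α ^ (Fintype.card ι - (Finset.univ.filter fun i => z i ≠ 0).card) :=
          pow_le_pow_left₀ h1 hz.2.2 _
      _ ≤ α ^ (Fintype.card ι - m) := by
          refine pow_le_pow_of_le_one hα0 hα1 ?_
          have := hz.2.1
          omega
  refine (Finset.sum_le_sum hterm).trans ?_
  rw [Finset.sum_const, nsmul_eq_mul]
  refine mul_le_mul_of_nonneg_right ?_ (by positivity)
  have h5 : G.card ≤ (Fintype.card ι * (2 * Z + 1)) ^ m :=
    (Finset.card_filter_le _ _).trans (card_gr Z m)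
  calc (G.card : ℝ) ≤ (((Fintype.card ι * (2 * Z + 1)) ^ m : ℕ) : ℝ) := by exact_mod_cast h5
    _ = _ := by push_cast; ring

end Crest.Agent.R152.Top
private theorem rz_2c35488d9e : type_of% @_root_.Crest.Agent.R152.Top.gr.eq_def := @_root_.Crest.Agent.R152.Top.gr.eq_def -- L68
private theorem rz_146aea3d79 : type_of% @_root_.Crest.Agent.R152.Top.gr.eq_1 := @_root_.Crest.Agent.R152.Top.gr.eq_1 -- L68
end

-- ▼ part R152/TopN2

set_option autoImplicit false
set_option linter.unusedSectionVars false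

/-! Row 152, module TOP, part N2: the two events covering the failure of near-maximality. -/

open Crest.FinProb Crest.ProbabilityR.SignMatrix

namespace Crest.Agent.R152.Top

open Crest.Agent.R152.Base

variable {n : ℕ}

theorem abs_sgR (c : Bool) : |(sg c : ℝ)| = 1 := by cases c <;> simp [sg]

/-- rounding a kernel vector -/
theorem round_small (w : Sym2 (Fin n) → Bool) (k : Fin n → ℝ)
    (hk : ((symMat w).map (Int.cast : ℤ → ℝ)).mulVec k = 0) (G : ℝ) (j : Fin n) :
    |(((symMat w).mulVec (fun i => round (G * k i)) j : ℤ) : ℝ)| ≤ n / 2 := by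
  have h1 : (((symMat w).mulVec (fun i => round (G * k i)) j : ℤ) : ℝ) =
      ∑ i, (symMat w j i : ℝ) * ((round (G * k i) : ℝ) - G * k i) := by
    have h2 : ∑ i, (symMat w j i : ℝ) * k i = 0 := by
      have := congrFun hk j
      simpa [Matrix.mulVec, dotProduct] using this
    have h3 : ∑ i, (symMat w j i : ℝ) * ((round (G * k i) : ℝ) - G * k i) =
        ∑ i, (symMat w j i : ℝ) * (round (G * k i) : ℝ) - G * ∑ i, (symMat w j i : ℝ) * k i := by
      rw [Finset.mul_sum, ← Finset.sum_sub_distrib]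
      exact Finset.sum_congr rfl fun i _ => by ring
    rw [h3, h2, mul_zero, sub_zero]
    simp [Matrix.mulVec, dotProduct]
  rw [h1]
  refine (Finset.abs_sum_le_sum_abs _ _).trans ?_
  have h4 : ∀ i ∈ (Finset.univ : Finset (Fin n)),
      |(symMat w j i : ℝ) * ((round (G * k i) : ℝ) - G * k i)| ≤ 1 / 2 := by
    intro i _
    rw [abs_mul]
    have e1 : |(symMat w j i : ℝ)| = 1 := abs_sgR _
    rw [e1, one_mul, abs_sub_comm]
    exact abs_sub_round _
  refine (Finset.sum_le_sum h4).trans ?_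
  rw [Finset.sum_const, Finset.card_univ, Fintype.card_fin, nsmul_eq_mul]
  linarith

theorem round_le {x : ℝ} {G : ℕ} (h : |x| ≤ G) : |round x| ≤ ((G + 1 : ℕ) : ℤ) := by
  have h1 := abs_sub_round x
  have h2 : |(round x : ℝ)| ≤ G + 1 := by
    have := abs_sub_abs_le_abs_sub (round x : ℝ) x
    rw [abs_sub_comm] at this
    linarith
  have h3 : ((|round x| : ℤ) : ℝ) ≤ (((G + 1 : ℕ) : ℤ) : ℝ) := by
    push_cast
    exact h2
  exact_mod_cast h3

theorem round_ge {x : ℝ} : |x| - 1 / 2 ≤ |(round x : ℝ)| := by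
  have h1 := abs_sub_round x
  have := abs_sub_abs_le_abs_sub x (round x : ℝ)
  linarith

theorem round_ne {G x : ℝ} (hG : 0 < G) (h : round (G * x) ≠ 0) : 1 / (2 * G) ≤ |x| := by
  by_contra hcon
  push Not at hcon
  apply h
  have h1 : |G * x| < 1 / 2 := by
    rw [abs_mul, abs_of_pos hG]
    rw [lt_div_iff₀ (by positivity)] at hcon
    linarith
  rw [abs_lt] at h1
  exact round_eq_zero_iff.2 ⟨by linarith, by linarith⟩

/-- event A: few entries of size `≥ 1/(2n²)` -/
theorem eventA {p : ℝ} (hp0 : 0 < p) (hp1 : p < 1) (hn : 1 ≤ n) (w : Sym2 (Fin n) → Bool)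
    (k : Fin n → ℝ) (hk : ((symMat w).map (Int.cast : ℤ → ℝ)).mulVec k = 0)
    (hk1 : ∀ i, |k i| ≤ 1) (i0 : Fin n) (hi0 : |k i0| = 1) (m : ℕ)
    (hm : (Finset.univ.filter fun i => 1 / (2 * (n : ℝ) ^ 2) ≤ |k i|).card ≤ m) :
    ∃ z : Fin n → ℤ, (Finset.univ.filter fun i => z i ≠ 0).card ≤ m ∧
      (∀ i, |z i| ≤ ((n ^ 2 + 1 : ℕ) : ℤ)) ∧ rowp p z n ≤ rate p ∧
      ∀ j, |(((symMat w).mulVec z j : ℤ) : ℝ)| < n := by
  classical
  have hn' : (1 : ℝ) ≤ n := by exact_mod_cast hn
  have hn2 : (0 : ℝ) < (n : ℝ) ^ 2 := by positivity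
  set z : Fin n → ℤ := fun i => round ((n : ℝ) ^ 2 * k i) with hz
  have hsmall : ∀ j, |(((symMat w).mulVec z j : ℤ) : ℝ)| < n := by
    intro j
    have := round_small w k hk ((n : ℝ) ^ 2) j
    linarith
  have hbig : |(z i0 : ℝ)| = (n : ℝ) ^ 2 := by
    simp only [hz]
    rcases abs_eq (by norm_num : (0 : ℝ) ≤ 1) |>.1 hi0 with h | h
    · rw [h, mul_one]
      have : round ((n : ℝ) ^ 2) = ((n ^ 2 : ℕ) : ℤ) := by
        have e : ((n : ℝ) ^ 2) = (((n ^ 2 : ℕ) : ℤ) : ℝ) := by push_cast; ring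
        rw [e, round_intCast]
      rw [this]
      push_cast
      exact abs_of_pos hn2
    · rw [h]
      have : round ((n : ℝ) ^ 2 * -1) = -((n ^ 2 : ℕ) : ℤ) := by
        have e : ((n : ℝ) ^ 2 * -1) = ((-((n ^ 2 : ℕ) : ℤ) : ℤ) : ℝ) := by push_cast; ring
        rw [e, round_intCast]
      rw [this]
      push_cast
      rw [abs_neg]
      exact abs_of_pos hn2
  -- a second large coordinate
  obtain ⟨i1, hi1, hi1'⟩ : ∃ i1, i1 ≠ i0 ∧ (n : ℝ) ≤ |(z i1 : ℝ)| := by
    by_contra hcon
    push Not at hcon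
    have h1 := hsmall i0
    have h2 : (((symMat w).mulVec z i0 : ℤ) : ℝ) =
        (symMat w i0 i0 : ℝ) * z i0 + ∑ i ∈ Finset.univ.erase i0, (symMat w i0 i : ℝ) * z i := by
      rw [Finset.add_sum_erase Finset.univ (fun i => (symMat w i0 i : ℝ) * z i) (Finset.mem_univ i0)]
      simp [Matrix.mulVec, dotProduct]
    have h3 : |∑ i ∈ Finset.univ.erase i0, (symMat w i0 i : ℝ) * z i| ≤ ((n : ℝ) - 1) * n := by
      refine (Finset.abs_sum_le_sum_abs _ _).trans ?_
      have h4 : ∀ i ∈ Finset.univ.erase i0, |(symMat w i0 i : ℝ) * z i| ≤ n := by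
        intro i hi
        rw [abs_mul]
        have e1 : |(symMat w i0 i : ℝ)| = 1 := abs_sgR _
        rw [e1, one_mul]
        exact (hcon i (Finset.ne_of_mem_erase hi)).le
      refine (Finset.sum_le_sum h4).trans ?_
      rw [Finset.sum_const, Finset.card_erase_of_mem (Finset.mem_univ i0), Finset.card_univ,
        Fintype.card_fin, nsmul_eq_mul, Nat.cast_sub hn, Nat.cast_one]
    have h5 : |(symMat w i0 i0 : ℝ) * z i0| = (n : ℝ) ^ 2 := by
      rw [abs_mul]
      have e1 : |(symMat w i0 i0 : ℝ)| = 1 := abs_sgR _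
      rw [e1, one_mul, hbig]
    rw [h2] at h1
    set a := (symMat w i0 i0 : ℝ) * z i0
    set b := ∑ i ∈ Finset.univ.erase i0, (symMat w i0 i : ℝ) * z i
    have h6 : |a| - |b| ≤ |a + b| := by
      have := abs_sub_abs_le_abs_sub a (-b)
      rwa [abs_neg, sub_neg_eq_add] at this
    nlinarith
  refine ⟨z, ?_, ?_, ?_, hsmall⟩
  · refine (Finset.card_le_card ?_).trans hm
    intro i hi
    rw [Finset.mem_filter] at hi ⊢
    exact ⟨Finset.mem_univ _, round_ne hn2 hi.2⟩
  · intro i
    refine round_le ?_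
    rw [abs_mul, abs_of_pos hn2]
    push_cast
    have := hk1 i
    nlinarith
  · have hz0 : z i0 ≠ 0 := by
      intro h
      rw [h] at hbig
      simp at hbig
      nlinarith
    have hz1 : z i1 ≠ 0 := by
      intro h
      rw [h] at hi1'
      simp at hi1'
      have : n = 0 := by exact_mod_cast hi1'
      omega
    refine lf_two hp0.le hp1.le _ 0 (s := ⟨i0, hz0⟩) (t := ⟨i1, hz1⟩) ?_ ?_ ?_
    · intro h
      exact hi1 (Subtype.ext_iff.1 h).symm
    · change (n : ℝ) ≤ |(z i0 : ℝ)|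
      rw [hbig]
      nlinarith
    · exact hi1'

/-- event B: many entries of size `≥ 1/(2n²)` -/
theorem eventB {p : ℝ} (hp0 : 0 < p) (hp1 : p < 1) (hn : 1 ≤ n) (w : Sym2 (Fin n) → Bool)
    (k : Fin n → ℝ) (hk : ((symMat w).map (Int.cast : ℤ → ℝ)).mulVec k = 0)
    (hk1 : ∀ i, |k i| ≤ 1) (s m : ℕ) (hs : 0 < s)
    (hs2 : 2 * s ≤ (Finset.univ.filter fun i => 1 / (2 * (n : ℝ) ^ 2) ≤ |k i|).card)
    (hm : (Finset.univ.filter fun i => 1 / (2 * (2 * (n : ℝ) ^ 2 * (n + 1))) ≤ |k i|).card ≤ m) :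
    ∃ z : Fin n → ℤ, (Finset.univ.filter fun i => z i ≠ 0).card ≤ m ∧
      (∀ i, |z i| ≤ ((2 * n ^ 2 * (n + 1) + 1 : ℕ) : ℤ)) ∧
      rowp p z n ≤ 4 / √(s * p * (1 - p)) ∧
      ∀ j, |(((symMat w).mulVec z j : ℤ) : ℝ)| < n := by
  classical
  have hn' : (1 : ℝ) ≤ n := by exact_mod_cast hn
  have hn2 : (0 : ℝ) < 2 * (n : ℝ) ^ 2 * (n + 1) := by positivity
  set z : Fin n → ℤ := fun i => round (2 * (n : ℝ) ^ 2 * (n + 1) * k i) with hz
  have hsmall : ∀ j, |(((symMat w).mulVec z j : ℤ) : ℝ)| < n := by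
    intro j
    have := round_small w k hk (2 * (n : ℝ) ^ 2 * (n + 1)) j
    linarith
  have hlarge : ∀ i, 1 / (2 * (n : ℝ) ^ 2) ≤ |k i| → (n : ℝ) ≤ |(z i : ℝ)| := by
    intro i hi
    have h1 := round_ge (x := 2 * (n : ℝ) ^ 2 * (n + 1) * k i)
    rw [abs_mul, abs_of_pos hn2] at h1
    have h2 : (n : ℝ) + 1 ≤ 2 * (n : ℝ) ^ 2 * (n + 1) * |k i| := by
      rw [div_le_iff₀ (by positivity)] at hi
      nlinarith
    simp only [hz]
    linarith
  refine ⟨z, ?_, ?_, ?_, hsmall⟩
  · refine (Finset.card_le_card ?_).trans hm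
    intro i hi
    rw [Finset.mem_filter] at hi ⊢
    exact ⟨Finset.mem_univ _, round_ne hn2 hi.2⟩
  · intro i
    refine round_le ?_
    rw [abs_mul, abs_of_pos hn2]
    push_cast
    have := hk1 i
    nlinarith
  · set S : Finset {i // z i ≠ 0} :=
      Finset.univ.filter fun i => 1 / (2 * (n : ℝ) ^ 2) ≤ |k i.1| with hS
    refine lf_many hp0 hp1 _ 0 (by linarith) S hs ?_ ?_
    · refine hs2.trans ?_
      have h1 : (Finset.univ.filter fun i => 1 / (2 * (n : ℝ) ^ 2) ≤ |k i|) ⊆
          S.map (Function.Embedding.subtype _) := by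
        intro i hi
        rw [Finset.mem_filter] at hi
        rw [Finset.mem_map]
        have h2 := hlarge i hi.2
        have h3 : z i ≠ 0 := by
          intro h
          rw [h] at h2
          simp at h2
          have : n = 0 := by exact_mod_cast h2
          omega
        exact ⟨⟨i, h3⟩, by rw [hS, Finset.mem_filter]; exact ⟨Finset.mem_univ _, hi.2⟩, rfl⟩
      have := Finset.card_le_card h1
      rwa [Finset.card_map] at this
    · intro i hi
      rw [hS, Finset.mem_filter] at hi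
      exact hlarge i.1 hi.2

end Crest.Agent.R152.Top
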