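import Crest.Agent.R152.LS7_Mg
import Crest.Agent.R152.Spec6_Mg
import Crest.Agent.R152.AsmDefs
import Mathlib
import Crest.Agent.R152.TopN2
import Crest.Agent.R152.Asm5
import Crest.Agent.R152.Base3
import Crest.Agent.R152.TopP
import Crest.Agent.R152.Sparse6

-- ▼ part R152/Glo5
section

set_option autoImplicit false

/-!
# Row 152, module GLO, part 5: GLO holds for every `0 < p < 1`
-/

namespace Crest.Agent.R152.Glo

open Crest.Agent.R152.Lat Crest.Agent.R152.Base Crest.FinProb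

theorem cheapFam : CheapFam := by
  intro θ κ ε hθ hκ hε
  obtain ⟨η, hη, hev⟩ := Cheap.family hθ hκ hε
  obtain ⟨n0, hn0⟩ := Filter.eventually_atTop.mp hev
  refine ⟨η, hη, n0, fun n hn => ?_⟩
  obtain ⟨V, h1, h2, h3⟩ := hn0 n hn (Fin n) (Fintype.card_fin n)
  exact ⟨V, h1, h2, fun U S _ hS hs hR hlc => h3 S U hs hS hR hlc⟩

theorem oneStepAll {p : ℝ} (hp0 : 0 < p) (hp1 : p < 1) : OneStepAll p := fun c hc =>
  ⟨16 / c + 1 / 2, by positivity, fun _ hd => LS.oneStep hp0 hp1 hc hd⟩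

/-- **GLO.** -/
theorem glo {p : ℝ} (hp0 : 0 < p) (hp1 : p < 1) : Asm.GLO p :=
  glo_of hp0 hp1 (oneStepAll hp0 hp1) cheapFam


end Crest.Agent.R152.Glo
end

-- ▼ part R152/TP4
section

set_option autoImplicit false

/-!
# Row 152, module TP (helper199), part 4: the statement (T1')
-/

open Crest.FinProb Crest.ProbabilityR.SignMatrix Crest.Agent.R152.Base

namespace Crest.Agent.R152.TP

open Matrix Module Crest.Agent.R152.WRM Crest.Agent.R152.WRM3 Filter

/-- the rational solution and the real solution agree -/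
theorem qinv_cast {n : ℕ} {A : Matrix (Fin n) (Fin n) ℤ} (hA : A.det ≠ 0) (x : Fin n → Bool)
    (i : Fin n) : ((Asm.qinv A (Asm.sv x) i : ℚ) : ℝ) = vv A x i := by
  set AQ : Matrix (Fin n) (Fin n) ℚ := A.map (Int.cast : ℤ → ℚ) with hAQ
  have hdet : AQ.det ≠ 0 := by
    have h1 : AQ.det = (A.det : ℚ) := by
      have := (RingHom.map_det (Int.castRingHom ℚ) A).symm
      simpa [hAQ, RingHom.mapMatrix_apply] using this
    rw [h1]; exact_mod_cast hA
  set u : Fin n → ℚ := Asm.qinv A (Asm.sv x) with hu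
  have h1 : AQ *ᵥ u = fun i => ((Asm.sv x i : ℤ) : ℚ) := by
    rw [hu]
    unfold Asm.qinv
    rw [Matrix.mulVec_mulVec, Matrix.mul_nonsing_inv _ (isUnit_iff_ne_zero.mpr hdet),
      Matrix.one_mulVec]
  have h2 : im A *ᵥ (fun i => ((u i : ℚ) : ℝ)) = fun i => ((sg (x i) : ℤ) : ℝ) := by
    ext j
    have h3 := congrFun h1 j
    simp only [Matrix.mulVec, dotProduct, hAQ, Matrix.map_apply] at h3
    have h4 := congrArg (fun q : ℚ => (q : ℝ)) h3
    simp only [Rat.cast_sum, Rat.cast_mul, Rat.cast_intCast] at h4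
    simp only [Matrix.mulVec, dotProduct, im, Matrix.map_apply]
    rw [h4]; rfl
  have h5 : (fun i => ((u i : ℚ) : ℝ)) = vv A x := by
    unfold vv
    rw [← h2, Matrix.mulVec_mulVec,
      Matrix.nonsing_inv_mul _ (isUnit_iff_ne_zero.mpr (im_det_ne hA)), Matrix.one_mulVec]
  exact congrFun h5 i

/-- `n ^ a * log n` is negligible -/
theorem ev_small {a ε : ℝ} (ha : a < 1) (hε : 0 < ε) :
    ∀ᶠ n : ℕ in atTop, 1 ≤ Real.log n ∧ (n : ℝ) ^ a * Real.log n ≤ ε * n := by
  have h1 := (isLittleO_log_rpow_atTop (r := 1 - a) (by linarith)).bound hε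
  have h2 := tendsto_natCast_atTop_atTop (R := ℝ) |>.eventually h1
  have h3 := (Real.tendsto_log_atTop.comp (tendsto_natCast_atTop_atTop (R := ℝ))).eventually_ge_atTop 1
  filter_upwards [h2, h3, eventually_ge_atTop 1] with n hn hl hn1
  refine ⟨hl, ?_⟩
  have hnpos : (0:ℝ) < n := by exact_mod_cast hn1
  have hl' : 1 ≤ Real.log n := hl
  rw [Real.norm_eq_abs, Real.norm_eq_abs, abs_of_nonneg (by linarith), abs_of_nonneg (by positivity)] at hn
  calc (n : ℝ) ^ a * Real.log n ≤ (n:ℝ) ^ a * (ε * (n:ℝ) ^ (1 - a)) := by gcongr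
    _ = ε * ((n:ℝ) ^ a * (n:ℝ) ^ (1 - a)) := by ring
    _ = ε * n := by
        rw [← Real.rpow_add hnpos]
        norm_num

/-- the size of the kernel -/
theorem num_k {n : ℕ} (hn : 3 ≤ n) {b : ℝ} {k : ℕ} {D : ℝ} (hD : 0 < D)
    (hD2 : D ≤ (n : ℝ) ^ (b / 128 * n))
    (hk : ((n : ℝ) ^ (1 / 16 : ℝ)) ^ k ≤ (n : ℝ) ^ (1 / 16 : ℝ) * D ^ 2) :
    (k : ℝ) ≤ 1 + b / 4 * n := by
  have hn3 : (3:ℝ) ≤ n := by exact_mod_cast hn
  have hnpos : (0:ℝ) < n := by linarith
  have hlogn : 0 < Real.log n := Real.log_pos (by linarith)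
  have e1 := Real.log_le_log (by positivity) hk
  rw [Real.log_pow, Real.log_mul (by positivity) (by positivity), Real.log_rpow hnpos,
    Real.log_pow] at e1
  have e5 := Real.log_le_log hD hD2
  rw [Real.log_rpow hnpos] at e5
  have e6 : (k : ℝ) * (1/16 * Real.log n) ≤ (1 + b / 4 * n) * (1/16 * Real.log n) := by
    have e7 : (1 + b / 4 * n) * (1/16 * Real.log n) =
        1/16 * Real.log n + 2 * (b / 128 * n * Real.log n) := by ring
    rw [e7]
    push_cast at e1
    linarith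
  exact le_of_mul_le_mul_right e6 (by positivity)

theorem num_K {n C : ℕ} (hn : 3 ≤ n) :
    Real.log ((2 * (n ^ (C + 2) + 1) + 1 : ℕ) : ℝ) ≤ ((C : ℝ) + 6) * Real.log n := by
  have hn3 : (3:ℝ) ≤ n := by exact_mod_cast hn
  have e1 : ((2 * (n ^ (C + 2) + 1) + 1 : ℕ) : ℝ) ≤ (n:ℝ) ^ (C + 6) := by
    push_cast
    have e2 : (n:ℝ) ^ (C + 6) = (n:ℝ) ^ (C + 2) * (n:ℝ) ^ 4 := by rw [← pow_add]
    have e3 : (1:ℝ) ≤ (n:ℝ) ^ (C + 2) := one_le_pow₀ (by linarith)
    have e4 : (81:ℝ) ≤ (n:ℝ) ^ 4 := by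
      calc (81:ℝ) = 3 ^ 4 := by norm_num
        _ ≤ (n:ℝ) ^ 4 := by gcongr
    rw [e2]
    nlinarith
  have e5 := Real.log_le_log (by positivity) e1
  rw [Real.log_pow] at e5
  push_cast at e5 ⊢
  exact e5

theorem num_3 {n : ℕ} (hn : 3 ≤ n) :
    Real.pi * (n : ℝ) ^ (2 * (1/16 : ℝ)) * (((n : ℝ) ^ (1 / 16 : ℝ)) ^ 2 *
      (1 + 4 * n / (n : ℝ) ^ (1 / 2 : ℝ))) ≤ 20 * (n : ℝ) ^ (3/4 : ℝ) := by
  have hn3 : (3:ℝ) ≤ n := by exact_mod_cast hn
  have hnpos : (0:ℝ) < n := by linarith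
  have e1 : (n:ℝ) / (n : ℝ) ^ (1 / 2 : ℝ) = (n : ℝ) ^ (1/2 : ℝ) := by
    rw [div_eq_iff (Real.rpow_pos_of_pos hnpos _).ne', ← Real.rpow_add hnpos]
    norm_num
  have e2 : 1 + 4 * n / (n : ℝ) ^ (1 / 2 : ℝ) ≤ 5 * (n : ℝ) ^ (1/2 : ℝ) := by
    rw [mul_div_assoc, e1]
    have : (1:ℝ) ≤ (n : ℝ) ^ (1/2 : ℝ) := Real.one_le_rpow (by linarith) (by norm_num)
    linarith
  have e3 : ((n : ℝ) ^ (1 / 16 : ℝ)) ^ 2 = (n : ℝ) ^ (1/8 : ℝ) := by
    rw [← Real.rpow_natCast, ← Real.rpow_mul hnpos.le]; norm_num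
  calc Real.pi * (n : ℝ) ^ (2 * (1/16 : ℝ)) * (((n : ℝ) ^ (1 / 16 : ℝ)) ^ 2 *
        (1 + 4 * n / (n : ℝ) ^ (1 / 2 : ℝ)))
      ≤ 4 * (n : ℝ) ^ (2 * (1/16 : ℝ)) * (((n : ℝ) ^ (1 / 16 : ℝ)) ^ 2 *
        (5 * (n : ℝ) ^ (1/2 : ℝ))) := by
        gcongr
        exact Real.pi_le_four
    _ = 20 * ((n : ℝ) ^ (2 * (1/16 : ℝ)) * (n : ℝ) ^ (1/8 : ℝ) * (n : ℝ) ^ (1/2 : ℝ)) := by
        rw [e3]; ring
    _ = 20 * (n : ℝ) ^ (3/4 : ℝ) := by
        rw [← Real.rpow_add hnpos, ← Real.rpow_add hnpos]; norm_num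

theorem num_main (C : ℕ) {b : ℝ} (hb : 0 < b) : ∃ n3 : ℕ, ∀ n : ℕ, n3 ≤ n → 3 ≤ n ∧
    ∀ m k : ℕ, (m : ℝ) ≤ 5 * (n : ℝ) ^ (7/8 : ℝ) → (k : ℝ) ≤ 1 + b / 4 * n →
      ((2 * (n ^ (C + 2) + 1) + 1 : ℕ) : ℝ) ^ m *
        Real.exp (2 * (n : ℝ) ^ (1 - (1/16 : ℝ) / 4) +
          Real.pi * (n : ℝ) ^ (2 * (1/16 : ℝ)) * (((n : ℝ) ^ (1 / 16 : ℝ)) ^ 2 *
            (1 + 4 * n / (n : ℝ) ^ (1 / 2 : ℝ)))) * 2 ^ k ≤ (2 : ℝ) ^ (b * n) := by
  have hl2 : 0 < Real.log 2 := Real.log_pos (by norm_num)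
  set e : ℝ := b * Real.log 2 / 64 / (C + 10) with he
  have hepos : 0 < e := by positivity
  obtain ⟨n3, hn3⟩ := eventually_atTop.mp ((ev_small (a := 7/8) (by norm_num) hepos).and
    ((ev_small (a := 63/64) (by norm_num) hepos).and
      ((ev_small (a := 3/4) (by norm_num) hepos).and (ev_small (a := 0) (by norm_num) hepos))))
  refine ⟨max n3 3, fun n hn => ⟨le_trans (le_max_right _ _) hn, ?_⟩⟩
  intro m k hm hk
  obtain ⟨⟨hlog, ha⟩, ⟨-, hb1⟩, ⟨-, hc1⟩, ⟨-, hd1⟩⟩ := hn3 n (le_trans (le_max_left _ _) hn)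
  have hnn4 : 3 ≤ n := le_trans (le_max_right _ _) hn
  have hn3' : (3:ℝ) ≤ n := by exact_mod_cast hnn4
  have hnpos : (0:ℝ) < n := by linarith
  have hterm1 : (m : ℝ) * Real.log ((2 * (n ^ (C + 2) + 1) + 1 : ℕ) : ℝ) ≤
      5 * ((C : ℝ) + 6) * (e * n) := by
    calc (m : ℝ) * Real.log ((2 * (n ^ (C + 2) + 1) + 1 : ℕ) : ℝ)
        ≤ (5 * (n : ℝ) ^ (7/8 : ℝ)) * (((C : ℝ) + 6) * Real.log n) := by
          refine mul_le_mul hm (num_K hnn4) (Real.log_nonneg ?_) (by positivity)
          push_cast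
          have : (0:ℝ) ≤ (n:ℝ) ^ (C + 2) := by positivity
          linarith
      _ = 5 * ((C : ℝ) + 6) * ((n : ℝ) ^ (7/8 : ℝ) * Real.log n) := by ring
      _ ≤ 5 * ((C : ℝ) + 6) * (e * n) := by gcongr
  have hterm2 : 2 * (n : ℝ) ^ (1 - (1/16 : ℝ) / 4) ≤ 2 * (e * n) := by
    have e1 : (1 - (1/16 : ℝ) / 4) = 63/64 := by norm_num
    rw [e1]
    have e2 : (n : ℝ) ^ (63/64 : ℝ) * 1 ≤ (n : ℝ) ^ (63/64 : ℝ) * Real.log n := by gcongr
    linarith
  have hterm3 : Real.pi * (n : ℝ) ^ (2 * (1/16 : ℝ)) * (((n : ℝ) ^ (1 / 16 : ℝ)) ^ 2 *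
      (1 + 4 * n / (n : ℝ) ^ (1 / 2 : ℝ))) ≤ 20 * (e * n) := by
    refine (num_3 hnn4).trans ?_
    have : (n : ℝ) ^ (3/4 : ℝ) * 1 ≤ (n : ℝ) ^ (3/4 : ℝ) * Real.log n := by gcongr
    linarith
  have hone : Real.log 2 ≤ e * n := by
    have e1 : (n:ℝ) ^ (0:ℝ) * Real.log n = Real.log n := by simp
    rw [e1] at hd1
    have e2 : Real.log 2 ≤ 1 := by
      have := Real.log_two_lt_d9
      linarith
    linarith
  have hsumE : (5 * ((C:ℝ) + 6) + 2 + 20 + 1) * (e * n) ≤ b * Real.log 2 / 2 * n := by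
    have e1 : (5 * ((C:ℝ) + 6) + 2 + 20 + 1) ≤ 32 * (C + 10) := by
      have : (0:ℝ) ≤ C := Nat.cast_nonneg C
      linarith
    have e2 : 32 * ((C:ℝ) + 10) * e = b * Real.log 2 / 2 := by
      rw [he]; field_simp; ring
    calc (5 * ((C:ℝ) + 6) + 2 + 20 + 1) * (e * n) ≤ 32 * (C + 10) * (e * n) := by gcongr
      _ = (32 * (C + 10) * e) * n := by ring
      _ = _ := by rw [e2]
  have hkl : (k:ℝ) * Real.log 2 ≤ (1 + b / 4 * n) * Real.log 2 := by gcongr
  have hX : 0 < ((2 * (n ^ (C + 2) + 1) + 1 : ℕ) : ℝ) ^ m := by positivity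
  have h2b : (0:ℝ) < (2 : ℝ) ^ (b * n) := Real.rpow_pos_of_pos (by norm_num) _
  rw [← Real.log_le_log_iff (by positivity) h2b, Real.log_mul (by positivity)
    (by positivity), Real.log_mul hX.ne' (by positivity), Real.log_exp, Real.log_pow,
    Real.log_pow, Real.log_rpow (by norm_num)]
  have hfin : (5 * ((C:ℝ) + 6) + 2 + 20 + 1) * (e * n) =
    5 * ((C : ℝ) + 6) * (e * n) + 2 * (e * n) + 20 * (e * n) + e * n := by ring
  have hlast : (1 + b / 4 * n) * Real.log 2 = Real.log 2 + b * Real.log 2 / 4 * n := by ring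
  have hpos : 0 ≤ b * Real.log 2 * n := by positivity
  rw [hlast] at hkl
  rw [hfin] at hsumE
  have hgoal : b * n * Real.log 2 = b * Real.log 2 / 2 * n + b * Real.log 2 / 4 * n +
    b * Real.log 2 * n / 4 := by ring
  rw [hgoal]
  linarith

theorem T1p_all {p : ℝ} (hp0 : 0 < p) (hp1 : p < 1) : Asm.T1p p := by
  classical
  intro C b hb
  refine ⟨b / 128, by positivity, ?_⟩
  obtain ⟨n1, hspec⟩ := Spec.spec_coord hp0 hp1 (c := 1/8) (d := 1/4) (by norm_num) (by norm_num)
  obtain ⟨n2, hcount⟩ := count_main (δ := 1/16) (by norm_num)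
  obtain ⟨n3, hnum⟩ := num_main C hb
  refine ⟨max (max n1 n2) n3, fun n hn => ?_⟩
  have hnn1 : n1 ≤ n := le_trans (le_trans (le_max_left _ _) (le_max_left _ _)) hn
  have hnn2 : n2 ≤ n := le_trans (le_trans (le_max_right _ _) (le_max_left _ _)) hn
  obtain ⟨hnn4, hnum⟩ := hnum n (le_trans (le_max_right _ _) hn)
  obtain ⟨hn1, hcount⟩ := hcount n hnn2
  refine le_trans (prob_mono hp0.le hp1.le ?_) (hspec n hnn1)
  intro w hw
  simp only [Set.mem_ofPred_eq] at hw ⊢
  obtain ⟨hdet, hsmall, hmany⟩ := hw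
  by_contra hbad
  apply absurd hmany
  rw [not_lt]
  set A := symMat w with hA
  clear_value A
  have hAt : A.transpose = A := by rw [hA, symMat_symm]
  clear hA hmany hnn1 hnn2 hspec hn
  have hn3' : (3:ℝ) ≤ n := by exact_mod_cast hnn4
  have hnpos : (0:ℝ) < n := by linarith
  -- the coordinates
  set L : ℕ := ⌈(n : ℝ) ^ (7/8 : ℝ) / 4⌉₊ with hL
  have h78 : (1:ℝ) ≤ (n : ℝ) ^ (7/8 : ℝ) := Real.one_le_rpow (by linarith) (by norm_num)
  have hLc : (L : ℝ) < (n : ℝ) ^ (7/8 : ℝ) / 4 + 1 :=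
    Nat.ceil_lt_add_one (show (0:ℝ) ≤ (n : ℝ) ^ (7/8 : ℝ) / 4 by positivity)
  have hLpos : 0 < L := by
    rw [hL]; apply Nat.ceil_pos.mpr; positivity
  have hLge : (n : ℝ) ^ (7/8 : ℝ) ≤ ((4 * L : ℕ) : ℝ) := by
    have := Nat.le_ceil ((n : ℝ) ^ (7/8 : ℝ) / 4)
    push_cast; rw [← hL] at this; linarith
  have hLle : ((4 * L : ℕ) : ℝ) ≤ 5 * (n : ℝ) ^ (7/8 : ℝ) := by
    push_cast; linarith
  have ht2pos : 0 < (n : ℝ) ^ (1 / 2 : ℝ) := Real.rpow_pos_of_pos hnpos _
  obtain ⟨c, hc1', hc2'⟩ := exists_coords (im A) (by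
      rw [← WRM3.im_transpose, hAt]) L hLpos ((n : ℝ) ^ (1 / 2 : ℝ)) ht2pos (by
    rintro ⟨U, hU, hU2⟩
    apply hbad
    refine ⟨U, ?_, ?_⟩
    · have e1 : ((1:ℝ) - 1/8) = 7/8 := by norm_num
      rw [e1]
      refine hLge.trans ?_
      exact_mod_cast hU
    · intro u hu
      have e1 : ((1:ℝ) - 2 * (1/4)) = 1/2 := by norm_num
      rw [e1]
      exact hU2 u hu)
  -- the bound
  have hE1 : 1 < (n : ℝ) ^ (1 / 16 : ℝ) := Real.one_lt_rpow (by linarith) (by norm_num)
  have h4L : 4 * L ≤ n ^ 2 := by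
    have e3 : (n : ℝ) ^ (7/8 : ℝ) ≤ n := by
      calc (n : ℝ) ^ (7/8 : ℝ) ≤ (n:ℝ) ^ (1:ℝ) :=
            Real.rpow_le_rpow_of_exponent_le (by linarith) (by norm_num)
        _ = n := Real.rpow_one _
    have e4 : ((4 * L : ℕ) : ℝ) < ((n ^ 2 + 1 : ℕ) : ℝ) := by
      push_cast
      nlinarith
    have e5 : 4 * L < n ^ 2 + 1 := by exact_mod_cast e4
    omega
  set s : Finset (Fin n → Bool) := Finset.univ.filter fun x =>
    (∃ t : ℤ, Asm.bil A (Asm.sv x) (Asm.sv x) = t) ∧
      ∀ i, |Asm.qinv A (Asm.sv x) i| ≤ (n : ℚ) ^ C with hs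
  obtain ⟨k, hk, hcard⟩ := hcount A hdet (4 * L) c _ ht2pos h4L hc1' hc2' _ hE1 ((n : ℝ) ^ C)
    (n ^ (C + 2) + 1) (by positivity) (by push_cast; rw [pow_add, mul_comm]) s (by
      intro x hx i
      have h1 := (Finset.mem_filter.mp hx).2.2 i
      rw [← qinv_cast hdet]
      have h2 : ((|Asm.qinv A (Asm.sv x) i| : ℚ) : ℝ) ≤ (((n : ℚ) ^ C : ℚ) : ℝ) := by
        exact_mod_cast h1
      push_cast at h2
      exact h2)
  have hnat : (Nat.card {x : Fin n → Bool // (∃ t : ℤ, Asm.bil A (Asm.sv x) (Asm.sv x) = t) ∧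
      ∀ i, |Asm.qinv A (Asm.sv x) i| ≤ (n : ℚ) ^ C} : ℝ) = s.card := by
    rw [Nat.card_eq_fintype_card, Fintype.card_subtype]
  rw [hnat]
  refine hcard.trans (hnum _ k hLle ?_)
  have hDpos : 0 < |(A.det : ℝ)| := by
    apply abs_pos.mpr; exact_mod_cast hdet
  refine num_k hnn4 hDpos ?_ (by rw [sq_abs]; exact hk)
  have h5 : ((A.det.natAbs : ℕ) : ℝ) = |(A.det : ℝ)| := by
    rw [Nat.cast_natAbs, Int.cast_abs]
  rw [← h5]; exact hsmall

end Crest.Agent.R152.TP
end

-- ▼ part R152/TopN3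
section

set_option autoImplicit false
set_option linter.unusedSectionVars false

/-! Row 152, module TOP, part N3: near-maximal coordinates of kernel vectors. -/

open Crest.FinProb Crest.ProbabilityR.SignMatrix Filter

namespace Crest.Agent.R152.Top

open Crest.Agent.R152.Base

theorem ev_log_sqrt {K c : ℝ} (hK : 0 ≤ K) (hc : 0 < c) :
    ∀ᶠ n : ℕ in atTop, K * (√n * Real.log n) + K * √n + K ≤ c * n := by
  have h1 : ∀ᶠ x : ℝ in atTop, |Real.log x| ≤ (c / (3 * (K + 1))) * |x ^ (1 / 2 : ℝ)| := by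
    have := (isLittleO_log_rpow_atTop (by norm_num : (0 : ℝ) < 1 / 2)).def
      (by positivity : 0 < c / (3 * (K + 1)))
    simpa using this
  have h2 := tendsto_natCast_atTop_atTop (R := ℝ) |>.eventually h1
  have h3 : ∀ᶠ n : ℕ in atTop, (3 * K / c) ^ 2 ≤ (n : ℝ) :=
    tendsto_natCast_atTop_atTop.eventually (eventually_ge_atTop _)
  have h4 : ∀ᶠ n : ℕ in atTop, (3 * K / c) ≤ (n : ℝ) :=
    tendsto_natCast_atTop_atTop.eventually (eventually_ge_atTop _)
  filter_upwards [h2, h3, h4, eventually_ge_atTop 1] with n e2 e3 e4 hn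
  have hn' : (1 : ℝ) ≤ n := by exact_mod_cast hn
  have hlog : 0 ≤ Real.log n := Real.log_nonneg hn'
  have hsq : 0 ≤ √(n : ℝ) := Real.sqrt_nonneg _
  have hsq2 : √(n : ℝ) * √n = n := Real.mul_self_sqrt (by linarith)
  rw [abs_of_nonneg hlog, ← Real.sqrt_eq_rpow, abs_of_nonneg hsq] at e2
  have e5 : 3 * K / c ≤ √n := Real.le_sqrt_of_sq_le e3
  have hK1 : K / (3 * (K + 1)) ≤ 1 / 3 := by
    rw [div_le_div_iff₀ (by positivity) (by norm_num)]
    linarith
  have a1 : K * (√n * Real.log n) ≤ c / 3 * n := by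
    calc K * (√n * Real.log n) ≤ K * (√n * (c / (3 * (K + 1)) * √n)) := by gcongr
      _ = (K / (3 * (K + 1))) * c * (√n * √n) := by ring
      _ = (K / (3 * (K + 1))) * c * n := by rw [hsq2]
      _ ≤ (1 / 3) * c * n := by gcongr
      _ = c / 3 * n := by ring
  have a2 : K * √n ≤ c / 3 * n := by
    rw [div_le_iff₀ hc] at e5
    calc K * √n ≤ (√n * c / 3) * √n := by nlinarith
      _ = c / 3 * (√n * √n) := by ring
      _ = c / 3 * n := by rw [hsq2]
  have a3 : K ≤ c / 3 * n := by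
    rw [div_le_iff₀ hc] at e4
    linarith
  linarith


theorem asymA {p ε : ℝ} (hp0 : 0 < p) (hp1 : p < 1) (hε : 0 < ε) :
    ∀ᶠ n : ℕ in atTop,
      ((n : ℝ) * (2 * ((n ^ 2 + 1 : ℕ) : ℝ) + 1)) ^ (2 * Nat.sqrt n) *
        rate p ^ (n - 2 * Nat.sqrt n) ≤ (rate p + ε) ^ n / 2 := by
  have hr := rate_pos p
  have hr1 := rate_le_one hp0.le hp1.le
  have hrh := half_le_rate p
  filter_upwards [ev_log_sqrt (K := 20) (by norm_num) (Real.log_pos (by linarith : 1 < 1 + ε)),
    eventually_ge_atTop 16] with n h1 hn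
  have hn' : (16 : ℝ) ≤ n := by exact_mod_cast hn
  have hlog : 0 ≤ Real.log n := Real.log_nonneg (by linarith)
  set s := Nat.sqrt n with hs
  have hsn : 2 * s ≤ n := by
    have h2 : s * s ≤ n := Nat.sqrt_le n
    have h3 : 4 ≤ s := by
      rw [hs, Nat.le_sqrt]; omega
    nlinarith
  have hs1 : (s : ℝ) ≤ √n := by
    rw [Real.le_sqrt (by positivity) (by positivity)]
    have : s * s ≤ n := Nat.sqrt_le n
    have h2 : ((s * s : ℕ) : ℝ) ≤ n := by exact_mod_cast this
    push_cast at h2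
    nlinarith
  have hbase : (n : ℝ) * (2 * ((n ^ 2 + 1 : ℕ) : ℝ) + 1) ≤ (n : ℝ) ^ 4 := by
    push_cast
    have h3 : (n : ℝ) * (2 * ((n : ℝ) ^ 2 + 1) + 1) = 2 * (n : ℝ) ^ 3 + 3 * n := by ring
    rw [h3]
    have h4 : (n : ℝ) ^ 4 = n * (n : ℝ) ^ 3 := by ring
    have h5 : 16 * (n : ℝ) ^ 3 ≤ (n : ℝ) ^ 4 := by rw [h4]; gcongr
    have h6 : (n : ℝ) ^ 3 = n * (n * n) := by ring
    have h7 : 3 * (n : ℝ) ≤ (n : ℝ) ^ 3 := by rw [h6]; nlinarith
    have h8 : 0 ≤ (n : ℝ) ^ 3 := by positivity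
    linarith
  have e1 : ((n : ℝ) * (2 * ((n ^ 2 + 1 : ℕ) : ℝ) + 1)) ^ (2 * s) ≤
      Real.exp (8 * (√n * Real.log n)) := by
    calc ((n : ℝ) * (2 * ((n ^ 2 + 1 : ℕ) : ℝ) + 1)) ^ (2 * s) ≤ ((n : ℝ) ^ 4) ^ (2 * s) :=
          pow_le_pow_left₀ (by positivity) hbase _
      _ = Real.exp (8 * (s * Real.log n)) := by
          rw [← pow_mul, ← Real.exp_log (by linarith : (0 : ℝ) < n), ← Real.exp_nat_mul,
            Real.log_exp]
          congr 1
          push_cast
          ring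
      _ ≤ _ := by
          apply Real.exp_le_exp.2
          have := mul_le_mul_of_nonneg_right hs1 hlog
          linarith
  have e2 : rate p ^ (n - 2 * s) ≤ rate p ^ n * Real.exp (2 * √n) := by
    have h2 : rate p ^ n = rate p ^ (n - 2 * s) * rate p ^ (2 * s) := by
      rw [← pow_add]; congr 1; omega
    have h3 : 1 ≤ rate p ^ (2 * s) * Real.exp (2 * √n) := by
      have h4 : Real.exp (-(1 : ℝ)) ≤ rate p := by
        refine le_trans ?_ hrh
        rw [Real.exp_neg, inv_eq_one_div, div_le_div_iff_of_pos_left (by norm_num) (Real.exp_pos _)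
          (by norm_num)]
        have := Real.add_one_le_exp (1 : ℝ)
        linarith
      calc (1 : ℝ) ≤ Real.exp (-(2 * s : ℝ) + 2 * √n) := by
            rw [← Real.exp_zero]
            apply Real.exp_le_exp.2
            linarith
        _ = Real.exp (-(1 : ℝ)) ^ (2 * s) * Real.exp (2 * √n) := by
            rw [← Real.exp_nat_mul, ← Real.exp_add]
            congr 1
            push_cast
            ring
        _ ≤ _ := by gcongr
    rw [h2, mul_assoc]
    have h5 : 0 ≤ rate p ^ (n - 2 * s) := by positivity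
    nlinarith
  have e3 : rate p ^ n * Real.exp (Real.log (1 + ε) * n) ≤ (rate p + ε) ^ n := by
    have h2 : Real.exp (Real.log (1 + ε) * n) = (1 + ε) ^ n := by
      rw [mul_comm, Real.exp_nat_mul, Real.exp_log (by linarith)]
    rw [h2, ← mul_pow]
    refine pow_le_pow_left₀ (by positivity) ?_ _
    nlinarith
  have e4 : Real.exp (8 * (√n * Real.log n)) * Real.exp (2 * √n) * 2 ≤
      Real.exp (Real.log (1 + ε) * n) := by
    have h2 : (2 : ℝ) ≤ Real.exp 1 := by
      have := Real.add_one_le_exp (1 : ℝ)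
      linarith
    calc Real.exp (8 * (√n * Real.log n)) * Real.exp (2 * √n) * 2
        ≤ Real.exp (8 * (√n * Real.log n)) * Real.exp (2 * √n) * Real.exp 1 := by gcongr
      _ = Real.exp (8 * (√n * Real.log n) + 2 * √n + 1) := by
          rw [Real.exp_add, Real.exp_add]
      _ ≤ _ := by
          apply Real.exp_le_exp.2
          have : 0 ≤ √(n : ℝ) := Real.sqrt_nonneg _
          have h3 : 0 ≤ √(n : ℝ) * Real.log n := by positivity
          linarith
  have hpos : 0 ≤ rate p ^ n := by positivity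
  calc _ ≤ Real.exp (8 * (√n * Real.log n)) * (rate p ^ n * Real.exp (2 * √n)) := by
        gcongr
    _ = rate p ^ n * (Real.exp (8 * (√n * Real.log n)) * Real.exp (2 * √n) * 2) / 2 := by ring
    _ ≤ rate p ^ n * Real.exp (Real.log (1 + ε) * n) / 2 := by gcongr
    _ ≤ _ := by gcongr

theorem asymB {p : ℝ} (hp0 : 0 < p) (hp1 : p < 1) :
    ∀ᶠ n : ℕ in atTop, 4 / √(Nat.sqrt n * p * (1 - p)) ≤ 1 ∧
      ((n : ℝ) * (2 * ((2 * n ^ 2 * (n + 1) + 1 : ℕ) : ℝ) + 1)) ^ (n / 40) *
        (4 / √(Nat.sqrt n * p * (1 - p))) ^ (n - n / 40) ≤ (1 / 2) ^ n / 2 := by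
  have hq : 0 < 1 - p := by linarith
  set c0 : ℝ := Real.log (32 / (p * (1 - p))) with hc0
  have hlogat : Tendsto (fun n : ℕ => Real.log n) atTop atTop :=
    Real.tendsto_log_atTop.comp tendsto_natCast_atTop_atTop
  filter_upwards [hlogat.eventually (eventually_ge_atTop (2 * |c0|)),
    hlogat.eventually (eventually_ge_atTop ((160 / 19) * (|c0| + 2))),
    eventually_ge_atTop 64] with n h1 h2 hn
  have hn' : (64 : ℝ) ≤ n := by exact_mod_cast hn
  set s := Nat.sqrt n with hs
  have hs8 : 8 ≤ s := by rw [hs, Nat.le_sqrt]; omega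
  have hs8' : (8 : ℝ) ≤ s := by exact_mod_cast hs8
  have hs1 : √n / 2 ≤ (s : ℝ) := by
    have h3 : n < (s + 1) * (s + 1) := Nat.lt_succ_sqrt n
    have h4 : (n : ℝ) < (s + 1) * (s + 1) := by exact_mod_cast h3
    have h5 : √n ≤ s + 1 := by
      rw [Real.sqrt_le_left (by positivity)]
      nlinarith
    linarith
  have hsqn : 0 < √(n : ℝ) := Real.sqrt_pos.2 (by linarith)
  set β : ℝ := 4 / √(s * p * (1 - p)) with hβ
  have hX : 0 < s * p * (1 - p) := by positivity
  have hβ0 : 0 < β := by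
    rw [hβ]
    have := Real.sqrt_pos.2 hX
    positivity
  have hβlog : Real.log β ≤ |c0| / 2 - Real.log n / 4 := by
    have h3 : Real.log β = Real.log 4 - Real.log (s * p * (1 - p)) / 2 := by
      rw [hβ, Real.log_div (by norm_num) (Real.sqrt_pos.2 hX).ne', Real.log_sqrt hX.le]
    have h4 : Real.log (√n / 2 * (p * (1 - p))) ≤ Real.log (s * p * (1 - p)) := by
      apply Real.log_le_log (by positivity)
      have : 0 < p * (1 - p) := by positivity
      nlinarith
    have h5 : Real.log (√n / 2 * (p * (1 - p))) = Real.log n / 2 - Real.log 2 + Real.log (p * (1 - p)) := by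
      rw [Real.log_mul (by positivity) (by positivity), Real.log_div (by positivity) (by norm_num),
        Real.log_sqrt (by positivity)]
    have h6 : c0 = 5 * Real.log 2 - Real.log (p * (1 - p)) := by
      rw [hc0, Real.log_div (by norm_num) (by positivity)]
      congr 1
      rw [show (32 : ℝ) = 2 ^ 5 by norm_num, Real.log_pow]
      norm_num
    have h7 : Real.log 4 = 2 * Real.log 2 := by
      rw [show (4 : ℝ) = 2 ^ 2 by norm_num, Real.log_pow]
      norm_num
    have h8 := le_abs_self c0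
    linarith
  have habs : 0 ≤ |c0| := abs_nonneg _
  have hβ1' : Real.log β ≤ 0 := by linarith
  have hβ1 : β ≤ 1 := by
    rw [← Real.exp_log hβ0, ← Real.exp_zero]
    exact Real.exp_le_exp.2 hβ1'
  refine ⟨hβ1, ?_⟩
  have hlog : 0 ≤ Real.log n := Real.log_nonneg (by linarith)
  have hdiv : ((n / 40 : ℕ) : ℝ) ≤ n / 40 := Nat.cast_div_le
  have hbase : (n : ℝ) * (2 * ((2 * n ^ 2 * (n + 1) + 1 : ℕ) : ℝ) + 1) ≤ (n : ℝ) ^ 5 := by
    push_cast
    have h3 : (n : ℝ) * (2 * (2 * (n : ℝ) ^ 2 * (n + 1) + 1) + 1) =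
      4 * (n : ℝ) ^ 4 + 4 * (n : ℝ) ^ 3 + 3 * n := by ring
    rw [h3]
    have h4 : (n : ℝ) ^ 5 = n * (n : ℝ) ^ 4 := by ring
    have h5 : (n : ℝ) ^ 4 = n * (n : ℝ) ^ 3 := by ring
    have h6 : (n : ℝ) ^ 3 = n * (n * n) := by ring
    have h7 : 64 * (n : ℝ) ^ 4 ≤ (n : ℝ) ^ 5 := by rw [h4]; gcongr
    have h8 : 64 * (n : ℝ) ^ 3 ≤ (n : ℝ) ^ 4 := by rw [h5]; gcongr
    have h9 : 3 * (n : ℝ) ≤ (n : ℝ) ^ 3 := by rw [h6]; nlinarith
    have h10 : 0 ≤ (n : ℝ) ^ 3 := by positivity
    have h11 : 0 ≤ (n : ℝ) ^ 4 := by positivity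
    linarith
  have e1 : ((n : ℝ) * (2 * ((2 * n ^ 2 * (n + 1) + 1 : ℕ) : ℝ) + 1)) ^ (n / 40) ≤
      Real.exp (n * Real.log n / 8) := by
    calc _ ≤ ((n : ℝ) ^ 5) ^ (n / 40) := pow_le_pow_left₀ (by positivity) hbase _
      _ = Real.exp (5 * (((n / 40 : ℕ) : ℝ) * Real.log n)) := by
          rw [← pow_mul]
          nth_rewrite 1 [← Real.exp_log (by linarith : (0 : ℝ) < n)]
          rw [← Real.exp_nat_mul]
          congr 1
          push_cast
          ring
      _ ≤ _ := by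
          apply Real.exp_le_exp.2
          have := mul_le_mul_of_nonneg_right hdiv hlog
          linarith
  have hN : (39 / 40 : ℝ) * n ≤ ((n - n / 40 : ℕ) : ℝ) := by
    rw [Nat.cast_sub (Nat.div_le_self _ _)]
    linarith
  have e2 : β ^ (n - n / 40) ≤ Real.exp ((39 / 40 : ℝ) * n * (|c0| / 2 - Real.log n / 4)) := by
    calc β ^ (n - n / 40) = Real.exp (((n - n / 40 : ℕ) : ℝ) * Real.log β) := by
          rw [Real.exp_nat_mul, Real.exp_log hβ0]
      _ ≤ _ := by
          apply Real.exp_le_exp.2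
          have h3 : ((n - n / 40 : ℕ) : ℝ) * Real.log β ≤ (39 / 40 : ℝ) * n * Real.log β :=
            mul_le_mul_of_nonpos_right hN hβ1'
          have h4 : (39 / 40 : ℝ) * n * Real.log β ≤
              (39 / 40 : ℝ) * n * (|c0| / 2 - Real.log n / 4) :=
            mul_le_mul_of_nonneg_left hβlog (by positivity)
          linarith
  have e3 : Real.exp (-(2 : ℝ) * n) ≤ (1 / 2 : ℝ) ^ n / 2 := by
    have h3 : Real.exp (-(1 : ℝ)) ≤ 1 / 2 := by
      rw [Real.exp_neg, inv_eq_one_div, div_le_div_iff_of_pos_left (by norm_num) (Real.exp_pos _)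
        (by norm_num)]
      have := Real.add_one_le_exp (1 : ℝ)
      linarith
    calc Real.exp (-(2 : ℝ) * n) ≤ Real.exp (-(n : ℝ) + -1) := by
          apply Real.exp_le_exp.2
          linarith
      _ = Real.exp (-(1 : ℝ)) ^ n * Real.exp (-(1 : ℝ)) := by
          rw [← Real.exp_nat_mul, ← Real.exp_add]
          congr 1
          ring
      _ ≤ (1 / 2) ^ n * (1 / 2) := by gcongr
      _ = _ := by ring
  calc _ ≤ Real.exp (n * Real.log n / 8) *
        Real.exp ((39 / 40 : ℝ) * n * (|c0| / 2 - Real.log n / 4)) := by gcongr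
    _ = Real.exp (n * Real.log n / 8 + (39 / 40 : ℝ) * n * (|c0| / 2 - Real.log n / 4)) := by
        rw [Real.exp_add]
    _ ≤ Real.exp (-(2 : ℝ) * n) := by
        apply Real.exp_le_exp.2
        have h3 : n * Real.log n / 8 + (39 / 40 : ℝ) * n * (|c0| / 2 - Real.log n / 4) =
          n * ((39 / 80) * |c0| - (19 / 160) * Real.log n) := by ring
        rw [h3]
        have h4 : (39 / 80 : ℝ) * |c0| - (19 / 160) * Real.log n ≤ -2 := by linarith
        nlinarith
    _ ≤ _ := e3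

/-- **Near-maximal coordinates**, explicit form. -/
theorem nearmax' {p : ℝ} (hp0 : 0 < p) (hp1 : p < 1) {ε : ℝ} (hε : 0 < ε) :
    ∀ᶠ n : ℕ in atTop, bernoulliProb p {w : Sym2 (Fin n) → Bool | ∃ k : Fin n → ℝ, k ≠ 0 ∧
      ((symMat w).map (Int.cast : ℤ → ℝ)).mulVec k = 0 ∧
      (Nat.card {i // ∀ j, |k j| ≤ (n : ℝ) ^ 4 * |k i|} : ℝ) < n / 40} ≤ (rate p + ε) ^ n := by
  classical
  filter_upwards [asymA hp0 hp1 hε, asymB hp0 hp1, eventually_ge_atTop 16] with n hA hB hn
  have hn' : (16 : ℝ) ≤ n := by exact_mod_cast hn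
  have _hne : Nonempty (Fin n) := ⟨⟨0, by omega⟩⟩
  set s := Nat.sqrt n with hs
  have hs0 : 0 < s := by
    have : 4 ≤ s := by rw [hs, Nat.le_sqrt]; omega
    omega
  set EA : Set (Sym2 (Fin n) → Bool) := {w | ∃ z : Fin n → ℤ,
      (Finset.univ.filter fun i => z i ≠ 0).card ≤ 2 * s ∧
      (∀ i, |z i| ≤ ((n ^ 2 + 1 : ℕ) : ℤ)) ∧ rowp p z n ≤ rate p ∧
      ∀ j, |(((symMat w).mulVec z j : ℤ) : ℝ)| < n} with hEA
  set EB : Set (Sym2 (Fin n) → Bool) := {w | ∃ z : Fin n → ℤ,
      (Finset.univ.filter fun i => z i ≠ 0).card ≤ n / 40 ∧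
      (∀ i, |z i| ≤ ((2 * n ^ 2 * (n + 1) + 1 : ℕ) : ℤ)) ∧
      rowp p z n ≤ 4 / √(s * p * (1 - p)) ∧
      ∀ j, |(((symMat w).mulVec z j : ℤ) : ℝ)| < n} with hEB
  have hsub : {w : Sym2 (Fin n) → Bool | ∃ k : Fin n → ℝ, k ≠ 0 ∧
      ((symMat w).map (Int.cast : ℤ → ℝ)).mulVec k = 0 ∧
      (Nat.card {i // ∀ j, |k j| ≤ (n : ℝ) ^ 4 * |k i|} : ℝ) < n / 40} ⊆ EA ∪ EB := by
    rintro w ⟨k, hk0, hk, hcard⟩
    obtain ⟨i0, -, hi0⟩ := Finset.exists_max_image Finset.univ (fun i => |k i|)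
      (Finset.univ_nonempty)
    have hK : 0 < |k i0| := by
      obtain ⟨i, hi⟩ := Function.ne_iff.1 hk0
      exact lt_of_lt_of_le (abs_pos.2 hi) (hi0 i (Finset.mem_univ i))
    set k' : Fin n → ℝ := fun i => k i / |k i0| with hk'
    have hk1 : ∀ i, |k' i| ≤ 1 := by
      intro i
      rw [hk', abs_div, abs_abs, div_le_one hK]
      exact hi0 i (Finset.mem_univ i)
    have hi01 : |k' i0| = 1 := by
      rw [hk', abs_div, abs_abs, div_self hK.ne']
    have hker : ((symMat w).map (Int.cast : ℤ → ℝ)).mulVec k' = 0 := by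
      have : k' = (1 / |k i0|) • k := by
        funext i
        simp only [hk', Pi.smul_apply, smul_eq_mul]
        ring
      rw [this, Matrix.mulVec_smul, hk, smul_zero]
    by_cases hc : (Finset.univ.filter fun i => 1 / (2 * (n : ℝ) ^ 2) ≤ |k' i|).card ≤ 2 * s
    · left
      exact eventA hp0 hp1 (by omega) w k' hker hk1 i0 hi01 (2 * s) hc
    · right
      refine eventB hp0 hp1 (by omega) w k' hker hk1 s (n / 40) hs0 (by omega) ?_
      have h1 : (Finset.univ.filter fun i =>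
          1 / (2 * (2 * (n : ℝ) ^ 2 * (n + 1))) ≤ |k' i|).card ≤
          Nat.card {i // ∀ j, |k j| ≤ (n : ℝ) ^ 4 * |k i|} := by
        rw [Nat.card_eq_fintype_card, Fintype.card_subtype]
        refine Finset.card_le_card fun i hi => ?_
        rw [Finset.mem_filter] at hi ⊢
        refine ⟨Finset.mem_univ _, fun j => ?_⟩
        have h2 := hi.2
        rw [hk', abs_div, abs_abs, div_le_div_iff₀ (by positivity) hK] at h2
        have h3 := hi0 j (Finset.mem_univ j)
        have h4 : 2 * (2 * (n : ℝ) ^ 2 * (n + 1)) ≤ (n : ℝ) ^ 4 := by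
          have h5 : (n : ℝ) ^ 4 = n ^ 2 * (n * n) := by ring
          rw [h5]
          have h6 : 2 * (2 * (n : ℝ) ^ 2 * (n + 1)) = (n : ℝ) ^ 2 * (4 * (n + 1)) := by ring
          rw [h6]
          refine mul_le_mul_of_nonneg_left ?_ (by positivity)
          nlinarith
        have h7 : 0 ≤ |k i| := abs_nonneg _
        nlinarith
      have h2 : (Finset.univ.filter fun i =>
          1 / (2 * (2 * (n : ℝ) ^ 2 * (n + 1))) ≤ |k' i|).card * 40 < n := by
        have h3 : ((Finset.univ.filter fun i =>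
          1 / (2 * (2 * (n : ℝ) ^ 2 * (n + 1))) ≤ |k' i|).card : ℝ) ≤
          Nat.card {i // ∀ j, |k j| ≤ (n : ℝ) ^ 4 * |k i|} := by exact_mod_cast h1
        have h4 : (((Finset.univ.filter fun i =>
          1 / (2 * (2 * (n : ℝ) ^ 2 * (n + 1))) ≤ |k' i|).card * 40 : ℕ) : ℝ) < n := by
          push_cast
          linarith
        exact_mod_cast h4
      omega
  refine (prob_mono hp0.le hp1.le hsub).trans ((prob_union_le hp0.le hp1.le _ _).trans ?_)
  have hPA := grid (ι := Fin n) hp0.le hp1.le (rate_pos p).le (rate_le_one hp0.le hp1.le) (2 * s)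
    (n ^ 2 + 1) n
  have hPB := grid (ι := Fin n) (α := 4 / √(s * p * (1 - p))) hp0.le hp1.le (by positivity) hB.1
    (n / 40) (2 * n ^ 2 * (n + 1) + 1) n
  rw [Fintype.card_fin] at hPA hPB
  have hA' := hPA.trans hA
  have hB' := hPB.trans hB.2
  have hle : (1 / 2 : ℝ) ^ n ≤ (rate p + ε) ^ n :=
    pow_le_pow_left₀ (by norm_num) (by have := half_le_rate p; linarith) _
  linarith


/-- **Near-maximal coordinates** for integer kernel vectors. -/
theorem nearmaxZ {p : ℝ} (hp0 : 0 < p) (hp1 : p < 1) {ε : ℝ} (hε : 0 < ε) :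
    ∀ᶠ n : ℕ in atTop, bernoulliProb p {w : Sym2 (Fin n) → Bool | ∃ k : Fin n → ℤ, k ≠ 0 ∧
      (symMat w).mulVec k = 0 ∧
      (Nat.card {i // ∀ j, |k j| ≤ (n : ℤ) ^ 4 * |k i|} : ℝ) < n / 40} ≤ (rate p + ε) ^ n := by
  filter_upwards [nearmax' hp0 hp1 hε] with n hn
  refine (prob_mono hp0.le hp1.le ?_).trans hn
  rintro w ⟨k, hk0, hk, hcard⟩
  refine ⟨fun i => (k i : ℝ), ?_, ?_, ?_⟩
  · intro h
    apply hk0
    funext i
    have := congrFun h i
    simpa using this
  · funext j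
    have h1 := congrFun hk j
    have h2 : ((((symMat w).mulVec k j : ℤ)) : ℝ) = 0 := by rw [h1]; simp
    simpa [Matrix.mulVec, dotProduct] using h2
  · refine lt_of_le_of_lt ?_ hcard
    have h1 : ∀ i, (∀ j, |(k j : ℝ)| ≤ (n : ℝ) ^ 4 * |(k i : ℝ)|) ↔
        ∀ j, |k j| ≤ (n : ℤ) ^ 4 * |k i| := by
      intro i
      refine forall_congr' fun j => ?_
      have h3 : ((|k j| : ℤ) : ℝ) ≤ (((n : ℤ) ^ 4 * |k i| : ℤ) : ℝ) ↔ |k j| ≤ (n : ℤ) ^ 4 * |k i| :=
        Int.cast_le
      rw [← h3]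
      push_cast
      rfl
    simp only [h1]
    exact le_refl _

end Crest.Agent.R152.Top
end

-- ▼ part R152/TopN4
section

set_option autoImplicit false
set_option linter.unusedSectionVars false

/-! Row 152, module TOP, part N4: near-maximality in the form used by the assembly. -/

open Crest.FinProb Crest.ProbabilityR.SignMatrix Filter

namespace Crest.Agent.R152.Top

open Crest.Agent.R152.Base

/-- the interface form -/
theorem nmz {p : ℝ} (hp0 : 0 < p) (hp1 : p < 1) : Asm.NMZ p := by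
  classical
  intro ε hε
  obtain ⟨n0, hn0⟩ := eventually_atTop.1 (nearmaxZ hp0 hp1 hε)
  refine ⟨1 / 40, by norm_num, 4, n0, fun n hn => ?_⟩
  refine (prob_mono hp0.le hp1.le ?_).trans (hn0 n hn)
  rintro w ⟨k, hk0, hk, hcard⟩
  refine ⟨k, hk0, hk, ?_⟩
  rw [Nat.card_eq_fintype_card, Fintype.card_subtype]
  have h1 : (1 / 40 : ℝ) * n = n / 40 := by ring
  rw [h1] at hcard
  convert hcard using 3

end Crest.Agent.R152.Top
end

-- ▼ part R152/FixV
section

set_option autoImplicit false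
set_option linter.unusedSectionVars false

/-!
# Row 152, fixed subspace bound

`Rad A E` = radical of the form `A` restricted to `E`.  For a fixed subspace `E ≤ ℚ^α`, the
probability that the random symmetric sign matrix has a radical of dimension `≥ s` on `E` is at most
`2^|α| q^{s(s-1)/2}`, `q = max p (1-p)`.
-/

open Crest.FinProb Crest.ProbabilityR.SignMatrix

namespace Crest.Agent.R152.FixV

open Base Matrix Module

/-- sign vector as rational vector -/
def sq {α : Type*} (x : α → Bool) : α → ℚ := fun a => (sg (x a) : ℚ)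

/-- the symmetric sign matrix over `ℚ` -/
def mq {α : Type*} (b : Sym2 α → Bool) : Matrix α α ℚ := (symMat b).map (fun z => (z : ℚ))

theorem mq_apply {α : Type*} (b : Sym2 α → Bool) (i j : α) : mq b i j = (sg (b s(i, j)) : ℚ) := rfl

theorem mq_symm {α : Type*} (b : Sym2 α → Bool) (i j : α) : mq b i j = mq b j i := by
  rw [mq_apply, mq_apply, Sym2.eq_swap]

/-- radical of the form `A` on `E` -/
def Rad {α : Type*} [Fintype α] (A : Matrix α α ℚ) (E : Submodule ℚ (α → ℚ)) :
    Submodule ℚ (α → ℚ) where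
  carrier := {w | w ∈ E ∧ ∀ u ∈ E, u ⬝ᵥ A *ᵥ w = 0}
  add_mem' := by
    rintro a b ⟨ha, ha'⟩ ⟨hb, hb'⟩
    refine ⟨E.add_mem ha hb, fun u hu => ?_⟩
    rw [mulVec_add, dotProduct_add, ha' u hu, hb' u hu, add_zero]
  zero_mem' := ⟨E.zero_mem, fun u _ => by simp⟩
  smul_mem' := by
    rintro c a ⟨ha, ha'⟩
    refine ⟨E.smul_mem c ha, fun u hu => ?_⟩
    rw [mulVec_smul, dotProduct_smul, ha' u hu, smul_zero]

theorem mem_Rad {α : Type*} [Fintype α] {A : Matrix α α ℚ} {E : Submodule ℚ (α → ℚ)} {w : α → ℚ} :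
    w ∈ Rad A E ↔ w ∈ E ∧ ∀ u ∈ E, u ⬝ᵥ A *ᵥ w = 0 := Iff.rfl

/-- vectors of `ℚ^(Option α)` from a last coordinate and a vector -/
def cons {α : Type*} (c : ℚ) (g : α → ℚ) : Option α → ℚ := fun o => o.elim c g

@[simp] theorem cons_none {α : Type*} (c : ℚ) (g : α → ℚ) : cons c g none = c := rfl
@[simp] theorem cons_some {α : Type*} (c : ℚ) (g : α → ℚ) (a : α) : cons c g (some a) = g a := rfl

theorem cons_eta {α : Type*} (w : Option α → ℚ) : cons (w none) (fun a => w (some a)) = w := by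
  funext o
  cases o <;> rfl

/-- extension by zero -/
def ext0 {α : Type*} : (α → ℚ) →ₗ[ℚ] (Option α → ℚ) where
  toFun g := cons 0 g
  map_add' g h := by
    funext o
    cases o <;> simp
  map_smul' c g := by
    funext o
    cases o <;> simp

@[simp] theorem ext0_apply {α : Type*} (g : α → ℚ) : ext0 g = cons 0 g := rfl


theorem dot_cons {α : Type*} [Fintype α] (c d : ℚ) (g h : α → ℚ) :
    cons c g ⬝ᵥ cons d h = c * d + g ⬝ᵥ h := by
  simp [dotProduct, Fintype.sum_option]

/-- the part of `E` with vanishing last coordinate -/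
def low {α : Type*} (E : Submodule ℚ (Option α → ℚ)) : Submodule ℚ (α → ℚ) := E.comap ext0

theorem mem_low {α : Type*} {E : Submodule ℚ (Option α → ℚ)} {g : α → ℚ} :
    g ∈ low E ↔ cons 0 g ∈ E := Iff.rfl

theorem finrank_le_low {α : Type*} [Finite α] (E : Submodule ℚ (Option α → ℚ)) :
    finrank ℚ E ≤ finrank ℚ (low E) + 1 := by
  classical
  -- the last coordinate as a functional on `E`
  let φ : E →ₗ[ℚ] ℚ := (LinearMap.proj (R := ℚ) (φ := fun _ : Option α => ℚ) none).comp E.subtype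
  have h1 := LinearMap.finrank_range_add_finrank_ker φ
  have h2 : finrank ℚ (LinearMap.range φ) ≤ 1 := by
    have := Submodule.finrank_le (LinearMap.range φ)
    simpa using this
  have h3 : finrank ℚ (LinearMap.ker φ) ≤ finrank ℚ (low E) := by
    let ψ : LinearMap.ker φ →ₗ[ℚ] low E :=
      { toFun := fun w => ⟨fun a => (w : E).1 (some a), by
          have h0 : (w : E).1 none = 0 := w.2
          rw [mem_low, ← h0, cons_eta]
          exact (w : E).2⟩
        map_add' := fun a b => rfl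
        map_smul' := fun c a => rfl }
    refine LinearMap.finrank_le_finrank_of_injective (f := ψ) ?_
    intro a b hab
    apply Subtype.ext
    apply Subtype.ext
    funext o
    cases o with
    | none =>
      have ha : (a : E).1 none = 0 := a.2
      have hb : (b : E).1 none = 0 := b.2
      rw [ha, hb]
    | some i =>
      have := congrArg (fun (w : low E) => w.1 i) hab
      exact this
  omega


/-! ### Odlyzko -/

/-- Odlyzko's bound on `α` -/
def OD (p q : ℝ) (α : Type*) [Fintype α] [DecidableEq α] : Prop :=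
  ∀ (N : Submodule ℚ (α → ℚ)) (τ : (α → ℚ) → ℚ),
    bernoulliProb p {x : α → Bool | ∀ w ∈ N, w ⬝ᵥ sq x = τ w} ≤ q ^ finrank ℚ N

theorem finrank_map_equiv {V W : Type*} [AddCommGroup V] [Module ℚ V] [AddCommGroup W] [Module ℚ W]
    (L : V ≃ₗ[ℚ] W) (N : Submodule ℚ W) :
    finrank ℚ (N.comap L.toLinearMap) = finrank ℚ N := by
  have h1 := LinearEquiv.finrank_eq (L.submoduleMap (N.comap L.toLinearMap))
  have h2 : Submodule.map (L : V →ₗ[ℚ] W) (N.comap L.toLinearMap) = N :=
    Submodule.map_comap_eq_of_surjective L.surjective N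
  rw [h1]
  exact LinearEquiv.finrank_eq (LinearEquiv.ofEq _ _ h2)

/-- relabelling of vectors -/
def rel {α β : Type*} (e : α ≃ β) : (α → ℚ) ≃ₗ[ℚ] (β → ℚ) := LinearEquiv.funCongrLeft ℚ ℚ e.symm

theorem rel_apply {α β : Type*} (e : α ≃ β) (w : α → ℚ) (b : β) : rel e w b = w (e.symm b) := rfl

theorem rel_dot {α β : Type*} [Fintype α] [Fintype β] (e : α ≃ β) (v w : α → ℚ) :
    rel e v ⬝ᵥ rel e w = v ⬝ᵥ w :=
  Fintype.sum_equiv e.symm _ _ (fun _ => rfl)

theorem od_congr {p q : ℝ} {α β : Type*} [Fintype α] [DecidableEq α] [Fintype β] [DecidableEq β]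
    (e : α ≃ β) (h : OD p q α) : OD p q β := by
  intro N τ
  rw [prob_comp e.symm]
  have h1 := h (N.comap (rel e).toLinearMap) (fun w => τ (rel e w))
  rw [finrank_map_equiv] at h1
  refine le_trans (le_of_eq ?_) h1
  congr 1
  ext x
  have key : ∀ w : α → ℚ, (rel e w) ⬝ᵥ sq (x ∘ e.symm) = w ⬝ᵥ sq x := by
    intro w
    exact rel_dot e w (sq x)
  constructor
  · intro hx w hw
    rw [← key]
    exact hx (rel e w) hw
  · intro hx w hw
    have h4 := hx ((rel e).symm w) (by
      change rel e ((rel e).symm w) ∈ N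
      rwa [LinearEquiv.apply_symm_apply])
    rw [← key, LinearEquiv.apply_symm_apply] at h4
    exact h4

theorem low_of_top {α : Type*} {N : Submodule ℚ (Option α → ℚ)} {τ : (Option α → ℚ) → ℚ}
    [Fintype α] {c : Bool} {x : α → Bool}
    (h : ∀ w ∈ N, w ⬝ᵥ sq (fun o : Option α => o.elim c x) = τ w) :
    ∀ w ∈ low N, w ⬝ᵥ sq x = τ (cons 0 w) := by
  intro w hw
  rw [← h (cons 0 w) hw]
  simp [dotProduct, Fintype.sum_option, sq]

theorem od_option {p q : ℝ} (hp0 : 0 ≤ p) (hp1 : p ≤ 1) (hpq : p ≤ q) (hpq' : 1 - p ≤ q)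
    (hq1 : q ≤ 1)
    {α : Type*} [Fintype α] [DecidableEq α] (h : OD p q α) : OD p q (Option α) := by
  classical
  have hq0 : 0 ≤ q := hp0.trans hpq
  intro N τ
  rw [prob_eq_ex, ex_option]
  have hlow := h (low N) (fun w => τ (cons 0 w))
  rw [prob_eq_ex] at hlow
  by_cases hN : ∃ w0 ∈ N, w0 none ≠ 0
  · obtain ⟨w0, hw0, hne⟩ := hN
    -- the value of the last coin is determined
    have hdet : ∀ x : α → Bool,
        (∀ w ∈ N, w ⬝ᵥ sq (fun o : Option α => o.elim true x) = τ w) →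
        (∀ w ∈ N, w ⬝ᵥ sq (fun o : Option α => o.elim false x) = τ w) → False := by
      intro x h1 h2
      have h3 := h1 w0 hw0
      have h4 := h2 w0 hw0
      simp only [dotProduct, Fintype.sum_option, sq, Option.elim_none, Option.elim_some] at h3 h4
      have h5 : w0 none * ((sg true : ℤ) : ℚ) = w0 none * ((sg false : ℤ) : ℚ) := by linarith
      simp only [sg, if_true, Bool.false_eq_true, if_false] at h5
      push_cast at h5
      apply hne
      linarith
    have hr : finrank ℚ N ≤ finrank ℚ (low N) + 1 := finrank_le_low N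
    calc _ ≤ ex p (fun x : α → Bool => q * (if x ∈ {x : α → Bool | ∀ w ∈ low N,
            w ⬝ᵥ sq x = τ (cons 0 w)} then (1:ℝ) else 0)) := by
          refine ex_mono hp0 hp1 fun x => ?_
          simp only [Set.mem_ofPred_eq]
          by_cases h1 : ∀ w ∈ N, w ⬝ᵥ sq (fun o : Option α => o.elim true x) = τ w
          · have h2 : ¬ ∀ w ∈ N, w ⬝ᵥ sq (fun o : Option α => o.elim false x) = τ w :=
              fun h2 => hdet x h1 h2
            have h3 := low_of_top h1
            rw [if_pos h1, if_neg h2, if_pos h3]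
            linarith
          · by_cases h2 : ∀ w ∈ N, w ⬝ᵥ sq (fun o : Option α => o.elim false x) = τ w
            · have h3 := low_of_top h2
              rw [if_neg h1, if_pos h2, if_pos h3]
              linarith
            · rw [if_neg h1, if_neg h2]
              have : (0:ℝ) ≤ q * (if ∀ w ∈ low N,
                w ⬝ᵥ sq x = τ (cons 0 w) then (1:ℝ) else 0) := by
                split_ifs <;> simp [hq0]
              linarith
      _ = q * ex p (fun x : α → Bool => (if x ∈ {x : α → Bool | ∀ w ∈ low N,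
            w ⬝ᵥ sq x = τ (cons 0 w)} then (1:ℝ) else 0)) := ex_smul _ _ _
      _ ≤ q * q ^ finrank ℚ (low N) := by gcongr
      _ = q ^ (finrank ℚ (low N) + 1) := by ring
      _ ≤ q ^ finrank ℚ N := pow_le_pow_of_le_one hq0 hq1 hr
  · push Not at hN
    have hr : finrank ℚ N ≤ finrank ℚ (low N) := by
      let ψ : N →ₗ[ℚ] low N :=
        { toFun := fun w => ⟨fun a => w.1 (some a), by
            rw [mem_low, ← hN w.1 w.2, cons_eta]
            exact w.2⟩
          map_add' := fun a b => rfl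
          map_smul' := fun c a => rfl }
      refine LinearMap.finrank_le_finrank_of_injective (f := ψ) ?_
      intro a b hab
      apply Subtype.ext
      funext o
      cases o with
      | none => rw [hN a.1 a.2, hN b.1 b.2]
      | some i =>
        have := congrArg (fun (w : low N) => w.1 i) hab
        exact this
    calc _ ≤ ex p (fun x : α → Bool => (if x ∈ {x : α → Bool | ∀ w ∈ low N,
            w ⬝ᵥ sq x = τ (cons 0 w)} then (1:ℝ) else 0)) := by
          refine ex_mono hp0 hp1 fun x => ?_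
          simp only [Set.mem_ofPred_eq]
          by_cases h3 : ∀ w ∈ low N, w ⬝ᵥ sq x = τ (cons 0 w)
          · rw [if_pos h3]
            split_ifs <;> linarith
          · have h1 : ¬ ∀ w ∈ N, w ⬝ᵥ sq (fun o : Option α => o.elim true x) = τ w :=
              fun h => h3 (low_of_top h)
            have h2 : ¬ ∀ w ∈ N, w ⬝ᵥ sq (fun o : Option α => o.elim false x) = τ w :=
              fun h => h3 (low_of_top h)
            rw [if_neg h3, if_neg h1, if_neg h2]
            linarith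
      _ ≤ q ^ finrank ℚ (low N) := hlow
      _ ≤ q ^ finrank ℚ N := pow_le_pow_of_le_one hq0 hq1 hr

theorem od_empty {p q : ℝ} (hp0 : 0 ≤ p) (hp1 : p ≤ 1) {α : Type*} [Fintype α] [DecidableEq α]
    [IsEmpty α] : OD p q α := by
  intro N τ
  have : finrank ℚ N = 0 := by
    have h := Submodule.finrank_le N
    simpa using h
  rw [this, pow_zero]
  exact prob_le_one hp0 hp1 _

theorem od_fin {p q : ℝ} (hp0 : 0 ≤ p) (hp1 : p ≤ 1) (hpq : p ≤ q) (hpq' : 1 - p ≤ q)
    (hq1 : q ≤ 1) (n : ℕ) : OD p q (Fin n) := by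
  induction n with
  | zero => exact od_empty hp0 hp1
  | succ n ih => exact od_congr (finSuccEquiv n).symm (od_option hp0 hp1 hpq hpq' hq1 ih)

/-- **Odlyzko's lemma**: the mass of the sign vectors with prescribed scalar products with a
subspace `N` is at most `q^{dim N}`. -/
theorem odlyzko {p q : ℝ} (hp0 : 0 ≤ p) (hp1 : p ≤ 1) (hpq : p ≤ q) (hpq' : 1 - p ≤ q)
    (hq1 : q ≤ 1) {α : Type*} [Fintype α] [DecidableEq α] (N : Submodule ℚ (α → ℚ))
    (τ : (α → ℚ) → ℚ) :
    bernoulliProb p {x : α → Bool | ∀ w ∈ N, w ⬝ᵥ sq x = τ w} ≤ q ^ finrank ℚ N :=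
  od_congr (Fintype.equivFin α).symm (od_fin hp0 hp1 hpq hpq' hq1 _) N τ

/-! ### the radical on a fixed subspace -/

theorem glue_bil {α : Type*} [Fintype α] (b : Sym2 α → Bool) (x : α → Bool) (d : Bool) (c c' : ℚ)
    (g h : α → ℚ) :
    cons c g ⬝ᵥ (mq (glue b x d)) *ᵥ (cons c' h) =
      c * c' * (sg d : ℚ) + c * (h ⬝ᵥ sq x) + c' * (g ⬝ᵥ sq x) + g ⬝ᵥ mq b *ᵥ h := by
  have h1 : (mq (glue b x d)) *ᵥ (cons c' h) =
      cons (c' * (sg d : ℚ) + h ⬝ᵥ sq x) (c' • sq x + mq b *ᵥ h) := by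
    funext o
    cases o with
    | none =>
      simp only [mulVec, dotProduct, Fintype.sum_option, cons_none, cons_some, mq_apply,
        glue_none_none, glue_none_some, sq]
      rw [mul_comm]
      congr 1
      exact Finset.sum_congr rfl fun i _ => by ring
    | some a =>
      simp only [mulVec, dotProduct, Fintype.sum_option, cons_none, cons_some, mq_apply,
        glue_some_none, glue_some, sq, Pi.add_apply, Pi.smul_apply, smul_eq_mul]
      ring
  rw [h1, dot_cons, dotProduct_add, dotProduct_smul, smul_eq_mul]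
  ring

theorem mq_bil_symm {α : Type*} [Fintype α] (b : Sym2 α → Bool) (g h : α → ℚ) :
    g ⬝ᵥ mq b *ᵥ h = h ⬝ᵥ mq b *ᵥ g := by
  have h1 : (mq b)ᵀ = mq b := by
    ext i j
    exact mq_symm b j i
  rw [dotProduct_mulVec, dotProduct_comm, ← mulVec_transpose, h1]

/-- bound on `α` -/
def FV (p q : ℝ) (α : Type*) [Fintype α] [DecidableEq α] : Prop :=
  ∀ (E : Submodule ℚ (α → ℚ)) (s : ℕ),
    bernoulliProb p {b : Sym2 α → Bool | s ≤ finrank ℚ (Rad (mq b) E)} ≤
      2 ^ Fintype.card α * q ^ s.choose 2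

theorem low_Rad_le {α : Type*} [Fintype α] (E : Submodule ℚ (Option α → ℚ)) (b : Sym2 α → Bool)
    (x : α → Bool) (d : Bool) : low (Rad (mq (glue b x d)) E) ≤ Rad (mq b) (low E) := by
  intro w hw
  rw [mem_low, mem_Rad] at hw
  refine ⟨hw.1, fun u hu => ?_⟩
  have h1 := hw.2 (cons 0 u) hu
  rw [glue_bil] at h1
  simpa using h1

theorem step_claim {α : Type*} [Fintype α] (E : Submodule ℚ (Option α → ℚ)) {g : α → ℚ}
    (hf : cons 1 g ∈ E) (b : Sym2 α → Bool) (x : α → Bool) (d : Bool) {t : ℕ}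
    (h : t + 1 ≤ finrank ℚ (Rad (mq (glue b x d)) E)) :
    t + 2 ≤ finrank ℚ (Rad (mq b) (low E)) ∨ (t ≤ finrank ℚ (Rad (mq b) (low E)) ∧
      ∀ u ∈ Rad (mq b) (low E), u ⬝ᵥ sq x = - (u ⬝ᵥ mq b *ᵥ g)) := by
  have h1 := finrank_le_low (Rad (mq (glue b x d)) E)
  have h2 := Submodule.finrank_mono (low_Rad_le E b x d)
  by_cases hx : ∀ u ∈ Rad (mq b) (low E), u ⬝ᵥ sq x = - (u ⬝ᵥ mq b *ᵥ g)
  · right
    exact ⟨by omega, hx⟩
  · left
    push Not at hx
    obtain ⟨u0, hu0, hne⟩ := hx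
    -- all radical vectors have last coordinate zero
    have hz : ∀ w ∈ Rad (mq (glue b x d)) E, w none = 0 := by
      intro w hw
      rw [mem_Rad] at hw
      set c := w none with hc
      set w' : α → ℚ := fun a => w (some a) - c * g a with hw'
      have e1 : w = cons c (w' + c • g) := by
        funext o
        cases o with
        | none => rfl
        | some a => simp [hw']
      have hw'E : w' ∈ low E := by
        rw [mem_low]
        have : cons 0 w' = w - c • cons 1 g := by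
          funext o
          cases o with
          | none => simp [hc]
          | some a => simp [hw']
        rw [this]
        exact E.sub_mem hw.1 (E.smul_mem c hf)
      have h3 := hw.2 (cons 0 u0) hu0.1
      rw [e1, glue_bil, mulVec_add, mulVec_smul, dotProduct_add, dotProduct_smul, smul_eq_mul,
        mq_bil_symm b u0 w', hu0.2 w' hw'E] at h3
      have h4 : c * (u0 ⬝ᵥ sq x + u0 ⬝ᵥ mq b *ᵥ g) = 0 := by linarith
      rcases mul_eq_zero.1 h4 with h5 | h5
      · exact h5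
      · exact absurd (by linarith) hne
    -- so the radical embeds into a proper subspace of `N'`
    have h3 : finrank ℚ (Rad (mq (glue b x d)) E) ≤ finrank ℚ (low (Rad (mq (glue b x d)) E)) := by
      let ψ : Rad (mq (glue b x d)) E →ₗ[ℚ] low (Rad (mq (glue b x d)) E) :=
        { toFun := fun w => ⟨fun a => w.1 (some a), by
            rw [mem_low, ← hz w.1 w.2, cons_eta]
            exact w.2⟩
          map_add' := fun a b => rfl
          map_smul' := fun c a => rfl }
      refine LinearMap.finrank_le_finrank_of_injective (f := ψ) ?_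
      intro a b' hab
      apply Subtype.ext
      funext o
      cases o with
      | none => rw [hz a.1 a.2, hz b'.1 b'.2]
      | some i =>
        have := congrArg (fun (w : low (Rad (mq (glue b x d)) E)) => w.1 i) hab
        exact this
    have h4 : low (Rad (mq (glue b x d)) E) < Rad (mq b) (low E) := by
      refine lt_of_le_of_ne (low_Rad_le E b x d) ?_
      intro he
      apply hne
      rw [← he, mem_low, mem_Rad] at hu0
      have h5 := hu0.2 (cons 1 g) hf
      rw [glue_bil, mq_bil_symm b g u0] at h5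
      linarith
    have h5 := Submodule.finrank_lt_finrank_of_lt h4
    omega

theorem rad_congr {α β : Type*} [Fintype α] [Fintype β] (e : α ≃ β)
    (E : Submodule ℚ (β → ℚ)) (b : Sym2 α → Bool) :
    finrank ℚ (Rad (mq (b ∘ (symEquiv e.symm))) E) =
      finrank ℚ (Rad (mq b) (E.comap (rel e).toLinearMap)) := by
  rw [← finrank_map_equiv (rel e) (Rad (mq (b ∘ (symEquiv e.symm))) E)]
  have hbil : ∀ u w : α → ℚ, rel e u ⬝ᵥ mq (b ∘ (symEquiv e.symm)) *ᵥ rel e w = u ⬝ᵥ mq b *ᵥ w := by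
    intro u w
    have h1 : mq (b ∘ (symEquiv e.symm)) *ᵥ rel e w = rel e (mq b *ᵥ w) := by
      funext i
      simp only [mulVec, dotProduct, rel_apply]
      exact Fintype.sum_equiv e.symm _ _ (fun j => rfl)
    rw [h1, rel_dot]
  refine LinearEquiv.finrank_eq (LinearEquiv.ofEq _ _ ?_)
  ext w
  simp only [Submodule.mem_comap, mem_Rad]
  refine and_congr Iff.rfl ?_
  constructor
  · intro h u hu
    rw [← hbil]
    exact h (rel e u) hu
  · intro h u hu
    have h2 := h ((rel e).symm u) (by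
      change rel e ((rel e).symm u) ∈ E
      rwa [LinearEquiv.apply_symm_apply])
    rw [← hbil, LinearEquiv.apply_symm_apply] at h2
    exact h2

theorem fv_congr {p q : ℝ} {α β : Type*} [Fintype α] [DecidableEq α] [Fintype β] [DecidableEq β]
    (e : α ≃ β) (h : FV p q α) : FV p q β := by
  intro E s
  rw [prob_comp (symEquiv e.symm), ← Fintype.card_congr e]
  refine le_trans (le_of_eq ?_) (h (E.comap (rel e).toLinearMap) s)
  congr 1
  ext b
  simp only [Set.mem_ofPred_eq]
  rw [rad_congr e E b]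

open Classical in
/-- indicator -/
noncomputable def ind (P : Prop) : ℝ := if P then 1 else 0

theorem ind_of {P : Prop} (h : P) : ind P = 1 := by unfold ind; rw [if_pos h]
theorem ind_not {P : Prop} (h : ¬ P) : ind P = 0 := by unfold ind; rw [if_neg h]
theorem ind_nonneg (P : Prop) : 0 ≤ ind P := by unfold ind; split_ifs <;> norm_num
theorem ind_le_one (P : Prop) : ind P ≤ 1 := by unfold ind; split_ifs <;> norm_num
theorem ind_mono {P Q : Prop} (h : P → Q) : ind P ≤ ind Q := by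
  by_cases hP : P
  · rw [ind_of hP, ind_of (h hP)]
  · rw [ind_not hP]
    exact ind_nonneg _

theorem prob_ind {ι : Type*} [Fintype ι] [DecidableEq ι] (p : ℝ) (P : (ι → Bool) → Prop) :
    bernoulliProb p {ω | P ω} = ex p (fun ω => ind (P ω)) := by
  classical
  rw [prob_eq_ex]
  refine ex_congr p fun ω => ?_
  by_cases h : P ω
  · rw [ind_of h]
    exact if_pos h
  · rw [ind_not h]
    exact if_neg h

theorem fv_option {p q : ℝ} (hp0 : 0 ≤ p) (hp1 : p ≤ 1) (hpq : p ≤ q) (hpq' : 1 - p ≤ q)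
    (hq1 : q ≤ 1) {α : Type*} [Fintype α] [DecidableEq α] (h : FV p q α) :
    FV p q (Option α) := by
  have hq0 : 0 ≤ q := hp0.trans hpq
  intro E s
  rcases Nat.eq_zero_or_pos s with hs | hs
  · subst hs
    refine (prob_le_one hp0 hp1 _).trans ?_
    simp only [Nat.choose_zero_succ, pow_zero, mul_one]
    exact one_le_pow₀ (by norm_num)
  obtain ⟨t, rfl⟩ : ∃ t, s = t + 1 := ⟨s - 1, by omega⟩
  rw [prob_ind, ex_glue]
  by_cases hE : ∃ f ∈ E, f none ≠ 0
  · obtain ⟨f, hf, hne⟩ := hE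
    set g : α → ℚ := fun a => (f none)⁻¹ * f (some a) with hg
    have hgE : cons 1 g ∈ E := by
      have : cons 1 g = (f none)⁻¹ • f := by
        funext o
        cases o with
        | none => simp [hne]
        | some a => simp [hg]
      rw [this]
      exact E.smul_mem _ hf
    set N : (Sym2 α → Bool) → Submodule ℚ (α → ℚ) := fun b => Rad (mq b) (low E) with hN
    have hA := h (low E) (t + 2)
    have hB := h (low E) t
    rw [prob_ind] at hA hB
    have key : ∀ b : Sym2 α → Bool,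
        ex p (fun x : α → Bool => p * ind (t + 1 ≤ finrank ℚ (Rad (mq (glue b x true)) E)) +
          (1 - p) * ind (t + 1 ≤ finrank ℚ (Rad (mq (glue b x false)) E))) ≤
        ind (t + 2 ≤ finrank ℚ (N b)) + q ^ t * ind (t ≤ finrank ℚ (N b)) := by
      intro b
      have hod := odlyzko hp0 hp1 hpq hpq' hq1 (N b) (fun u => - (u ⬝ᵥ mq b *ᵥ g))
      rw [prob_ind] at hod
      calc _ ≤ ex p (fun x : α → Bool => ind (t + 2 ≤ finrank ℚ (N b)) +
            ind (t ≤ finrank ℚ (N b)) *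
              ind (∀ u ∈ N b, u ⬝ᵥ sq x = - (u ⬝ᵥ mq b *ᵥ g))) := by
            refine ex_mono hp0 hp1 fun x => ?_
            have hd : ∀ d : Bool, ind (t + 1 ≤ finrank ℚ (Rad (mq (glue b x d)) E)) ≤
                ind (t + 2 ≤ finrank ℚ (N b)) + ind (t ≤ finrank ℚ (N b)) *
                  ind (∀ u ∈ N b, u ⬝ᵥ sq x = - (u ⬝ᵥ mq b *ᵥ g)) := by
              intro d
              by_cases h1 : t + 1 ≤ finrank ℚ (Rad (mq (glue b x d)) E)
              · rw [ind_of h1]
                rcases step_claim E hgE b x d h1 with h2 | ⟨h2, h3⟩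
                · rw [ind_of (P := t + 2 ≤ finrank ℚ (N b)) h2]
                  have := mul_nonneg (ind_nonneg (t ≤ finrank ℚ (N b)))
                    (ind_nonneg (∀ u ∈ N b, u ⬝ᵥ sq x = - (u ⬝ᵥ mq b *ᵥ g)))
                  linarith
                · rw [ind_of (P := t ≤ finrank ℚ (N b)) h2, ind_of (P := ∀ u ∈ N b,
                    u ⬝ᵥ sq x = - (u ⬝ᵥ mq b *ᵥ g)) h3]
                  have := ind_nonneg (t + 2 ≤ finrank ℚ (N b))
                  linarith
              · rw [ind_not h1]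
                have := mul_nonneg (ind_nonneg (t ≤ finrank ℚ (N b)))
                    (ind_nonneg (∀ u ∈ N b, u ⬝ᵥ sq x = - (u ⬝ᵥ mq b *ᵥ g)))
                have := ind_nonneg (t + 2 ≤ finrank ℚ (N b))
                linarith
            have h1 := hd true
            have h2 := hd false
            nlinarith
        _ = ind (t + 2 ≤ finrank ℚ (N b)) + ind (t ≤ finrank ℚ (N b)) *
              ex p (fun x : α → Bool => ind (∀ u ∈ N b, u ⬝ᵥ sq x = - (u ⬝ᵥ mq b *ᵥ g))) := by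
            rw [ex_add, ex_const, ex_smul]
        _ ≤ ind (t + 2 ≤ finrank ℚ (N b)) + q ^ t * ind (t ≤ finrank ℚ (N b)) := by
            by_cases h1 : t ≤ finrank ℚ (N b)
            · rw [ind_of h1]
              have h2 : q ^ finrank ℚ (N b) ≤ q ^ t := pow_le_pow_of_le_one hq0 hq1 h1
              linarith
            · rw [ind_not h1]
              simp
    calc _ ≤ ex p (fun b : Sym2 α → Bool => ind (t + 2 ≤ finrank ℚ (N b)) +
          q ^ t * ind (t ≤ finrank ℚ (N b))) := ex_mono hp0 hp1 key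
      _ = ex p (fun b : Sym2 α → Bool => ind (t + 2 ≤ finrank ℚ (N b))) +
          q ^ t * ex p (fun b : Sym2 α → Bool => ind (t ≤ finrank ℚ (N b))) := by
          rw [ex_add, ex_smul]
      _ ≤ 2 ^ Fintype.card α * q ^ (t + 2).choose 2 +
          q ^ t * (2 ^ Fintype.card α * q ^ t.choose 2) :=
          add_le_add hA (mul_le_mul_of_nonneg_left hB (pow_nonneg hq0 _))
      _ ≤ 2 ^ Fintype.card (Option α) * q ^ (t + 1).choose 2 := by
          have e1 : (t + 2).choose 2 = (t + 1) + (t + 1).choose 2 := by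
            rw [Nat.choose_succ_succ' (t + 1) 1, Nat.choose_one_right]
          have e2 : (t + 1).choose 2 = t + t.choose 2 := by
            rw [Nat.choose_succ_succ' t 1, Nat.choose_one_right]
          have e3 : q ^ (t + 2).choose 2 ≤ q ^ (t + 1).choose 2 :=
            pow_le_pow_of_le_one hq0 hq1 (by omega)
          have e4 : q ^ t * (2 ^ Fintype.card α * q ^ t.choose 2) =
              2 ^ Fintype.card α * q ^ (t + 1).choose 2 := by
            rw [e2, pow_add]
            ring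
          rw [e4, Fintype.card_option, pow_succ]
          have : (0:ℝ) < 2 ^ Fintype.card α := by positivity
          nlinarith
  · push Not at hE
    have hz : ∀ (b : Sym2 α → Bool) (x : α → Bool) (d : Bool),
        finrank ℚ (Rad (mq (glue b x d)) E) ≤ finrank ℚ (Rad (mq b) (low E)) := by
      intro b x d
      refine le_trans ?_ (Submodule.finrank_mono (low_Rad_le E b x d))
      let ψ : Rad (mq (glue b x d)) E →ₗ[ℚ] low (Rad (mq (glue b x d)) E) :=
        { toFun := fun w => ⟨fun a => w.1 (some a), by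
            rw [mem_low, ← hE w.1 w.2.1, cons_eta]
            exact w.2⟩
          map_add' := fun a b => rfl
          map_smul' := fun c a => rfl }
      refine LinearMap.finrank_le_finrank_of_injective (f := ψ) ?_
      intro a b' hab
      apply Subtype.ext
      funext o
      cases o with
      | none => rw [hE a.1 a.2.1, hE b'.1 b'.2.1]
      | some i =>
        have := congrArg (fun (w : low (Rad (mq (glue b x d)) E)) => w.1 i) hab
        exact this
    have hA := h (low E) (t + 1)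
    rw [prob_ind] at hA
    calc _ ≤ ex p (fun b : Sym2 α → Bool => ind (t + 1 ≤ finrank ℚ (Rad (mq b) (low E)))) := by
          refine ex_mono hp0 hp1 fun b => ?_
          rw [← ex_const (ι := α) p (ind (t + 1 ≤ finrank ℚ (Rad (mq b) (low E))))]
          refine ex_mono hp0 hp1 fun x => ?_
          have hd : ∀ d : Bool, ind (t + 1 ≤ finrank ℚ (Rad (mq (glue b x d)) E)) ≤
              ind (t + 1 ≤ finrank ℚ (Rad (mq b) (low E))) := by
            intro d
            exact ind_mono fun h1 => h1.trans (hz b x d)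
          have h1 := hd true
          have h2 := hd false
          nlinarith
      _ ≤ 2 ^ Fintype.card α * q ^ (t + 1).choose 2 := hA
      _ ≤ 2 ^ Fintype.card (Option α) * q ^ (t + 1).choose 2 := by
          rw [Fintype.card_option, pow_succ]
          have : (0:ℝ) ≤ 2 ^ Fintype.card α * q ^ (t + 1).choose 2 := by positivity
          linarith

theorem fv_empty {p q : ℝ} (hp0 : 0 ≤ p) (hp1 : p ≤ 1) (hq0 : 0 ≤ q) {α : Type*} [Fintype α]
    [DecidableEq α] [IsEmpty α] : FV p q α := by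
  intro E s
  rcases Nat.eq_zero_or_pos s with hs | hs
  · subst hs
    refine (prob_le_one hp0 hp1 _).trans ?_
    simp
  · have h0 : {b : Sym2 α → Bool | s ≤ finrank ℚ (Rad (mq b) E)} = ∅ := by
      ext b
      simp only [Set.mem_ofPred_eq, Set.mem_empty_iff_false, iff_false, not_le]
      have h := Submodule.finrank_le (Rad (mq b) E)
      have h' : finrank ℚ (α → ℚ) = 0 := by simp
      omega
    rw [h0, prob_empty]
    positivity

theorem fv_fin {p q : ℝ} (hp0 : 0 ≤ p) (hp1 : p ≤ 1) (hpq : p ≤ q) (hpq' : 1 - p ≤ q)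
    (hq1 : q ≤ 1) (n : ℕ) : FV p q (Fin n) := by
  induction n with
  | zero => exact fv_empty hp0 hp1 (hp0.trans hpq)
  | succ n ih => exact fv_congr (finSuccEquiv n).symm (fv_option hp0 hp1 hpq hpq' hq1 ih)

/-- **Fixed subspace bound**: the radical of the random symmetric sign matrix on a fixed subspace
has dimension at least `s` with probability at most `2^|α| q^{s(s-1)/2}`. -/
theorem fixV {p q : ℝ} (hp0 : 0 ≤ p) (hp1 : p ≤ 1) (hpq : p ≤ q) (hpq' : 1 - p ≤ q)
    (hq1 : q ≤ 1) {α : Type*} [Fintype α] [DecidableEq α] (E : Submodule ℚ (α → ℚ)) (s : ℕ) :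
    bernoulliProb p {b : Sym2 α → Bool | s ≤ finrank ℚ (Rad (mq b) E)} ≤
      2 ^ Fintype.card α * q ^ s.choose 2 :=
  fv_congr (Fintype.equivFin α).symm (fv_fin hp0 hp1 hpq hpq' hq1 _) E s

end Crest.Agent.R152.FixV
end

-- ▼ part R152/Crk
section

set_option autoImplicit false
set_option linter.unusedSectionVars false

/-!
# Row 152, module TOP: reduction from corank `≥ 2` to corank one
-/

open Crest.FinProb Crest.ProbabilityR.SignMatrix

namespace Crest.Agent.R152.Crk

open Base FixV Matrix Module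

/-- singular, with a nonsingular principal minor of size one less -/
def CorankOne {n : ℕ} (M : Matrix (Fin (n + 1)) (Fin (n + 1)) ℤ) : Prop :=
  M.det = 0 ∧ ∃ i, (Asm.del M i).det ≠ 0

/-- the probability of `CorankOne` -/
noncomputable def c1 (n : ℕ) (p : ℝ) : ℝ :=
  bernoulliProb p {w : Sym2 (Fin (n + 1)) → Bool | CorankOne (symMat w)}

/-! ### Deterministic part -/

/-- a principal submatrix on independent spanning rows is nonsingular -/
theorem principal {n m : ℕ} (A : Matrix (Fin n) (Fin n) ℚ) (hA : Aᵀ = A) (g : Fin m → Fin n)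
    (hli : LinearIndependent ℚ (fun i => A (g i)))
    (hsp : ∀ i, A i ∈ Submodule.span ℚ (Set.range (fun i => A (g i)))) :
    (A.submatrix g g).det ≠ 0 := by
  intro hdet
  obtain ⟨v, hv0, hv⟩ := Matrix.exists_mulVec_eq_zero_iff.2 hdet
  have hs : ∀ i j, A i j = A j i := fun i j => by
    have := congrFun (congrFun hA j) i
    rwa [transpose_apply] at this
  -- the functional
  let φ : (Fin n → ℚ) →ₗ[ℚ] ℚ := ∑ j, v j • LinearMap.proj (R := ℚ) (φ := fun _ : Fin n => ℚ) (g j)
  have hφ : ∀ r, φ r = ∑ j, v j * r (g j) := fun r => by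
    simp [φ]
  have h1 : ∀ i, φ (A (g i)) = 0 := fun i => by
    have := congrFun hv i
    rw [hφ]
    simp only [mulVec, dotProduct, submatrix_apply, Pi.zero_apply] at this
    rw [← this]
    exact Finset.sum_congr rfl fun j _ => mul_comm _ _
  have h2 : ∀ i, φ (A i) = 0 := fun i => by
    have h3 : Submodule.span ℚ (Set.range (fun i => A (g i))) ≤ LinearMap.ker φ := by
      rw [Submodule.span_le]
      rintro _ ⟨a, rfl⟩
      exact h1 a
    exact h3 (hsp i)
  have h4 : ∑ j, v j • A (g j) = 0 := by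
    funext i
    rw [Finset.sum_apply, Pi.zero_apply, ← h2 i, hφ]
    exact Finset.sum_congr rfl fun j _ => by rw [Pi.smul_apply, smul_eq_mul, hs]
  apply hv0
  funext j
  exact Fintype.linearIndependent_iff.1 hli v h4 j

theorem det_mq {n : ℕ} (w : Sym2 (Fin n) → Bool) {m : ℕ} (f : Fin m → Fin n) :
    ((mq w).submatrix f f).det = (((symMat w).submatrix f f).det : ℚ) := by
  have h := (Int.castRingHom ℚ).map_det ((symMat w).submatrix f f)
  rw [eq_intCast] at h
  rw [h]
  rfl

theorem mq_transpose {α : Type*} (b : Sym2 α → Bool) : (mq b)ᵀ = mq b := by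
  ext i j
  exact mq_symm b j i

/-- The deterministic selection of a corank one principal submatrix. -/
theorem select {n : ℕ} (w : Sym2 (Fin n) → Bool) {m : ℕ} (hm : m < n)
    (hr : (mq w).rank = m) :
    ∃ J ∈ Finset.powersetCard (m + 1) (Finset.univ : Finset (Fin n)),
      ∀ f : Fin (m + 1) → Fin n, Function.Injective f → Set.range f = (J : Set (Fin n)) →
        CorankOne ((symMat w).submatrix f f) := by
  classical
  obtain ⟨κ, a, hinj, hspan, hli⟩ := exists_linearIndependent' ℚ (fun i => mq w i)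
  have : Finite κ := Finite.of_injective a hinj
  let _ : Fintype κ := Fintype.ofFinite κ
  have hcard : Fintype.card κ = m := by
    rw [← hr, Matrix.rank_eq_finrank_span_row]
    have h1 := finrank_span_eq_card hli
    rw [← h1]
    have h2 : Submodule.span ℚ (Set.range ((fun i => mq w i) ∘ a)) =
        Submodule.span ℚ (Set.range (mq w).row) := hspan
    rw [h2]
  let e : Fin m ≃ κ := (Fintype.equivFinOfCardEq hcard).symm
  let g : Fin m → Fin n := a ∘ e
  have hg : Function.Injective g := hinj.comp e.injective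
  obtain ⟨j0, hj0⟩ : ∃ j0, j0 ∉ Set.range g := by
    by_contra hcon
    push Not at hcon
    have : Function.Surjective g := fun x => hcon x
    have h3 := Fintype.card_le_of_surjective g this
    simp at h3
    omega
  let J : Finset (Fin n) := insert j0 (Finset.univ.image g)
  have hJ : J.card = m + 1 := by
    rw [Finset.card_insert_of_notMem, Finset.card_image_of_injective _ hg]
    · simp
    · intro h
      rw [Finset.mem_image] at h
      obtain ⟨x, _, hx⟩ := h
      exact hj0 ⟨x, hx⟩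
  refine ⟨J, Finset.mem_powersetCard.2 ⟨Finset.subset_univ _, hJ⟩, ?_⟩
  intro f hf hfr
  have hA := mq_transpose w
  -- any injection with the range of `g` gives a nonsingular minor
  have hmin : ∀ g' : Fin m → Fin n, Function.Injective g' → Set.range g' = Set.range g →
      ((mq w).submatrix g' g').det ≠ 0 := by
    intro g' hg' hr'
    have hσ : ∃ σ : Fin m ≃ Fin m, g' = g ∘ σ := by
      have h4 : ∀ x, ∃ y, g y = g' x := fun x => by
        have : g' x ∈ Set.range g := hr' ▸ Set.mem_range_self x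
        exact this
      choose σ hσ using h4
      have hσi : Function.Injective σ := fun x y hxy => by
        apply hg'
        rw [← hσ x, ← hσ y, hxy]
      refine ⟨Equiv.ofBijective σ (Finite.injective_iff_bijective.1 hσi), ?_⟩
      funext x
      exact (hσ x).symm
    obtain ⟨σ, hσ⟩ := hσ
    subst hσ
    refine principal (mq w) hA (g ∘ σ) ?_ ?_
    · have : (fun i => mq w ((g ∘ σ) i)) = ((fun i => mq w i) ∘ a) ∘ (fun x => e (σ x)) := rfl
      rw [this]
      exact hli.comp _ (e.injective.comp σ.injective)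
    · intro i
      have h5 : Set.range (fun i => mq w ((g ∘ σ) i)) = Set.range ((fun i => mq w i) ∘ a) := by
        have : (fun i => mq w ((g ∘ σ) i)) = ((fun i => mq w i) ∘ a) ∘ (σ.trans e) := rfl
        rw [this]
        exact (σ.trans e).surjective.range_comp _
      rw [h5, hspan]
      exact Submodule.subset_span ⟨i, rfl⟩
  constructor
  · -- the determinant vanishes
    have h6 : ((mq w).submatrix f f).det = 0 := by
      by_contra hne
      have h7 : ((mq w).submatrix f f).rank = m + 1 := by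
        rw [Matrix.rank_of_isUnit _ ((Matrix.isUnit_iff_isUnit_det _).2 (isUnit_iff_ne_zero.2 hne))]
        simp
      have h8 : ((mq w).submatrix f f).rank ≤ (mq w).rank := by
        exact Matrix.rank_submatrix_le _ _ _
      omega
    rw [det_mq] at h6
    exact_mod_cast h6
  · have hj : j0 ∈ Set.range f := by
      rw [hfr]
      exact Finset.mem_coe.2 (Finset.mem_insert_self _ _)
    obtain ⟨i, hi⟩ := hj
    refine ⟨i, ?_⟩
    have h9 := hmin (f ∘ i.succAbove) (hf.comp Fin.succAbove_right_injective) ?_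
    · rw [det_mq] at h9
      intro h10
      apply h9
      have h11 : Asm.del ((symMat w).submatrix f f) i =
          (symMat w).submatrix (f ∘ i.succAbove) (f ∘ i.succAbove) := rfl
      rw [h11] at h10
      rw [h10]
      simp
    · ext x
      constructor
      · rintro ⟨y, rfl⟩
        have h12 : f (i.succAbove y) ∈ (J : Set (Fin n)) := hfr ▸ Set.mem_range_self _
        rw [Finset.mem_coe, Finset.mem_insert] at h12
        rcases h12 with h12 | h12
        · exfalso
          rw [← hi] at h12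
          exact Fin.succAbove_ne i y (hf h12)
        · rw [Finset.mem_image] at h12
          obtain ⟨z, _, hz⟩ := h12
          exact ⟨z, hz⟩
      · rintro ⟨y, rfl⟩
        have h13 : g y ∈ Set.range f := by
          rw [hfr, Finset.mem_coe, Finset.mem_insert]
          exact Or.inr (Finset.mem_image.2 ⟨y, Finset.mem_univ _, rfl⟩)
        obtain ⟨z, hz⟩ := h13
        have hzi : z ≠ i := by
          rintro rfl
          apply hj0
          rw [← hi, hz]
          exact ⟨y, rfl⟩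
        obtain ⟨u, hu⟩ := Fin.exists_succAbove_eq hzi
        exact ⟨u, by rw [Function.comp_apply, hu, hz]⟩

/-! ### Probability -/

theorem ker_le_Rad {n : ℕ} (A : Matrix (Fin n) (Fin n) ℚ) :
    LinearMap.ker A.mulVecLin ≤ Rad A ⊤ := by
  intro w hw
  rw [LinearMap.mem_ker, mulVecLin_apply] at hw
  refine ⟨Submodule.mem_top, fun u _ => ?_⟩
  rw [hw, dotProduct_zero]

theorem rank_add_ker {n : ℕ} (A : Matrix (Fin n) (Fin n) ℚ) :
    A.rank + finrank ℚ (LinearMap.ker A.mulVecLin) = n := by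
  have := LinearMap.finrank_range_add_finrank_ker A.mulVecLin
  simpa [Matrix.rank] using this

theorem prob_sub {p : ℝ} (hp0 : 0 ≤ p) (hp1 : p ≤ 1) {n m : ℕ} (J : Finset (Fin n))
    (hJ : J.card = m + 1) :
    bernoulliProb p {w : Sym2 (Fin n) → Bool | ∀ f : Fin (m + 1) → Fin n, Function.Injective f →
      Set.range f = (J : Set (Fin n)) → CorankOne ((symMat w).submatrix f f)} ≤ c1 m p := by
  classical
  let f := J.orderEmbOfFin hJ
  have hf : Function.Injective f := f.injective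
  have hfr : Set.range f = (J : Set (Fin n)) := by
    simp [f]
  have hmap : Function.Injective (Sym2.map f) := Sym2.map.injective hf
  unfold c1
  rw [← Top.prob_inj hmap]
  refine prob_mono hp0 hp1 ?_
  intro w hw
  have h1 := hw f hf hfr
  show CorankOne (symMat (w ∘ Sym2.map f))
  have h2 : symMat (w ∘ Sym2.map f) = (symMat w).submatrix f f := by
    ext i j
    simp [symMat]
  rw [h2]
  exact h1

/-- **Reduction to corank one**, finite form. -/
theorem corank_sum {p q : ℝ} (hp0 : 0 ≤ p) (hp1 : p ≤ 1) (hpq : p ≤ q) (hpq' : 1 - p ≤ q)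
    (hq1 : q ≤ 1) (n s : ℕ) :
    singularProb n p ≤ (∑ m ∈ (Finset.range n).filter (fun m => n ≤ m + s),
      (n.choose (m + 1) : ℝ) * c1 m p) + 2 ^ n * q ^ (s + 1).choose 2 := by
  classical
  rw [singularProb_eq]
  let E : ℕ → Finset (Fin n) → Set (Sym2 (Fin n) → Bool) := fun m J =>
    {w | ∀ f : Fin (m + 1) → Fin n, Function.Injective f →
      Set.range f = (J : Set (Fin n)) → CorankOne ((symMat w).submatrix f f)}
  have hsub : {b : Sym2 (Fin n) → Bool | (symMat b).det = 0} ⊆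
      (⋃ m ∈ (Finset.range n).filter (fun m => n ≤ m + s),
        ⋃ J ∈ Finset.powersetCard (m + 1) (Finset.univ : Finset (Fin n)), E m J) ∪
      {b : Sym2 (Fin n) → Bool | s + 1 ≤ finrank ℚ (Rad (mq b) ⊤)} := by
    intro b hb
    have hb0 : (symMat b).det = 0 := hb
    have hmq : (mq b).det = 0 := by
      have h := det_mq b (id : Fin n → Fin n)
      rw [submatrix_id_id, submatrix_id_id, hb0] at h
      simpa using h
    have hker : 0 < finrank ℚ (LinearMap.ker (mq b).mulVecLin) := by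
      obtain ⟨v, hv0, hv⟩ := Matrix.exists_mulVec_eq_zero_iff.2 hmq
      rw [Module.finrank_pos_iff_exists_ne_zero]
      exact ⟨⟨v, by rw [LinearMap.mem_ker, mulVecLin_apply, hv]⟩, fun h => hv0 (by
        simpa using congrArg Subtype.val h)⟩
    have hrk := rank_add_ker (mq b)
    set m := (mq b).rank with hm
    by_cases hs : n ≤ m + s
    · left
      obtain ⟨J, hJ, hJ'⟩ := select b (m := m) (by omega) rfl
      simp only [Set.mem_iUnion, Finset.mem_filter, Finset.mem_range]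
      exact ⟨m, ⟨by omega, hs⟩, J, hJ, hJ'⟩
    · right
      have h1 := Submodule.finrank_mono (ker_le_Rad (mq b))
      show s + 1 ≤ finrank ℚ (Rad (mq b) ⊤)
      omega
  refine (prob_mono hp0 hp1 hsub).trans ?_
  refine (prob_union_le hp0 hp1 _ _).trans ?_
  refine add_le_add ?_ ?_
  · refine (prob_biUnion_le hp0 hp1 _ _).trans ?_
    refine Finset.sum_le_sum fun m _ => ?_
    refine (prob_biUnion_le hp0 hp1 _ _).trans ?_
    have h2 : ∀ J ∈ Finset.powersetCard (m + 1) (Finset.univ : Finset (Fin n)),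
        bernoulliProb p (E m J) ≤ c1 m p := fun J hJ =>
      prob_sub hp0 hp1 J (Finset.mem_powersetCard.1 hJ).2
    refine (Finset.sum_le_sum h2).trans ?_
    rw [Finset.sum_const, Finset.card_powersetCard, Finset.card_univ, Fintype.card_fin,
      nsmul_eq_mul]
  · have h3 := fixV hp0 hp1 hpq hpq' hq1 (⊤ : Submodule ℚ (Fin n → ℚ)) (s + 1)
    simpa using h3

end Crest.Agent.R152.Crk
end

-- ▼ part R152/Crk2
section

set_option autoImplicit false

/-!
# Row 152, module TOP: reduction to corank one, asymptotic form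
-/

open Crest.FinProb Crest.ProbabilityR.SignMatrix Filter Topology

namespace Crest.Agent.R152.Crk

open Base

theorem tendsto_sqrt_succ : Tendsto (fun n : ℕ => Nat.sqrt n + 1) atTop atTop := by
  rw [tendsto_atTop]
  intro b
  filter_upwards [eventually_ge_atTop (b * b)] with n hn
  have := Nat.le_sqrt.2 hn
  omega

/-- polynomial factors `(2n)^{K(√n+1)}` are subexponential -/
theorem subexp (K : ℕ) {ρ : ℝ} (hρ : 1 < ρ) :
    ∀ᶠ n : ℕ in atTop, 2 * (n : ℝ) * (2 * (n : ℝ)) ^ (K * (Nat.sqrt n + 1)) ≤ ρ ^ n := by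
  set σ : ℝ := Real.sqrt ρ with hσ
  have hσ1 : 1 < σ := by
    rw [hσ, Real.lt_sqrt (by norm_num)]
    simpa using hρ
  have hσ2 : σ ^ 2 = ρ := Real.sq_sqrt (by linarith)
  have h1 := tendsto_pow_const_div_const_pow_of_one_lt (2 * (K + 1)) hσ1
  have h2 : ∀ᶠ t : ℕ in atTop, (2 * (t : ℝ) ^ 2) ^ (K + 1) ≤ σ ^ t := by
    have h3 : (0 : ℝ) < 1 / 2 ^ (K + 1) := by positivity
    filter_upwards [(tendsto_order.1 h1).2 _ h3] with t ht
    have hσt : 0 < σ ^ t := by positivity
    rw [div_lt_div_iff₀ hσt (by positivity)] at ht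
    rw [mul_pow, ← pow_mul]
    linarith
  have h4 : ∀ᶠ t : ℕ in atTop, (2 * (t : ℝ) ^ 2) ^ (K + 1) ≤ σ ^ t ∧ 4 ≤ t :=
    h2.and (eventually_ge_atTop 4)
  filter_upwards [tendsto_sqrt_succ.eventually h4, eventually_ge_atTop 1] with n hn hn1
  obtain ⟨h5, h6⟩ := hn
  set t := Nat.sqrt n + 1 with ht
  have hlt : n < t * t := Nat.lt_succ_sqrt n
  have hge : (t - 1) * (t - 1) ≤ n := by
    rw [ht, Nat.add_sub_cancel]
    exact Nat.sqrt_le n
  have hn' : (1 : ℝ) ≤ n := by exact_mod_cast hn1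
  have hnt : (n : ℝ) ≤ (t : ℝ) ^ 2 := by
    have : (n : ℝ) ≤ ((t * t : ℕ) : ℝ) := by exact_mod_cast hlt.le
    rw [Nat.cast_mul] at this
    nlinarith
  have h1t : (1 : ℝ) ≤ 2 * (t : ℝ) ^ 2 := by linarith
  have h7 : 2 * (n : ℝ) * (2 * (n : ℝ)) ^ (K * t) ≤ (2 * (t : ℝ) ^ 2) ^ ((K + 1) * t) := by
    have h8 : 2 * (n : ℝ) * (2 * (n : ℝ)) ^ (K * t) = (2 * (n : ℝ)) ^ (K * t + 1) := by ring
    rw [h8]
    calc (2 * (n : ℝ)) ^ (K * t + 1) ≤ (2 * (t : ℝ) ^ 2) ^ (K * t + 1) :=
          pow_le_pow_left₀ (by positivity) (by linarith) _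
      _ ≤ (2 * (t : ℝ) ^ 2) ^ ((K + 1) * t) := by
          refine pow_le_pow_right₀ h1t ?_
          have : 1 ≤ t := by omega
          nlinarith
  refine h7.trans ?_
  calc (2 * (t : ℝ) ^ 2) ^ ((K + 1) * t) = ((2 * (t : ℝ) ^ 2) ^ (K + 1)) ^ t := by rw [pow_mul]
    _ ≤ (σ ^ t) ^ t := pow_le_pow_left₀ (by positivity) h5 _
    _ = σ ^ (t * t) := by rw [← pow_mul]
    _ ≤ σ ^ (2 * ((t - 1) * (t - 1))) := by
        refine pow_le_pow_right₀ hσ1.le ?_
        obtain ⟨u, hu⟩ : ∃ u, t = u + 4 := ⟨t - 4, by omega⟩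
        rw [hu]
        have : u + 4 - 1 = u + 3 := by omega
        rw [this]
        nlinarith
    _ = ρ ^ ((t - 1) * (t - 1)) := by rw [pow_mul, hσ2]
    _ ≤ ρ ^ n := pow_le_pow_right₀ hρ.le hge

theorem c1_nonneg {p : ℝ} (hp0 : 0 ≤ p) (hp1 : p ≤ 1) (n : ℕ) : 0 ≤ c1 n p :=
  prob_nonneg hp0 hp1 _

/-- **Reduction to corank one**, asymptotic form. -/
theorem corank_red {p : ℝ} (hp0 : 0 < p) (hp1 : p < 1)
    (H : ∀ ε : ℝ, 0 < ε → ∀ᶠ n : ℕ in atTop, c1 n p ≤ (rate p + ε) ^ n) :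
    ∀ ε : ℝ, 0 < ε → ∀ᶠ n : ℕ in atTop, singularProb n p ≤ (rate p + ε) ^ n := by
  intro ε hε
  set q : ℝ := max p (1 - p) with hq
  have hpq : p ≤ q := le_max_left _ _
  have hpq' : 1 - p ≤ q := le_max_right _ _
  have hq1 : q < 1 := max_lt hp1 (by linarith)
  have hq0 : 0 < q := lt_of_lt_of_le hp0 hpq
  obtain ⟨j, hj⟩ := exists_pow_lt_of_lt_one (show (0 : ℝ) < 1 / 8 by norm_num) hq1
  -- `K` with `K² ≥ 2 j`
  set K : ℕ := 2 * j + 1 with hK
  have hr2 := half_le_rate p
  set R : ℝ := rate p + ε / 2 with hR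
  have hR0 : 1 / 2 ≤ R := by linarith
  have hρ : 1 < (rate p + ε) / R := by
    rw [one_lt_div (by linarith)]
    linarith
  obtain ⟨N0, hN0⟩ := eventually_atTop.1 (H (ε / 2) (by linarith))
  filter_upwards [subexp K hρ, tendsto_sqrt_succ.eventually (eventually_ge_atTop (K + N0 + 4)),
    eventually_ge_atTop 1] with n h1 h2 h3
  set t := Nat.sqrt n + 1 with ht
  have hge : (t - 1) * (t - 1) ≤ n := by
    rw [ht, Nat.add_sub_cancel]
    exact Nat.sqrt_le n
  have hlt : n < t * t := Nat.lt_succ_sqrt n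
  have hs : K * t + N0 ≤ n := by
    refine le_trans ?_ hge
    obtain ⟨u, hu⟩ : ∃ u, t = u + (K + N0 + 4) := ⟨t - (K + N0 + 4), by omega⟩
    rw [hu]
    have : u + (K + N0 + 4) - 1 = u + (K + N0 + 3) := by omega
    rw [this]
    nlinarith
  have h4 := corank_sum hp0.le hp1.le hpq hpq' hq1.le n (K * t)
  -- the exceptional term
  have h5 : (2 : ℝ) ^ n * q ^ (K * t + 1).choose 2 ≤ (1 / 2) * (rate p + ε) ^ n := by
    have h6 : j * n ≤ (K * t + 1).choose 2 := by
      rw [Nat.choose_two_right, Nat.add_sub_cancel, Nat.le_div_iff_mul_le (by norm_num)]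
      have h7 : j * n * 2 ≤ K * n := by
        rw [hK]
        nlinarith
      have h8 : K * n ≤ (K * t + 1) * (K * t) := by
        have h9 : K * n ≤ K * (t * t) := Nat.mul_le_mul_left _ hlt.le
        have h10 : 1 ≤ K := by omega
        nlinarith [Nat.mul_le_mul h10 (le_refl (K * (t * t)))]
      exact h7.trans h8
    have h7 : q ^ (K * t + 1).choose 2 ≤ (1 / 8) ^ n := by
      calc q ^ (K * t + 1).choose 2 ≤ q ^ (j * n) :=
            pow_le_pow_of_le_one hq0.le hq1.le h6
        _ = (q ^ j) ^ n := by rw [pow_mul]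
        _ ≤ (1 / 8) ^ n := pow_le_pow_left₀ (by positivity) hj.le _
    calc (2 : ℝ) ^ n * q ^ (K * t + 1).choose 2 ≤ 2 ^ n * (1 / 8) ^ n :=
          mul_le_mul_of_nonneg_left h7 (by positivity)
      _ = (1 / 2) ^ n * (1 / 2) ^ n := by
          rw [← mul_pow, ← mul_pow]
          norm_num
      _ ≤ (1 / 2) * (rate p + ε) ^ n := by
          refine mul_le_mul ?_ ?_ (by positivity) (by norm_num)
          · calc (1 / 2 : ℝ) ^ n ≤ (1 / 2) ^ 1 :=
                  pow_le_pow_of_le_one (by norm_num) (by norm_num) h3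
              _ = 1 / 2 := by norm_num
          · exact pow_le_pow_left₀ (by norm_num) (by linarith) _
  -- the main terms
  have hn' : (1 : ℝ) ≤ n := by exact_mod_cast h3
  have h6 : ∀ m ∈ (Finset.range n).filter (fun m => n ≤ m + K * t),
      (n.choose (m + 1) : ℝ) * c1 m p ≤ (2 * (n : ℝ)) ^ (K * t) * R ^ n := by
    intro m hm
    rw [Finset.mem_filter, Finset.mem_range] at hm
    obtain ⟨hm1, hm2⟩ := hm
    have h7 : c1 m p ≤ R ^ m := hN0 m (by omega)
    have h8 : R ^ m ≤ 2 ^ (K * t) * R ^ n := by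
      have h9 : R ^ n = R ^ m * R ^ (n - m) := by
        rw [← pow_add]
        congr 1
        omega
      have h10 : (1 / 2 : ℝ) ^ (K * t) ≤ R ^ (n - m) := by
        calc (1 / 2 : ℝ) ^ (K * t) ≤ (1 / 2) ^ (n - m) :=
              pow_le_pow_of_le_one (by norm_num) (by norm_num) (by omega)
          _ ≤ R ^ (n - m) := pow_le_pow_left₀ (by norm_num) hR0 _
      have h11 : (2 : ℝ) ^ (K * t) * (1 / 2) ^ (K * t) = 1 := by
        rw [← mul_pow]
        norm_num
      rw [h9]
      have h12 : 0 ≤ R ^ m := by positivity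
      calc R ^ m = R ^ m * ((2 : ℝ) ^ (K * t) * (1 / 2) ^ (K * t)) := by rw [h11, mul_one]
        _ ≤ R ^ m * ((2 : ℝ) ^ (K * t) * R ^ (n - m)) := by
            refine mul_le_mul_of_nonneg_left ?_ h12
            exact mul_le_mul_of_nonneg_left h10 (by positivity)
        _ = 2 ^ (K * t) * (R ^ m * R ^ (n - m)) := by ring
    have h13 : (n.choose (m + 1) : ℝ) ≤ (n : ℝ) ^ (K * t) := by
      rw [← Nat.choose_symm (by omega : m + 1 ≤ n)]
      calc ((n.choose (n - (m + 1)) : ℕ) : ℝ) ≤ (n : ℝ) ^ (n - (m + 1)) := by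
            exact_mod_cast Nat.choose_le_pow n (n - (m + 1))
        _ ≤ (n : ℝ) ^ (K * t) := pow_le_pow_right₀ hn' (by omega)
    calc (n.choose (m + 1) : ℝ) * c1 m p ≤ (n : ℝ) ^ (K * t) * (2 ^ (K * t) * R ^ n) :=
          mul_le_mul h13 (h7.trans h8) (c1_nonneg hp0.le hp1.le m) (by positivity)
      _ = (2 * (n : ℝ)) ^ (K * t) * R ^ n := by rw [mul_pow]; ring
  have h7 : (∑ m ∈ (Finset.range n).filter (fun m => n ≤ m + K * t),
      (n.choose (m + 1) : ℝ) * c1 m p) ≤ (1 / 2) * (rate p + ε) ^ n := by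
    refine (Finset.sum_le_card_nsmul _ _ _ h6).trans ?_
    rw [nsmul_eq_mul]
    have h8 : (((Finset.range n).filter (fun m => n ≤ m + K * t)).card : ℝ) ≤ n := by
      have := Finset.card_filter_le (Finset.range n) (fun m => n ≤ m + K * t)
      rw [Finset.card_range] at this
      exact_mod_cast this
    have hRn : 0 < R ^ n := by positivity
    have h9 : 2 * (n : ℝ) * (2 * (n : ℝ)) ^ (K * t) * R ^ n ≤ (rate p + ε) ^ n := by
      calc 2 * (n : ℝ) * (2 * (n : ℝ)) ^ (K * t) * R ^ n ≤ ((rate p + ε) / R) ^ n * R ^ n :=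
            mul_le_mul_of_nonneg_right h1 hRn.le
        _ = (rate p + ε) ^ n := by
            rw [← mul_pow, div_mul_cancel₀]
            linarith
    calc _ ≤ (n : ℝ) * ((2 * (n : ℝ)) ^ (K * t) * R ^ n) :=
          mul_le_mul_of_nonneg_right h8 (by positivity)
      _ = (1 / 2) * (2 * (n : ℝ) * (2 * (n : ℝ)) ^ (K * t) * R ^ n) := by ring
      _ ≤ (1 / 2) * (rate p + ε) ^ n := mul_le_mul_of_nonneg_left h9 (by norm_num)
  linarith

end Crest.Agent.R152.Crk
end

-- ▼ part R152/TopX1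
section

set_option autoImplicit false
set_option linter.unusedSectionVars false

/-! Row 152, module TOP, part X1: typical rows and exchangeability. -/

open Crest.FinProb Crest.ProbabilityR.SignMatrix Filter

namespace Crest.Agent.R152.Top

open Crest.Agent.R152.Base Crest.Agent.R152.Asm

/-- coins of the row `i` without its diagonal entry -/
def rowB {n : ℕ} (w : Sym2 (Fin (n + 1)) → Bool) (i : Fin (n + 1)) : Fin n → Bool :=
  fun j => w s(i, i.succAbove j)

theorem row_eq {n : ℕ} (w : Sym2 (Fin (n + 1)) → Bool) (i : Fin (n + 1)) :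
    row (symMat w) i = sv (rowB w i) := rfl

theorem sv_injective {ι : Type*} : Function.Injective (sv : (ι → Bool) → ι → ℤ) := by
  intro x y h
  funext i
  exact sg_injective (congrFun h i)

/-- a single random row is atypical with small probability -/
theorem prob_atyp {κ : Type*} [Fintype κ] [DecidableEq κ] {p θ : ℝ} (hp0 : 0 ≤ p) (hp1 : p ≤ 1)
    (hθ : 0 < θ) : bernoulliProb p {x : κ → Bool | θ < bernoulliWeight p x} ≤
      rate p ^ Fintype.card κ / θ := by
  rw [← ex_weight p (α := κ)]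
  refine (prob_mono hp0 hp1 (fun x hx => ?_)).trans
    (markov hp0 hp1 (fun x => weight_nonneg hp0 hp1 x) hθ)
  exact le_of_lt (show θ < bernoulliWeight p x from hx)

/-- the weight of a row is at most the weight of a part of it -/
theorem weight_rowB_le {n : ℕ} {p : ℝ} (hp0 : 0 ≤ p) (hp1 : p ≤ 1)
    (w : Sym2 (Fin (n + 1)) → Bool) (S : Finset (Fin (n + 1))) {i : Fin (n + 1)} (hi : i ∈ S) :
    bernoulliWeight p (rowB w i) ≤
      bernoulliWeight p (fun j : {j // j ∉ S} => w s(i, (j : Fin (n + 1)))) := by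
  classical
  set f : Fin (n + 1) → ℝ := fun j => if w s(i, j) then p else 1 - p with hf
  have hf0 : ∀ j, 0 ≤ f j := by intro j; simp only [hf]; split_ifs <;> linarith
  have hf1 : ∀ j, f j ≤ 1 := by intro j; simp only [hf]; split_ifs <;> linarith
  have h1 : bernoulliWeight p (rowB w i) = ∏ j ∈ Finset.univ.erase i, f j := by
    unfold bernoulliWeight rowB
    have h2 : (Finset.univ.erase i : Finset (Fin (n + 1))) =
        Finset.univ.image i.succAbove := by
      ext j
      simp only [Finset.mem_erase, Finset.mem_univ, and_true, Finset.mem_image, true_and]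
      constructor
      · intro h
        exact Fin.exists_succAbove_eq h
      · rintro ⟨t, rfl⟩
        exact Fin.succAbove_ne i t
    rw [h2, Finset.prod_image (fun a _ b _ h => Fin.succAbove_right_injective h)]
  have h3 : bernoulliWeight p (fun j : {j // j ∉ S} => w s(i, (j : Fin (n + 1)))) =
      ∏ j ∈ Sᶜ, f j := by
    unfold bernoulliWeight
    exact (Finset.prod_subtype Sᶜ (fun x => by simp) f).symm
  rw [h1, h3]
  have hsub : Sᶜ ⊆ Finset.univ.erase i := by
    intro j hj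
    rw [Finset.mem_compl] at hj
    refine Finset.mem_erase.2 ⟨?_, Finset.mem_univ _⟩
    rintro rfl
    exact hj hi
  rw [← Finset.prod_sdiff hsub]
  refine mul_le_of_le_one_left (Finset.prod_nonneg fun j _ => hf0 j) ?_
  exact Finset.prod_le_one (fun j _ => hf0 j) (fun j _ => hf1 j)

theorem prob_rows_atyp {n : ℕ} {p θ : ℝ} (hp0 : 0 ≤ p) (hp1 : p ≤ 1) (hθ : 0 < θ)
    (S : Finset (Fin (n + 1))) :
    bernoulliProb p {w : Sym2 (Fin (n + 1)) → Bool | ∀ i ∈ S,
      θ < bernoulliWeight p (rowB w i)} ≤ (rate p ^ (n + 1 - S.card) / θ) ^ S.card := by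
  classical
  let g : {i // i ∈ S} × {j // j ∉ S} → Sym2 (Fin (n + 1)) := fun ij => s((ij.1 : Fin (n + 1)), ij.2)
  have hg : Function.Injective g := by
    rintro ⟨i, j⟩ ⟨i', j'⟩ h
    simp only [g, Sym2.eq_iff] at h
    rcases h with ⟨h1, h2⟩ | ⟨h1, h2⟩
    · exact Prod.ext (Subtype.ext h1) (Subtype.ext h2)
    · exact absurd i.2 (by rw [h1]; exact j'.2)
  have h1 : bernoulliProb p {w : Sym2 (Fin (n + 1)) → Bool | ∀ i ∈ S,
      θ < bernoulliWeight p (rowB w i)} ≤
      bernoulliProb p {w : Sym2 (Fin (n + 1)) → Bool | w ∘ g ∈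
        {ω : {i // i ∈ S} × {j // j ∉ S} → Bool | ∀ i, (fun t => ω (i, t)) ∈
          {x : {j // j ∉ S} → Bool | θ < bernoulliWeight p x}}} := by
    refine prob_mono hp0 hp1 fun w hw i => ?_
    exact lt_of_lt_of_le (hw i i.2) (weight_rowB_le hp0 hp1 w S i.2)
  refine h1.trans ?_
  rw [prob_inj hg]
  have h2 := prob_rows (ι := {i // i ∈ S}) (κ := {j // j ∉ S}) hp0 hp1
    (fun _ => {x : {j // j ∉ S} → Bool | θ < bernoulliWeight p x})
    (c := rate p ^ Fintype.card {j // j ∉ S} / θ) (fun _ => prob_atyp hp0 hp1 hθ)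
  have hc1 : Fintype.card {j // j ∉ S} = n + 1 - S.card := by
    rw [Fintype.card_subtype_compl, Fintype.card_fin]
    simp
  have hc2 : Fintype.card {i // i ∈ S} = S.card := by simp
  rw [hc1, hc2] at h2
  exact h2

/-- many atypical rows -/
theorem prob_many_atyp {n : ℕ} {p θ : ℝ} (hp0 : 0 ≤ p) (hp1 : p ≤ 1) (hθ : 0 < θ) (J : ℕ) :
    bernoulliProb p {w : Sym2 (Fin (n + 1)) → Bool |
      J ≤ Set.ncard {i | θ < bernoulliWeight p (rowB w i)}} ≤
      (n + 1 : ℝ) ^ J * (rate p ^ (n + 1 - J) / θ) ^ J := by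
  classical
  have h1 : {w : Sym2 (Fin (n + 1)) → Bool |
      J ≤ Set.ncard {i | θ < bernoulliWeight p (rowB w i)}} ⊆
      ⋃ S ∈ (Finset.univ : Finset (Fin (n + 1))).powersetCard J,
        {w : Sym2 (Fin (n + 1)) → Bool | ∀ i ∈ S, θ < bernoulliWeight p (rowB w i)} := by
    intro w hw
    have hw' : J ≤ Set.ncard {i | θ < bernoulliWeight p (rowB w i)} := hw
    rw [Set.ncard_eq_toFinset_card'] at hw'
    obtain ⟨S, hS1, hS2⟩ := Finset.exists_subset_card_eq hw'
    simp only [Set.mem_iUnion]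
    refine ⟨S, Finset.mem_powersetCard.2 ⟨Finset.subset_univ _, hS2⟩, ?_⟩
    intro i hi
    have := hS1 hi
    simpa using this
  refine (prob_mono hp0 hp1 h1).trans ((prob_biUnion_le hp0 hp1 _ _).trans ?_)
  have h2 : ∀ S ∈ (Finset.univ : Finset (Fin (n + 1))).powersetCard J,
      bernoulliProb p {w : Sym2 (Fin (n + 1)) → Bool | ∀ i ∈ S,
        θ < bernoulliWeight p (rowB w i)} ≤ (rate p ^ (n + 1 - J) / θ) ^ J := by
    intro S hS
    have hc := (Finset.mem_powersetCard.1 hS).2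
    have := prob_rows_atyp hp0 hp1 hθ S
    rwa [hc] at this
  refine (Finset.sum_le_card_nsmul _ _ _ h2).trans ?_
  rw [nsmul_eq_mul, Finset.card_powersetCard, Finset.card_univ, Fintype.card_fin]
  have h3 : ((n + 1).choose J : ℝ) ≤ (n + 1 : ℝ) ^ J := by
    exact_mod_cast Nat.choose_le_pow (n + 1) J
  have hr := rate_pos p
  exact mul_le_mul_of_nonneg_right h3 (by positivity)

/-- deleting the index `i`: product structure, for an event about the minor and the row -/
theorem prob_minor_row {n : ℕ} (p : ℝ) (i : Fin (n + 1))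
    (Q : Matrix (Fin n) (Fin n) ℤ → (Fin n → Bool) → Prop) :
    bernoulliProb p {w : Sym2 (Fin (n + 1)) → Bool | Q (del (symMat w) i) (rowB w i)} =
      ex p (fun b : Sym2 (Fin n) → Bool => bernoulliProb p {x : Fin n → Bool | Q (symMat b) x}) := by
  classical
  let e : Fin (n + 1) ≃ Option (Fin n) := finSuccEquiv' i
  rw [prob_comp (symEquiv e), prob_eq_ex, ex_glue]
  refine ex_congr p fun b => ?_
  rw [prob_eq_ex]
  refine ex_congr p fun x => ?_
  have h1 : ∀ d : Bool, del (symMat ((glue b x d) ∘ (symEquiv e))) i = symMat b := by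
    intro d
    ext j k
    simp only [del, Matrix.submatrix_apply, symMat_apply, Function.comp, coe_symEquiv, Sym2.map_mk,
      e, finSuccEquiv'_succAbove, glue_some]
  have h2 : ∀ d : Bool, rowB ((glue b x d) ∘ (symEquiv e)) i = x := by
    intro d
    funext j
    simp only [rowB, Function.comp, coe_symEquiv, Sym2.map_mk, e, finSuccEquiv'_succAbove,
      finSuccEquiv'_at, glue_none_some]
  simp only [Set.mem_ofPred_eq, h1, h2]
  split_ifs <;> ring

end Crest.Agent.R152.Top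
end

-- ▼ part R152/TopX2
section

set_option autoImplicit false
set_option linter.unusedSectionVars false

/-! Row 152, module TOP, part X2: the top assembly. -/

open Crest.FinProb Crest.ProbabilityR.SignMatrix Filter

namespace Crest.Agent.R152.Top

open Crest.Agent.R152.Base Crest.Agent.R152.Asm Crest.Agent.R152.Crk
open Crest.Agent.R152.FixV (ind ind_of ind_not ind_nonneg ind_le_one ind_mono prob_ind)

/-- exponential comparison -/
theorem ev_exp {a b : ℝ} (ha : 0 ≤ a) (hab : a < b) (K : ℝ) (J : ℕ) :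
    ∀ᶠ n : ℕ in atTop, K * (n + 1 : ℝ) ^ J * a ^ n ≤ b ^ n := by
  have hb : 0 < b := lt_of_le_of_lt ha hab
  have hr0 : 0 ≤ a / b := by positivity
  have hr1 : a / b < 1 := (div_lt_one hb).2 hab
  have h1 : Tendsto (fun n : ℕ => (n : ℝ) ^ J * (a / b) ^ n) atTop (nhds 0) :=
    tendsto_pow_const_mul_const_pow_of_abs_lt_one J (by rwa [abs_of_nonneg hr0])
  have h2 : Tendsto (fun n : ℕ => |K| * 2 ^ J * ((n : ℝ) ^ J * (a / b) ^ n)) atTop (nhds 0) := by
    simpa using h1.const_mul (|K| * 2 ^ J)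
  filter_upwards [h2.eventually (gt_mem_nhds (show (0 : ℝ) < 1 by norm_num)),
    eventually_ge_atTop 1] with n hn hn1
  have hn1' : (1 : ℝ) ≤ n := by exact_mod_cast hn1
  have h3 : ((n : ℝ) + 1) ^ J ≤ 2 ^ J * (n : ℝ) ^ J := by
    rw [← mul_pow]
    exact pow_le_pow_left₀ (by positivity) (by linarith) J
  have h4 : K * ((n : ℝ) + 1) ^ J * (a / b) ^ n ≤ 1 := by
    have h5 : K * ((n : ℝ) + 1) ^ J ≤ |K| * (2 ^ J * (n : ℝ) ^ J) :=
      mul_le_mul (le_abs_self K) h3 (by positivity) (abs_nonneg K)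
    have h6 := mul_le_mul_of_nonneg_right h5 (pow_nonneg hr0 n)
    nlinarith
  have h7 : a ^ n = (a / b) ^ n * b ^ n := by rw [div_pow, div_mul_cancel₀ _ (by positivity)]
  rw [h7, ← mul_assoc]
  have hbn : 0 ≤ b ^ n := by positivity
  nlinarith

/-- the set of good indices -/
def gi {n : ℕ} (R : Matrix (Fin n) (Fin n) ℤ → Set (Fin n → Bool))
    (M : Matrix (Fin (n + 1)) (Fin (n + 1)) ℤ) : Set (Fin (n + 1)) :=
  {i | (del M i).det ≠ 0 ∧ ∃ x ∈ R (del M i), row M i = sv x}

theorem ncard_eq_sum_ind {α : Type*} [Fintype α] (P : α → Prop) :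
    (Set.ncard {i | P i} : ℝ) = ∑ i, ind (P i) := by
  classical
  unfold ind
  rw [Finset.sum_boole, Set.ncard_eq_toFinset_card']
  congr 2
  ext i
  simp

/-- Markov over the deleted index -/
theorem prob_good {n : ℕ} {p θ m B : ℝ} (hp0 : 0 ≤ p) (hp1 : p ≤ 1) (hm : 0 < m) (hB : 0 ≤ B)
    (hθ : 0 ≤ θ) (R : Matrix (Fin n) (Fin n) ℤ → Set (Fin n → Bool)) :
    bernoulliProb p {w : Sym2 (Fin (n + 1)) → Bool |
      m ≤ (Set.ncard {i | i ∈ gi R (symMat w) ∧ bernoulliWeight p (rowB w i) ≤ θ} : ℝ)} ≤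
      (n + 1) / m * (bernoulliProb p {w : Sym2 (Fin n) → Bool | (symMat w).det ≠ 0 ∧
        B < (Set.ncard (R (symMat w)) : ℝ)} + B * θ) := by
  set Q : Matrix (Fin n) (Fin n) ℤ → (Fin n → Bool) → Prop :=
    fun A x => A.det ≠ 0 ∧ x ∈ R A ∧ bernoulliWeight p x ≤ θ with hQ
  -- rewrite the count as a sum of indicators
  have hiff : ∀ (w : Sym2 (Fin (n + 1)) → Bool) (i : Fin (n + 1)),
      (i ∈ gi R (symMat w) ∧ bernoulliWeight p (rowB w i) ≤ θ) ↔
      Q (del (symMat w) i) (rowB w i) := by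
    intro w i
    constructor
    · rintro ⟨⟨h1, x, hx, hxe⟩, h2⟩
      rw [row_eq] at hxe
      have := sv_injective hxe
      rw [this] at h2 ⊢
      exact ⟨h1, hx, h2⟩
    · rintro ⟨h1, h2, h3⟩
      exact ⟨⟨h1, _, h2, row_eq w i⟩, h3⟩
  have hcount : ∀ w : Sym2 (Fin (n + 1)) → Bool,
      (Set.ncard {i | i ∈ gi R (symMat w) ∧ bernoulliWeight p (rowB w i) ≤ θ} : ℝ) =
      ∑ i : Fin (n + 1), ind (Q (del (symMat w) i) (rowB w i)) := by
    intro w
    rw [ncard_eq_sum_ind]
    refine Finset.sum_congr rfl fun i _ => ?_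
    rw [propext (hiff w i)]
  have hmk := markov hp0 hp1 (F := fun w : Sym2 (Fin (n + 1)) → Bool =>
    ∑ i : Fin (n + 1), ind (Q (del (symMat w) i) (rowB w i)))
    (fun w => Finset.sum_nonneg fun i _ => ind_nonneg _) hm
  have hset : {w : Sym2 (Fin (n + 1)) → Bool |
      m ≤ (Set.ncard {i | i ∈ gi R (symMat w) ∧ bernoulliWeight p (rowB w i) ≤ θ} : ℝ)} =
      {w | m ≤ ∑ i : Fin (n + 1), ind (Q (del (symMat w) i) (rowB w i))} := by
    ext w
    simp only [Set.mem_ofPred_eq, hcount w]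
  rw [hset]
  refine hmk.trans ?_
  rw [ex_sum]
  -- each term
  have hterm : ∀ i ∈ (Finset.univ : Finset (Fin (n + 1))),
      ex p (fun w : Sym2 (Fin (n + 1)) → Bool => ind (Q (del (symMat w) i) (rowB w i))) ≤
      bernoulliProb p {w : Sym2 (Fin n) → Bool | (symMat w).det ≠ 0 ∧
        B < (Set.ncard (R (symMat w)) : ℝ)} + B * θ := by
    intro i _
    rw [← prob_ind, prob_minor_row]
    rw [prob_ind, ← ex_const (ι := Sym2 (Fin n)) p (B * θ), ← ex_add]
    refine ex_mono hp0 hp1 fun b => ?_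
    by_cases hb : (symMat b).det ≠ 0 ∧ B < (Set.ncard (R (symMat b)) : ℝ)
    · rw [ind_of hb]
      have h2 := prob_le_one hp0 hp1 {x : Fin n → Bool | Q (symMat b) x}
      have h3 : 0 ≤ B * θ := mul_nonneg hB hθ
      linarith
    · rw [ind_not hb, zero_add]
      by_cases hdet : (symMat b).det = 0
      · have h2 : {x : Fin n → Bool | Q (symMat b) x} = ∅ := by
          ext x
          simp [hQ, hdet]
        rw [h2, prob_empty]
        exact mul_nonneg hB hθ
      · have h3 : (Set.ncard (R (symMat b)) : ℝ) ≤ B := by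
          by_contra h4
          push Not at h4
          exact hb ⟨hdet, h4⟩
        rw [prob_ind]
        unfold ex
        have h5 : ∀ x : Fin n → Bool, bernoulliWeight p x * ind (Q (symMat b) x) ≤
            ind (x ∈ R (symMat b)) * θ := by
          intro x
          by_cases hx : Q (symMat b) x
          · rw [ind_of hx, mul_one, ind_of hx.2.1, one_mul]
            exact hx.2.2
          · rw [ind_not hx, mul_zero]
            exact mul_nonneg (ind_nonneg _) hθ
        refine (Finset.sum_le_sum fun x _ => h5 x).trans ?_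
        rw [← Finset.sum_mul]
        have h6 := ncard_eq_sum_ind (fun x : Fin n → Bool => x ∈ R (symMat b))
        rw [← h6]
        exact mul_le_mul_of_nonneg_right h3 hθ
  have hsum := Finset.sum_le_card_nsmul _ _ _ hterm
  rw [nsmul_eq_mul, Finset.card_univ, Fintype.card_fin] at hsum
  rw [div_mul_eq_mul_div]
  refine div_le_div_of_nonneg_right ?_ hm.le
  push_cast at hsum
  exact hsum

/-- the hypothesis of the top assembly -/
def TopHyp (p : ℝ) : Prop :=
  ∀ ε : ℝ, 0 < ε → ∃ δ : ℝ, 0 < δ ∧ ∃ R : (n : ℕ) → Matrix (Fin n) (Fin n) ℤ →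
    Set (Fin n → Bool),
    (∀ᶠ n : ℕ in atTop, bernoulliProb p {w : Sym2 (Fin (n + 1)) → Bool |
      CorankOne (symMat w) ∧ (Set.ncard (gi (R n) (symMat w)) : ℝ) < δ * n} ≤
        (rate p + ε) ^ n) ∧
    (∀ᶠ n : ℕ in atTop, bernoulliProb p {w : Sym2 (Fin n) → Bool | (symMat w).det ≠ 0 ∧
      (1 + ε) ^ n < (Set.ncard (R n (symMat w)) : ℝ)} ≤ (rate p + ε) ^ n)

set_option maxHeartbeats 1000000 in
theorem top_c1 {p : ℝ} (hp0 : 0 < p) (hp1 : p < 1) (H : TopHyp p) :
    ∀ ε : ℝ, 0 < ε → ∀ᶠ n : ℕ in atTop, c1 n p ≤ (rate p + ε) ^ n := by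
  intro ε hε
  have hr := rate_pos p
  have hr2 := half_le_rate p
  have hr1 : rate p < 1 := rate_lt_one hp0 hp1
  -- small parameters
  set ε2 : ℝ := ε / 4 with hε2
  set ε1 : ℝ := min (ε / 4) (ε / (8 * (1 + ε))) with hε1
  have hε2pos : 0 < ε2 := by positivity
  have hε1pos : 0 < ε1 := by positivity
  have hε1a : ε1 ≤ ε / 4 := min_le_left _ _
  have hε1b : ε1 ≤ ε / (8 * (1 + ε)) := min_le_right _ _
  have hmix : (1 + ε1) * (rate p + ε2) < rate p + ε := by
    have h1 : ε1 * (rate p + ε2) ≤ ε / (8 * (1 + ε)) * (1 + ε) := by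
      refine mul_le_mul hε1b ?_ (by positivity) (by positivity)
      linarith
    have h2 : ε / (8 * (1 + ε)) * (1 + ε) = ε / 8 := by field_simp
    nlinarith
  obtain ⟨δ, hδ, R, hR1, hR2⟩ := H ε1 hε1pos
  -- the number of atypical rows
  set r : ℝ := rate p / (rate p + ε2) with hrdef
  have hrpos : 0 < r := by positivity
  have hrlt : r < 1 := by
    rw [hrdef, div_lt_one (by positivity)]
    linarith
  obtain ⟨J, hJ⟩ := exists_pow_lt_of_lt_one (show (0 : ℝ) < 1 / 8 by norm_num) hrlt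
  -- eventual inequalities
  have e1 := ev_exp (a := rate p + ε1) (b := rate p + ε) (by positivity) (by linarith) 4 0
  have e2 := ev_exp (a := 1 / 8) (b := 1 / 4) (by norm_num) (by norm_num)
    ((rate p ^ (1 - (J : ℤ))) ^ J) J
  have e3 := ev_exp (a := 1 / 4) (b := rate p + ε) (by norm_num) (by linarith) 4 0
  have e4 := ev_exp (a := rate p + ε1) (b := rate p + ε) (by positivity) (by linarith)
    (16 / δ) 0
  have e5 := ev_exp (a := (1 + ε1) * (rate p + ε2)) (b := rate p + ε) (by positivity) hmix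
    (16 / δ) 0
  have e6 : ∀ᶠ n : ℕ in atTop, 2 * (J : ℝ) / δ ≤ n := by
    obtain ⟨N, hN⟩ := exists_nat_ge (2 * (J : ℝ) / δ)
    filter_upwards [eventually_ge_atTop N] with n hn
    exact hN.trans (by exact_mod_cast hn)
  filter_upwards [hR1, hR2, e1, e2, e3, e4, e5, e6, eventually_ge_atTop 1,
    eventually_ge_atTop J] with n h1 h2 g1 g2 g3 g4 g5 g6 hn1 hnJ
  have hn1' : (1 : ℝ) ≤ n := by exact_mod_cast hn1
  rw [pow_zero, mul_one] at g1 g3 g4 g5
  set θ : ℝ := (rate p + ε2) ^ n with hθ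
  have hθpos : 0 < θ := by positivity
  set m : ℝ := δ * n / 2 with hm
  have hmpos : 0 < m := by positivity
  -- event decomposition
  have hsub : {w : Sym2 (Fin (n + 1)) → Bool | CorankOne (symMat w)} ⊆
      ({w : Sym2 (Fin (n + 1)) → Bool |
        CorankOne (symMat w) ∧ (Set.ncard (gi (R n) (symMat w)) : ℝ) < δ * n} ∪
      {w : Sym2 (Fin (n + 1)) → Bool |
        J ≤ Set.ncard {i | θ < bernoulliWeight p (rowB w i)}}) ∪
      {w : Sym2 (Fin (n + 1)) → Bool |
        m ≤ (Set.ncard {i | i ∈ gi (R n) (symMat w) ∧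
          bernoulliWeight p (rowB w i) ≤ θ} : ℝ)} := by
    intro w hw
    by_cases ha : (Set.ncard (gi (R n) (symMat w)) : ℝ) < δ * n
    · exact Or.inl (Or.inl ⟨hw, ha⟩)
    by_cases hb : J ≤ Set.ncard {i | θ < bernoulliWeight p (rowB w i)}
    · exact Or.inl (Or.inr hb)
    right
    push Not at ha hb
    show m ≤ _
    have hc : gi (R n) (symMat w) ⊆
        {i | i ∈ gi (R n) (symMat w) ∧ bernoulliWeight p (rowB w i) ≤ θ} ∪
        {i | θ < bernoulliWeight p (rowB w i)} := by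
      intro i hi
      by_cases hd : bernoulliWeight p (rowB w i) ≤ θ
      · exact Or.inl ⟨hi, hd⟩
      · exact Or.inr (not_le.1 hd)
    have hd := (Set.ncard_le_ncard hc (Set.toFinite _)).trans (Set.ncard_union_le _ _)
    have hd' : (Set.ncard (gi (R n) (symMat w)) : ℝ) ≤
        Set.ncard {i | i ∈ gi (R n) (symMat w) ∧ bernoulliWeight p (rowB w i) ≤ θ} +
        Set.ncard {i | θ < bernoulliWeight p (rowB w i)} := by exact_mod_cast hd
    have hb' : (Set.ncard {i | θ < bernoulliWeight p (rowB w i)} : ℝ) ≤ J := by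
      exact_mod_cast hb.le
    have hJn : (J : ℝ) ≤ δ * n / 2 := by
      rw [div_le_iff₀ hδ] at g6
      linarith
    linarith
  unfold c1
  refine (prob_mono hp0.le hp1.le hsub).trans ?_
  refine (prob_union_le hp0.le hp1.le _ _).trans ?_
  have hu := prob_union_le hp0.le hp1.le {w : Sym2 (Fin (n + 1)) → Bool |
        CorankOne (symMat w) ∧ (Set.ncard (gi (R n) (symMat w)) : ℝ) < δ * n}
      {w : Sym2 (Fin (n + 1)) → Bool |
        J ≤ Set.ncard {i | θ < bernoulliWeight p (rowB w i)}}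
  -- atypical rows
  have hA := prob_many_atyp (n := n) hp0.le hp1.le hθpos J
  have hA2 : (n + 1 : ℝ) ^ J * (rate p ^ (n + 1 - J) / θ) ^ J ≤ (1 / 4) ^ n := by
    refine le_trans ?_ g2
    have h3 : rate p ^ (n + 1 - J) / θ = rate p ^ (1 - (J : ℤ)) * r ^ n := by
      rw [hrdef, div_pow, hθ, ← mul_div_assoc]
      congr 1
      rw [← zpow_natCast (rate p) (n + 1 - J), ← zpow_natCast (rate p) n, ← zpow_add₀ hr.ne']
      congr 1
      omega
    rw [h3, mul_pow, ← pow_mul, mul_comm n J, pow_mul]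
    have h4 : (r ^ J) ^ n ≤ (1 / 8 : ℝ) ^ n := pow_le_pow_left₀ (by positivity) hJ.le n
    have h5 : 0 ≤ (rate p ^ (1 - (J : ℤ))) ^ J := by positivity
    calc (n + 1 : ℝ) ^ J * ((rate p ^ (1 - (J : ℤ))) ^ J * (r ^ J) ^ n)
        ≤ (n + 1 : ℝ) ^ J * ((rate p ^ (1 - (J : ℤ))) ^ J * (1 / 8) ^ n) := by gcongr
      _ = (rate p ^ (1 - (J : ℤ))) ^ J * (n + 1 : ℝ) ^ J * (1 / 8) ^ n := by ring
  -- good rows
  have hG := prob_good (n := n) (B := (1 + ε1) ^ n) hp0.le hp1.le hmpos (by positivity)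
    hθpos.le (R n)
  have hG2 : (n + 1 : ℝ) / m ≤ 4 / δ := by
    rw [hm, div_le_div_iff₀ (by positivity) hδ]
    nlinarith
  have hP0 := prob_nonneg hp0.le hp1.le {w : Sym2 (Fin n) → Bool | (symMat w).det ≠ 0 ∧
        (1 + ε1) ^ n < (Set.ncard (R n (symMat w)) : ℝ)}
  have hG3 : (n + 1 : ℝ) / m * (bernoulliProb p {w : Sym2 (Fin n) → Bool |
      (symMat w).det ≠ 0 ∧ (1 + ε1) ^ n < (Set.ncard (R n (symMat w)) : ℝ)} +
      (1 + ε1) ^ n * θ) ≤ 4 / δ * ((rate p + ε1) ^ n + (1 + ε1) ^ n * θ) := by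
    refine mul_le_mul hG2 (by linarith) (by positivity) (by positivity)
  have hθ2 : (1 + ε1) ^ n * θ = ((1 + ε1) * (rate p + ε2)) ^ n := by rw [hθ, mul_pow]
  have e16 : 16 / δ = 4 * (4 / δ) := by ring
  have k4 : 4 / δ * (rate p + ε1) ^ n ≤ (rate p + ε) ^ n / 4 := by
    rw [e16, mul_assoc] at g4
    linarith only [g4]
  have k5 : 4 / δ * ((1 + ε1) * (rate p + ε2)) ^ n ≤ (rate p + ε) ^ n / 4 := by
    rw [e16, mul_assoc] at g5
    linarith only [g5]
  rw [hθ2] at hG3 hG
  have t3 := hG.trans hG3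
  rw [mul_add] at t3
  have t1 := h1
  have t2 := hA.trans hA2
  clear hG hG3 hA hA2 hsub h2 hP0
  set PA := bernoulliProb p {w : Sym2 (Fin (n + 1)) → Bool |
        CorankOne (symMat w) ∧ (Set.ncard (gi (R n) (symMat w)) : ℝ) < δ * n}
  set PB := bernoulliProb p {w : Sym2 (Fin (n + 1)) → Bool |
        J ≤ Set.ncard {i | θ < bernoulliWeight p (rowB w i)}}
  linarith only [hu, t1, t2, t3, k4, k5, g1, g3]

/-- **Top assembly**: the sharp exponential rate from the two counting hypotheses. -/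
theorem top {p : ℝ} (hp0 : 0 < p) (hp1 : p < 1) (H : TopHyp p) :
    ∀ ε : ℝ, 0 < ε → ∀ᶠ n : ℕ in atTop, singularProb n p ≤ (rate p + ε) ^ n :=
  corank_red hp0 hp1 (top_c1 hp0 hp1 H)

end Crest.Agent.R152.Top
end

-- ▼ part R152/Div
section

/-! Row 152, module DIV: an integer `m ≤ n^(C n)` has at most `2^(ε n)` divisors `d ≤ n^(z n)`
(Rankin's trick). -/

set_option autoImplicit false
set_option linter.unusedSectionVars false
set_option linter.unusedSimpArgs false

namespace Crest.Agent.R152.Div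

open Finset

/-- Rankin's multiplicative bound. -/
theorem sum_rpow_le (s : ℝ) (hs : 0 < s) (m : ℕ) (hm : 0 < m) :
    ∑ d ∈ Nat.divisors m, (d : ℝ) ^ (-s) ≤ ∏ p ∈ m.primeFactors, (1 - (p : ℝ) ^ (-s))⁻¹ := by
  induction m using Nat.recOnPosPrimePosCoprime with
  | prime_pow p k hp hk =>
    rw [Nat.primeFactors_prime_pow hk.ne' hp, Finset.prod_singleton, Nat.sum_divisors_prime_pow hp]
    have hp0 : (0 : ℝ) < p := by exact_mod_cast hp.pos
    have hp1 : (1 : ℝ) < p := by exact_mod_cast hp.one_lt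
    have hx0 : 0 ≤ (p : ℝ) ^ (-s) := Real.rpow_nonneg hp0.le _
    have hx1 : (p : ℝ) ^ (-s) < 1 := Real.rpow_lt_one_of_one_lt_of_neg hp1 (by linarith)
    have h1 : ∀ j ∈ Finset.range (k + 1), (((p ^ j : ℕ) : ℝ)) ^ (-s) = ((p : ℝ) ^ (-s)) ^ j := by
      intro j _
      push_cast
      rw [← Real.rpow_natCast, ← Real.rpow_natCast, ← Real.rpow_mul hp0.le, ← Real.rpow_mul hp0.le,
        mul_comm]
    rw [Finset.sum_congr rfl h1]
    have hsum := (summable_geometric_of_lt_one hx0 hx1).sum_le_tsum (Finset.range (k + 1))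
      (fun i _ => pow_nonneg hx0 i)
    rwa [tsum_geometric_of_lt_one hx0 hx1] at hsum
  | zero => exact absurd hm (lt_irrefl 0)
  | one => simp
  | coprime a b ha hb hab iha ihb =>
    rw [Nat.Coprime.primeFactors_mul hab, Finset.prod_union hab.disjoint_primeFactors]
    have h1 : ∑ d ∈ Nat.divisors (a * b), (d : ℝ) ^ (-s) =
        (∑ d ∈ Nat.divisors a, (d : ℝ) ^ (-s)) * ∑ d ∈ Nat.divisors b, (d : ℝ) ^ (-s) := by
      rw [Nat.divisors_mul, Finset.mul_def, Finset.sum_image hab.mul_injOn_divisors,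
        Finset.sum_product, Finset.sum_mul_sum]
      refine Finset.sum_congr rfl fun x _ => Finset.sum_congr rfl fun y _ => ?_
      push_cast
      exact Real.mul_rpow (Nat.cast_nonneg x) (Nat.cast_nonneg y)
    rw [h1]
    refine mul_le_mul (iha (by omega)) (ihb (by omega)) ?_ ?_
    · exact Finset.sum_nonneg fun d _ => Real.rpow_nonneg (Nat.cast_nonneg d) _
    · refine Finset.prod_nonneg fun p hp => ?_
      have hp' := Nat.prime_of_mem_primeFactors hp
      have hp1 : (1 : ℝ) < p := by exact_mod_cast hp'.one_lt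
      have hx1 : (p : ℝ) ^ (-s) < 1 := Real.rpow_lt_one_of_one_lt_of_neg hp1 (by linarith)
      exact inv_nonneg.2 (by linarith)

/-- `1 - 2^(-s) ≥ s/2` for `0 ≤ s ≤ 1`. -/
theorem one_sub_two_rpow {s : ℝ} (h0 : 0 ≤ s) (h1 : s ≤ 1) : s / 2 ≤ 1 - (2 : ℝ) ^ (-s) := by
  have hc : ConvexOn ℝ Set.univ (fun x : ℝ => (2 : ℝ) ^ x) := by
    have := (convexOn_exp).comp_linearMap (LinearMap.mul ℝ ℝ (Real.log 2))
    refine this.congr ?_ |>.subset (Set.subset_univ _) convex_univ
    intro x _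
    simp [Real.rpow_def_of_pos]
  have h2 := hc.2 (Set.mem_univ (-1 : ℝ)) (Set.mem_univ (0 : ℝ)) h0 (sub_nonneg.2 h1) (by ring)
  simp only [smul_eq_mul] at h2
  have e1 : s * (-1) + (1 - s) * 0 = -s := by ring
  rw [e1] at h2
  have e2 : (2 : ℝ) ^ (-1 : ℝ) = 1 / 2 := by
    rw [Real.rpow_neg_one]; norm_num
  rw [e2, Real.rpow_zero] at h2
  linarith

/-- number of prime factors at least `√n`. -/
theorem card_large_le {n m : ℕ} (hn : 2 ≤ n) (hm : 0 < m) {C : ℝ} 
    (hmn : (m : ℝ) ≤ (n : ℝ) ^ (C * n)) :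
    (((m.primeFactors).filter (fun p => n ≤ p * p)).card : ℝ) ≤ 2 * C * n := by
  set F := (m.primeFactors).filter (fun p => n ≤ p * p) with hF
  have hn0 : (0 : ℝ) < n := by positivity
  have hL : 0 < Real.log n := Real.log_pos (by exact_mod_cast (by omega : 1 < n))
  have h1 : (∏ p ∈ F, p) ≤ m := by
    refine le_trans ?_ (Nat.le_of_dvd hm (Nat.prod_primeFactors_dvd m))
    refine Finset.prod_le_prod_of_subset_of_one_le' (Finset.filter_subset _ _) ?_
    intro p hp _
    exact (Nat.prime_of_mem_primeFactors hp).one_lt.le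
  have h2 : (n : ℝ) ^ ((F.card : ℝ)) ≤ (m : ℝ) * m := by
    rw [Real.rpow_natCast]
    have : n ^ F.card ≤ (∏ p ∈ F, p) * (∏ p ∈ F, p) := by
      rw [← Finset.prod_mul_distrib, ← Finset.prod_const]
      exact Finset.prod_le_prod' fun p hp => (Finset.mem_filter.1 hp).2
    have h3 : n ^ F.card ≤ m * m := this.trans (Nat.mul_le_mul h1 h1)
    exact_mod_cast h3
  have h4 : (n : ℝ) ^ ((F.card : ℝ)) ≤ (n : ℝ) ^ (2 * C * n) := by
    refine h2.trans ?_
    calc (m : ℝ) * m ≤ (n : ℝ) ^ (C * n) * (n : ℝ) ^ (C * n) :=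
          mul_le_mul hmn hmn (Nat.cast_nonneg m) (Real.rpow_nonneg hn0.le _)
      _ = (n : ℝ) ^ (2 * C * n) := by rw [← Real.rpow_add hn0]; ring_nf
  exact (Real.rpow_le_rpow_left_iff (by exact_mod_cast (by omega : 1 < n))).1 h4

theorem card_small_le (n m : ℕ) :
    ((m.primeFactors).filter (fun p => ¬ n ≤ p * p)).card ≤ Nat.sqrt n + 1 := by
  have : (m.primeFactors).filter (fun p => ¬ n ≤ p * p) ⊆ Finset.range (Nat.sqrt n + 1) := by
    intro p hp
    rw [Finset.mem_filter] at hp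
    rw [Finset.mem_range]
    by_contra hcon
    push Not at hcon hp
    have h1 : Nat.sqrt n + 1 ≤ p := hcon
    have h2 := Nat.sqrt_lt'.1 (lt_of_lt_of_le (Nat.lt_succ_self _) h1)
    nlinarith [hp.2]
  simpa using Finset.card_le_card this

/-- Rankin: explicit form. `L = log n`, `s = 2K/L`. -/
theorem count_explicit {n m : ℕ} (hm : 0 < m) {C z K : ℝ} (hC : 0 ≤ C) (hK : 1 ≤ K)
    (hz : 0 < z) (hn : 2 * K ≤ Real.log n) (hmn : (m : ℝ) ≤ (n : ℝ) ^ (C * n)) :
    (((Nat.divisors m).filter (fun d : ℕ => (d : ℝ) ≤ (n : ℝ) ^ (z * n))).card : ℝ) ≤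
      Real.exp (2 * K * z * n + (Nat.sqrt n + 1) * Real.log (Real.log n) +
        4 * C * Real.exp (-K) * n) := by
  have hn2 : 2 ≤ n := by
    by_contra hcon
    have : n = 0 ∨ n = 1 := by omega
    rcases this with rfl | rfl <;> simp at hn <;> linarith
  have hn0 : (0 : ℝ) < n := by positivity
  set L := Real.log n with hLdef
  have hL2 : 2 ≤ L := by linarith
  have hL0 : 0 < L := by linarith
  set s := 2 * K / L with hs
  have hs0 : 0 < s := by positivity
  have hs1 : s ≤ 1 := by rw [hs, div_le_one hL0]; exact hn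
  set D := (Nat.divisors m).filter (fun d : ℕ => (d : ℝ) ≤ (n : ℝ) ^ (z * n)) with hD
  -- Rankin
  have h1 : (D.card : ℝ) ≤ ((n : ℝ) ^ (z * n)) ^ s * ∑ d ∈ Nat.divisors m, (d : ℝ) ^ (-s) := by
    rw [Finset.mul_sum]
    calc (D.card : ℝ) = ∑ d ∈ D, (1 : ℝ) := by simp
      _ ≤ ∑ d ∈ D, ((n : ℝ) ^ (z * n)) ^ s * (d : ℝ) ^ (-s) := by
        refine Finset.sum_le_sum fun d hd => ?_
        rw [hD, Finset.mem_filter] at hd
        have hd0 : (0 : ℝ) < d := by exact_mod_cast Nat.pos_of_mem_divisors hd.1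
        rw [Real.rpow_neg hd0.le, ← div_eq_mul_inv, le_div_iff₀ (Real.rpow_pos_of_pos hd0 _), one_mul]
        exact Real.rpow_le_rpow hd0.le hd.2 hs0.le
      _ ≤ ∑ d ∈ Nat.divisors m, ((n : ℝ) ^ (z * n)) ^ s * (d : ℝ) ^ (-s) := by
        refine Finset.sum_le_sum_of_subset_of_nonneg (Finset.filter_subset _ _) fun d _ _ => ?_
        exact mul_nonneg (Real.rpow_nonneg (Real.rpow_nonneg hn0.le _) _)
          (Real.rpow_nonneg (Nat.cast_nonneg d) _)
  have h2 : ((n : ℝ) ^ (z * n)) ^ s = Real.exp (2 * K * z * n) := by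
    rw [← Real.rpow_mul hn0.le, Real.rpow_def_of_pos hn0, ← hLdef, hs]
    congr 1; field_simp
  have hfac : ∀ p ∈ m.primeFactors, 0 ≤ (1 - (p : ℝ) ^ (-s))⁻¹ := by
    intro p hp
    have hp' := Nat.prime_of_mem_primeFactors hp
    have hp1 : (1 : ℝ) < p := by exact_mod_cast hp'.one_lt
    have hx1 : (p : ℝ) ^ (-s) < 1 := Real.rpow_lt_one_of_one_lt_of_neg hp1 (by linarith)
    exact inv_nonneg.2 (by linarith)
  have h3 : ∏ p ∈ m.primeFactors, (1 - (p : ℝ) ^ (-s))⁻¹ =
      (∏ p ∈ m.primeFactors.filter (fun p => n ≤ p * p), (1 - (p : ℝ) ^ (-s))⁻¹) *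
      ∏ p ∈ m.primeFactors.filter (fun p => ¬ n ≤ p * p), (1 - (p : ℝ) ^ (-s))⁻¹ :=
    (Finset.prod_filter_mul_prod_filter_not _ _ _).symm
  -- large primes
  have h4 : ∏ p ∈ m.primeFactors.filter (fun p => n ≤ p * p), (1 - (p : ℝ) ^ (-s))⁻¹ ≤
      Real.exp (4 * C * Real.exp (-K) * n) := by
    calc ∏ p ∈ m.primeFactors.filter (fun p => n ≤ p * p), (1 - (p : ℝ) ^ (-s))⁻¹
        ≤ ∏ p ∈ m.primeFactors.filter (fun p => n ≤ p * p), Real.exp (2 * Real.exp (-K)) := by
          refine Finset.prod_le_prod (fun p hp => hfac p (Finset.mem_filter.1 hp).1) fun p hp => ?_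
          rw [Finset.mem_filter] at hp
          have hp' := Nat.prime_of_mem_primeFactors hp.1
          have hp0 : (0 : ℝ) < p := by exact_mod_cast hp'.pos
          have hlog : L / 2 ≤ Real.log p := by
            have : Real.log n ≤ Real.log ((p : ℝ) * p) :=
              Real.log_le_log hn0 (by exact_mod_cast hp.2)
            rw [Real.log_mul hp0.ne' hp0.ne'] at this
            linarith
          have hx : (p : ℝ) ^ (-s) ≤ Real.exp (-K) := by
            rw [Real.rpow_def_of_pos hp0, Real.exp_le_exp]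
            have : s * (L / 2) = K := by rw [hs]; field_simp
            have h6 : s * (L / 2) ≤ s * Real.log p := mul_le_mul_of_nonneg_left hlog hs0.le
            nlinarith
          have hK2 : Real.exp (-K) ≤ 1 / 2 := by
            have : Real.exp (-K) ≤ Real.exp (-1) := Real.exp_le_exp.2 (by linarith)
            have h7 : Real.exp (-1) ≤ 1 / 2 := by
              rw [Real.exp_neg, inv_le_comm₀ (Real.exp_pos _) (by norm_num)]
              have := Real.add_one_le_exp (1 : ℝ)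
              norm_num; linarith
            linarith
          have hpos : 0 < 1 - Real.exp (-K) := by linarith
          calc (1 - (p : ℝ) ^ (-s))⁻¹ ≤ (1 - Real.exp (-K))⁻¹ :=
                inv_anti₀ hpos (by linarith)
            _ ≤ Real.exp (2 * Real.exp (-K)) := by
                rw [inv_le_comm₀ hpos (Real.exp_pos _), ← Real.exp_neg]
                have h8 : Real.exp (-(2 * Real.exp (-K))) ≤ 1 / (1 + 2 * Real.exp (-K)) := by
                  rw [Real.exp_neg, ← one_div]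
                  refine one_div_le_one_div_of_le (by positivity) ?_
                  have := Real.add_one_le_exp (2 * Real.exp (-K))
                  linarith
                refine h8.trans ?_
                have hE : 0 < Real.exp (-K) := Real.exp_pos _
                rw [div_le_iff₀ (by positivity)]
                nlinarith
      _ = Real.exp (2 * Real.exp (-K)) ^ (m.primeFactors.filter (fun p => n ≤ p * p)).card := by
          rw [Finset.prod_const]
      _ = Real.exp (2 * Real.exp (-K) * (m.primeFactors.filter (fun p => n ≤ p * p)).card) := by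
          rw [← Real.exp_nat_mul]; congr 1; ring
      _ ≤ Real.exp (4 * C * Real.exp (-K) * n) := by
          rw [Real.exp_le_exp]
          have := card_large_le hn2 hm hmn
          have hE : 0 < Real.exp (-K) := Real.exp_pos _
          nlinarith
  -- small primes
  have h5 : ∏ p ∈ m.primeFactors.filter (fun p => ¬ n ≤ p * p), (1 - (p : ℝ) ^ (-s))⁻¹ ≤
      Real.exp ((Nat.sqrt n + 1) * Real.log L) := by
    have hlogL : 0 ≤ Real.log L := Real.log_nonneg (by linarith)
    calc ∏ p ∈ m.primeFactors.filter (fun p => ¬ n ≤ p * p), (1 - (p : ℝ) ^ (-s))⁻¹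
        ≤ ∏ p ∈ m.primeFactors.filter (fun p => ¬ n ≤ p * p), L := by
          refine Finset.prod_le_prod (fun p hp => hfac p (Finset.mem_filter.1 hp).1) fun p hp => ?_
          have hp' := Nat.prime_of_mem_primeFactors (Finset.mem_filter.1 hp).1
          have hp2 : (2 : ℝ) ≤ p := by exact_mod_cast hp'.two_le
          have hx : (p : ℝ) ^ (-s) ≤ (2 : ℝ) ^ (-s) :=
            Real.rpow_le_rpow_of_nonpos (by norm_num) hp2 (by linarith)
          have h6 := one_sub_two_rpow hs0.le hs1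
          have hpos : 0 < s / 2 := by positivity
          calc (1 - (p : ℝ) ^ (-s))⁻¹ ≤ (s / 2)⁻¹ := inv_anti₀ hpos (by linarith)
            _ = L / K := by rw [hs]; field_simp
            _ ≤ L := div_le_self hL0.le hK
      _ = L ^ (m.primeFactors.filter (fun p => ¬ n ≤ p * p)).card := by rw [Finset.prod_const]
      _ ≤ L ^ (Nat.sqrt n + 1) := pow_le_pow_right₀ (by linarith) (card_small_le n m)
      _ = Real.exp ((Nat.sqrt n + 1) * Real.log L) := by
          rw [← Real.exp_log hL0, ← Real.exp_nat_mul, Real.log_exp]; push_cast; rfl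
  calc (D.card : ℝ) ≤ Real.exp (2 * K * z * n) * ∏ p ∈ m.primeFactors, (1 - (p : ℝ) ^ (-s))⁻¹ := by
        refine h1.trans ?_
        rw [h2]
        exact mul_le_mul_of_nonneg_left (sum_rpow_le s hs0 m hm) (Real.exp_pos _).le
    _ ≤ Real.exp (2 * K * z * n) * (Real.exp (4 * C * Real.exp (-K) * n) *
          Real.exp ((Nat.sqrt n + 1) * Real.log L)) := by
        rw [h3]
        refine mul_le_mul_of_nonneg_left (mul_le_mul h4 h5 ?_ (Real.exp_pos _).le)
          (Real.exp_pos _).le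
        exact Finset.prod_nonneg fun p hp => hfac p (Finset.mem_filter.1 hp).1
    _ = _ := by rw [← Real.exp_add, ← Real.exp_add]; congr 1; ring

/-- DIV: few small divisors. -/
theorem div_count (C ε : ℝ) (hε : 0 < ε) : ∃ z : ℝ, 0 < z ∧ ∃ n0 : ℕ, ∀ n : ℕ, n0 ≤ n →
    ∀ m : ℕ, 0 < m → (m : ℝ) ≤ (n : ℝ) ^ (C * n) →
      (((Nat.divisors m).filter (fun d : ℕ => (d : ℝ) ≤ (n : ℝ) ^ (z * n))).card : ℝ) ≤
        (2 : ℝ) ^ (ε * n) := by
  set C' := max C 0 with hC'
  have hC0 : 0 ≤ C' := le_max_right _ _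
  set δ := ε * Real.log 2 / 3 with hδ
  have hlog2 : 0 < Real.log 2 := Real.log_pos (by norm_num)
  have hδ0 : 0 < δ := by positivity
  -- choose K
  obtain ⟨K, hK1, hK2⟩ : ∃ K : ℝ, 1 ≤ K ∧ 4 * C' * Real.exp (-K) ≤ δ := by
    have h1 : Filter.Tendsto (fun K : ℝ => 4 * C' * Real.exp (-K)) Filter.atTop (nhds (4 * C' * 0)) :=
      (Real.tendsto_exp_neg_atTop_nhds_zero).const_mul _
    rw [mul_zero] at h1
    have h2 := (h1.eventually (ge_mem_nhds hδ0)).and (Filter.eventually_ge_atTop 1)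
    obtain ⟨K, hK, hK'⟩ := h2.exists
    exact ⟨K, hK', hK⟩
  have hK0 : 0 < K := by linarith
  refine ⟨δ / (2 * K), by positivity, ?_⟩
  -- choose n0
  have hev : ∀ᶠ x : ℝ in Filter.atTop, (Real.sqrt x + 1) * Real.log (Real.log x) ≤ δ * x ∧
      2 * K ≤ Real.log x ∧ 1 ≤ x := by
    refine Filter.Eventually.and ?_ ((Real.tendsto_log_atTop.eventually_ge_atTop _).and
      (Filter.eventually_ge_atTop 1))
    -- (√x+1) loglog x ≤ 2 √x · log x ≤ δ x
    have h1 : (fun x : ℝ => Real.log x) =o[Filter.atTop] (fun x : ℝ => x ^ (1 / 2 : ℝ)) :=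
      isLittleO_log_rpow_atTop (by norm_num)
    have h2 := h1.def (show (0 : ℝ) < δ / 2 by positivity)
    filter_upwards [h2, Filter.eventually_ge_atTop (Real.exp 1)] with x hx hx1
    have hx0 : 1 ≤ x := le_trans (Real.one_le_exp (by norm_num)) hx1
    have hl1 : 1 ≤ Real.log x := by
      rw [Real.le_log_iff_exp_le (by linarith)]; exact hx1
    have hll : Real.log (Real.log x) ≤ Real.log x := by
      have := Real.log_le_sub_one_of_pos (show 0 < Real.log x by linarith)
      linarith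
    rw [Real.norm_eq_abs, Real.norm_eq_abs, abs_of_nonneg (by linarith),
      abs_of_nonneg (Real.rpow_nonneg (by linarith) _), ← Real.sqrt_eq_rpow] at hx
    have hs1 : 1 ≤ Real.sqrt x := Real.one_le_sqrt.2 hx0
    have hsq : Real.sqrt x * Real.sqrt x = x := Real.mul_self_sqrt (by linarith)
    calc (Real.sqrt x + 1) * Real.log (Real.log x) ≤ (Real.sqrt x + 1) * Real.log x :=
          mul_le_mul_of_nonneg_left hll (by linarith)
      _ ≤ (2 * Real.sqrt x) * (δ / 2 * Real.sqrt x) := by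
          refine mul_le_mul (by linarith) hx (by linarith) (by linarith)
      _ = δ * (Real.sqrt x * Real.sqrt x) := by ring
      _ = δ * x := by rw [hsq]
  obtain ⟨N, hN⟩ := (Filter.eventually_atTop.1 (tendsto_natCast_atTop_atTop.eventually hev))
  refine ⟨N, fun n hn m hm hmn => ?_⟩
  obtain ⟨hA, hB, hone⟩ := hN n hn
  have hmn' : (m : ℝ) ≤ (n : ℝ) ^ (C' * n) := by
    refine hmn.trans (Real.rpow_le_rpow_of_exponent_le hone ?_)
    exact mul_le_mul_of_nonneg_right (le_max_left _ _) (Nat.cast_nonneg n)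
  have hz0 : 0 < δ / (2 * K) := by positivity
  refine (count_explicit hm hC0 hK1 hz0 hB hmn').trans ?_
  rw [Real.rpow_def_of_pos (by norm_num : (0 : ℝ) < 2), Real.exp_le_exp]
  have e1 : 2 * K * (δ / (2 * K)) * n = δ * n := by field_simp
  have hsqrt : ((Nat.sqrt n : ℕ) : ℝ) ≤ Real.sqrt n := Real.nat_sqrt_le_real_sqrt
  have hll0 : 0 ≤ Real.log (Real.log n) := Real.log_nonneg (by linarith)
  have e2 : ((Nat.sqrt n : ℕ) + 1 : ℝ) * Real.log (Real.log n) ≤ δ * n :=
    (mul_le_mul_of_nonneg_right (by linarith) hll0).trans hA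
  have e3 : 4 * C' * Real.exp (-K) * n ≤ δ * n :=
    mul_le_mul_of_nonneg_right hK2 (Nat.cast_nonneg n)
  rw [e1]
  have e4 : Real.log 2 * (ε * n) = δ * n + δ * n + δ * n := by rw [hδ]; ring
  linarith

/-- number of distinct prime factors of `m ≤ n^(C n)`. -/
theorem card_primeFactors_le {m : ℕ} (hm : 0 < m) : (m.primeFactors.card : ℝ) * Real.log 2 ≤ Real.log m := by
  have h1 : 2 ^ m.primeFactors.card ≤ m := by
    refine le_trans ?_ (Nat.le_of_dvd hm (Nat.prod_primeFactors_dvd m))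
    rw [← Finset.prod_const]
    exact Finset.prod_le_prod' fun p hp => (Nat.prime_of_mem_primeFactors hp).two_le
  rw [← Real.log_pow]
  exact Real.log_le_log (by positivity) (by exact_mod_cast h1)

/-- the small divisors -/
noncomputable def small (z : ℝ) (n m : ℕ) : Finset ℕ :=
  (Nat.divisors m).filter (fun d : ℕ => (d : ℝ) ≤ (n : ℝ) ^ (z * n))

/-- products of a small divisor and `p^(g p)`, `p` a prime factor -/
noncomputable def cand (g : ℕ → ℕ) (z : ℝ) (n m : ℕ) : Finset ℕ :=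
  ((small z n m) ×ˢ m.primeFactors).image (fun q => q.1 * q.2 ^ g q.2)

theorem card_cand_le (g : ℕ → ℕ) (z : ℝ) (n m : ℕ) :
    (cand g z n m).card ≤ (small z n m).card * m.primeFactors.card := by
  unfold cand
  refine Finset.card_image_le.trans ?_
  rw [Finset.card_product]

/-- a divisor `f ≥ Y > 1` has a divisor `f' ≥ Y` of the form small * prime. -/
theorem exists_min {Y : ℝ} (hY : 1 < Y) : ∀ f : ℕ, 0 < f → Y ≤ f →
    ∃ f' : ℕ, f' ∣ f ∧ Y ≤ f' ∧ ∃ p d : ℕ, p.Prime ∧ f' = d * p ∧ (d : ℝ) < Y := by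
  intro f
  induction f using Nat.strong_induction_on with
  | _ f ih =>
    intro hf hYf
    have hf1 : f ≠ 1 := by
      rintro rfl
      simp at hYf
      linarith
    obtain ⟨p, hp, hpf⟩ := Nat.exists_prime_and_dvd hf1
    obtain ⟨d, rfl⟩ := hpf
    have hd : 0 < d := Nat.pos_of_mul_pos_left hf
    by_cases hdY : (d : ℝ) < Y
    · exact ⟨p * d, dvd_rfl, hYf, p, d, hp, by ring, hdY⟩
    · push Not at hdY
      have hlt : d < p * d := by nlinarith [hp.two_le]
      obtain ⟨f', h1, h2, h3⟩ := ih d hlt hd hdY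
      exact ⟨f', h1.trans (dvd_mul_left _ _), h2, h3⟩

/-- unitary version. -/
theorem exists_min_unitary {Y : ℝ} (hY : 1 < Y) {m : ℕ} (hm : 0 < m) : ∀ f : ℕ, f ∣ m →
    Nat.Coprime f (m / f) → Y ≤ f →
    ∃ f' : ℕ, f' ∣ f ∧ f' ∣ m ∧ Nat.Coprime f' (m / f') ∧ Y ≤ f' ∧
      ∃ p d : ℕ, p.Prime ∧ p ∣ m ∧ d ∣ m ∧ f' = d * p ^ m.factorization p ∧ (d : ℝ) < Y := by
  intro f
  induction f using Nat.strong_induction_on with
  | _ f ih =>
    intro hfm hcop hYf
    have hf : 0 < f := Nat.pos_of_dvd_of_pos hfm hm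
    have hf1 : f ≠ 1 := by
      rintro rfl
      simp at hYf
      linarith
    obtain ⟨p, hp, hpf⟩ := Nat.exists_prime_and_dvd hf1
    set d := f / p ^ f.factorization p with hd
    have hfd : p ^ f.factorization p * d = f := Nat.ordProj_mul_ordCompl_eq_self f p
    have hd0 : 0 < d := Nat.ordCompl_pos p hf.ne'
    have hvp : f.factorization p = m.factorization p := by
      obtain ⟨e, he⟩ := hfm
      have hme : m / f = e := by rw [he, Nat.mul_div_cancel_left _ hf]
      rw [hme] at hcop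
      have hpe : ¬ p ∣ e := fun hpe => by
        have := Nat.dvd_gcd hpf hpe
        rw [hcop] at this
        exact hp.one_lt.ne' (Nat.dvd_one.1 this)
      have he0 : e ≠ 0 := by rintro rfl; omega
      rw [he, Nat.factorization_mul hf.ne' he0, Finsupp.add_apply,
        Nat.factorization_eq_zero_of_not_dvd hpe, add_zero]
    have hdf : d ∣ f := ⟨p ^ f.factorization p, by rw [mul_comm]; exact hfd.symm⟩
    have hdm : d ∣ m := hdf.trans hfm
    by_cases hdY : (d : ℝ) < Y
    · refine ⟨f, dvd_rfl, hfm, hcop, hYf, p, d, hp, hpf.trans hfm, hdm, ?_, hdY⟩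
      rw [← hvp, mul_comm]; exact hfd.symm
    · push Not at hdY
      have hv1 : 1 ≤ f.factorization p := (hp.dvd_iff_one_le_factorization hf.ne').1 hpf
      have hlt : d < f := by
        have : 2 ≤ p ^ f.factorization p := by
          calc 2 ≤ p := hp.two_le
            _ = p ^ 1 := (pow_one p).symm
            _ ≤ p ^ f.factorization p := Nat.pow_le_pow_right hp.pos hv1
        nlinarith [hfd]
      have hcd : Nat.Coprime d (m / d) := by
        have hpd : ¬ p ∣ d := Nat.not_dvd_ordCompl hp hf.ne'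
        have hcop2 : Nat.Coprime d (p ^ f.factorization p) :=
          Nat.Coprime.pow_right _ ((Nat.Prime.coprime_iff_not_dvd hp).2 hpd).symm
        have hmd : m / d = p ^ f.factorization p * (m / f) := by
          obtain ⟨e, he⟩ := hfm
          have hme : m / f = e := by rw [he, Nat.mul_div_cancel_left _ hf]
          rw [hme]
          refine Nat.div_eq_of_eq_mul_right hd0 ?_
          rw [he, ← hfd]
          have : (p ^ f.factorization p * d).factorization p = f.factorization p := by rw [hfd]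
          rw [hfd]
          conv_lhs => rw [← hfd]
          ring
        rw [hmd]
        exact hcop2.mul_right (Nat.Coprime.coprime_dvd_left hdf hcop)
      obtain ⟨f', h1, h2, h3, h4, h5⟩ := ih d hlt hdm hcd hdY
      exact ⟨f', h1.trans hdf, h2, h3, h4, h5⟩

/-- DIV: the three statements (a), (b), (c) with one `z0`, valid for all `0 < z ≤ z0`. -/
theorem div_all (C ε : ℝ) (hε : 0 < ε) : ∃ z0 : ℝ, 0 < z0 ∧ ∃ n0 : ℕ, ∀ z : ℝ, 0 < z → z ≤ z0 →
    ∀ n : ℕ, n0 ≤ n → ∀ m : ℕ, 0 < m → (m : ℝ) ≤ (n : ℝ) ^ (C * n) →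
      ((((Nat.divisors m).filter (fun d : ℕ => (d : ℝ) ≤ (n : ℝ) ^ (z * n))).card : ℝ) ≤
        (2 : ℝ) ^ (ε * n)) ∧
      (∃ F : Finset ℕ, (F.card : ℝ) ≤ (2 : ℝ) ^ (ε * n) ∧
        (∀ f' ∈ F, f' ∣ m ∧ (n : ℝ) ^ (z * n) ≤ f') ∧
        ∀ f : ℕ, f ∣ m → (n : ℝ) ^ (z * n) ≤ f → ∃ f' ∈ F, f' ∣ f) ∧
      (∃ F : Finset ℕ, (F.card : ℝ) ≤ (2 : ℝ) ^ (ε * n) ∧
        (∀ f' ∈ F, f' ∣ m ∧ Nat.Coprime f' (m / f') ∧ (n : ℝ) ^ (z * n) ≤ f') ∧
        ∀ f : ℕ, f ∣ m → Nat.Coprime f (m / f) → (n : ℝ) ^ (z * n) ≤ f → ∃ f' ∈ F, f' ∣ f) := by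
  obtain ⟨z0, hz0, N, hN⟩ := div_count C (ε / 2) (by positivity)
  have hlog2 : 0 < Real.log 2 := Real.log_pos (by norm_num)
  -- eventually the number of primes is at most 2^(ε n/2)
  have hev : ∀ᶠ x : ℝ in Filter.atTop,
      |C| * (x * Real.log x) / Real.log 2 ≤ (2 : ℝ) ^ (ε / 2 * x) := by
    have h1 : (fun x : ℝ => x ^ (2 : ℝ)) =o[Filter.atTop] (fun x : ℝ => Real.exp ((ε / 2 * Real.log 2) * x)) :=
      isLittleO_rpow_exp_pos_mul_atTop 2 (by positivity)
    have h2 := h1.def (show (0 : ℝ) < 1 / (|C| / Real.log 2 + 1) by positivity)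
    filter_upwards [h2, Filter.eventually_ge_atTop 1] with x hx hx1
    have hl : Real.log x ≤ x := by
      have := Real.log_le_sub_one_of_pos (show 0 < x by linarith)
      linarith
    have hl0 : 0 ≤ Real.log x := Real.log_nonneg hx1
    rw [Real.norm_eq_abs, Real.norm_eq_abs, abs_of_nonneg (Real.rpow_nonneg (by linarith) _),
      abs_of_pos (Real.exp_pos _)] at hx
    have hx2 : x ^ (2 : ℝ) = x * x := by
      rw [show (2 : ℝ) = ((2 : ℕ) : ℝ) by norm_num, Real.rpow_natCast]; ring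
    rw [hx2] at hx
    have hA : 0 < |C| / Real.log 2 + 1 := by positivity
    calc |C| * (x * Real.log x) / Real.log 2 = (|C| / Real.log 2) * (x * Real.log x) := by ring
      _ ≤ (|C| / Real.log 2 + 1) * (x * x) := by
          refine mul_le_mul (by linarith) (mul_le_mul_of_nonneg_left hl (by linarith))
            (mul_nonneg (by linarith) hl0) hA.le
      _ ≤ (|C| / Real.log 2 + 1) * (1 / (|C| / Real.log 2 + 1) *
            Real.exp ((ε / 2 * Real.log 2) * x)) := mul_le_mul_of_nonneg_left hx hA.le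
      _ = Real.exp ((ε / 2 * Real.log 2) * x) := by field_simp
      _ = (2 : ℝ) ^ (ε / 2 * x) := by
          rw [Real.rpow_def_of_pos (by norm_num)]; congr 1; ring
  obtain ⟨N', hN'⟩ := Filter.eventually_atTop.1 (tendsto_natCast_atTop_atTop.eventually hev)
  refine ⟨z0, hz0, max (max N N') 2, fun z hz hzz n hn m hm hmn => ?_⟩
  have hnN : N ≤ n := le_trans (le_trans (le_max_left _ _) (le_max_left _ _)) hn
  have hnN' : N' ≤ n := le_trans (le_trans (le_max_right _ _) (le_max_left _ _)) hn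
  have hn2 : 2 ≤ n := le_trans (le_max_right _ _) hn
  have hn1 : (1 : ℝ) < n := by exact_mod_cast (by omega : 1 < n)
  have hn0 : (0 : ℝ) < n := by linarith
  have hY : 1 < (n : ℝ) ^ (z * n) := Real.one_lt_rpow hn1 (by positivity)
  -- small divisors
  have hsm : ((small z n m).card : ℝ) ≤ (2 : ℝ) ^ (ε / 2 * n) := by
    refine le_trans ?_ (hN n hnN m hm hmn)
    have hsub : small z n m ⊆ (Nat.divisors m).filter (fun d : ℕ => (d : ℝ) ≤ (n : ℝ) ^ (z0 * n)) := by
      intro d hd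
      unfold small at hd
      rw [Finset.mem_filter] at hd ⊢
      refine ⟨hd.1, hd.2.trans (Real.rpow_le_rpow_of_exponent_le hn1.le ?_)⟩
      exact mul_le_mul_of_nonneg_right hzz hn0.le
    exact_mod_cast Finset.card_le_card hsub
  have hpf : (m.primeFactors.card : ℝ) ≤ (2 : ℝ) ^ (ε / 2 * n) := by
    have h1 := card_primeFactors_le hm
    have h2 : Real.log m ≤ |C| * (n * Real.log n) := by
      have hm0 : (0 : ℝ) < m := by exact_mod_cast hm
      have h3 : Real.log m ≤ Real.log ((n : ℝ) ^ (C * n)) := Real.log_le_log hm0 hmn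
      rw [Real.log_rpow hn0] at h3
      have h4 : C * n * Real.log n ≤ |C| * (n * Real.log n) := by
        have := mul_le_mul_of_nonneg_right (le_abs_self C)
          (mul_nonneg hn0.le (Real.log_nonneg hn1.le))
        linarith
      linarith
    have h5 : (m.primeFactors.card : ℝ) ≤ |C| * (n * Real.log n) / Real.log 2 := by
      rw [le_div_iff₀ hlog2]; linarith
    exact h5.trans (hN' n hnN')
  have h22 : (2 : ℝ) ^ (ε / 2 * n) * (2 : ℝ) ^ (ε / 2 * n) = (2 : ℝ) ^ (ε * n) := by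
    rw [← Real.rpow_add (by norm_num)]; ring_nf
  have hcand : ∀ g : ℕ → ℕ, ((cand g z n m).card : ℝ) ≤ (2 : ℝ) ^ (ε * n) := by
    intro g
    calc ((cand g z n m).card : ℝ) ≤ ((small z n m).card * m.primeFactors.card : ℕ) := by
          exact_mod_cast card_cand_le g z n m
      _ = ((small z n m).card : ℝ) * m.primeFactors.card := by push_cast; ring
      _ ≤ (2 : ℝ) ^ (ε / 2 * n) * (2 : ℝ) ^ (ε / 2 * n) :=
          mul_le_mul hsm hpf (Nat.cast_nonneg _) (Real.rpow_nonneg (by norm_num) _)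
      _ = _ := h22
  refine ⟨?_, ?_, ?_⟩
  · refine hsm.trans ?_
    refine Real.rpow_le_rpow_of_exponent_le (by norm_num) ?_
    nlinarith [hn0, hε]
  · refine ⟨(cand (fun _ => 1) z n m).filter (fun f' : ℕ => f' ∣ m ∧ (n : ℝ) ^ (z * n) ≤ f'),
      ?_, ?_, ?_⟩
    · refine le_trans ?_ (hcand fun _ => 1)
      exact_mod_cast Finset.card_filter_le _ _
    · intro f' hf'
      exact (Finset.mem_filter.1 hf').2
    · intro f hfm hYf
      have hf : 0 < f := Nat.pos_of_dvd_of_pos hfm hm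
      obtain ⟨f', h1, h2, p, d, hp, hfd, hdY⟩ := exists_min hY f hf hYf
      refine ⟨f', ?_, h1⟩
      rw [Finset.mem_filter]
      refine ⟨?_, h1.trans hfm, h2⟩
      unfold cand
      rw [Finset.mem_image]
      refine ⟨(d, p), ?_, by simp [hfd]⟩
      rw [Finset.mem_product]
      refine ⟨?_, ?_⟩
      · unfold small
        rw [Finset.mem_filter, Nat.mem_divisors]
        refine ⟨⟨?_, hm.ne'⟩, hdY.le⟩
        exact (Dvd.intro _ hfd.symm).trans (h1.trans hfm)
      · rw [Nat.mem_primeFactors]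
        exact ⟨hp, (Dvd.intro_left _ hfd.symm).trans (h1.trans hfm), hm.ne'⟩
  · refine ⟨(cand (fun p => m.factorization p) z n m).filter
      (fun f' : ℕ => f' ∣ m ∧ Nat.Coprime f' (m / f') ∧ (n : ℝ) ^ (z * n) ≤ f'), ?_, ?_, ?_⟩
    · refine le_trans ?_ (hcand fun p => m.factorization p)
      exact_mod_cast Finset.card_filter_le _ _
    · intro f' hf'
      exact (Finset.mem_filter.1 hf').2
    · intro f hfm hcop hYf
      obtain ⟨f', h1, h2, h3, h4, p, d, hp, hpm, hdm, hfd, hdY⟩ :=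
        exists_min_unitary hY hm f hfm hcop hYf
      refine ⟨f', ?_, h1⟩
      rw [Finset.mem_filter]
      refine ⟨?_, h2, h3, h4⟩
      unfold cand
      rw [Finset.mem_image]
      refine ⟨(d, p), ?_, hfd.symm⟩
      rw [Finset.mem_product]
      refine ⟨?_, ?_⟩
      · unfold small
        rw [Finset.mem_filter, Nat.mem_divisors]
        exact ⟨⟨hdm, hm.ne'⟩, hdY.le⟩
      · rw [Nat.mem_primeFactors]
        exact ⟨hp, hpm, hm.ne'⟩

end Crest.Agent.R152.Div
end

-- ▼ part R152/Div2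
section

set_option autoImplicit false

/-! Row 152, DIV in the exact form used by ASM (helper904). -/

namespace Crest.Agent.R152.Div

theorem div_asm : ∀ ε : ℝ, 0 < ε → ∃ z0 : ℝ, 0 < z0 ∧ ∀ z : ℝ, 0 < z → z ≤ z0 → ∃ n0 : ℕ,
    ∀ n : ℕ, n0 ≤ n → ∀ m : ℕ, 0 < m → (m : ℝ) ≤ (n : ℝ) ^ (n : ℝ) →
      (((m.divisors.filter (fun d : ℕ => (d : ℝ) ≤ (n : ℝ) ^ (z * n))).card : ℝ) ≤
        (2 : ℝ) ^ (ε * n)) ∧
      (∃ F : Finset ℕ, (F.card : ℝ) ≤ (2 : ℝ) ^ (ε * n) ∧
        (∀ f ∈ F, f ∣ m ∧ (n : ℝ) ^ (z * n) ≤ f) ∧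
        ∀ f : ℕ, f ∣ m → (n : ℝ) ^ (z * n) ≤ f → ∃ f' ∈ F, f' ∣ f) ∧
      (∃ F : Finset ℕ, (F.card : ℝ) ≤ (2 : ℝ) ^ (ε * n) ∧
        (∀ f ∈ F, f ∣ m ∧ Nat.Coprime f (m / f) ∧ (n : ℝ) ^ (z * n) ≤ f) ∧
        ∀ f : ℕ, f ∣ m → Nat.Coprime f (m / f) → (n : ℝ) ^ (z * n) ≤ f → ∃ f' ∈ F, f' ∣ f) := by
  intro ε hε
  obtain ⟨z0, hz0, n0, h⟩ := div_all 1 ε hε
  refine ⟨z0, hz0, fun z hz hzz => ⟨n0, fun n hn m hm hmn => h z hz hzz n hn m hm ?_⟩⟩
  rwa [one_mul]

end Crest.Agent.R152.Div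
end

-- ▼ part R152/Fin

set_option autoImplicit false

open Crest.FinProb Crest.ProbabilityR.SignMatrix Crest.Agent.R152.Base Filter Topology

namespace Crest.Agent.R152.Fin
open Crest.Agent.R152 Crest.Agent.R152.Asm

theorem spk {p : ℝ} (hp0 : 0 < p) (hp1 : p < 1) : SPK p := by
  intro ε hε
  obtain ⟨c, hc, n0, h⟩ := Sparse.sp4 hp0 hp1 ε hε
  refine ⟨c, hc, n0, fun n hn => (prob_mono hp0.le hp1.le ?_).trans (h n hn)⟩
  rintro w ⟨k, hk, hkp, q, hq, hlt⟩ hd
  exact absurd (Sparse.Dense.prime hd hk hkp hq) (not_lt.2 hlt.le)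

theorem divh : DIV := by
  intro ε hε
  obtain ⟨z0, hz0, h⟩ := Div.div_asm ε hε
  refine ⟨z0, hz0, fun z hz hzz => ?_⟩
  obtain ⟨n0, h0⟩ := h z hz hzz
  exact ⟨n0, fun n hn => h0 n hn⟩

theorem topHyp {p : ℝ} (hp0 : 0 < p) (hp1 : p < 1) : Top.TopHyp p := by
  intro ε hε
  obtain ⟨δ, hδ, R, h1, h2⟩ := H_holds hp0 hp1 (Glo.glo hp0 hp1) (TP.T1p_all hp0 hp1)
    (spk hp0 hp1) (Top.nmz hp0 hp1) divh ε hε
  refine ⟨δ, hδ, R, ?_, h2⟩
  filter_upwards [h1] with n hn
  refine (prob_mono hp0.le hp1.le ?_).trans hn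
  rintro w ⟨hc, hlt⟩
  refine ⟨hc.1, hc.2, ?_⟩
  have hset : {i | (del (symMat w) i).det ≠ 0 ∧ rowB w i ∈ R n (del (symMat w) i)} =
      Top.gi (R n) (symMat w) := by
    ext i
    simp only [Set.mem_ofPred_eq, Top.gi]
    constructor
    · rintro ⟨ha, hb⟩
      exact ⟨ha, rowB w i, hb, (sv_rowB w i).symm⟩
    · rintro ⟨ha, x, hx, hxe⟩
      refine ⟨ha, ?_⟩
      have : rowB w i = x := by
        have h3 : sv (rowB w i) = sv x := by rw [sv_rowB]; exact hxe
        funext j
        exact sg_injective (congrFun h3 j)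
      rw [this]; exact hx
  rw [hset]
  refine lt_of_lt_of_le hlt ?_
  push_cast
  nlinarith

theorem upper {p : ℝ} (hp0 : 0 < p) (hp1 : p < 1) : ∀ ε : ℝ, 0 < ε →
    ∀ᶠ n : ℕ in atTop, singularProb n p ≤ (rate p + ε) ^ n :=
  Crest.Agent.R152.Top.top hp0 hp1 (topHyp hp0 hp1)

end Crest.Agent.R152.Fin
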