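import Crest.Agent.R152.Lat1
import Crest.Agent.R152.Lat3

-- ▼ part R152/Glo1
section

set_option autoImplicit false
set_option linter.unusedSectionVars false

/-!
# Row 152, module GLO (helper184), part 1: duality step

`orth U` = integer vectors orthogonal to `U`; saturation; the key index inequality:
if `Λ' ≥ range A + U` (`A` symmetric, `det A ≠ 0`, `U` saturated), `E = orth U ≤ Np`, then
`A Np` has a superlattice `W` of the same rank with `lc W ≤ lc (A Np) - log [ℤ^ι : Λ']`.
-/

namespace Crest.Agent.R152.Glo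

open Matrix Module Crest.Agent.R152.Lat

variable {ι : Type*} [Fintype ι]

/-- saturated submodules -/
def IsSat (L : Submodule ℤ (ι → ℤ)) : Prop :=
  ∀ (m : ℤ) (x : ι → ℤ), m ≠ 0 → m • x ∈ L → x ∈ L

/-- orthogonal lattice -/
def orth (L : Submodule ℤ (ι → ℤ)) : Submodule ℤ (ι → ℤ) where
  carrier := {e | ∀ u ∈ L, e ⬝ᵥ u = 0}
  add_mem' := by
    intro a b ha hb u hu
    rw [add_dotProduct, ha u hu, hb u hu, add_zero]
  zero_mem' := by intro u _; simp
  smul_mem' := by
    intro c a ha u hu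
    rw [smul_dotProduct, ha u hu, smul_zero]


theorem isSat_orth (L : Submodule ℤ (ι → ℤ)) : IsSat (orth L) := by
  intro m x hm hx u hu
  have := hx u hu
  rw [smul_dotProduct, smul_eq_mul] at this
  exact (mul_eq_zero.mp this).resolve_left hm

theorem orth_anti {L M : Submodule ℤ (ι → ℤ)} (h : L ≤ M) : orth M ≤ orth L :=
  fun _ he u hu => he u (h hu)

theorem le_orth_orth (L : Submodule ℤ (ι → ℤ)) : L ≤ orth (orth L) := by
  intro x hx e he
  rw [dotProduct_comm]
  exact he x hx

/-- every functional on `ℤ^ι` is a dot product -/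
theorem exists_rep [DecidableEq ι] (φ : (ι → ℤ) →ₗ[ℤ] ℤ) : ∃ v : ι → ℤ, ∀ x, φ x = v ⬝ᵥ x := by
  refine ⟨fun i => φ (Pi.single i 1), fun x => ?_⟩
  conv_lhs => rw [LinearMap.pi_apply_eq_sum_univ φ x]
  simp only [dotProduct, smul_eq_mul]
  refine Finset.sum_congr rfl fun i _ => ?_
  rw [mul_comm]
  congr 2
  funext j
  by_cases h : i = j <;> simp [h, eq_comm]

theorem orth_orth_of_sat [DecidableEq ι] {U : Submodule ℤ (ι → ℤ)} (hU : IsSat U) :
    orth (orth U) = U := by
  refine le_antisymm ?_ (le_orth_orth U)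
  intro x hx
  obtain ⟨k, bM, bN, f, a, snf⟩ := Submodule.smithNormalForm (Pi.basisFun ℤ ι) U
  have ha : ∀ i, a i ≠ 0 := by
    intro i h0
    have h1 := snf i
    rw [h0, zero_smul] at h1
    exact bN.ne_zero i (Subtype.ext h1)
  have hb : ∀ i, bM (f i) ∈ U := by
    intro i
    refine hU (a i) _ (ha i) ?_
    rw [← snf i]
    exact (bN i).2
  have hzero : ∀ j, j ∉ Set.range f → bM.repr x j = 0 := by
    intro j hj
    obtain ⟨v, hv⟩ := exists_rep (bM.coord j)
    have hvU : v ∈ orth U := by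
      intro u hu
      rw [← hv u]
      have := (⟨bM, bN, f, a, snf⟩ : Basis.SmithNormalForm U ι k).le_ker_coord_of_notMem_range hj hu
      exact this
    have h2 := hx v hvU
    rw [dotProduct_comm, ← hv x] at h2
    exact h2
  rw [← bM.sum_repr x]
  refine Submodule.sum_mem _ fun j _ => ?_
  by_cases hj : j ∈ Set.range f
  · obtain ⟨i, rfl⟩ := hj
    exact Submodule.smul_mem _ _ (hb i)
  · rw [hzero j hj, zero_smul]
    exact Submodule.zero_mem _

section main
variable [DecidableEq ι]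

theorem mulVec_injective {A : Matrix ι ι ℤ} (hdet : A.det ≠ 0) :
    Function.Injective (A.mulVecLin : (ι → ℤ) → ι → ℤ) := by
  intro x y h
  have h1 : A *ᵥ (x - y) = 0 := by
    rw [Matrix.mulVec_sub]
    have : A *ᵥ x = A *ᵥ y := h
    rw [this, sub_self]
  have h2 := Matrix.eq_zero_of_mulVec_eq_zero hdet h1
  exact sub_eq_zero.mp h2

/-- The duality/index step. -/
theorem exists_super {A : Matrix ι ι ℤ} (hA : Aᵀ = A) (hdet : A.det ≠ 0)
    {U Lam Np : Submodule ℤ (ι → ℤ)} (hU : IsSat U)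
    (hrange : LinearMap.range A.mulVecLin ≤ Lam) (hUL : U ≤ Lam) (hE : orth U ≤ Np) :
    ∃ W : Submodule ℤ (ι → ℤ), Np.map A.mulVecLin ≤ W ∧ rk W = rk (Np.map A.mulVecLin) ∧
      0 < Nat.card ((ι → ℤ) ⧸ Lam) ∧
      lc W + Real.log (Nat.card ((ι → ℤ) ⧸ Lam)) ≤ lc (Np.map A.mulVecLin) := by
  classical
  set E := orth U with hEdef
  set AE := E.map A.mulVecLin with hAE
  obtain ⟨k, bM, bN, f, a, snf⟩ := Submodule.smithNormalForm (Pi.basisFun ℤ ι) AE
  have ha : ∀ i, a i ≠ 0 := by
    intro i h0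
    have h1 := snf i
    rw [h0, zero_smul] at h1
    exact bN.ne_zero i (Subtype.ext h1)
  -- preimages
  have hpre : ∀ i, ∃ e, e ∈ E ∧ A *ᵥ e = a i • bM (f i) := by
    intro i
    have h1 : ((bN i : AE) : ι → ℤ) ∈ AE := (bN i).2
    obtain ⟨e, he, hee⟩ := Submodule.mem_map.mp h1
    refine ⟨e, he, ?_⟩
    rw [← snf i, ← hee]
    rfl
  choose e he hAe using hpre
  -- E is spanned by the e i
  have hspan : ∀ y ∈ E, ∃ c : Fin k → ℤ, y = ∑ i, c i • e i := by
    intro y hy
    have h1 : A *ᵥ y ∈ AE := Submodule.mem_map.mpr ⟨y, hy, rfl⟩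
    refine ⟨fun i => bN.repr ⟨A *ᵥ y, h1⟩ i, ?_⟩
    apply mulVec_injective hdet
    change A *ᵥ y = A.mulVecLin (∑ i, _)
    rw [map_sum]
    have h2 := bN.sum_repr ⟨A *ᵥ y, h1⟩
    have h3 := congrArg (fun x : AE => (x : ι → ℤ)) h2
    simp only [AddSubmonoidClass.coe_finsetSum, SetLike.val_smul] at h3
    refine h3.symm.trans (Finset.sum_congr rfl fun i _ => ?_)
    rw [map_smul]
    congr 1
    rw [snf i, ← hAe i]
    rfl
  -- saturation of AE
  let S : Submodule ℤ (ι → ℤ) := Submodule.span ℤ (Set.range fun i => bM (f i))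
  have hli : LinearIndependent ℤ (fun i => bM (f i)) := bM.linearIndependent.comp _ f.injective
  let bS : Basis (Fin k) ℤ S := Basis.span hli
  have hbS : ∀ i, (bS i : ι → ℤ) = bM (f i) := fun i => congrArg Subtype.val (Basis.span_apply hli i)
  set q : ℕ := ∏ i, (a i).natAbs with hq
  have hqpos : 0 < q := Finset.prod_pos fun i _ => Int.natAbs_pos.mpr (ha i)
  have hAES : AE ≤ S := by
    intro y hy
    have h2 := bN.sum_repr ⟨y, hy⟩
    have h3 := congrArg (fun x : AE => (x : ι → ℤ)) h2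
    simp only [AddSubmonoidClass.coe_finsetSum, SetLike.val_smul] at h3
    rw [← h3]
    refine Submodule.sum_mem _ fun i _ => Submodule.smul_mem _ _ ?_
    rw [snf i]
    exact Submodule.smul_mem _ _ (Submodule.subset_span ⟨i, rfl⟩)
  have hrkS : rk AE = rk S := by rw [rk_eq bN, rk_eq bS]
  -- index of AE in S
  have hdsc : dsc AE = (q : ℤ) ^ 2 * dsc S := by
    rw [dsc_eq bN, dsc_eq bS]
    have h1 : (fun i => (bN i : ι → ℤ)) =
        fun i => ∑ j, (Matrix.diagonal a) i j • (bS j : ι → ℤ) := by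
      funext i
      rw [snf i]
      simp [Matrix.diagonal_apply, hbS]
    rw [h1, det_gm_comb, Matrix.det_diagonal, hq]
    congr 1
    push_cast
    rw [← Finset.prod_pow, ← Finset.prod_pow]
    exact Finset.prod_congr rfl fun i _ => by rw [sq_abs]
  have hindS : ind AE S = q := by
    have h1 := dsc_of_le hAES hrkS
    rw [hdsc] at h1
    have h2 : (0 : ℤ) < dsc S := dsc_pos S
    have h3 : ((q : ℤ)) ^ 2 = (ind AE S : ℤ) ^ 2 := by
      have := mul_right_cancel₀ h2.ne' h1
      exact this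
    have h4 : (q : ℤ) = (ind AE S : ℤ) := by
      rcases sq_eq_sq_iff_eq_or_eq_neg.mp h3 with h | h
      · exact h
      · have : (0 : ℤ) ≤ ind AE S := by positivity
        have : (0 : ℤ) ≤ q := by positivity
        omega
    exact_mod_cast h4.symm
  -- the superlattice
  set AN := Np.map A.mulVecLin with hAN
  have hAEN : AE ≤ AN := Submodule.map_mono hE
  have hinf : AN ⊓ S = AE := by
    refine le_antisymm ?_ (le_inf hAEN hAES)
    rintro y ⟨hy1, hy2⟩
    obtain ⟨v, hv, rfl⟩ := Submodule.mem_map.mp hy1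
    refine Submodule.mem_map.mpr ⟨v, ?_, rfl⟩
    -- q • y ∈ AE
    have h1 : ∀ y ∈ S, (q : ℤ) • y ∈ AE := by
      intro y hy
      refine Submodule.span_induction (p := fun y _ => (q : ℤ) • y ∈ AE) ?_ ?_ ?_ ?_ hy
      · rintro _ ⟨i, rfl⟩
        have hd : (a i) ∣ (q : ℤ) := by
          have : (a i).natAbs ∣ q := Finset.dvd_prod_of_mem _ (Finset.mem_univ i)
          exact Int.natAbs_dvd.mp (by exact_mod_cast this)
        obtain ⟨c, hc⟩ := hd
        rw [hc, mul_comm, mul_smul, ← snf i]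
        exact Submodule.smul_mem _ _ (bN i).2
      · simp
      · intro x y _ _ hx hy
        rw [smul_add]; exact Submodule.add_mem _ hx hy
      · intro c x _ hx
        rw [smul_comm]; exact Submodule.smul_mem _ _ hx
    have h2 := h1 _ hy2
    obtain ⟨w, hw, hww⟩ := Submodule.mem_map.mp h2
    have h3 : w = (q : ℤ) • v := by
      apply mulVec_injective hdet
      rw [hww, map_smul]
    rw [h3] at hw
    exact isSat_orth U (q : ℤ) v (by exact_mod_cast hqpos.ne') hw
  have hindW : ind AN (AN ⊔ S) = q := by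
    rw [← hindS]
    unfold ind
    have e1 : (AN ⊔ S).toAddSubgroup = S.toAddSubgroup ⊔ AN.toAddSubgroup := by
      rw [sup_comm]
      exact Submodule.sup_toAddSubgroup S AN
    rw [e1, AddSubgroup.relIndex_sup_right]
    have e2 : AE.toAddSubgroup = AN.toAddSubgroup ⊓ S.toAddSubgroup := by
      rw [← hinf]
      rfl
    rw [e2, AddSubgroup.inf_relIndex_right]
  have hrkW : rk AN = rk (AN ⊔ S) := by
    have h1 := rk_modular AN S
    rw [hinf, hrkS] at h1
    omega
  -- index of Lam
  have hidx : 0 < Nat.card ((ι → ℤ) ⧸ Lam) ∧ Nat.card ((ι → ℤ) ⧸ Lam) ≤ q := by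
    have : ∀ i, NeZero (a i).natAbs := fun i => ⟨(Int.natAbs_pos.mpr (ha i)).ne'⟩
    let g : (ι → ℤ) →+ (∀ i : Fin k, ZMod (a i).natAbs) :=
      { toFun := fun z i => ((z ⬝ᵥ e i : ℤ) : ZMod (a i).natAbs)
        map_zero' := by funext i; simp
        map_add' := by intro x y; funext i; simp [add_dotProduct] }
    have hker : g.ker ≤ Lam.toAddSubgroup := by
      intro z hz
      have h1 : ∀ i, ∃ c : ℤ, z ⬝ᵥ e i = a i * c := by
        intro i
        have h2 : g z i = 0 := congrFun (AddMonoidHom.mem_ker.mp hz) i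
        have h3 : (((z ⬝ᵥ e i : ℤ)) : ZMod (a i).natAbs) = 0 := h2
        rw [ZMod.intCast_zmod_eq_zero_iff_dvd] at h3
        have h4 : a i ∣ z ⬝ᵥ e i := by
          have := Int.natAbs_dvd.mp h3
          exact this
        exact h4
      choose c hc using h1
      -- x with x ⬝ bM (f i) = c i
      obtain ⟨x, hx⟩ := exists_rep (∑ i, c i • bM.coord (f i))
      have hx2 : ∀ i, x ⬝ᵥ bM (f i) = c i := by
        intro i
        rw [← hx]
        simp only [LinearMap.sum_apply, LinearMap.smul_apply, Basis.coord_apply, Basis.repr_self,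
          Finsupp.single_apply, EmbeddingLike.apply_eq_iff_eq, smul_eq_mul, mul_ite, mul_one,
          mul_zero]
        simp
      have h5 : z - A *ᵥ x ∈ orth E := by
        intro y hy
        obtain ⟨d, rfl⟩ := hspan y hy
        rw [dotProduct_sum]
        refine Finset.sum_eq_zero fun i _ => ?_
        rw [dotProduct_smul, sub_dotProduct]
        have h6 : (A *ᵥ x) ⬝ᵥ e i = a i * c i := by
          have : (A *ᵥ x) ⬝ᵥ e i = x ⬝ᵥ (A *ᵥ e i) := by
            rw [Matrix.dotProduct_mulVec, ← Matrix.mulVec_transpose, hA]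
          rw [this, hAe i, dotProduct_smul, hx2 i, smul_eq_mul]
        rw [hc i, h6, sub_self, smul_zero]
      have h7 : z - A *ᵥ x ∈ Lam := hUL (by rw [← orth_orth_of_sat hU]; exact h5)
      have h8 : A *ᵥ x ∈ Lam := hrange ⟨x, rfl⟩
      have := Lam.add_mem h7 h8
      simpa using this
    have hcard1 : Nat.card ((ι → ℤ) ⧸ g.ker) ≤ q := by
      have h1 : Nat.card ((ι → ℤ) ⧸ g.ker) ≤ Nat.card (∀ i : Fin k, ZMod (a i).natAbs) :=
        Nat.card_le_card_of_injective _ (QuotientAddGroup.kerLift_injective g)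
      rw [Nat.card_pi] at h1
      simpa [hq] using h1
    have hfin : Finite ((ι → ℤ) ⧸ g.ker) :=
      Finite.of_injective _ (QuotientAddGroup.kerLift_injective g)
    have hne : g.ker.index ≠ 0 := by
      have : Nat.card ((ι → ℤ) ⧸ g.ker) ≠ 0 := Nat.card_pos.ne'
      exact this
    have hdvd : Lam.toAddSubgroup.index ∣ g.ker.index := AddSubgroup.index_dvd_of_le hker
    have hlam : Nat.card ((ι → ℤ) ⧸ Lam) = Lam.toAddSubgroup.index := rfl
    constructor
    · rw [hlam]
      exact Nat.pos_of_ne_zero fun h0 => hne (by rw [h0] at hdvd; exact Nat.eq_zero_of_zero_dvd hdvd)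
    · rw [hlam]
      exact (Nat.le_of_dvd (Nat.pos_of_ne_zero hne) hdvd).trans hcard1
  refine ⟨AN ⊔ S, le_sup_left, hrkW.symm, hidx.1, ?_⟩
  have h1 := lc_of_le (le_sup_left : AN ≤ AN ⊔ S) hrkW
  rw [h1, hindW]
  have h2 : Real.log (Nat.card ((ι → ℤ) ⧸ Lam)) ≤ Real.log q :=
    Real.log_le_log (by exact_mod_cast hidx.1) (by exact_mod_cast hidx.2)
  linarith

end main

end Crest.Agent.R152.Glo
end

-- ▼ part R152/Glo2
section

set_option autoImplicit false
set_option linter.unusedSectionVars false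
set_option linter.unusedVariables false

/-!
# Row 152, module GLO, part 2: the covolume of `A N`

`lc_map_le`: for injective `A`, `lc (A M) ≤ lc M + (r/2) log ((∑ a_ij²)/r)`, `r = rk M`.
-/

namespace Crest.Agent.R152.Glo

open Matrix Module Crest.Agent.R152.Lat

/-- determinant of a positive semidefinite matrix at most (trace / r)^r -/
theorem det_le_trace_pow {κ : Type*} [Fintype κ] [DecidableEq κ] {P : Matrix κ κ ℝ}
    (hP : P.PosSemidef) (hr : 0 < Fintype.card κ) :
    P.det ≤ (P.trace / Fintype.card κ) ^ Fintype.card κ := by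
  have h1 := hP.1.det_eq_prod_eigenvalues
  have h2 := hP.1.trace_eq_sum_eigenvalues
  simp only [RCLike.ofReal_real_eq_id, id_eq] at h1 h2
  rw [h1, h2]
  have hr' : (0 : ℝ) < Fintype.card κ := by exact_mod_cast hr
  have hnn : ∀ i, 0 ≤ hP.1.eigenvalues i := fun i => hP.eigenvalues_nonneg i
  have h3 := Real.geom_mean_le_arith_mean_weighted Finset.univ
    (fun _ : κ => (1 : ℝ) / Fintype.card κ) (fun i => hP.1.eigenvalues i)
    (fun i _ => by positivity)
    (by simp only [Finset.sum_const, Finset.card_univ, nsmul_eq_mul]; field_simp)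
    (fun i _ => hnn i)
  have h4 : (∏ i, hP.1.eigenvalues i ^ ((1 : ℝ) / Fintype.card κ)) ^ (Fintype.card κ) =
      ∏ i, hP.1.eigenvalues i := by
    rw [← Finset.prod_pow]
    refine Finset.prod_congr rfl fun i _ => ?_
    rw [← Real.rpow_natCast, ← Real.rpow_mul (hnn i), one_div,
      inv_mul_cancel₀ hr'.ne', Real.rpow_one]
  rw [← h4]
  have h5 : (∑ i, (1 : ℝ) / Fintype.card κ * hP.1.eigenvalues i) =
      (∑ i, hP.1.eigenvalues i) / Fintype.card κ := by
    rw [← Finset.mul_sum]; ring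
  rw [← h5]
  exact pow_le_pow_left₀ (Finset.prod_nonneg fun i _ => Real.rpow_nonneg (hnn i) _) h3 _

section abstract_map

variable {E F : Type*} [NormedAddCommGroup E] [InnerProductSpace ℝ E]
  [NormedAddCommGroup F] [InnerProductSpace ℝ F]

/-- gram matrix of a combination -/
theorem gram_comb {κ κ' : Type*} [Fintype κ] (C : Matrix κ' κ ℝ) (u : κ → E) :
    Matrix.gram ℝ (fun i => ∑ j, C i j • u j) = C * Matrix.gram ℝ u * Cᵀ := by
  ext i j
  simp only [Matrix.gram_apply, Matrix.mul_apply, Matrix.transpose_apply, sum_inner, inner_sum,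
    real_inner_smul_left, real_inner_smul_right, Finset.sum_mul]
  refine Finset.sum_congr rfl fun a _ => Finset.sum_congr rfl fun b _ => ?_
  ring

theorem gram_orthonormal {κ : Type*} [DecidableEq κ] {u : κ → E} (hu : Orthonormal ℝ u) :
    Matrix.gram ℝ u = 1 := by
  ext i j
  rw [Matrix.gram_apply, Matrix.one_apply]
  exact (orthonormal_iff_ite.mp hu) i j

theorem det_gram_map_le {κ : Type*} [Fintype κ] [DecidableEq κ] (T : E →ₗ[ℝ] F) (τ : ℝ)
    (hτ : ∀ u : κ → E, Orthonormal ℝ u → ∑ j, ‖T (u j)‖ ^ 2 ≤ τ) {v : κ → E}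
    (hv : LinearIndependent ℝ v) (hr : 0 < Fintype.card κ) :
    (Matrix.gram ℝ (fun i => T (v i))).det ≤
      (Matrix.gram ℝ v).det * (τ / Fintype.card κ) ^ Fintype.card κ := by
  classical
  set S := Submodule.span ℝ (Set.range v) with hS
  have : FiniteDimensional ℝ S := FiniteDimensional.span_of_finite ℝ (Set.finite_range v)
  have hfin : finrank ℝ S = Fintype.card κ := finrank_span_eq_card hv
  let e : Fin (finrank ℝ S) ≃ κ := (finCongr hfin).trans (Fintype.equivFin κ).symm
  let w : OrthonormalBasis κ ℝ S := (stdOrthonormalBasis ℝ S).reindex e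
  let u : κ → E := fun j => (w j : E)
  have hu : Orthonormal ℝ u := by
    have := w.orthonormal
    exact this.comp_linearIsometry S.subtypeₗᵢ
  have hvS : ∀ i, v i ∈ S := fun i => Submodule.subset_span ⟨i, rfl⟩
  let C : Matrix κ κ ℝ := Matrix.of fun i j => inner ℝ (w j) (⟨v i, hvS i⟩ : S)
  have hvC : ∀ i, v i = ∑ j, C i j • u j := by
    intro i
    have h := w.sum_repr (⟨v i, hvS i⟩ : S)
    have h2 := congrArg (fun z : S => (z : E)) h
    simp only [Submodule.coe_sum, Submodule.coe_smul] at h2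
    rw [← h2]
    refine Finset.sum_congr rfl fun j _ => ?_
    simp only [C, u, Matrix.of_apply, w.repr_apply_apply]
  have hg : Matrix.gram ℝ v = C * Cᵀ := by
    have : v = fun i => ∑ j, C i j • u j := funext hvC
    rw [this, gram_comb, gram_orthonormal hu, Matrix.mul_one]
  have hgT : Matrix.gram ℝ (fun i => T (v i)) = C * Matrix.gram ℝ (fun j => T (u j)) * Cᵀ := by
    have : (fun i => T (v i)) = fun i => ∑ j, C i j • T (u j) := by
      funext i; rw [hvC i, map_sum]; simp
    rw [this, gram_comb]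
  rw [hgT, hg, Matrix.det_mul, Matrix.det_mul, Matrix.det_mul, Matrix.det_transpose]
  have hP : (Matrix.gram ℝ (fun j => T (u j))).PosSemidef := posSemidef_gram _ _
  have h1 := det_le_trace_pow hP hr
  have h2 : (Matrix.gram ℝ (fun j => T (u j))).trace ≤ τ := by
    have : (Matrix.gram ℝ (fun j => T (u j))).trace = ∑ j, ‖T (u j)‖ ^ 2 := by
      simp [Matrix.trace, Matrix.gram_apply]
    rw [this]; exact hτ u hu
  have h0 : 0 ≤ (Matrix.gram ℝ (fun j => T (u j))).trace := by
    have : (Matrix.gram ℝ (fun j => T (u j))).trace = ∑ j, ‖T (u j)‖ ^ 2 := by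
      simp [Matrix.trace, Matrix.gram_apply]
    rw [this]; positivity
  have hr' : (0 : ℝ) < Fintype.card κ := by exact_mod_cast hr
  have h3 : (Matrix.gram ℝ (fun j => T (u j))).det ≤ (τ / Fintype.card κ) ^ Fintype.card κ :=
    h1.trans (pow_le_pow_left₀ (by positivity) (by gcongr) _)
  nlinarith [mul_le_mul_of_nonneg_left h3 (mul_self_nonneg C.det)]

end abstract_map

variable {ι : Type*} [Fintype ι] [DecidableEq ι]

/-- the real linear map of an integer matrix -/
noncomputable def rT (A : Matrix ι ι ℤ) : EuclideanSpace ℝ ι →ₗ[ℝ] EuclideanSpace ℝ ι :=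
  Matrix.toEuclideanLin (A.map (Int.cast : ℤ → ℝ))

theorem rT_apply (A : Matrix ι ι ℤ) (x : EuclideanSpace ℝ ι) (i : ι) :
    rT A x i = ∑ k, (A i k : ℝ) * x k := by
  simp [rT, Matrix.toLpLin_apply, Matrix.mulVec, dotProduct]

theorem rT_ev (A : Matrix ι ι ℤ) (x : ι → ℤ) : rT A (ev x) = ev (A *ᵥ x) := by
  ext i
  rw [rT_apply]
  simp [Matrix.mulVec, dotProduct]

/-- Bessel: the Hilbert–Schmidt bound -/
theorem sum_norm_rT_le (A : Matrix ι ι ℤ) {κ : Type*} [Fintype κ]
    (u : κ → EuclideanSpace ℝ ι) (hu : Orthonormal ℝ u) :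
    ∑ j, ‖rT A (u j)‖ ^ 2 ≤ ∑ i, ∑ k, (A i k : ℝ) ^ 2 := by
  classical
  have h1 : ∀ j, ‖rT A (u j)‖ ^ 2 = ∑ i, ‖inner ℝ (u j) (ev (A i))‖ ^ 2 := by
    intro j
    rw [EuclideanSpace.norm_sq_eq]
    refine Finset.sum_congr rfl fun i _ => ?_
    rw [rT_apply]
    congr 2
  simp_rw [h1]
  rw [Finset.sum_comm]
  refine Finset.sum_le_sum fun i _ => ?_
  refine (hu.sum_inner_products_le (x := ev (A i)) (s := Finset.univ)).trans ?_
  rw [EuclideanSpace.norm_sq_eq]
  simp

theorem rk_map {A : Matrix ι ι ℤ} (hA : A.det ≠ 0) (M : Submodule ℤ (ι → ℤ)) :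
    rk (M.map A.mulVecLin) = rk M := by
  have hinj : Function.Injective A.mulVecLin := mulVec_injective hA
  exact (LinearEquiv.finrank_eq (Submodule.equivMapOfInjective _ hinj M)).symm

/-- **covolume of `A M`** -/
theorem lc_map_le {A : Matrix ι ι ℤ} (hA : A.det ≠ 0) (M : Submodule ℤ (ι → ℤ)) :
    lc (M.map A.mulVecLin) ≤
      lc M + (rk M : ℝ) / 2 * Real.log ((∑ i, ∑ k, (A i k : ℝ) ^ 2) / rk M) := by
  classical
  have hinj : Function.Injective A.mulVecLin := mulVec_injective hA
  let b : Basis (Fin (rk M)) ℤ M := Module.finBasis ℤ M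
  let b' : Basis (Fin (rk M)) ℤ (M.map A.mulVecLin) :=
    b.map (Submodule.equivMapOfInjective _ hinj M)
  have e1 : dsc M = (gm fun i => ((b i : M) : ι → ℤ)).det := dsc_eq b
  have e2 : dsc (M.map A.mulVecLin) = (gm fun i => A *ᵥ ((b i : M) : ι → ℤ)).det := by
    rw [dsc_eq b']
    congr 2
  have p1 : (0 : ℝ) < dsc M := by exact_mod_cast dsc_pos M
  have p2 : (0 : ℝ) < dsc (M.map A.mulVecLin) := by exact_mod_cast dsc_pos _
  rcases Nat.eq_zero_or_pos (rk M) with h0 | hr
  · have : dsc (M.map A.mulVecLin) = 1 := by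
      rw [e2]
      haveI : IsEmpty (Fin (rk M)) := by rw [h0]; infer_instance
      exact Matrix.det_isEmpty
    rw [h0, lc, this]
    simpa using lc_nonneg M
  · have hr' : (0 : ℝ) < rk M := by exact_mod_cast hr
    have key := det_gram_map_le (rT A) (∑ i, ∑ k, (A i k : ℝ) ^ 2)
      (fun u hu => sum_norm_rT_le A u hu) (v := fun i : Fin (rk M) => ev ((b i : M) : ι → ℤ))
      (linearIndependent_ev (basis_linearIndependent b)) (by simpa using hr)
    simp only [rT_ev] at key
    rw [← det_gm_cast, ← det_gm_cast, ← e1, ← e2, Fintype.card_fin] at key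
    set τ : ℝ := ∑ i, ∑ k, (A i k : ℝ) ^ 2 with hτ
    have hτ0 : 0 ≤ τ := by positivity
    have hτp : 0 < τ / rk M := by
      rcases hτ0.eq_or_lt with h | h
      · exfalso
        rw [← h, zero_div, zero_pow (by omega), mul_zero] at key
        linarith
      · positivity
    have hlog := Real.log_le_log p2 key
    rw [Real.log_mul p1.ne' (pow_pos hτp _).ne', Real.log_pow] at hlog
    rw [lc, lc]
    linarith

end Crest.Agent.R152.Glo
end

-- ▼ part R152/LatO
section

set_option autoImplicit false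
set_option linter.unusedSectionVars false

/-!
# Row 152, module LAT (helper223): the orthogonal lattice has the same covolume
-/

namespace Crest.Agent.R152.Lat

open Matrix Module Crest.Agent.R152.Glo

variable {ι : Type*} [Fintype ι]

/-- Jacobi's complementary minor theorem, block form -/
theorem jacobi {m n R : Type*} [Fintype m] [Fintype n] [DecidableEq m] [DecidableEq n]
    [CommRing R] {M N : Matrix (m ⊕ n) (m ⊕ n) R} (h : M * N = 1) :
    M.det * N.toBlocks₂₂.det = M.toBlocks₁₁.det := by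
  have h1 : M * Matrix.fromBlocks 1 N.toBlocks₁₂ 0 N.toBlocks₂₂ =
      Matrix.fromBlocks M.toBlocks₁₁ 0 M.toBlocks₂₁ 1 := by
    have hM := Matrix.fromBlocks_toBlocks M
    have hN := Matrix.fromBlocks_toBlocks N
    have h2 : Matrix.fromBlocks M.toBlocks₁₁ M.toBlocks₁₂ M.toBlocks₂₁ M.toBlocks₂₂ *
        Matrix.fromBlocks N.toBlocks₁₁ N.toBlocks₁₂ N.toBlocks₂₁ N.toBlocks₂₂ = 1 := by
      rw [hM, hN, h]
    rw [Matrix.fromBlocks_multiply, ← Matrix.fromBlocks_one, Matrix.fromBlocks_inj] at h2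
    conv_lhs => rw [← hM]
    rw [Matrix.fromBlocks_multiply, Matrix.fromBlocks_inj]
    refine ⟨by simp, h2.2.1, by simp, h2.2.2.2⟩
  have h3 := congrArg Matrix.det h1
  rw [Matrix.det_mul, Matrix.det_fromBlocks_zero₂₁, Matrix.det_fromBlocks_zero₁₂,
    Matrix.det_one, Matrix.det_one, one_mul, mul_one] at h3
  exact h3

section dual

variable {κ κ' : Type*} [Fintype κ] [DecidableEq κ] [Fintype κ'] [DecidableEq κ'] [DecidableEq ι]

/-- dual family of a basis of `ℤ^ι` -/
theorem exists_dual {τ : Type*} [Fintype τ] [DecidableEq τ] (b : Basis τ ℤ (ι → ℤ)) :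
    ∃ q : τ → ι → ℤ, (∀ i j, q i ⬝ᵥ b j = if i = j then 1 else 0) ∧
      (∀ x : ι → ℤ, x = ∑ j, (q j ⬝ᵥ x) • b j) ∧ (∀ x : ι → ℤ, x = ∑ j, (b j ⬝ᵥ x) • q j) := by
  choose q hq using fun j => exists_rep (b.coord j)
  have h1 : ∀ i j, q i ⬝ᵥ b j = if i = j then 1 else 0 := by
    intro i j
    rw [← hq i (b j), Basis.coord_apply, Basis.repr_self, Finsupp.single_apply]
    by_cases h : i = j <;> simp [h, eq_comm]
  have h2 : ∀ x : ι → ℤ, x = ∑ j, (q j ⬝ᵥ x) • b j := by
    intro x
    conv_lhs => rw [← b.sum_repr x]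
    refine Finset.sum_congr rfl fun j _ => ?_
    rw [← hq j x, Basis.coord_apply]
  refine ⟨q, h1, h2, fun x => ?_⟩
  -- test against every `y`
  have h3 : ∀ y : ι → ℤ, x ⬝ᵥ y = (∑ j, (b j ⬝ᵥ x) • q j) ⬝ᵥ y := by
    intro y
    conv_lhs => rw [h2 y]
    rw [dotProduct_sum, sum_dotProduct]
    refine Finset.sum_congr rfl fun j _ => ?_
    rw [dotProduct_smul, smul_dotProduct, dotProduct_comm x (b j), smul_eq_mul, smul_eq_mul,
      mul_comm]
  funext i
  have := h3 (Pi.single i 1)
  simpa using this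

theorem gm_dual {τ : Type*} [Fintype τ] [DecidableEq τ] (b : Basis τ ℤ (ι → ℤ))
    {q : τ → ι → ℤ} (h1 : ∀ i j, q i ⬝ᵥ b j = if i = j then 1 else 0)
    (h2 : ∀ x : ι → ℤ, x = ∑ j, (q j ⬝ᵥ x) • b j) :
    gm (fun i => b i) * gm q = 1 := by
  ext i j
  rw [Matrix.mul_apply]
  simp only [gm_apply]
  have h4 : q j ⬝ᵥ b i = ∑ k, (b i ⬝ᵥ b k) * (q k ⬝ᵥ q j) := by
    have := h2 (q j)
    conv_lhs => rw [this]
    rw [sum_dotProduct]
    refine Finset.sum_congr rfl fun k _ => ?_
    rw [smul_dotProduct, smul_eq_mul, mul_comm, dotProduct_comm (b k) (b i)]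
  rw [← h4, h1, Matrix.one_apply]
  by_cases h : i = j <;> simp [h, eq_comm]

/-- block form of the duality -/
theorem dual_block (b : Basis (κ ⊕ κ') ℤ (ι → ℤ)) :
    dsc (orth (Submodule.span ℤ (Set.range fun i => b (Sum.inl i)))) =
      dsc (Submodule.span ℤ (Set.range fun i => b (Sum.inl i))) ∧
    rk (orth (Submodule.span ℤ (Set.range fun i => b (Sum.inl i)))) = Fintype.card κ' := by
  obtain ⟨q, h1, h2, h3⟩ := exists_dual b
  have hG := gm_dual b h1 h2
  have hliL : LinearIndependent ℤ (fun i => b (Sum.inl i)) :=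
    b.linearIndependent.comp _ Sum.inl_injective
  have hliq : LinearIndependent ℤ (fun i => q (Sum.inr i)) := by
    rw [Fintype.linearIndependent_iff]
    intro c hc i
    have h4 := congrArg (fun x => x ⬝ᵥ b (Sum.inr i)) hc
    simp only [sum_dotProduct, smul_dotProduct, h1, zero_dotProduct] at h4
    simpa using h4
  have horth : orth (Submodule.span ℤ (Set.range fun i => b (Sum.inl i))) =
      Submodule.span ℤ (Set.range fun i => q (Sum.inr i)) := by
    apply le_antisymm
    · intro v hv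
      rw [h3 v, Fintype.sum_sum_type]
      refine Submodule.add_mem _ (Submodule.sum_mem _ fun i _ => ?_)
        (Submodule.sum_mem _ fun i _ => Submodule.smul_mem _ _ (Submodule.subset_span ⟨i, rfl⟩))
      have : b (Sum.inl i) ⬝ᵥ v = 0 := by
        rw [dotProduct_comm]; exact hv _ (Submodule.subset_span ⟨i, rfl⟩)
      rw [this, zero_smul]; exact Submodule.zero_mem _
    · rw [Submodule.span_le]
      rintro _ ⟨j, rfl⟩ u hu
      induction hu using Submodule.span_induction with
      | mem w hw => obtain ⟨i, rfl⟩ := hw; simp [h1]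
      | zero => simp
      | add x y _ _ hx hy => rw [dotProduct_add, hx, hy, add_zero]
      | smul c x _ hx => rw [dotProduct_smul, hx, smul_zero]
  rw [horth, dsc_span_range hliq, dsc_span_range hliL, rk_span_range hliq]
  refine ⟨?_, rfl⟩
  have hj := jacobi hG
  have e1 : (gm (fun i => b i)).toBlocks₁₁ = gm (fun i => b (Sum.inl i)) := by
    ext i j; rfl
  have e2 : (gm q).toBlocks₂₂ = gm (fun i => q (Sum.inr i)) := by
    ext i j; rfl
  rw [e1, e2] at hj
  have hdet : (gm (fun i => b i)).det = 1 := by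
    have hpos : 0 < (gm (fun i => b i)).det := det_gm_pos b.linearIndependent
    have hu : IsUnit (gm (fun i => b i)).det := by
      have := congrArg Matrix.det hG
      rw [Matrix.det_mul, Matrix.det_one] at this
      exact IsUnit.of_mul_eq_one _ this
    rcases Int.isUnit_iff.mp hu with h | h
    · exact h
    · omega
  rw [hdet, one_mul] at hj
  exact hj

end dual

theorem sat_iff_isSat {L : Submodule ℤ (ι → ℤ)} : sat L = L ↔ IsSat L := by
  constructor
  · intro h m x hm hx
    rw [← h]; exact ⟨m, hm, hx⟩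
  · intro h
    apply le_antisymm _ (le_sat L)
    rintro x ⟨m, hm, hx⟩
    exact h m x hm hx

/-- a saturated lattice is generated by a part of a basis of `ℤ^ι` -/
theorem exists_basis_sum [DecidableEq ι] {U : Submodule ℤ (ι → ℤ)} (hU : IsSat U) :
    ∃ (k l : ℕ) (b : Basis (Fin k ⊕ Fin l) ℤ (ι → ℤ)),
      U = Submodule.span ℤ (Set.range fun i => b (Sum.inl i)) := by
  classical
  obtain ⟨k, bM, bN, f, a, snf⟩ := Submodule.smithNormalForm (Pi.basisFun ℤ ι) U
  have ha : ∀ i, a i ≠ 0 := by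
    intro i h0
    have h1 := snf i
    rw [h0, zero_smul] at h1
    exact bN.ne_zero i (Subtype.ext h1)
  have hb : ∀ i, bM (f i) ∈ U := by
    intro i
    refine hU (a i) _ (ha i) ?_
    rw [← snf i]
    exact (bN i).2
  let C := {j : ι // j ∉ Set.range f}
  let e0 : Fin k ≃ {j : ι // j ∈ Set.range f} := Equiv.ofInjective f f.injective
  let e1 : C ≃ Fin (Fintype.card C) := Fintype.equivFin C
  let e : ι ≃ Fin k ⊕ Fin (Fintype.card C) :=
    (Equiv.sumCompl (fun j => j ∈ Set.range f)).symm.trans (Equiv.sumCongr e0.symm e1)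
  refine ⟨k, Fintype.card C, bM.reindex e, ?_⟩
  have hbe : ∀ i : Fin k, (bM.reindex e) (Sum.inl i) = bM (f i) := by
    intro i
    rw [Basis.reindex_apply]
    congr 1
  simp only [hbe]
  apply le_antisymm
  · intro x hx
    have h2 := bN.sum_repr ⟨x, hx⟩
    have h3 := congrArg (fun x : U => (x : ι → ℤ)) h2
    simp only [AddSubmonoidClass.coe_finsetSum, SetLike.val_smul] at h3
    rw [← h3]
    refine Submodule.sum_mem _ fun i _ => Submodule.smul_mem _ _ ?_
    rw [snf i]
    exact Submodule.smul_mem _ _ (Submodule.subset_span ⟨i, rfl⟩)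
  · rw [Submodule.span_le]
    rintro _ ⟨i, rfl⟩
    exact hb i

theorem dsc_orth [DecidableEq ι] {U : Submodule ℤ (ι → ℤ)} (hU : IsSat U) :
    dsc (orth U) = dsc U := by
  obtain ⟨k, l, b, rfl⟩ := exists_basis_sum hU
  exact (dual_block b).1

theorem lc_orth [DecidableEq ι] {U : Submodule ℤ (ι → ℤ)} (hU : IsSat U) :
    lc (orth U) = lc U := by
  unfold lc; rw [dsc_orth hU]

theorem rk_orth_of_sat [DecidableEq ι] {U : Submodule ℤ (ι → ℤ)} (hU : IsSat U) :
    rk (orth U) + rk U = Fintype.card ι := by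
  obtain ⟨k, l, b, rfl⟩ := exists_basis_sum hU
  have hli : LinearIndependent ℤ (fun i => b (Sum.inl i)) :=
    b.linearIndependent.comp _ Sum.inl_injective
  rw [(dual_block b).2, rk_span_range hli]
  have h1 : Fintype.card ι = Fintype.card (Fin k ⊕ Fin l) := by
    have h2 := Module.finrank_eq_card_basis b
    rw [Module.finrank_fintype_fun_eq_card] at h2
    exact h2
  rw [h1, Fintype.card_sum]; omega

theorem orth_sat (L : Submodule ℤ (ι → ℤ)) : orth (sat L) = orth L := by
  apply le_antisymm (orth_anti (le_sat L))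
  rintro v hv u ⟨m, hm, hu⟩
  have h1 := hv _ hu
  rw [dotProduct_smul, smul_eq_mul] at h1
  exact (mul_eq_zero.mp h1).resolve_left hm

theorem rk_orth [DecidableEq ι] (L : Submodule ℤ (ι → ℤ)) :
    rk (orth L) + rk L = Fintype.card ι := by
  rw [← orth_sat, ← rk_sat L]
  exact rk_orth_of_sat (sat_iff_isSat.mp (sat_sat L))

theorem lc_orth_sat [DecidableEq ι] (L : Submodule ℤ (ι → ℤ)) : lc (orth L) = lc (sat L) := by
  rw [← orth_sat]
  exact lc_orth (sat_iff_isSat.mp (sat_sat L))


end Crest.Agent.R152.Lat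
end

-- ▼ part R152/Glo3

set_option autoImplicit false
set_option linter.unusedSectionVars false
set_option linter.unusedVariables false

/-!
# Row 152, module GLO, part 3: the deterministic core
-/

namespace Crest.Agent.R152.Glo

open Matrix Module Crest.Agent.R152.Lat

variable {ι : Type*} [Fintype ι] [DecidableEq ι]

theorem isSat_of_sat {L : Submodule ℤ (ι → ℤ)} (h : sat L = L) : IsSat L := by
  intro m x hm hx
  rw [← h, mem_sat]
  exact ⟨m, hm, hx⟩



theorem card_quot (L : Submodule ℤ (ι → ℤ)) : Nat.card ((ι → ℤ) ⧸ L) = ind L ⊤ := by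
  unfold ind
  rw [show (⊤ : Submodule ℤ (ι → ℤ)).toAddSubgroup = ⊤ from rfl, AddSubgroup.relIndex_top_right]
  rfl

/-- `lc` of a full rank lattice is the log of the index -/
theorem lc_full {L : Submodule ℤ (ι → ℤ)} (h : rk L = Fintype.card ι) :
    lc L = Real.log (ind L ⊤) := by
  have := lc_of_le (L' := L) (L := ⊤) le_top (by rw [h, rk_top])
  rw [lc_top] at this
  linarith

theorem rk_range {A : Matrix ι ι ℤ} (hA : A.det ≠ 0) :
    rk (LinearMap.range A.mulVecLin) = Fintype.card ι := by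
  rw [← Submodule.map_top, rk_map hA, rk_top]

theorem rk_of_range_le {A : Matrix ι ι ℤ} (hA : A.det ≠ 0) {L : Submodule ℤ (ι → ℤ)}
    (h : LinearMap.range A.mulVecLin ≤ L) : rk L = Fintype.card ι :=
  le_antisymm (rk_le_card L) (by rw [← rk_range hA]; exact rk_mono h)

/-- adding the saturation of a sublattice `D` costs at most `lc D` of index -/
theorem index_sup {D Lam : Submodule ℤ (ι → ℤ)} (hD : D ≤ Lam)
    (hfull : rk Lam = Fintype.card ι) :
    Real.log (ind Lam ⊤) ≤ Real.log (ind (Lam ⊔ sat D) ⊤) + lc D := by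
  have h1 : rk (Lam ⊔ sat D) = Fintype.card ι :=
    le_antisymm (rk_le_card _) (by rw [← hfull]; exact rk_mono le_sup_left)
  have h2 := lc_of_le (L' := Lam) (L := Lam ⊔ sat D) le_sup_left (by rw [h1, hfull])
  rw [ind_sup] at h2
  rw [← lc_full hfull, ← lc_full h1, h2]
  have h3 : (ind Lam (sat D) : ℝ) ≤ ind D (sat D) := by
    have : ind Lam (sat D) ≤ ind D (sat D) := by
      unfold ind
      refine AddSubgroup.relIndex_le_of_le_left (Submodule.toAddSubgroup_mono hD) ?_
      exact (ind_pos (le_sat D) (rk_sat D).symm).ne'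
    exact_mod_cast this
  have h4 : Real.log (ind Lam (sat D)) ≤ Real.log (ind D (sat D)) := by
    refine Real.log_le_log ?_ h3
    have : 0 < ind Lam (sat D) := by
      rw [← ind_sup]
      exact ind_pos le_sup_left (by rw [h1, hfull])
    exact_mod_cast this
  have h5 := lc_sat D
  have h6 := lc_nonneg (sat D)
  linarith

/-- `(r/2) log(n²/r) ≤ (r/2) log n + n` -/
theorem half_log_bound {n r : ℕ} (hn : 1 ≤ n) (hr : r ≤ n) :
    (r : ℝ) / 2 * Real.log ((n : ℝ) ^ 2 / r) ≤ (r : ℝ) / 2 * Real.log n + n := by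
  have hn' : (1 : ℝ) ≤ n := by exact_mod_cast hn
  rcases Nat.eq_zero_or_pos r with h | h
  · subst h; simp
  · have hr' : (0 : ℝ) < r := by exact_mod_cast h
    have e : (n : ℝ) ^ 2 / r = n * (n / r) := by ring
    rw [e, Real.log_mul (by positivity) (by positivity), mul_add]
    have h1 : Real.log ((n : ℝ) / r) ≤ n / r := by
      have := Real.log_le_sub_one_of_pos (show 0 < (n : ℝ) / r by positivity)
      linarith
    have h2 : (r : ℝ) / 2 * Real.log ((n : ℝ) / r) ≤ (r : ℝ) / 2 * (n / r) :=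
      mul_le_mul_of_nonneg_left h1 (by positivity)
    have h3 : (r : ℝ) / 2 * (n / r) = n / 2 := by field_simp
    linarith

/-- **deterministic core of GLO.** -/
theorem det_core {A : Matrix ι ι ℤ} (hA : Aᵀ = A) (hdet : A.det ≠ 0)
    (hent : ∀ i j, (A i j) ^ 2 = 1) (hn : 1 ≤ Fintype.card ι) {Lam D V : Submodule ℤ (ι → ℤ)}
    (hrange : LinearMap.range A.mulVecLin ≤ Lam) (hD : D ≤ Lam) (hV : sat V = V) {K κ : ℝ}
    (hK : 0 ≤ K) (hκ : (rk V : ℝ) ≤ rk (V ⊓ sat D) + κ * Fintype.card ι) :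
    ∃ W : Submodule ℤ (ι → ℤ), (orth V).map A.mulVecLin ≤ W ∧
      lc W + K * Real.log (Fintype.card ι) * rk W ≤
        (K + 1 / 2) * rk (orth V) * Real.log (Fintype.card ι)
        + (K + 1 / 2) * κ * Fintype.card ι * Real.log (Fintype.card ι)
        + lc V + 2 * lc D + Fintype.card ι - Real.log (ind Lam ⊤) := by
  set n := Fintype.card ι with hnn
  have hfull : rk Lam = Fintype.card ι := rk_of_range_le hdet hrange
  set U := sat D with hU
  set Np := orth (V ⊓ U) with hNp
  obtain ⟨W, hW1, hW2, hW3, hW4⟩ := exists_super hA hdet (U := U) (Lam := Lam ⊔ U) (Np := Np)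
    (isSat_of_sat (sat_sat D)) (hrange.trans le_sup_left) le_sup_right (orth_anti inf_le_right)
  refine ⟨W, (Submodule.map_mono (orth_anti inf_le_left)).trans hW1, ?_⟩
  rw [card_quot] at hW4
  have h1 := index_sup hD hfull
  have h2 := lc_map_le hdet Np
  have hsum : (∑ i, ∑ k, (A i k : ℝ) ^ 2) = (n : ℝ) ^ 2 := by
    have : ∀ i k, (A i k : ℝ) ^ 2 = 1 := fun i k => by exact_mod_cast hent i k
    simp only [this, Finset.sum_const, Finset.card_univ, nsmul_eq_mul, mul_one]
    rw [sq]
  rw [hsum] at h2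
  have h3 := half_log_bound hn (rk_le_card Np)
  have hL : 0 ≤ Real.log n := Real.log_nonneg (by exact_mod_cast hn)
  have hsatVU : sat (V ⊓ U) = V ⊓ U := sat_inf hV (sat_sat D)
  have h4 : lc Np ≤ lc V + lc D := by
    rw [hNp, Lat.lc_orth_sat, hsatVU]
    have a1 := lc_submod V U
    have a2 := lc_nonneg (V ⊔ U)
    have a3 := lc_sat_le D
    linarith
  have h5 : (rk Np : ℝ) ≤ rk (orth V) + κ * n := by
    have b1 := Lat.rk_orth (V ⊓ U)
    have b2 := Lat.rk_orth V
    have b1' : (rk Np : ℝ) + rk (V ⊓ U) = n := by exact_mod_cast b1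
    have b2' : (rk (orth V) : ℝ) + rk V = n := by exact_mod_cast b2
    linarith
  have h6 : rk W = rk Np := by rw [hW2, rk_map hdet]
  rw [h6]
  have h7 : (K + 1 / 2) * (rk Np : ℝ) * Real.log n ≤
      (K + 1 / 2) * (rk (orth V) + κ * n) * Real.log n := by gcongr
  nlinarith [h7, hW4, h1, h2, h3, h4]

end Crest.Agent.R152.Glo
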