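import Mathlib
import Crest.Agent.R152.Base2
import Crest.Agent.R152.Lat1
import Crest.Agent.R152.Lat2
import Crest.Agent.R152.Lat3

-- ▼ part R152/LS2
section

set_option autoImplicit false
set_option linter.unusedSectionVars false

/-! Row 152, module LS (helper162's Lemma S), part 2: the potential `psi`, extension by zero and
restriction, the algebra of one step of the column exposure chain. -/

open Crest.FinProb Crest.ProbabilityR.SignMatrix

namespace Crest.Agent.R152.LS

open Crest.Agent.R152.Base Crest.Agent.R152.Lat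

section Psi
variable {ι : Type*} [Fintype ι]

/-- the potential of a lattice: minimum of `lc F + κ rk F` over all lattices `F ≥ X` -/
noncomputable def psi (κ : ℝ) (X : Submodule ℤ (ι → ℤ)) : ℝ :=
  sInf ((fun F : Submodule ℤ (ι → ℤ) => lc F + κ * rk F) '' {F | X ≤ F})

theorem psi_bdd {κ : ℝ} (hκ : 0 ≤ κ) (X : Submodule ℤ (ι → ℤ)) :
    BddBelow ((fun F : Submodule ℤ (ι → ℤ) => lc F + κ * rk F) '' {F | X ≤ F}) := by
  refine ⟨0, ?_⟩
  rintro _ ⟨F, -, rfl⟩
  have := lc_nonneg F
  have h2 : 0 ≤ κ * (rk F : ℝ) := by positivity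
  show 0 ≤ lc F + κ * (rk F : ℝ)
  linarith

theorem psi_le {κ : ℝ} (hκ : 0 ≤ κ) {X F : Submodule ℤ (ι → ℤ)} (h : X ≤ F) :
    psi κ X ≤ lc F + κ * rk F :=
  csInf_le (psi_bdd hκ X) ⟨F, h, rfl⟩

theorem le_psi {κ c : ℝ} {X : Submodule ℤ (ι → ℤ)}
    (h : ∀ F, X ≤ F → c ≤ lc F + κ * rk F) : c ≤ psi κ X := by
  refine le_csInf ⟨_, ⟨X, le_refl X, rfl⟩⟩ ?_
  rintro _ ⟨F, hF, rfl⟩
  exact h F hF

theorem psi_nonneg {κ : ℝ} (hκ : 0 ≤ κ) (X : Submodule ℤ (ι → ℤ)) : 0 ≤ psi κ X := by
  refine le_psi fun F _ => ?_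
  have := lc_nonneg F
  have h2 : 0 ≤ κ * (rk F : ℝ) := by positivity
  linarith

theorem psi_mono {κ : ℝ} (hκ : 0 ≤ κ) {X Y : Submodule ℤ (ι → ℤ)} (h : X ≤ Y) :
    psi κ X ≤ psi κ Y :=
  le_psi fun _ hF => psi_le hκ (h.trans hF)

end Psi

/-! ### extension and restriction -/

section Opt
variable {β : Type*} [Fintype β] [DecidableEq β]

/-- extension by zero -/
def ext0 : (β → ℤ) →ₗ[ℤ] (Option β → ℤ) where
  toFun x := fun o => o.elim 0 x
  map_add' x y := by funext o; cases o <;> simp
  map_smul' c x := by funext o; cases o <;> simp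

@[simp] theorem ext0_none (x : β → ℤ) : ext0 x none = 0 := rfl
@[simp] theorem ext0_some (x : β → ℤ) (i : β) : ext0 x (some i) = x i := rfl

theorem ext0_injective : Function.Injective (ext0 : (β → ℤ) →ₗ[ℤ] (Option β → ℤ)) := by
  intro x y h
  funext i
  have := congrFun h (some i)
  simpa using this

/-- restriction -/
def res0 : (Option β → ℤ) →ₗ[ℤ] (β → ℤ) where
  toFun x := fun i => x (some i)
  map_add' _ _ := rfl
  map_smul' _ _ := rfl

@[simp] theorem res0_apply (x : Option β → ℤ) (i : β) : res0 x i = x (some i) := rfl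

/-- the part of `N` supported on `β` -/
def sub0 (N : Submodule ℤ (Option β → ℤ)) : Submodule ℤ (β → ℤ) := N.comap ext0


theorem map_sub0_le (N : Submodule ℤ (Option β → ℤ)) : (sub0 N).map ext0 ≤ N :=
  Submodule.map_comap_le _ _

/-- the generator over the part supported on `β` -/
theorem exists_gen (N : Submodule ℤ (Option β → ℤ)) (h : ∃ ν ∈ N, ν none ≠ 0) :
    ∃ w ∈ N, 1 ≤ w none ∧ N = (sub0 N).map ext0 ⊔ Submodule.span ℤ {w} := by
  classical
  let φ : (Option β → ℤ) →ₗ[ℤ] ℤ := LinearMap.proj none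
  let I : Submodule ℤ ℤ := N.map φ
  obtain ⟨g, hg⟩ := IsPrincipalIdealRing.principal (I : Ideal ℤ)
  obtain ⟨ν, hν, hν0⟩ := h
  have hνI : φ ν ∈ I := Submodule.mem_map_of_mem hν
  have hgI : g ∈ I := by
    have : g ∈ (I : Ideal ℤ) := by rw [hg]; exact Submodule.mem_span_singleton_self g
    exact this
  have hg0 : g ≠ 0 := by
    intro h0
    have h1 : φ ν ∈ (I : Ideal ℤ) := hνI
    rw [hg, h0, Submodule.mem_span_singleton] at h1
    obtain ⟨a, ha⟩ := h1
    refine hν0 ?_
    show φ ν = 0
    rw [← ha]; simp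
  obtain ⟨w0, hw0, hφ⟩ := hgI
  -- sign
  obtain ⟨w, hw, hwpos, hwdiv⟩ : ∃ w ∈ N, 1 ≤ w none ∧ ∀ y ∈ N, w none ∣ y none := by
    have hdiv : ∀ y ∈ N, g ∣ y none := by
      intro y hy
      have h1 : φ y ∈ (I : Ideal ℤ) := Submodule.mem_map_of_mem hy
      rw [hg, Submodule.mem_span_singleton] at h1
      obtain ⟨a, ha⟩ := h1
      exact ⟨a, by rw [← show a • g = y none from ha, smul_eq_mul, mul_comm]⟩
    have hw0n : w0 none = g := hφ
    rcases lt_or_gt_of_ne hg0 with hneg | hpos
    · refine ⟨-w0, N.neg_mem hw0, ?_, ?_⟩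
      · rw [Pi.neg_apply, hw0n]; omega
      · intro y hy
        rw [Pi.neg_apply, hw0n]
        exact (neg_dvd).2 (hdiv y hy)
    · refine ⟨w0, hw0, ?_, ?_⟩
      · rw [hw0n]; omega
      · intro y hy
        rw [hw0n]; exact hdiv y hy
  refine ⟨w, hw, hwpos, le_antisymm ?_ ?_⟩
  · intro y hy
    obtain ⟨a, ha⟩ := hwdiv y hy
    have hz : (y - a • w) none = 0 := by
      simp only [Pi.sub_apply, Pi.smul_apply, smul_eq_mul]
      rw [ha]; ring
    have hzN : y - a • w ∈ N := N.sub_mem hy (N.smul_mem a hw)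
    have hzext : ext0 (res0 (y - a • w)) = y - a • w := by
      funext o
      cases o with
      | none => rw [hz]; rfl
      | some i => rfl
    have h1 : y - a • w ∈ (sub0 N).map ext0 := by
      refine ⟨res0 (y - a • w), ?_, hzext⟩
      show ext0 (res0 (y - a • w)) ∈ N
      rw [hzext]; exact hzN
    have h2 : y = (y - a • w) + a • w := by abel
    rw [h2]
    exact Submodule.add_mem_sup h1 (Submodule.smul_mem _ a (Submodule.mem_span_singleton_self w))
  · refine sup_le (map_sub0_le N) ?_
    rw [Submodule.span_singleton_le_iff_mem]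
    exact hw

theorem rk_map_ext0 (L : Submodule ℤ (β → ℤ)) : rk (L.map ext0) = rk L := by
  unfold rk
  exact (LinearEquiv.finrank_eq (Submodule.equivMapOfInjective ext0 ext0_injective L)).symm

theorem lc_map_ext0 (L : Submodule ℤ (β → ℤ)) : lc (L.map ext0) = lc L := by
  classical
  let b := Module.Free.chooseBasis ℤ L
  let e := Submodule.equivMapOfInjective ext0 ext0_injective L
  unfold lc
  rw [dsc_eq b, dsc_eq (b.map e)]
  have : gm (fun i => ((b.map e i : L.map ext0) : Option β → ℤ)) =
      gm (fun i => (b i : β → ℤ)) := by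
    ext i j
    have h : ∀ i, ((b.map e i : L.map ext0) : Option β → ℤ) = ext0 (b i : β → ℤ) := by
      intro i
      simp [e, Submodule.coe_equivMapOfInjective_apply]
    rw [gm_apply, gm_apply, h, h]
    simp [dotProduct, Fintype.sum_option]
  rw [this]

/-- the matrix action -/
noncomputable def act {ι : Type*} [Fintype ι] (A : Matrix ι ι ℤ) (N : Submodule ℤ (ι → ℤ)) :
    Submodule ℤ (ι → ℤ) := N.map A.mulVecLin

theorem sg_mulVec_glue (b : Sym2 β → Bool) (x : β → Bool) (d : Bool) (w : Option β → ℤ) (i : β) :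
    (symMat (glue b x d)).mulVec w (some i) =
      (symMat b).mulVec (res0 w) i + w none * sg (x i) := by
  simp only [Matrix.mulVec, dotProduct, Fintype.sum_option, symMat_apply, glue_some_none,
    glue_some, res0_apply]
  ring

/-- restriction of the image of `N` to the old rows -/
theorem res_act (b : Sym2 β → Bool) (x : β → Bool) (d : Bool) (N : Submodule ℤ (Option β → ℤ))
    (w : Option β → ℤ) (hw : N = (sub0 N).map ext0 ⊔ Submodule.span ℤ {w}) :
    (act (symMat (glue b x d)) N).map res0 =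
      act (symMat b) (sub0 N) ⊔
        Submodule.span ℤ {(symMat b).mulVec (res0 w) + w none • fun i => sg (x i)} := by
  have h1 : act (symMat (glue b x d)) N =
      (((sub0 N).map ext0).map (symMat (glue b x d)).mulVecLin) ⊔
        Submodule.span ℤ {(symMat (glue b x d)).mulVec w} := by
    unfold act
    conv_lhs => rw [hw]
    rw [Submodule.map_sup, Submodule.map_span, Set.image_singleton]
    rfl
  rw [h1, Submodule.map_sup, Submodule.map_span, Set.image_singleton]
  congr 1
  · unfold act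
    rw [← Submodule.map_comp, ← Submodule.map_comp]
    congr 1
    refine LinearMap.ext fun y => ?_
    funext i
    simp only [LinearMap.comp_apply, Matrix.mulVecLin_apply, res0_apply]
    rw [sg_mulVec_glue]
    simp only [ext0_none, zero_mul, add_zero]
    congr 1
  · congr 2
    funext i
    simp only [res0_apply, Pi.add_apply, Pi.smul_apply, smul_eq_mul]
    exact sg_mulVec_glue b x d w i

end Opt

end Crest.Agent.R152.LS
end

-- ▼ part R152/LS3
section

set_option autoImplicit false
set_option linter.unusedSectionVars false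

/-! Row 152, module LS (helper162's Lemma S), part 3: relabelling and the exponential moment
induction. -/

open Crest.FinProb Crest.ProbabilityR.SignMatrix

namespace Crest.Agent.R152.LS

open Crest.Agent.R152.Base Crest.Agent.R152.Lat

/-! ### relabelling -/

section Relabel
variable {ι κ : Type*} [Fintype ι] [Fintype κ] [DecidableEq ι] [DecidableEq κ]

/-- relabelling of coordinates -/
def rel (e : ι ≃ κ) : (ι → ℤ) ≃ₗ[ℤ] (κ → ℤ) := LinearEquiv.funCongrLeft ℤ ℤ e.symm

@[simp] theorem rel_apply (e : ι ≃ κ) (x : ι → ℤ) (k : κ) : rel e x k = x (e.symm k) := rfl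

theorem rk_rel (e : ι ≃ κ) (L : Submodule ℤ (ι → ℤ)) :
    rk (L.map (rel e : (ι → ℤ) →ₗ[ℤ] (κ → ℤ))) = rk L := by
  unfold rk
  exact (LinearEquiv.finrank_eq
    (Submodule.equivMapOfInjective (rel e : (ι → ℤ) →ₗ[ℤ] (κ → ℤ)) (rel e).injective L)).symm

theorem lc_rel (e : ι ≃ κ) (L : Submodule ℤ (ι → ℤ)) :
    lc (L.map (rel e : (ι → ℤ) →ₗ[ℤ] (κ → ℤ))) = lc L := by
  classical
  let b := Module.Free.chooseBasis ℤ L
  let f := Submodule.equivMapOfInjective (rel e : (ι → ℤ) →ₗ[ℤ] (κ → ℤ)) (rel e).injective L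
  unfold lc
  rw [dsc_eq b, dsc_eq (b.map f)]
  have : gm (fun i => ((b.map f i : L.map (rel e : (ι → ℤ) →ₗ[ℤ] (κ → ℤ))) : κ → ℤ)) =
      gm (fun i => (b i : ι → ℤ)) := by
    ext i j
    have h : ∀ i, ((b.map f i : L.map (rel e : (ι → ℤ) →ₗ[ℤ] (κ → ℤ))) : κ → ℤ) =
        rel e (b i : ι → ℤ) := by
      intro i
      simp [f, Submodule.coe_equivMapOfInjective_apply]
    rw [gm_apply, gm_apply, h, h]
    simp only [dotProduct, rel_apply]
    exact Equiv.sum_comp e.symm (fun k => (b i : ι → ℤ) k * (b j : ι → ℤ) k)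
  rw [this]

theorem psi_rel {K : ℝ} (hK : 0 ≤ K) (e : ι ≃ κ) (X : Submodule ℤ (ι → ℤ)) :
    psi K (X.map (rel e : (ι → ℤ) →ₗ[ℤ] (κ → ℤ))) = psi K X := by
  apply le_antisymm
  · refine le_psi fun F hF => ?_
    have h := psi_le hK (Submodule.map_mono (f := (rel e : (ι → ℤ) →ₗ[ℤ] (κ → ℤ))) hF)
    rwa [lc_rel, rk_rel] at h
  · refine le_psi fun F hF => ?_
    have h1 : X ≤ F.map (rel e.symm : (κ → ℤ) →ₗ[ℤ] (ι → ℤ)) := by
      intro x hx
      refine ⟨rel e x, hF (Submodule.mem_map_of_mem hx), ?_⟩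
      funext i
      simp
    have h := psi_le hK h1
    rwa [lc_rel, rk_rel] at h

theorem act_submatrix (e : ι ≃ κ) (M : Matrix κ κ ℤ) (N : Submodule ℤ (ι → ℤ)) :
    (act (M.submatrix e e) N).map (rel e : (ι → ℤ) →ₗ[ℤ] (κ → ℤ)) =
      act M (N.map (rel e : (ι → ℤ) →ₗ[ℤ] (κ → ℤ))) := by
  unfold act
  rw [← Submodule.map_comp, ← Submodule.map_comp]
  congr 1
  refine LinearMap.ext fun y => ?_
  funext k
  simp only [LinearMap.comp_apply, Matrix.mulVecLin_apply, LinearEquiv.coe_coe, rel_apply,
    Matrix.mulVec, dotProduct, Matrix.submatrix_apply, Equiv.apply_symm_apply]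
  exact Fintype.sum_equiv e _ _ (fun i => by simp)

theorem psi_act_submatrix {K : ℝ} (hK : 0 ≤ K) (e : ι ≃ κ) (M : Matrix κ κ ℤ)
    (N : Submodule ℤ (ι → ℤ)) :
    psi K (act (M.submatrix e e) N) =
      psi K (act M (N.map (rel e : (ι → ℤ) →ₗ[ℤ] (κ → ℤ)))) := by
  rw [← act_submatrix, psi_rel hK]

end Relabel

/-! ### projection facts needed by the chain -/

/-- the two facts about the coordinate restriction (from `Lat`) -/
structure Facts : Prop where
  /-- the potential does not increase under restriction -/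
  proj : ∀ (β : Type) [Fintype β] [DecidableEq β] (κ : ℝ), 0 ≤ κ →
    ∀ F : Submodule ℤ (Option β → ℤ), lc (F.map res0) + κ * rk (F.map res0) ≤ lc F + κ * rk F
  /-- monotonicity of covolume along the part supported on `β` -/
  mono : ∀ (β : Type) [Fintype β] [DecidableEq β] (N : Submodule ℤ (Option β → ℤ)),
    lc (sub0 N) ≤ lc N
  /-- rank drop -/
  rank : ∀ (β : Type) [Fintype β] [DecidableEq β] (N : Submodule ℤ (Option β → ℤ)),
    (∃ ν ∈ N, ν none ≠ 0) → rk N = rk (sub0 N) + 1

theorem psi_res (hF : Facts) {β : Type} [Fintype β] [DecidableEq β] {κ : ℝ} (hκ : 0 ≤ κ)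
    (Y : Submodule ℤ (Option β → ℤ)) : psi κ (Y.map res0) ≤ psi κ Y := by
  refine le_psi fun F hYF => ?_
  exact (psi_le hκ (Submodule.map_mono hYF)).trans (hF.proj β κ hκ F)

/-- the one-step claim -/
def StepOK (p κ T ε L E0 : ℝ) (n k0 : ℕ) : Prop :=
  ∀ (β : Type) [Fintype β] [DecidableEq β] (N : Submodule ℤ (Option β → ℤ)),
    Fintype.card β + 1 ≤ n → (∃ ν ∈ N, ν none ≠ 0) → k0 + rk (sub0 N) ≤ Fintype.card β →
    lc N ≤ E0 → lc N ≤ lc (sub0 N) + L → ∀ (b : Sym2 β → Bool) (d : Bool),
    bernoulliProb p {x : β → Bool | psi κ ((act (symMat (glue b x d)) N).map res0) <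
      psi κ (act (symMat b) (sub0 N)) + T} ≤ ε

theorem act_sub0_le_res {β : Type} [Fintype β] [DecidableEq β] (b : Sym2 β → Bool) (x : β → Bool)
    (d : Bool) (N : Submodule ℤ (Option β → ℤ)) (h : ∃ ν ∈ N, ν none ≠ 0) :
    act (symMat b) (sub0 N) ≤ (act (symMat (glue b x d)) N).map res0 := by
  obtain ⟨w, -, -, hw⟩ := exists_gen N h
  rw [res_act b x d N w hw]
  exact le_sup_left

theorem chain (hF : Facts) {p κ T ε L E0 θ : ℝ} {n k0 : ℕ} (hp0 : 0 ≤ p) (hp1 : p ≤ 1)
    (hκ : 0 ≤ κ) (hT : 0 ≤ T) (hL : 0 < L) (hθ : 0 ≤ θ) (hε : Real.exp (θ * T) * ε ≤ 1)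
    (hS : StepOK p κ T ε L E0 n k0) :
    ∀ (r : ℕ) (ι : Type) [Fintype ι] [DecidableEq ι] (N : Submodule ℤ (ι → ℤ)),
      rk N = r → Fintype.card ι ≤ n → k0 + r ≤ Fintype.card ι → lc N ≤ E0 →
      ex p (fun b : Sym2 ι → Bool => Real.exp (θ * (T * rk N - psi κ (act (symMat b) N)))) ≤
        2 ^ r * Real.exp (θ * (T / L) * lc N) := by
  intro r
  induction r with
  | zero =>
    intro ι _ _ N hr _ _ _
    rw [pow_zero, one_mul]
    have h1 : ∀ b : Sym2 ι → Bool,
        Real.exp (θ * (T * rk N - psi κ (act (symMat b) N))) ≤ 1 := by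
      intro b
      rw [Real.exp_le_one_iff, hr]
      have := psi_nonneg hκ (act (symMat b) N)
      have h3 := mul_nonneg hθ this
      push_cast
      linarith
    have h2 := ex_mono hp0 hp1 h1
    rw [ex_const] at h2
    refine h2.trans ?_
    rw [Real.one_le_exp_iff]
    have := lc_nonneg N
    positivity
  | succ r ih =>
    intro ι _ _ N hr hcard hk hE
    -- a coordinate where `N` is nonzero
    have hex : ∃ i, ∃ ν ∈ N, ν i ≠ 0 := by
      by_contra hcon
      push Not at hcon
      have hbot : N = ⊥ := by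
        rw [Submodule.eq_bot_iff]
        intro ν hν
        funext i
        exact hcon i ν hν
      rw [hbot, rk_bot] at hr
      omega
    obtain ⟨i, ν, hν, hνi⟩ := hex
    let β := {j : ι // j ≠ i}
    let e : ι ≃ Option β := (Equiv.optionSubtypeNe i).symm
    let N1 : Submodule ℤ (Option β → ℤ) := N.map (rel e : (ι → ℤ) →ₗ[ℤ] (Option β → ℤ))
    have hN1 : ∃ ν ∈ N1, ν none ≠ 0 := by
      refine ⟨rel e ν, Submodule.mem_map_of_mem hν, ?_⟩
      have he : e.symm none = i := rfl
      rw [rel_apply, he]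
      exact hνi
    have hrk1 : rk N1 = rk N := rk_rel e N
    have hlc1 : lc N1 = lc N := lc_rel e N
    have hcardβ : Fintype.card ι = Fintype.card β + 1 := by
      rw [Fintype.card_congr e, Fintype.card_option]
    have hrk0 := hF.rank β N1 hN1
    have hr0 : rk (sub0 N1) = r := by omega
    have hlc0 := hF.mono β N1
    have hih := ih β (sub0 N1) hr0 (by omega) (by omega) (by linarith)
    rw [ex_delete i p (fun A => Real.exp (θ * (T * rk N - psi κ (act A N))))]
    have hc : 0 ≤ θ * (T / L) := by positivity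
    have hfac : 1 ≤ Real.exp (θ * (T / L) * (lc N - lc (sub0 N1))) := by
      rw [Real.one_le_exp_iff]
      exact mul_nonneg hc (by linarith)
    -- pointwise bound in `b`
    have hstep : ∀ b : Sym2 β → Bool,
        ex p (fun x : β → Bool =>
          p * Real.exp (θ * (T * rk N - psi κ (act ((symMat (glue b x true)).submatrix
            (Equiv.optionSubtypeNe i).symm (Equiv.optionSubtypeNe i).symm) N))) +
          (1 - p) * Real.exp (θ * (T * rk N - psi κ (act ((symMat (glue b x false)).submatrix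
            (Equiv.optionSubtypeNe i).symm (Equiv.optionSubtypeNe i).symm) N)))) ≤
        (2 * Real.exp (θ * (T / L) * (lc N - lc (sub0 N1)))) *
          Real.exp (θ * (T * rk (sub0 N1) - psi κ (act (symMat b) (sub0 N1)))) := by
      intro b
      set P0 : ℝ := psi κ (act (symMat b) (sub0 N1)) with hP0
      set B0 : ℝ := Real.exp (θ * (T * rk (sub0 N1) - P0)) with hB0
      have hB0pos : 0 < B0 := Real.exp_pos _
      -- each term
      have hterm : ∀ (x : β → Bool) (d : Bool),
          Real.exp (θ * (T * rk N - psi κ (act ((symMat (glue b x d)).submatrix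
            (Equiv.optionSubtypeNe i).symm (Equiv.optionSubtypeNe i).symm) N))) ≤
          B0 * Real.exp (θ * (T + P0 - psi κ ((act (symMat (glue b x d)) N1).map res0))) := by
        intro x d
        rw [hB0, ← Real.exp_add]
        apply Real.exp_le_exp.2
        have h1 : psi κ (act ((symMat (glue b x d)).submatrix
            (Equiv.optionSubtypeNe i).symm (Equiv.optionSubtypeNe i).symm) N) =
            psi κ (act (symMat (glue b x d)) N1) :=
          psi_act_submatrix hκ e (symMat (glue b x d)) N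
        have h2 := psi_res hF hκ (act (symMat (glue b x d)) N1)
        rw [h1]
        have h3 : (rk N : ℝ) = rk (sub0 N1) + 1 := by
          rw [← hrk1, hrk0]; push_cast; ring
        rw [h3]
        have h4 := mul_le_mul_of_nonneg_left h2 hθ
        nlinarith
      have hmono : ∀ (x : β → Bool) (d : Bool),
          P0 ≤ psi κ ((act (symMat (glue b x d)) N1).map res0) := by
        intro x d
        exact psi_mono hκ (act_sub0_le_res b x d N1 hN1)
      have hindep : ∀ (x : β → Bool),
          psi κ ((act (symMat (glue b x true)) N1).map res0) =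
          psi κ ((act (symMat (glue b x false)) N1).map res0) := by
        intro x
        obtain ⟨w, -, -, hw⟩ := exists_gen N1 hN1
        rw [res_act b x true N1 w hw, res_act b x false N1 w hw]
      by_cases hgood : lc N1 ≤ lc (sub0 N1) + L
      · -- good step
        have hP := hS β N1 (by omega) hN1 (by omega) (by linarith) hgood b true
        classical
        rw [prob_eq_ex] at hP
        have hle : ∀ x : β → Bool,
            p * Real.exp (θ * (T * rk N - psi κ (act ((symMat (glue b x true)).submatrix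
              (Equiv.optionSubtypeNe i).symm (Equiv.optionSubtypeNe i).symm) N))) +
            (1 - p) * Real.exp (θ * (T * rk N - psi κ (act ((symMat (glue b x false)).submatrix
              (Equiv.optionSubtypeNe i).symm (Equiv.optionSubtypeNe i).symm) N))) ≤
            B0 + (B0 * Real.exp (θ * T)) *
              (if x ∈ {x : β → Bool | psi κ ((act (symMat (glue b x true)) N1).map res0) <
                P0 + T} then 1 else 0) := by
          intro x
          have t1 := hterm x true
          have t2 := hterm x false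
          rw [← hindep x] at t2
          have t3 : p * Real.exp (θ * (T * rk N - psi κ (act ((symMat (glue b x true)).submatrix
              (Equiv.optionSubtypeNe i).symm (Equiv.optionSubtypeNe i).symm) N))) +
            (1 - p) * Real.exp (θ * (T * rk N - psi κ (act ((symMat (glue b x false)).submatrix
              (Equiv.optionSubtypeNe i).symm (Equiv.optionSubtypeNe i).symm) N))) ≤
              B0 * Real.exp (θ * (T + P0 -
                psi κ ((act (symMat (glue b x true)) N1).map res0))) := by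
            have u1 := mul_le_mul_of_nonneg_left t1 hp0
            have u2 := mul_le_mul_of_nonneg_left t2 (by linarith : 0 ≤ 1 - p)
            linarith
          refine t3.trans ?_
          by_cases hx : psi κ ((act (symMat (glue b x true)) N1).map res0) < P0 + T
          · have hx' : x ∈ {x : β → Bool | psi κ ((act (symMat (glue b x true)) N1).map res0) <
                P0 + T} := hx
            rw [if_pos hx', mul_one]
            have h5 : Real.exp (θ * (T + P0 -
                psi κ ((act (symMat (glue b x true)) N1).map res0))) ≤ Real.exp (θ * T) := by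
              apply Real.exp_le_exp.2
              have := mul_le_mul_of_nonneg_left (hmono x true) hθ
              nlinarith
            have h6 := mul_le_mul_of_nonneg_left h5 hB0pos.le
            linarith
          · have hx' : x ∉ {x : β → Bool | psi κ ((act (symMat (glue b x true)) N1).map res0) <
                P0 + T} := hx
            rw [if_neg hx', mul_zero, add_zero]
            have h5 : Real.exp (θ * (T + P0 -
                psi κ ((act (symMat (glue b x true)) N1).map res0))) ≤ 1 := by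
              rw [Real.exp_le_one_iff]
              push Not at hx
              have := mul_le_mul_of_nonneg_left hx hθ
              nlinarith
            have h6 := mul_le_mul_of_nonneg_left h5 hB0pos.le
            linarith
        refine (ex_mono hp0 hp1 hle).trans ?_
        rw [ex_add, ex_const, ex_smul]
        have hPP : B0 * Real.exp (θ * T) * ex p (fun x : β → Bool =>
            if x ∈ {x : β → Bool | psi κ ((act (symMat (glue b x true)) N1).map res0) <
                P0 + T} then (1:ℝ) else 0) ≤ B0 := by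
          have h7 := mul_le_mul_of_nonneg_left hP (mul_pos hB0pos (Real.exp_pos (θ * T))).le
          have h8 : B0 * Real.exp (θ * T) * ε ≤ B0 := by
            have := mul_le_mul_of_nonneg_left hε hB0pos.le
            nlinarith
          exact h7.trans h8
        have h9 : 2 * B0 ≤ 2 * Real.exp (θ * (T / L) * (lc N - lc (sub0 N1))) * B0 := by
          nlinarith
        linarith
      · -- bad step
        push Not at hgood
        have hle : ∀ x : β → Bool,
            p * Real.exp (θ * (T * rk N - psi κ (act ((symMat (glue b x true)).submatrix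
              (Equiv.optionSubtypeNe i).symm (Equiv.optionSubtypeNe i).symm) N))) +
            (1 - p) * Real.exp (θ * (T * rk N - psi κ (act ((symMat (glue b x false)).submatrix
              (Equiv.optionSubtypeNe i).symm (Equiv.optionSubtypeNe i).symm) N))) ≤
            B0 * Real.exp (θ * T) := by
          intro x
          have hh : ∀ d, Real.exp (θ * (T * rk N - psi κ (act ((symMat (glue b x d)).submatrix
              (Equiv.optionSubtypeNe i).symm (Equiv.optionSubtypeNe i).symm) N))) ≤
              B0 * Real.exp (θ * T) := by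
            intro d
            refine (hterm x d).trans ?_
            refine mul_le_mul_of_nonneg_left ?_ hB0pos.le
            apply Real.exp_le_exp.2
            have := mul_le_mul_of_nonneg_left (hmono x d) hθ
            nlinarith
          have u1 := mul_le_mul_of_nonneg_left (hh true) hp0
          have u2 := mul_le_mul_of_nonneg_left (hh false) (by linarith : 0 ≤ 1 - p)
          linarith
        refine (ex_mono hp0 hp1 hle).trans ?_
        rw [ex_const]
        have h10 : Real.exp (θ * T) ≤ Real.exp (θ * (T / L) * (lc N - lc (sub0 N1))) := by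
          apply Real.exp_le_exp.2
          have h11 : L ≤ lc N - lc (sub0 N1) := by linarith
          have h12 := mul_le_mul_of_nonneg_left h11 hc
          have h13 : θ * (T / L) * L = θ * T := by
            rw [mul_assoc, div_mul_cancel₀ _ hL.ne']
          linarith
        have h14 := mul_le_mul_of_nonneg_left h10 hB0pos.le
        have h15 : 0 < Real.exp (θ * (T / L) * (lc N - lc (sub0 N1))) := Real.exp_pos _
        nlinarith [mul_pos hB0pos h15]
    refine (ex_mono hp0 hp1 hstep).trans ?_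
    rw [ex_smul]
    have hpos : 0 ≤ 2 * Real.exp (θ * (T / L) * (lc N - lc (sub0 N1))) := by positivity
    refine (mul_le_mul_of_nonneg_left hih hpos).trans (le_of_eq ?_)
    rw [pow_succ]
    have h16 : Real.exp (θ * (T / L) * lc N) =
        Real.exp (θ * (T / L) * (lc N - lc (sub0 N1))) *
          Real.exp (θ * (T / L) * lc (sub0 N1)) := by
      rw [← Real.exp_add]; congr 1; ring
    rw [h16]
    ring

end Crest.Agent.R152.LS
end

-- ▼ part R152/LS4
section

set_option autoImplicit false
set_option linter.unusedSectionVars false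

/-! Row 152, module LS (helper162's Lemma S), part 4: coordinate restriction facts. -/

open Crest.FinProb Crest.ProbabilityR.SignMatrix

namespace Crest.Agent.R152.LS

open Crest.Agent.R152.Base Crest.Agent.R152.Lat

section
variable {β : Type*} [Fintype β] [DecidableEq β]

theorem rsp_map_ext0_none (L : Submodule ℤ (β → ℤ)) {v : EuclideanSpace ℝ (Option β)}
    (hv : v ∈ rsp (L.map ext0)) : v none = 0 := by
  have hle : rsp (L.map ext0) ≤ LinearMap.ker
      ((LinearMap.proj none : (Option β → ℝ) →ₗ[ℝ] ℝ) ∘ₗ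
        (WithLp.linearEquiv 2 ℝ (Option β → ℝ)).toLinearMap) := by
    unfold rsp
    rw [Submodule.span_le]
    rintro _ ⟨z, hz, rfl⟩
    obtain ⟨y, hy, rfl⟩ := hz
    simp [LinearMap.mem_ker]
  have := hle hv
  rw [LinearMap.mem_ker] at this
  exact this

theorem le_dst_map_ext0 (L : Submodule ℤ (β → ℤ)) (y : Option β → ℤ) :
    |(y none : ℝ)| ≤ dst (L.map ext0) (ev y) := by
  unfold dst
  have h1 := rsp_map_ext0_none L ((rsp (L.map ext0)).starProjection_apply_mem (ev y))
  have h2 := PiLp.norm_apply_le (ev y - (rsp (L.map ext0)).starProjection (ev y)) none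
  rw [PiLp.sub_apply, h1, sub_zero, ev_apply, Real.norm_eq_abs] at h2
  exact h2

theorem ev_notMem_rsp_map_ext0 (L : Submodule ℤ (β → ℤ)) (y : Option β → ℤ) (hy : y none ≠ 0) :
    ev y ∉ rsp (L.map ext0) := by
  intro h
  have := rsp_map_ext0_none L h
  rw [ev_apply] at this
  exact hy (Int.cast_eq_zero.1 this)

theorem rk_sub0 (N : Submodule ℤ (Option β → ℤ)) (h : ∃ ν ∈ N, ν none ≠ 0) :
    rk N = rk (sub0 N) + 1 := by
  obtain ⟨w, -, hw1, hw⟩ := exists_gen N h
  conv_lhs => rw [hw]
  rw [rk_sup_span (ev_notMem_rsp_map_ext0 _ w (by omega)), rk_map_ext0]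

theorem lc_eq_sub0 (N : Submodule ℤ (Option β → ℤ)) {w : Option β → ℤ} (hw1 : 1 ≤ w none)
    (hw : N = (sub0 N).map ext0 ⊔ Submodule.span ℤ {w}) :
    lc N = lc (sub0 N) + Real.log (dst ((sub0 N).map ext0) (ev w)) := by
  conv_lhs => rw [hw]
  rw [lc_sup_span (ev_notMem_rsp_map_ext0 _ w (by omega)), lc_map_ext0]

theorem one_le_dst (L : Submodule ℤ (β → ℤ)) {w : Option β → ℤ} (hw1 : 1 ≤ w none) :
    1 ≤ dst (L.map ext0) (ev w) := by
  refine le_trans ?_ (le_dst_map_ext0 L w)
  rw [abs_of_nonneg (by exact_mod_cast (by omega : 0 ≤ w none))]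
  exact_mod_cast hw1

theorem lc_sub0_le (N : Submodule ℤ (Option β → ℤ)) : lc (sub0 N) ≤ lc N := by
  by_cases h : ∃ ν ∈ N, ν none ≠ 0
  · obtain ⟨w, -, hw1, hw⟩ := exists_gen N h
    rw [lc_eq_sub0 N hw1 hw]
    have := Real.log_nonneg (one_le_dst (sub0 N) hw1)
    linarith
  · push Not at h
    have hN : N = (sub0 N).map ext0 := by
      refine le_antisymm ?_ (map_sub0_le N)
      intro y hy
      have he : ext0 (res0 y) = y := by
        funext o
        cases o with
        | none => rw [h y hy]; rfl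
        | some i => rfl
      refine ⟨res0 y, ?_, he⟩
      show ext0 (res0 y) ∈ N
      rw [he]; exact hy
    conv_rhs => rw [hN]
    rw [lc_map_ext0]

/-- restriction to the old coordinates does not increase rank and covolume -/
theorem res_le (F : Submodule ℤ (Option β → ℤ)) :
    lc (F.map res0) ≤ lc F ∧ rk (F.map res0) ≤ rk F := by
  classical
  set e : Option β → ℤ := Pi.single none 1 with he
  set E : Submodule ℤ (Option β → ℤ) := Submodule.span ℤ {e} with hE
  have hen : e none = 1 := by simp [he]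
  have hsup : F ⊔ E = (F.map res0).map ext0 ⊔ Submodule.span ℤ {e} := by
    apply le_antisymm
    · refine sup_le ?_ le_sup_right
      intro y hy
      have h1 : y = ext0 (res0 y) + y none • e := by
        funext o
        cases o with
        | none => simp [hen]
        | some i => simp [he]
      rw [h1]
      exact Submodule.add_mem_sup
        (Submodule.mem_map_of_mem (Submodule.mem_map_of_mem hy))
        (Submodule.smul_mem _ _ (Submodule.mem_span_singleton_self e))
    · refine sup_le ?_ le_sup_right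
      rintro _ ⟨z, ⟨y, hy, rfl⟩, rfl⟩
      have h1 : ext0 (res0 y) = y - y none • e := by
        funext o
        cases o with
        | none => simp [hen]
        | some i => simp [he]
      rw [h1]
      exact Submodule.sub_mem _ (Submodule.mem_sup_left hy)
        (Submodule.mem_sup_right (Submodule.smul_mem _ _ (Submodule.mem_span_singleton_self e)))
  have hnot : ev e ∉ rsp ((F.map res0).map ext0) :=
    ev_notMem_rsp_map_ext0 _ e (by rw [hen]; norm_num)
  have h1 : lc (F ⊔ E) = lc (F.map res0) + Real.log (dst ((F.map res0).map ext0) (ev e)) := by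
    rw [hsup, lc_sup_span hnot, lc_map_ext0]
  have h2 : rk (F ⊔ E) = rk (F.map res0) + 1 := by
    rw [hsup, rk_sup_span hnot, rk_map_ext0]
  have h3 : 0 ≤ Real.log (dst ((F.map res0).map ext0) (ev e)) :=
    Real.log_nonneg (one_le_dst _ (by rw [hen]))
  -- the line `E`
  have hEbot : E = (⊥ : Submodule ℤ (β → ℤ)).map ext0 ⊔ Submodule.span ℤ {e} := by
    rw [Submodule.map_bot, bot_sup_eq]
  have hnotE : ev e ∉ rsp ((⊥ : Submodule ℤ (β → ℤ)).map ext0) :=
    ev_notMem_rsp_map_ext0 _ e (by rw [hen]; norm_num)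
  have h4 : rk E = 1 := by
    rw [hEbot, rk_sup_span hnotE, rk_map_ext0, rk_bot]
  have h5 : lc E ≤ 0 := by
    rw [hEbot, lc_sup_span hnotE, lc_map_ext0, lc_bot, zero_add]
    apply Real.log_nonpos (dst_nonneg _ _)
    refine (dst_le_norm _ _).trans ?_
    have : ‖ev e‖ ^ 2 = 1 := by
      rw [norm_ev_sq, he]
      simp
    nlinarith [norm_nonneg (ev e)]
  have h6 := lc_submod F E
  have h7 := rk_modular F E
  have h8 := lc_nonneg (F ⊓ E)
  constructor
  · linarith
  · omega

end

theorem facts : Facts where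
  proj β _ _ κ hκ F := by
    obtain ⟨h1, h2⟩ := res_le F
    have h3 : (rk (F.map res0) : ℝ) ≤ rk F := by exact_mod_cast h2
    have := mul_le_mul_of_nonneg_left h3 hκ
    linarith
  mono β _ _ N := lc_sub0_le N
  rank β _ _ N h := rk_sub0 N h

end Crest.Agent.R152.LS
end

-- ▼ part R152/LS5
section

set_option autoImplicit false
set_option linter.unusedSectionVars false

/-! Row 152, module LS (helper162's Lemma S), part 5: operator norm bounds, covolume of `A N`. -/

open Crest.FinProb Crest.ProbabilityR.SignMatrix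

namespace Crest.Agent.R152.LS

open Crest.Agent.R152.Base Crest.Agent.R152.Lat

section
variable {ι κ : Type*} [Fintype ι] [Fintype κ] [DecidableEq ι] [DecidableEq κ]

theorem psi_eq_Psi {K : ℝ} (hK : 0 ≤ K) (X : Submodule ℤ (ι → ℤ)) : psi K X = Psi K X := by
  apply le_antisymm
  · exact psi_le hK (le_Fmin K X)
  · exact le_psi fun F hF => Psi_le hF

/-- real extension of an integer matrix -/
noncomputable def rm (B : Matrix κ ι ℤ) : EuclideanSpace ℝ ι →ₗ[ℝ] EuclideanSpace ℝ κ where
  toFun v := WithLp.toLp 2 (fun k => ∑ i, (B k i : ℝ) * v i)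
  map_add' v w := by
    ext k
    simp only [PiLp.add_apply, mul_add, Finset.sum_add_distrib]
  map_smul' c v := by
    ext k
    simp only [PiLp.smul_apply, smul_eq_mul, RingHom.id_apply, Finset.mul_sum]
    exact Finset.sum_congr rfl fun i _ => by ring

@[simp] theorem rm_apply (B : Matrix κ ι ℤ) (v : EuclideanSpace ℝ ι) (k : κ) :
    rm B v k = ∑ i, (B k i : ℝ) * v i := rfl

theorem rm_ev (B : Matrix κ ι ℤ) (z : ι → ℤ) : rm B (ev z) = ev (B.mulVec z) := by
  ext k
  rw [rm_apply, ev_apply, Matrix.mulVec, dotProduct]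
  push_cast
  rfl

theorem norm_rm_le (B : Matrix κ ι ℤ) (hB : ∀ k i, |B k i| ≤ 1) (v : EuclideanSpace ℝ ι) :
    ‖rm B v‖ ≤ Real.sqrt (Fintype.card κ * Fintype.card ι) * ‖v‖ := by
  have h1 : ‖rm B v‖ ^ 2 ≤ (Fintype.card κ * Fintype.card ι : ℝ) * ‖v‖ ^ 2 := by
    rw [EuclideanSpace.real_norm_sq_eq, EuclideanSpace.real_norm_sq_eq]
    have h2 : ∀ k : κ, (rm B v k) ^ 2 ≤ (Fintype.card ι : ℝ) * ∑ i, v i ^ 2 := by
      intro k
      rw [rm_apply]
      refine (Finset.sum_mul_sq_le_sq_mul_sq _ _ _).trans ?_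
      have h3 : ∑ i, (B k i : ℝ) ^ 2 ≤ Fintype.card ι := by
        have h4 : ∀ i ∈ (Finset.univ : Finset ι), (B k i : ℝ) ^ 2 ≤ 1 := by
          intro i _
          have h5 : |(B k i : ℝ)| ≤ 1 := by exact_mod_cast hB k i
          rw [← sq_abs]
          nlinarith [abs_nonneg (B k i : ℝ)]
        refine (Finset.sum_le_sum h4).trans ?_
        simp
      exact mul_le_mul_of_nonneg_right h3 (Finset.sum_nonneg fun i _ => sq_nonneg _)
    refine (Finset.sum_le_sum fun k _ => h2 k).trans ?_
    rw [Finset.sum_const, Finset.card_univ, nsmul_eq_mul]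
    linarith [mul_assoc (Fintype.card κ : ℝ) (Fintype.card ι : ℝ) (∑ i, v i ^ 2)]
  have h2 := Real.sqrt_le_sqrt h1
  rw [Real.sqrt_sq (norm_nonneg _), Real.sqrt_mul (by positivity), Real.sqrt_sq (norm_nonneg _)]
    at h2
  exact h2

theorem rsp_map_le {T : (ι → ℤ) →ₗ[ℤ] (κ → ℤ)} {S : EuclideanSpace ℝ ι →ₗ[ℝ] EuclideanSpace ℝ κ}
    (hS : ∀ z, S (ev z) = ev (T z)) (L : Submodule ℤ (ι → ℤ)) {v : EuclideanSpace ℝ ι}
    (hv : v ∈ rsp L) : S v ∈ rsp (L.map T) := by
  have h1 : rsp L ≤ (rsp (L.map T)).comap S := by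
    unfold rsp
    rw [Submodule.span_le]
    rintro _ ⟨z, hz, rfl⟩
    show S (ev z) ∈ rsp (L.map T)
    rw [hS]
    exact Submodule.subset_span ⟨T z, Submodule.mem_map_of_mem hz, rfl⟩
  exact h1 hv

theorem dst_map_le {T : (ι → ℤ) →ₗ[ℤ] (κ → ℤ)} {S : EuclideanSpace ℝ ι →ₗ[ℝ] EuclideanSpace ℝ κ}
    (hS : ∀ z, S (ev z) = ev (T z)) {M : ℝ} (hM : ∀ v, ‖S v‖ ≤ M * ‖v‖)
    (L : Submodule ℤ (ι → ℤ)) (v : EuclideanSpace ℝ ι) : dst (L.map T) (S v) ≤ M * dst L v := by
  have h1 := rsp_map_le hS L ((rsp L).starProjection_apply_mem v)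
  refine (dst_le_sub (L.map T) (S v) h1).trans ?_
  rw [← map_sub]
  exact hM _

theorem notMem_rsp_of_li {α γ : Type*} [Fintype γ] {g : α → γ → ℤ} (hg : LinearIndependent ℤ g)
    (s : Set α) {k : α} (hk : k ∉ s) : ev (g k) ∉ rsp (Submodule.span ℤ (g '' s)) := by
  intro hmem
  rw [mem_rsp_iff] at hmem
  obtain ⟨m, hm, hmk⟩ := hmem
  obtain ⟨l, hl, hlk⟩ := (Finsupp.mem_span_image_iff_linearCombination ℤ).1 hmk
  have h1 : Finsupp.linearCombination ℤ g (Finsupp.single k m) =
      Finsupp.linearCombination ℤ g l := by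
    rw [hlk, Finsupp.linearCombination_single]
  have h2 := hg h1
  have h3 : l k = 0 := by
    by_contra h0
    exact hk ((Finsupp.mem_supported ℤ l).1 hl (Finsupp.mem_support_iff.2 h0))
  rw [← h2, Finsupp.single_eq_same] at h3
  exact hm h3

/-- covolume of the image under an injective bounded map -/
theorem lc_map_le {T : (ι → ℤ) →ₗ[ℤ] (κ → ℤ)} (hT : Function.Injective T)
    {S : EuclideanSpace ℝ ι →ₗ[ℝ] EuclideanSpace ℝ κ}
    (hS : ∀ z, S (ev z) = ev (T z)) {M : ℝ} (hM0 : 0 < M) (hM : ∀ v, ‖S v‖ ≤ M * ‖v‖)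
    (L : Submodule ℤ (ι → ℤ)) : lc (L.map T) ≤ lc L + rk L * Real.log M := by
  classical
  set b := Module.Free.chooseBasis ℤ L with hb
  set f : Module.Free.ChooseBasisIndex ℤ L → ι → ℤ := fun i => (b i : ι → ℤ) with hf
  have hli : LinearIndependent ℤ f := basis_linearIndependent b
  have hli2 : LinearIndependent ℤ (T ∘ f) := hli.map' T (LinearMap.ker_eq_bot.2 hT)
  have key : ∀ s : Finset (Module.Free.ChooseBasisIndex ℤ L),
      lc (Submodule.span ℤ ((T ∘ f) '' (s : Set _))) ≤
        lc (Submodule.span ℤ (f '' (s : Set _))) + s.card * Real.log M := by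
    intro s
    induction s using Finset.induction_on with
    | empty => simp
    | insert k s hk ih =>
      have e1 : Submodule.span ℤ (f '' ((insert k s : Finset _) : Set _)) =
          Submodule.span ℤ (f '' (s : Set _)) ⊔ Submodule.span ℤ {f k} := by
        rw [Finset.coe_insert, Set.image_insert_eq, Submodule.span_insert, sup_comm]
      have e2 : Submodule.span ℤ ((T ∘ f) '' ((insert k s : Finset _) : Set _)) =
          Submodule.span ℤ ((T ∘ f) '' (s : Set _)) ⊔ Submodule.span ℤ {(T ∘ f) k} := by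
        rw [Finset.coe_insert, Set.image_insert_eq, Submodule.span_insert, sup_comm]
      have e3 : Submodule.span ℤ ((T ∘ f) '' (s : Set _)) =
          (Submodule.span ℤ (f '' (s : Set _))).map T := by
        rw [Submodule.map_span, Set.image_comp]
      have n1 := notMem_rsp_of_li hli (s : Set _) (k := k) (by simpa using hk)
      have n2 := notMem_rsp_of_li hli2 (s : Set _) (k := k) (by simpa using hk)
      rw [e1, e2, lc_sup_span n1, lc_sup_span n2, Finset.card_insert_of_notMem hk]
      have h1 : dst (Submodule.span ℤ ((T ∘ f) '' (s : Set _))) (ev ((T ∘ f) k)) ≤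
          M * dst (Submodule.span ℤ (f '' (s : Set _))) (ev (f k)) := by
        rw [e3]
        have := dst_map_le hS hM (Submodule.span ℤ (f '' (s : Set _))) (ev (f k))
        rwa [hS] at this
      have hp1 := dst_pos n2
      have hp2 := dst_pos n1
      have h2 := Real.log_le_log hp1 h1
      rw [Real.log_mul hM0.ne' hp2.ne'] at h2
      push_cast
      linarith
  have hspan : L = Submodule.span ℤ (f '' ((Finset.univ : Finset
      (Module.Free.ChooseBasisIndex ℤ L)) : Set (Module.Free.ChooseBasisIndex ℤ L))) := by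
    rw [Finset.coe_univ, Set.image_univ]
    have h1 := b.span_eq
    have h2 := congrArg (Submodule.map L.subtype) h1
    rw [Submodule.map_span, Submodule.map_top, Submodule.range_subtype, ← Set.range_comp] at h2
    exact h2.symm
  have h3 := key Finset.univ
  have h4 : Submodule.span ℤ ((T ∘ f) '' ((Finset.univ : Finset
      (Module.Free.ChooseBasisIndex ℤ L)) : Set (Module.Free.ChooseBasisIndex ℤ L))) =
      L.map T := by
    conv_rhs => rw [hspan]
    rw [Submodule.map_span, Set.image_comp]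
  rw [h4, ← hspan, Finset.card_univ, ← rk_eq b] at h3
  exact h3

end

section
variable {ι : Type*} [Fintype ι] [DecidableEq ι]

theorem rsp_coord {γ : Type*} [Fintype γ] {L : Submodule ℤ (γ → ℤ)} {k : γ}
    (hL : ∀ x ∈ L, x k = 0) {v : EuclideanSpace ℝ γ} (hv : v ∈ rsp L) : v k = 0 := by
  have hle : rsp L ≤ LinearMap.ker
      ((LinearMap.proj k : (γ → ℝ) →ₗ[ℝ] ℝ) ∘ₗ
        (WithLp.linearEquiv 2 ℝ (γ → ℝ)).toLinearMap) := by
    unfold rsp
    rw [Submodule.span_le]
    rintro _ ⟨z, hz, rfl⟩
    have := hL z hz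
    simp [LinearMap.mem_ker, this]
  have := hle hv
  rw [LinearMap.mem_ker] at this
  exact this

theorem le_dst_of_coord {γ : Type*} [Fintype γ] {L : Submodule ℤ (γ → ℤ)} {k : γ}
    (hL : ∀ x ∈ L, x k = 0) (y : γ → ℤ) : |(y k : ℝ)| ≤ dst L (ev y) := by
  unfold dst
  have h1 := rsp_coord hL ((rsp L).starProjection_apply_mem (ev y))
  have h2 := PiLp.norm_apply_le (ev y - (rsp L).starProjection (ev y)) k
  rw [PiLp.sub_apply, h1, sub_zero, ev_apply, Real.norm_eq_abs] at h2
  exact h2

/-- adding a vector which is the only one with a nonzero `k`-coordinate does not decrease `lc` -/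
theorem lc_le_sup_of_coord {γ : Type*} [Fintype γ] {L : Submodule ℤ (γ → ℤ)} {k : γ}
    (hL : ∀ x ∈ L, x k = 0) {y : γ → ℤ} (hy : y k ≠ 0) :
    lc L ≤ lc (L ⊔ Submodule.span ℤ {y}) := by
  have hn : ev y ∉ rsp L := by
    intro h
    have := rsp_coord hL h
    rw [ev_apply] at this
    exact hy (Int.cast_eq_zero.1 this)
  rw [lc_sup_span hn]
  have h1 : (1 : ℝ) ≤ |(y k : ℝ)| := by
    have : (1 : ℤ) ≤ |y k| := Int.one_le_abs hy
    exact_mod_cast this
  have := Real.log_nonneg (h1.trans (le_dst_of_coord hL y))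
  linarith

/-- extension by zero to the second summand -/
def inrM : (ι → ℤ) →ₗ[ℤ] (ι ⊕ ι → ℤ) where
  toFun x := Sum.elim 0 x
  map_add' x y := by funext o; cases o <;> simp
  map_smul' c x := by funext o; cases o <;> simp

@[simp] theorem inrM_inl (x : ι → ℤ) (i : ι) : inrM x (Sum.inl i) = 0 := rfl
@[simp] theorem inrM_inr (x : ι → ℤ) (i : ι) : inrM x (Sum.inr i) = x i := rfl

theorem inrM_injective : Function.Injective (inrM : (ι → ℤ) →ₗ[ℤ] (ι ⊕ ι → ℤ)) := by
  intro x y h
  funext i
  have := congrFun h (Sum.inr i)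
  simpa using this

theorem lc_map_inrM (L : Submodule ℤ (ι → ℤ)) : lc (L.map inrM) = lc L := by
  classical
  let b := Module.Free.chooseBasis ℤ L
  let e := Submodule.equivMapOfInjective inrM inrM_injective L
  unfold lc
  rw [dsc_eq b, dsc_eq (b.map e)]
  have : gm (fun i => ((b.map e i : L.map inrM) : ι ⊕ ι → ℤ)) =
      gm (fun i => (b i : ι → ℤ)) := by
    ext i j
    have h : ∀ i, ((b.map e i : L.map inrM) : ι ⊕ ι → ℤ) = inrM (b i : ι → ℤ) := by
      intro i
      simp [e, Submodule.coe_equivMapOfInjective_apply]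
    rw [gm_apply, gm_apply, h, h]
    simp [dotProduct, Fintype.sum_sum_type]
  rw [this]

/-- the lattice of the coordinates in `s` of the first summand -/
def Es (s : Finset ι) : Submodule ℤ (ι ⊕ ι → ℤ) :=
  Submodule.span ℤ ((fun k : ι => (Pi.single (Sum.inl k) 1 : ι ⊕ ι → ℤ)) '' (s : Set ι))

theorem Es_insert (s : Finset ι) (k : ι) : Es (insert k s) =
    Es s ⊔ Submodule.span ℤ {(Pi.single (Sum.inl k) 1 : ι ⊕ ι → ℤ)} := by
  unfold Es
  rw [Finset.coe_insert, Set.image_insert_eq, Submodule.span_insert, sup_comm]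

theorem lc_sup_Es_le (Γ : Submodule ℤ (ι ⊕ ι → ℤ)) (s : Finset ι) : lc (Γ ⊔ Es s) ≤ lc Γ := by
  induction s using Finset.induction_on with
  | empty => simp [Es]
  | insert k s hk ih =>
    rw [Es_insert, ← sup_assoc]
    have hne : (Pi.single (Sum.inl k) 1 : ι ⊕ ι → ℤ) ≠ 0 := by
      intro h
      have := congrFun h (Sum.inl k)
      simp at this
    refine (lc_sup_span_le _ hne).trans ?_
    have h1 : ‖ev (Pi.single (Sum.inl k) 1 : ι ⊕ ι → ℤ)‖ = 1 := by
      have h2 : ‖ev (Pi.single (Sum.inl k) 1 : ι ⊕ ι → ℤ)‖ ^ 2 = 1 := by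
        rw [norm_ev_sq]; simp
      nlinarith [norm_nonneg (ev (Pi.single (Sum.inl k) 1 : ι ⊕ ι → ℤ))]
    rw [h1, Real.log_one, add_zero]
    exact ih

theorem lc_le_sup_Es (L : Submodule ℤ (ι → ℤ)) (s : Finset ι) :
    lc L ≤ lc (L.map inrM ⊔ Es s) := by
  induction s using Finset.induction_on with
  | empty => simp [Es, lc_map_inrM]
  | insert k s hk ih =>
    rw [Es_insert, ← sup_assoc]
    refine ih.trans (lc_le_sup_of_coord (k := Sum.inl k) ?_ (by simp))
    intro x hx
    obtain ⟨a, ha, c, hc, rfl⟩ := Submodule.mem_sup.1 hx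
    have h1 : a (Sum.inl k) = 0 := by
      obtain ⟨z, -, rfl⟩ := ha
      rfl
    have h2 : c (Sum.inl k) = 0 := by
      have hle : Es s ≤ LinearMap.ker (LinearMap.proj (Sum.inl k) : (ι ⊕ ι → ℤ) →ₗ[ℤ] ℤ) := by
        unfold Es
        rw [Submodule.span_le]
        rintro _ ⟨j, hj, rfl⟩
        have hjk : j ≠ k := by
          rintro rfl
          exact hk (by simpa using hj)
        simp [LinearMap.mem_ker, hjk.symm]
      exact hle hc
    rw [Pi.add_apply, h1, h2, add_zero]

/-- covolume of `A N` for a matrix with small entries (possibly singular) -/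
theorem lc_act_le (A : Matrix ι ι ℤ) (hA : ∀ i j, |A i j| ≤ 1) (N : Submodule ℤ (ι → ℤ)) {m : ℝ}
    (hm0 : 0 < m) (hm : Real.sqrt (Fintype.card (ι ⊕ ι) * Fintype.card ι) ≤ m) :
    lc (act A N) ≤ lc N + rk N * Real.log m := by
  classical
  set B : Matrix (ι ⊕ ι) ι ℤ := Matrix.fromRows 1 A with hB
  have hTl : ∀ (z : ι → ℤ) (i : ι), B.mulVecLin z (Sum.inl i) = z i := by
    intro z i
    simp [hB, Matrix.mulVecLin_apply, Matrix.fromRows_mulVec]
  have hTr : ∀ (z : ι → ℤ) (i : ι), B.mulVecLin z (Sum.inr i) = A.mulVec z i := by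
    intro z i
    simp [hB, Matrix.mulVecLin_apply, Matrix.fromRows_mulVec]
  have hinj : Function.Injective B.mulVecLin := by
    intro x y h
    funext i
    rw [← hTl x i, ← hTl y i, h]
  have hBent : ∀ k i, |B k i| ≤ 1 := by
    intro k i
    cases k with
    | inl k =>
      show |(1 : Matrix ι ι ℤ) k i| ≤ 1
      rw [Matrix.one_apply]
      split_ifs <;> simp
    | inr k => exact hA k i
  have h1 := lc_map_le hinj (S := rm B) (fun z => rm_ev B z) hm0
    (fun v => (norm_rm_le B hBent v).trans (mul_le_mul_of_nonneg_right hm (norm_nonneg _))) N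
  refine le_trans ?_ h1
  refine (lc_le_sup_Es (act A N) Finset.univ).trans ?_
  have h2 : (act A N).map inrM ⊔ Es Finset.univ ≤ N.map B.mulVecLin ⊔ Es Finset.univ ∧
      N.map B.mulVecLin ⊔ Es Finset.univ ≤ (act A N).map inrM ⊔ Es Finset.univ := by
    have hE : ∀ x : ι ⊕ ι → ℤ, (∀ i, x (Sum.inr i) = 0) → x ∈ Es (Finset.univ : Finset ι) := by
      intro x hx
      have hx2 : x = ∑ k : ι, x (Sum.inl k) • (Pi.single (Sum.inl k) 1 : ι ⊕ ι → ℤ) := by
        funext o
        cases o with
        | inl i => simp [Finset.sum_apply, Pi.single_apply]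
        | inr i => simp [Finset.sum_apply, hx]
      rw [hx2]
      refine Submodule.sum_mem _ fun k _ => Submodule.smul_mem _ _ ?_
      exact Submodule.subset_span ⟨k, by simp, rfl⟩
    constructor
    · refine sup_le ?_ le_sup_right
      rintro _ ⟨_, ⟨z, hz, rfl⟩, rfl⟩
      have h3 : inrM (A.mulVecLin z) = B.mulVecLin z + (inrM (A.mulVecLin z) - B.mulVecLin z) := by
        abel
      rw [h3]
      refine Submodule.add_mem_sup (Submodule.mem_map_of_mem hz) (hE _ fun i => ?_)
      rw [Pi.sub_apply, hTr, inrM_inr]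
      simp
    · refine sup_le ?_ le_sup_right
      rintro _ ⟨z, hz, rfl⟩
      have h3 : B.mulVecLin z = inrM (A.mulVecLin z) + (B.mulVecLin z - inrM (A.mulVecLin z)) := by
        abel
      rw [h3]
      refine Submodule.add_mem_sup
        (Submodule.mem_map_of_mem (Submodule.mem_map_of_mem hz)) (hE _ fun i => ?_)
      rw [Pi.sub_apply, hTr, inrM_inr]
      simp
  rw [le_antisymm h2.1 h2.2]
  exact lc_sup_Es_le _ _

theorem rk_map_le {κ : Type*} [Fintype κ] (T : (ι → ℤ) →ₗ[ℤ] (κ → ℤ))
    (N : Submodule ℤ (ι → ℤ)) : rk (N.map T) ≤ rk N := by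
  unfold rk
  exact Submodule.finrank_map_le T N

end

end Crest.Agent.R152.LS
end

-- ▼ part R152/LS6

set_option autoImplicit false
set_option linter.unusedSectionVars false

/-! Row 152, module LS (helper162's Lemma S), part 6: Lemma S from the one-step claim. -/

open Crest.FinProb Crest.ProbabilityR.SignMatrix

namespace Crest.Agent.R152.LS

open Crest.Agent.R152.Base Crest.Agent.R152.Lat

/-- The one-step claim (helper344's module). -/
def OneStep (p c d K0 : ℝ) : Prop :=
  ∃ c2 : ℝ, 0 < c2 ∧ ∃ n0 : ℕ, ∀ n : ℕ, n0 ≤ n → ∀ K : ℝ, K0 ≤ K →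
    ∀ (β : Type) [Fintype β] [DecidableEq β], Fintype.card β ≤ n →
    ∀ X : Submodule ℤ (β → ℤ), rk X + c * n ≤ Fintype.card β → lc X ≤ 2 * n * Real.log n →
    ∀ (s0 : β → ℤ) (τ : ℤ), 1 ≤ τ →
    (∀ x : β → Bool, dst X (ev (s0 + τ • fun i => sg (x i))) ≤ (n : ℝ) ^ 3) →
    bernoulliProb p {x : β → Bool |
      Psi (K * Real.log n) (X ⊔ Submodule.span ℤ {s0 + τ • fun i => sg (x i)}) <
        Psi (K * Real.log n) X + (K + 1 / 2 - d) * Real.log n} ≤ Real.exp (-(c2 * n))

theorem abs_sg_le (c : Bool) : |sg c| ≤ 1 := by cases c <;> simp [sg]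

/-- the step hypothesis of the chain follows from the one-step claim -/
theorem stepOK_of {p c d K0 K c2 : ℝ} {n n0 k0 : ℕ} (hK : 0 ≤ K)
    (h1 : ∀ n : ℕ, n0 ≤ n → ∀ K : ℝ, K0 ≤ K →
    ∀ (β : Type) [Fintype β] [DecidableEq β], Fintype.card β ≤ n →
    ∀ X : Submodule ℤ (β → ℤ), rk X + c * n ≤ Fintype.card β → lc X ≤ 2 * n * Real.log n →
    ∀ (s0 : β → ℤ) (τ : ℤ), 1 ≤ τ →
    (∀ x : β → Bool, dst X (ev (s0 + τ • fun i => sg (x i))) ≤ (n : ℝ) ^ 3) →
    bernoulliProb p {x : β → Bool |
      Psi (K * Real.log n) (X ⊔ Submodule.span ℤ {s0 + τ • fun i => sg (x i)}) <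
        Psi (K * Real.log n) X + (K + 1 / 2 - d) * Real.log n} ≤ Real.exp (-(c2 * n)))
    (hn0 : n0 ≤ n) (hKK : K0 ≤ K) (hn4 : 4 ≤ n) (hk0 : c * n ≤ k0) {ε0 : ℝ} (hε : ε0 ≤ 1 / 2) :
    StepOK p (K * Real.log n) ((K + 1 / 2 - d) * Real.log n) (Real.exp (-(c2 * n)))
      (Real.log n) (ε0 * n * Real.log n) n k0 := by
  intro β _ _ N hcard hν hrk hlc hgood b dd
  have hn1 : (1 : ℝ) ≤ n := by exact_mod_cast (by omega : 1 ≤ n)
  have hn4' : (4 : ℝ) ≤ n := by exact_mod_cast hn4
  have hL : 0 ≤ Real.log n := Real.log_nonneg hn1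
  have hκ : 0 ≤ K * Real.log n := mul_nonneg hK hL
  obtain ⟨w, hwN, hw1, hw⟩ := exists_gen N hν
  set X := act (symMat b) (sub0 N) with hX
  have hA : ∀ i j, |symMat b i j| ≤ 1 := fun i j => abs_sg_le _
  have hrkX : rk X ≤ rk (sub0 N) := rk_map_le _ _
  have hcβ : (Fintype.card β : ℝ) + 1 ≤ n := by exact_mod_cast hcard
  have hlog4 : Real.log 2 ≤ Real.log n / 2 := by
    have e1 : Real.log 4 = 2 * Real.log 2 := by
      rw [show (4 : ℝ) = 2 ^ 2 by norm_num, Real.log_pow]; norm_num
    have e2 := Real.log_le_log (by norm_num : (0:ℝ) < 4) hn4'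
    linarith
  -- covolume of `X`
  have hlcX : lc X ≤ 2 * n * Real.log n := by
    have hm : Real.sqrt (Fintype.card (β ⊕ β) * Fintype.card β) ≤ 2 * n := by
      rw [Real.sqrt_le_left (by positivity)]
      have : (Fintype.card (β ⊕ β) : ℝ) = 2 * Fintype.card β := by
        rw [Fintype.card_sum]; push_cast; ring
      rw [this]
      have h0 : (0 : ℝ) ≤ Fintype.card β := Nat.cast_nonneg _
      nlinarith
    have h2 := lc_act_le (symMat b) hA (sub0 N) (by positivity : (0 : ℝ) < 2 * n) hm
    have h3 := lc_sub0_le N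
    have h4 : (rk (sub0 N) : ℝ) ≤ n := by
      have := rk_le_card (sub0 N)
      have h5 : (rk (sub0 N) : ℝ) ≤ Fintype.card β := by exact_mod_cast this
      linarith
    have h6 : Real.log (2 * n) = Real.log 2 + Real.log n :=
      Real.log_mul (by norm_num) (by positivity)
    have h7 : 0 ≤ Real.log (2 * (n : ℝ)) := Real.log_nonneg (by linarith)
    have h8 : (rk (sub0 N) : ℝ) * Real.log (2 * n) ≤ n * Real.log (2 * n) :=
      mul_le_mul_of_nonneg_right h4 h7
    have h9 : ε0 * n * Real.log n ≤ 1 / 2 * n * Real.log n := by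
      have := mul_le_mul_of_nonneg_right (mul_le_mul_of_nonneg_right hε
        (by positivity : (0:ℝ) ≤ n)) hL
      exact this
    have h10 : (n : ℝ) * Real.log (2 * n) ≤ n * (Real.log n / 2 + Real.log n) := by
      rw [h6]
      exact mul_le_mul_of_nonneg_left (by linarith) (by positivity)
    linarith
  -- distance
  have hdst : ∀ x : β → Bool,
      dst X (ev ((symMat b).mulVec (res0 w) + w none • fun i => sg (x i))) ≤ (n : ℝ) ^ 3 := by
    intro x
    have hd1 : dst ((sub0 N).map ext0) (ev w) ≤ n := by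
      have h2 := lc_eq_sub0 N hw1 hw
      have h3 : Real.log (dst ((sub0 N).map ext0) (ev w)) ≤ Real.log n := by linarith
      have h4 := one_le_dst (sub0 N) hw1
      exact (Real.log_le_log_iff (by linarith) (by linarith)).1 h3
    set B : Matrix β (Option β) ℤ := (symMat (glue b x true)).submatrix some id with hB
    have hBent : ∀ k i, |B k i| ≤ 1 := fun k i => abs_sg_le _
    have hBw : B.mulVec w = (symMat b).mulVec (res0 w) + w none • fun i => sg (x i) := by
      funext i
      rw [Pi.add_apply, Pi.smul_apply, smul_eq_mul, ← sg_mulVec_glue b x true w i]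
      rfl
    have hBX : ((sub0 N).map ext0).map B.mulVecLin = X := by
      rw [hX]
      unfold act
      rw [← Submodule.map_comp]
      congr 1
      refine LinearMap.ext fun y => ?_
      funext i
      simp only [LinearMap.comp_apply, Matrix.mulVecLin_apply]
      have h5 : B.mulVec (ext0 y) i = (symMat (glue b x true)).mulVec (ext0 y) (some i) := rfl
      rw [h5, sg_mulVec_glue]
      simp only [ext0_none, zero_mul, add_zero]
      congr 1
    have h6 := dst_map_le (T := B.mulVecLin) (S := rm B) (fun z => rm_ev B z)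
      (norm_rm_le B hBent) ((sub0 N).map ext0) (ev w)
    rw [hBX, rm_ev, hBw, Fintype.card_option] at h6
    refine h6.trans ?_
    have h7 : Real.sqrt ((Fintype.card β : ℝ) * ((Fintype.card β + 1 : ℕ) : ℝ)) ≤ n := by
      rw [Real.sqrt_le_left (by linarith)]
      push_cast
      have h0 : (0 : ℝ) ≤ Fintype.card β := Nat.cast_nonneg _
      nlinarith
    have h8 : 0 ≤ dst ((sub0 N).map ext0) (ev w) := dst_nonneg _ _
    calc Real.sqrt ((Fintype.card β : ℝ) * ((Fintype.card β + 1 : ℕ) : ℝ)) *
          dst ((sub0 N).map ext0) (ev w) ≤ n * n := by gcongr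
      _ ≤ (n : ℝ) ^ 3 := by nlinarith [mul_self_nonneg ((n : ℝ)), mul_nonneg (by linarith : (0:ℝ) ≤ n) (by linarith : (0:ℝ) ≤ n)]
  have hrkreal : (rk X : ℝ) + c * n ≤ Fintype.card β := by
    have h2 : (k0 : ℝ) + rk (sub0 N) ≤ Fintype.card β := by exact_mod_cast hrk
    have h3 : (rk X : ℝ) ≤ rk (sub0 N) := by exact_mod_cast hrkX
    linarith
  have hfin := h1 n hn0 K hKK β (by omega) X hrkreal hlcX ((symMat b).mulVec (res0 w)) (w none)
    hw1 hdst
  have heq : {x : β → Bool | psi (K * Real.log n) ((act (symMat (glue b x dd)) N).map res0) <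
      psi (K * Real.log n) X + (K + 1 / 2 - d) * Real.log n} =
      {x : β → Bool | Psi (K * Real.log n) (X ⊔ Submodule.span ℤ
        {(symMat b).mulVec (res0 w) + w none • fun i => sg (x i)}) <
        Psi (K * Real.log n) X + (K + 1 / 2 - d) * Real.log n} := by
    ext x
    have e1 : psi (K * Real.log n) ((act (symMat (glue b x dd)) N).map res0) =
        Psi (K * Real.log n) (X ⊔ Submodule.span ℤ
          {(symMat b).mulVec (res0 w) + w none • fun i => sg (x i)}) := by
      rw [res_act b x dd N w hw, psi_eq_Psi hκ]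
    have e2 : psi (K * Real.log n) X = Psi (K * Real.log n) X := psi_eq_Psi hκ X
    simp only [Set.mem_ofPred_eq, e1, e2]
  rw [heq]
  exact hfin

/-- **Lemma S** (for a fixed lattice `N`), from the one-step claim. -/
theorem lemmaS_of {p c K0 : ℝ} (hp0 : 0 ≤ p) (hp1 : p ≤ 1) (hK0 : 0 ≤ K0)
    (hone : ∀ d : ℝ, 0 < d → OneStep p c d K0) {K η : ℝ} (hK : K0 ≤ K) (hη : 0 < η) :
    ∃ ε0 : ℝ, 0 < ε0 ∧ ∃ c1 : ℝ, 0 < c1 ∧ ∃ n0 : ℕ, ∀ n : ℕ, n0 ≤ n →
      ∀ (ι : Type) [Fintype ι] [DecidableEq ι], Fintype.card ι = n →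
      ∀ N : Submodule ℤ (ι → ℤ), rk N + c * n ≤ n → lc N ≤ ε0 * n * Real.log n →
      bernoulliProb p {b : Sym2 ι → Bool | Psi (K * Real.log n) (act (symMat b) N) ≤
        ((K + 1 / 2) * rk N - η * n) * Real.log n} ≤ Real.exp (-(c1 * n ^ 2)) := by
  have hKpos : 0 ≤ K := hK0.trans hK
  set η' : ℝ := min η 1 with hη'
  have hη'0 : 0 < η' := lt_min hη one_pos
  have hη'1 : η' ≤ 1 := min_le_right _ _
  have hη'η : η' ≤ η := min_le_left _ _
  obtain ⟨c2, hc2, n1, hstep⟩ := hone (η' / 4) (by positivity)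
  have hK2 : 0 < K + 1 / 2 := by linarith
  set ε0 : ℝ := min (1 / 2) (η' / (4 * (K + 1 / 2))) with hε0
  have hε0pos : 0 < ε0 := lt_min (by norm_num) (by positivity)
  set c1 : ℝ := c2 * η' / (4 * (K + 1 / 2)) with hc1
  have hc1pos : 0 < c1 := by positivity
  obtain ⟨n2, hn2⟩ := exists_nat_ge (Real.log 2 / c1)
  refine ⟨ε0, hε0pos, c1, hc1pos, max (max n1 4) n2, ?_⟩
  intro n hn ι _ _ hcard N hrk hlc
  have hnn1 : n1 ≤ n := (le_max_left _ _).trans ((le_max_left _ _).trans hn)
  have hn4 : 4 ≤ n := (le_max_right _ _).trans ((le_max_left _ _).trans hn)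
  have hnn2 : n2 ≤ n := (le_max_right _ _).trans hn
  have hn4' : (4 : ℝ) ≤ n := by exact_mod_cast hn4
  have hLpos : 0 < Real.log n := Real.log_pos (by linarith)
  have hκ : 0 ≤ K * Real.log n := mul_nonneg hKpos hLpos.le
  have hTc : 0 < K + 1 / 2 - η' / 4 := by linarith
  set T : ℝ := (K + 1 / 2 - η' / 4) * Real.log n with hT
  have hTpos : 0 < T := mul_pos hTc hLpos
  set θ : ℝ := c2 * n / T with hθ
  have hθpos : 0 < θ := by positivity
  have hθT : θ * T = c2 * n := by rw [hθ, div_mul_cancel₀ _ hTpos.ne']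
  have hS := stepOK_of (p := p) (c := c) (d := η' / 4) (K0 := K0) (K := K) (c2 := c2) (n := n)
    (k0 := ⌈c * n⌉₊) (ε0 := ε0) hKpos hstep hnn1 hK hn4 (Nat.le_ceil _) (min_le_left _ _)
  have hk : ⌈c * (n : ℝ)⌉₊ + rk N ≤ Fintype.card ι := by
    rw [hcard]
    have h1 : c * (n : ℝ) ≤ ((n - rk N : ℕ) : ℝ) := by
      have h2 : rk N ≤ n := by rw [← hcard]; exact rk_le_card N
      rw [Nat.cast_sub h2]
      linarith
    have h3 := Nat.ceil_le.2 h1
    have h2 : rk N ≤ n := by rw [← hcard]; exact rk_le_card N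
    omega
  have hchain := chain facts hp0 hp1 hκ hTpos.le hLpos hθpos.le
    (by rw [hθT, ← Real.exp_add]; simp) hS (rk N) ι N rfl hcard.le hk hlc
  -- Markov
  set G : (Sym2 ι → Bool) → ℝ := fun b =>
    Real.exp (θ * (T * rk N - psi (K * Real.log n) (act (symMat b) N))) with hG
  set t : ℝ := Real.exp (θ * (3 / 4 * η' * n * Real.log n)) with ht
  have hrkn : (rk N : ℝ) ≤ n := by
    have : rk N ≤ n := by rw [← hcard]; exact rk_le_card N
    exact_mod_cast this
  have hsub : {b : Sym2 ι → Bool | Psi (K * Real.log n) (act (symMat b) N) ≤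
        ((K + 1 / 2) * rk N - η * n) * Real.log n} ⊆ {b | t ≤ G b} := by
    intro b hb
    have hb' : Psi (K * Real.log n) (act (symMat b) N) ≤
        ((K + 1 / 2) * rk N - η * n) * Real.log n := hb
    show t ≤ G b
    rw [ht, hG]
    apply Real.exp_le_exp.2
    refine mul_le_mul_of_nonneg_left ?_ hθpos.le
    rw [psi_eq_Psi hκ, hT]
    have h1 : η' / 4 * rk N * Real.log n ≤ η' / 4 * n * Real.log n := by gcongr
    have h2 : η' * n * Real.log n ≤ η * n * Real.log n := by gcongr
    nlinarith
  refine (prob_mono hp0 hp1 hsub).trans ?_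
  refine (markov hp0 hp1 (fun b => (Real.exp_pos _).le) (Real.exp_pos _)).trans ?_
  rw [div_le_iff₀ (Real.exp_pos _)]
  refine hchain.trans ?_
  -- numerics
  have e1 : θ * (T / Real.log n) * lc N ≤ c2 * ε0 * n ^ 2 := by
    have h1 : θ * (T / Real.log n) = c2 * n / Real.log n := by
      rw [← mul_div_assoc, hθT]
    rw [h1]
    have h2 : c2 * n / Real.log n * lc N ≤ c2 * n / Real.log n * (ε0 * n * Real.log n) :=
      mul_le_mul_of_nonneg_left hlc (by positivity)
    refine h2.trans (le_of_eq ?_)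
    field_simp
  have e2 : c2 * ε0 * n ^ 2 ≤ c1 * n ^ 2 := by
    have h1 : c2 * ε0 ≤ c1 := by
      rw [hc1, mul_div_assoc]
      exact mul_le_mul_of_nonneg_left (min_le_right _ _) hc2.le
    exact mul_le_mul_of_nonneg_right h1 (by positivity)
  have e3 : 3 * c1 * n ^ 2 ≤ θ * (3 / 4 * η' * n * Real.log n) := by
    have h1 : θ * (3 / 4 * η' * n * Real.log n) =
        c2 * (3 / 4) * η' * n ^ 2 / (K + 1 / 2 - η' / 4) := by
      rw [hθ, hT]
      field_simp
    rw [h1, hc1, le_div_iff₀ hTc]
    have h2 : 3 * (c2 * η' / (4 * (K + 1 / 2))) * n ^ 2 * (K + 1 / 2 - η' / 4) ≤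
        3 * (c2 * η' / (4 * (K + 1 / 2))) * n ^ 2 * (K + 1 / 2) := by
      apply mul_le_mul_of_nonneg_left (by linarith) (by positivity)
    refine h2.trans (le_of_eq ?_)
    field_simp
  have e4 : Real.log 2 * n ≤ c1 * n ^ 2 := by
    have h1 : Real.log 2 / c1 ≤ n := hn2.trans (by exact_mod_cast hnn2)
    rw [div_le_iff₀ hc1pos] at h1
    nlinarith
  have e5 : (2 : ℝ) ^ (rk N) ≤ Real.exp (Real.log 2 * n) := by
    have h1 : (2 : ℝ) ^ (rk N) = Real.exp (Real.log 2 * rk N) := by
      rw [mul_comm, ← Real.rpow_natCast, Real.rpow_def_of_pos (by norm_num)]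
      rw [mul_comm]
    rw [h1]
    apply Real.exp_le_exp.2
    exact mul_le_mul_of_nonneg_left hrkn (Real.log_nonneg (by norm_num))
  calc (2 : ℝ) ^ (rk N) * Real.exp (θ * (T / Real.log n) * lc N)
      ≤ Real.exp (Real.log 2 * n) * Real.exp (θ * (T / Real.log n) * lc N) := by gcongr
    _ = Real.exp (Real.log 2 * n + θ * (T / Real.log n) * lc N) := by rw [Real.exp_add]
    _ ≤ Real.exp (-(c1 * n ^ 2) + θ * (3 / 4 * η' * n * Real.log n)) := by
        apply Real.exp_le_exp.2
        linarith
    _ = Real.exp (-(c1 * n ^ 2)) * t := by rw [Real.exp_add]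

end Crest.Agent.R152.LS
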