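import Crest.Agent.R152.Rel2
import Crest.Agent.R152.Lat2
import Crest.Agent.R152.Lat3
import Crest.Agent.R152.ROD4
import Crest.Agent.R152.Glo3
import Crest.Agent.R152.LS6
import Crest.Agent.R152.AsmDefs
import Crest.Agent.R152.LS1
import Crest.Agent.R152.Lat1
import Mathlib

-- ▼ part R152/Cheap2
section

set_option autoImplicit false
set_option linter.unusedSectionVars false

/-!
# Row 152, module CHEAP, part 2: potentials, closed lattices, cheap supersets, greedy step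
-/

namespace Crest.Agent.R152.Cheap

open Matrix Module Crest.Agent.R152.Lat Crest.Agent.R152.Rel

variable {ι : Type*} [Fintype ι]

/-- potential `Φ(L) = log covol L + lam * rank L` -/
noncomputable def Phi (lam : ℝ) (L : Submodule ℤ (ι → ℤ)) : ℝ := lc L + lam * rk L

/-- `F` minimises the potential among its supersets -/
def Closed (lam : ℝ) (F : Submodule ℤ (ι → ℤ)) : Prop :=
  ∀ M : Submodule ℤ (ι → ℤ), F ≤ M → Phi lam F ≤ Phi lam M

theorem Phi_submod (lam : ℝ) (L M : Submodule ℤ (ι → ℤ)) :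
    Phi lam (L ⊔ M) + Phi lam (L ⊓ M) ≤ Phi lam L + Phi lam M := by
  have h1 := lc_submod L M
  have h2 : (rk (L ⊔ M) : ℝ) + rk (L ⊓ M) = rk L + rk M := by exact_mod_cast rk_modular L M
  unfold Phi
  have h3 : lam * (rk (L ⊔ M) : ℝ) + lam * rk (L ⊓ M) = lam * rk L + lam * rk M := by
    rw [← mul_add, h2, mul_add]
  linarith

/-- existence of minimisers of the potential in any nonempty family -/
theorem exists_min (lam : ℝ) (P : Submodule ℤ (ι → ℤ) → Prop) (hP : ∃ L, P L) :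
    ∃ L, P L ∧ ∀ M, P M → Phi lam L ≤ Phi lam M := by
  classical
  set T : Finset ℕ := (Finset.range (Fintype.card ι + 1)).filter (fun r => ∃ L, P L ∧ rk L = r)
    with hT
  have h1 : ∀ r ∈ T, ∃ L, (P L ∧ rk L = r) ∧ ∀ M, P M → rk M = r → dsc L ≤ dsc M := by
    intro r hr
    obtain ⟨L0, hL0⟩ := (Finset.mem_filter.1 hr).2
    obtain ⟨L, hL, hmin⟩ := WellFounded.has_min
      (measure (fun L : Submodule ℤ (ι → ℤ) => (dsc L).toNat)).wf
      {L | P L ∧ rk L = r} ⟨L0, hL0⟩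
    refine ⟨L, hL, fun M hM hr' => ?_⟩
    have h2 := hmin M ⟨hM, hr'⟩
    have h3 : ¬ ((dsc M).toNat < (dsc L).toNat) := h2
    have h4 := dsc_pos M
    have h5 := dsc_pos L
    omega
  choose! Lr hLr hmin using h1
  obtain ⟨L0, hL0⟩ := hP
  have hmem : ∀ M, P M → rk M ∈ T := by
    intro M hM
    rw [hT, Finset.mem_filter]
    refine ⟨Finset.mem_range.2 ?_, M, hM, rfl⟩
    have := rk_le_card M
    omega
  obtain ⟨r, hr, hrmin⟩ := T.exists_min_image (fun r => Phi lam (Lr r)) ⟨_, hmem L0 hL0⟩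
  refine ⟨Lr r, (hLr r hr).1, fun M hM => ?_⟩
  refine (hrmin (rk M) (hmem M hM)).trans ?_
  have h2 := hmin (rk M) (hmem M hM) M hM rfl
  have h3 := (hLr (rk M) (hmem M hM)).2
  unfold Phi
  rw [h3]
  have h4 : lc (Lr (rk M)) ≤ lc M := by
    unfold lc
    have h5 : (0 : ℝ) < dsc (Lr (rk M)) := by exact_mod_cast dsc_pos _
    have h6 : ((dsc (Lr (rk M)) : ℤ) : ℝ) ≤ dsc M := by exact_mod_cast h2
    have := Real.log_le_log h5 h6
    linarith
  linarith

theorem Closed.sat {lam : ℝ} {F : Submodule ℤ (ι → ℤ)} (hF : Closed lam F)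
    (M : Submodule ℤ (ι → ℤ)) : Sat F M := by
  intro z _ k hk hkz
  have h1 : ev z ∈ rsp F := mem_rsp_iff.2 ⟨k, hk, hkz⟩
  have h2 := rk_sup_span_of_mem h1
  have h3 := hF (F ⊔ Submodule.span ℤ {z}) le_sup_left
  unfold Phi at h3
  rw [h2, lc_sup_span_of_mem h1] at h3
  have h4 := ind_pos (le_sup_left : F ≤ F ⊔ Submodule.span ℤ {z}) h2.symm
  have h5 : Real.log (ind F (F ⊔ Submodule.span ℤ {z})) ≤ 0 := by linarith
  have h6 : ind F (F ⊔ Submodule.span ℤ {z}) = 1 := by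
    by_contra h7
    have h8 : (1 : ℝ) < ind F (F ⊔ Submodule.span ℤ {z}) := by
      have : 1 < ind F (F ⊔ Submodule.span ℤ {z}) := by omega
      exact_mod_cast this
    have := Real.log_pos h8
    linarith
  unfold ind at h6
  rw [AddSubgroup.relIndex_eq_one] at h6
  exact h6 (Submodule.mem_sup_right (Submodule.mem_span_singleton_self z))

theorem Closed.lower {lam : ℝ} {F : Submodule ℤ (ι → ℤ)} (hF : Closed lam F)
    {L : Submodule ℤ (ι → ℤ)} (h : F ≤ L) : -lam * ((rk L : ℝ) - rk F) ≤ lc L - lc F := by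
  have := hF L h
  unfold Phi at this
  linarith

/-- cheap supersets -/
def cheapSet (lam : ℝ) (F : Submodule ℤ (ι → ℤ)) (K0 : ℝ) (Δ : ℕ) :
    Set (Submodule ℤ (ι → ℤ)) :=
  {M | F ≤ M ∧ Phi lam M ≤ Phi lam F + K0 ∧ rk M ≤ rk F + Δ}

theorem cls_zero_mem (F M : Submodule ℤ (ι → ℤ)) {r : ℝ} (hr : 0 ≤ r) : (0 : (ι → ℤ) ⧸ F) ∈ cls F M r := by
  refine ⟨0, M.zero_mem, by simp, ?_⟩
  unfold nq
  simpa using hr

theorem cheap_gens {lam : ℝ} (hlam : 0 ≤ lam) {F : Submodule ℤ (ι → ℤ)} (hF : Closed lam F)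
    {K0 : ℝ} (hK0 : 0 ≤ K0) {Δ : ℕ} {M : Submodule ℤ (ι → ℤ)} (hM : M ∈ cheapSet lam F K0 Δ) :
    ∃ q : Fin Δ → (ι → ℤ) ⧸ F, (∀ j, q j ∈ cls F ⊤ (4 * (Δ : ℝ) ^ 2 * Real.exp (2 * K0))) ∧
      M = (Submodule.span ℤ (Set.range q)).comap F.mkQ := by
  obtain ⟨h1, h2, h3⟩ := hM
  have hlow : ∀ L : Submodule ℤ (ι → ℤ), F ≤ L → L ≤ M → lc M - K0 ≤ lc L := by
    intro L hFL hLM
    have h4 := hF.lower hFL
    unfold Phi at h2
    have h5 : (rk L : ℝ) ≤ rk M := by exact_mod_cast rk_mono hLM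
    nlinarith
  have hsg := exists_short_gens h1 (hF.sat M) hK0 hlow
  have hk : rk M - rk F ≤ Δ := by omega
  generalize rk M - rk F = k at hsg hk
  obtain ⟨c, hcM, hspan, hc⟩ := hsg
  set R : ℝ := 4 * (Δ : ℝ) ^ 2 * Real.exp (2 * K0) with hR
  have hR0 : 0 ≤ R := by positivity
  refine ⟨fun j => if h : (j : ℕ) < k then F.mkQ (c ⟨j, h⟩) else 0, ?_, ?_⟩
  · intro j
    by_cases h : (j : ℕ) < k
    · simp only [h, dif_pos]
      refine ⟨c ⟨j, h⟩, Submodule.mem_top, rfl, (hc _).trans ?_⟩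
      rw [hR]
      have : (k : ℝ) ≤ Δ := by exact_mod_cast hk
      gcongr
    · simp only [h, dif_neg, not_false_eq_true]
      exact cls_zero_mem F ⊤ hR0
  · have hcomap : M = (M.map F.mkQ).comap F.mkQ := by
      rw [Submodule.comap_map_eq, Submodule.ker_mkQ, sup_eq_left.2 h1]
    rw [hcomap]
    congr 1
    conv_lhs => rw [← hspan, Submodule.map_sup]
    have hz : F.map F.mkQ = ⊥ := by
      exact Submodule.mkQ_map_self F
    rw [hz, bot_sup_eq, Submodule.map_span]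
    apply le_antisymm
    · rw [Submodule.span_le]
      rintro _ ⟨_, ⟨j, rfl⟩, rfl⟩
      apply Submodule.subset_span
      refine ⟨⟨j, lt_of_lt_of_le j.2 hk⟩, ?_⟩
      simp
    · rw [Submodule.span_le]
      rintro _ ⟨j, rfl⟩
      by_cases h : (j : ℕ) < k
      · simp only [h, dif_pos]
        exact Submodule.subset_span ⟨_, ⟨_, rfl⟩, rfl⟩
      · simp only [h, dif_neg, not_false_eq_true]
        exact Submodule.zero_mem _

theorem cheap_card {lam : ℝ} (hlam : 0 ≤ lam) {F : Submodule ℤ (ι → ℤ)} (hF : Closed lam F)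
    {K0 : ℝ} (hK0 : 0 ≤ K0) {Δ : ℕ}
    (hfin : (cls F ⊤ (4 * (Δ : ℝ) ^ 2 * Real.exp (2 * K0))).Finite) :
    (cheapSet lam F K0 Δ).Finite ∧ (cheapSet lam F K0 Δ).ncard ≤
      (cls F ⊤ (4 * (Δ : ℝ) ^ 2 * Real.exp (2 * K0))).ncard ^ Δ := by
  classical
  set T := hfin.toFinset with hT
  set I : Finset (Submodule ℤ (ι → ℤ)) := (Fintype.piFinset (fun _ : Fin Δ => T)).image
    (fun q => (Submodule.span ℤ (Set.range q)).comap F.mkQ) with hI
  have hsub : cheapSet lam F K0 Δ ⊆ (I : Set (Submodule ℤ (ι → ℤ))) := by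
    intro M hM
    obtain ⟨q, hq, hMq⟩ := cheap_gens hlam hF hK0 hM
    rw [hI, Finset.coe_image]
    refine ⟨q, ?_, hMq.symm⟩
    rw [Finset.mem_coe, Fintype.mem_piFinset]
    intro j
    rw [hT, Set.Finite.mem_toFinset]
    exact hq j
  refine ⟨I.finite_toSet.subset hsub, ?_⟩
  calc (cheapSet lam F K0 Δ).ncard ≤ (I : Set (Submodule ℤ (ι → ℤ))).ncard :=
        Set.ncard_le_ncard hsub I.finite_toSet
    _ = I.card := Set.ncard_coe_finset I
    _ ≤ (Fintype.piFinset (fun _ : Fin Δ => T)).card := Finset.card_image_le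
    _ = T.card ^ Δ := by rw [Fintype.card_piFinset_const]
    _ = _ := by rw [hT, ← Set.ncard_eq_toFinset_card _ hfin]

open Classical in
/-- robustness of a finite set relative to `U` -/
def Robust (θ : ℝ) (U : Submodule ℤ (ι → ℤ)) (S : Finset (ι → ℤ)) : Prop :=
  (∀ x ∈ S, ∀ y ∈ S, x - y ∈ U) ∧ ∀ (L : Submodule ℤ (ι → ℤ)), ∀ x0 ∈ S,
    ((S.filter (fun x => x - x0 ∈ L)).card : ℝ) ≤
      (2 : ℝ) ^ (-θ * ((rk U : ℝ) - rk (L ⊓ U))) * S.card

theorem rk_inf_le {F M : Submodule ℤ (ι → ℤ)} (h : F ≤ M) (U : Submodule ℤ (ι → ℤ)) :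
    rk (M ⊓ U) + rk F ≤ rk (F ⊓ U) + rk M := by
  have h1 := rk_modular M U
  have h2 := rk_modular F U
  have h3 := rk_mono (sup_le_sup_right h U)
  omega

/-- the greedy step -/
theorem exists_step {lam K0 θ N : ℝ} {Δ D : ℕ} (hθ : 0 ≤ θ) {F U : Submodule ℤ (ι → ℤ)}
    {S : Finset (ι → ℤ)} {x0 : ι → ℤ} (hS : Robust θ U S) (hx0 : x0 ∈ S)
    (hfin : (cheapSet lam F K0 Δ).Finite) (hN : ((cheapSet lam F K0 Δ).ncard : ℝ) ≤ N)
    (hD : rk (F ⊓ U) + D ≤ rk U) (hlt : N * (2 : ℝ) ^ (-θ * ((D : ℝ) - Δ)) < 1) :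
    ∃ x ∈ S, ∀ M, F ≤ M → x - x0 ∈ M → Phi lam F + K0 < Phi lam M ∨ rk F + Δ < rk M := by
  classical
  by_contra hcon
  push Not at hcon
  have hSpos : (0 : ℝ) < S.card := by
    have : 0 < S.card := Finset.card_pos.2 ⟨x0, hx0⟩
    exact_mod_cast this
  set C := hfin.toFinset with hC
  have hcover : S ⊆ C.biUnion (fun M => S.filter (fun x => x - x0 ∈ M)) := by
    intro x hx
    obtain ⟨M, hFM, hxM, h1, h2⟩ := hcon x hx
    rw [Finset.mem_biUnion]
    refine ⟨M, ?_, ?_⟩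
    · rw [hC, Set.Finite.mem_toFinset]
      exact ⟨hFM, h1, h2⟩
    · rw [Finset.mem_filter]; exact ⟨hx, hxM⟩
  have hbound : ∀ M ∈ C, ((S.filter (fun x => x - x0 ∈ M)).card : ℝ) ≤
      (2 : ℝ) ^ (-θ * ((D : ℝ) - Δ)) * S.card := by
    intro M hM
    rw [hC, Set.Finite.mem_toFinset] at hM
    have h1 := hS.2 M x0 hx0
    refine h1.trans ?_
    have h2 := rk_inf_le hM.1 U
    have h3 := hM.2.2
    have h4 : (D : ℝ) - Δ ≤ (rk U : ℝ) - rk (M ⊓ U) := by
      have : rk (M ⊓ U) + D ≤ rk U + Δ := by omega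
      have : ((rk (M ⊓ U) + D : ℕ) : ℝ) ≤ ((rk U + Δ : ℕ) : ℝ) := by exact_mod_cast this
      push_cast at this
      linarith
    have h5 : (2 : ℝ) ^ (-θ * ((rk U : ℝ) - rk (M ⊓ U))) ≤ (2 : ℝ) ^ (-θ * ((D : ℝ) - Δ)) := by
      apply Real.rpow_le_rpow_of_exponent_le (by norm_num)
      nlinarith
    exact mul_le_mul_of_nonneg_right h5 hSpos.le
  have h1 : (S.card : ℝ) ≤ N * ((2 : ℝ) ^ (-θ * ((D : ℝ) - Δ)) * S.card) := by
    calc (S.card : ℝ) ≤ ((C.biUnion (fun M => S.filter (fun x => x - x0 ∈ M))).card : ℝ) := by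
          exact_mod_cast Finset.card_le_card hcover
      _ ≤ ∑ M ∈ C, ((S.filter (fun x => x - x0 ∈ M)).card : ℝ) := by
          exact_mod_cast Finset.card_biUnion_le
      _ ≤ ∑ M ∈ C, (2 : ℝ) ^ (-θ * ((D : ℝ) - Δ)) * S.card := Finset.sum_le_sum hbound
      _ = C.card * ((2 : ℝ) ^ (-θ * ((D : ℝ) - Δ)) * S.card) := by
          rw [Finset.sum_const, nsmul_eq_mul]
      _ ≤ N * ((2 : ℝ) ^ (-θ * ((D : ℝ) - Δ)) * S.card) := by
          have h6 : (C.card : ℝ) ≤ N := by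
            rw [hC, ← Set.ncard_eq_toFinset_card _ hfin]; exact hN
          exact mul_le_mul_of_nonneg_right h6 (by positivity)
  have h2 : N * ((2 : ℝ) ^ (-θ * ((D : ℝ) - Δ)) * S.card) < S.card := by
    calc N * ((2 : ℝ) ^ (-θ * ((D : ℝ) - Δ)) * S.card)
        = (N * (2 : ℝ) ^ (-θ * ((D : ℝ) - Δ))) * S.card := by ring
      _ < 1 * S.card := mul_lt_mul_of_pos_right hlt hSpos
      _ = S.card := one_mul _
  linarith

/-! ### closures of samples -/

/-- closure of a list of samples (differences with `x0`) -/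
noncomputable def cl (lam : ℝ) (x0 : ι → ℤ) : List (ι → ℤ) → Submodule ℤ (ι → ℤ)
  | [] => (exists_min lam (fun _ => True) ⟨⊥, trivial⟩).choose
  | x :: l => (exists_min lam (fun L => cl lam x0 l ≤ L ∧ x - x0 ∈ L)
      ⟨⊤, le_top, Submodule.mem_top⟩).choose

theorem cl_cons_spec (lam : ℝ) (x0 x : ι → ℤ) (l : List (ι → ℤ)) :
    (cl lam x0 l ≤ cl lam x0 (x :: l) ∧ x - x0 ∈ cl lam x0 (x :: l)) ∧
    ∀ M, (cl lam x0 l ≤ M ∧ x - x0 ∈ M) → Phi lam (cl lam x0 (x :: l)) ≤ Phi lam M :=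
  (exists_min lam (fun L => cl lam x0 l ≤ L ∧ x - x0 ∈ L)
      ⟨⊤, le_top, Submodule.mem_top⟩).choose_spec

theorem cl_nil_spec (lam : ℝ) (x0 : ι → ℤ) (M : Submodule ℤ (ι → ℤ)) :
    Phi lam (cl lam x0 []) ≤ Phi lam M :=
  (exists_min lam (fun _ : Submodule ℤ (ι → ℤ) => True) ⟨⊥, trivial⟩).choose_spec.2 M trivial

theorem mem_cl (lam : ℝ) (x0 : ι → ℤ) (l : List (ι → ℤ)) : ∀ y ∈ l, y - x0 ∈ cl lam x0 l := by
  induction l with
  | nil => intro y hy; simp at hy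
  | cons x l ih =>
    intro y hy
    obtain ⟨⟨h1, h2⟩, _⟩ := cl_cons_spec lam x0 x l
    rcases List.mem_cons.1 hy with rfl | hy
    · exact h2
    · exact h1 (ih y hy)

/-- the closure minimises the potential over all lattices containing the samples -/
theorem cl_min (lam : ℝ) (x0 : ι → ℤ) (l : List (ι → ℤ)) : ∀ L : Submodule ℤ (ι → ℤ),
    (∀ y ∈ l, y - x0 ∈ L) → Phi lam (cl lam x0 l) ≤ Phi lam L := by
  induction l with
  | nil => intro L _; exact cl_nil_spec lam x0 L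
  | cons x l ih =>
    intro L hL
    obtain ⟨_, h3⟩ := cl_cons_spec lam x0 x l
    have h4 := h3 (L ⊔ cl lam x0 l) ⟨le_sup_right, Submodule.mem_sup_left (hL x (by simp))⟩
    have h5 := Phi_submod lam L (cl lam x0 l)
    have h6 := ih (L ⊓ cl lam x0 l) (fun y hy =>
      ⟨hL y (List.mem_cons_of_mem _ hy), mem_cl lam x0 l y hy⟩)
    linarith

theorem cl_closed (lam : ℝ) (x0 : ι → ℤ) (l : List (ι → ℤ)) : Closed lam (cl lam x0 l) :=
  fun M hM => cl_min lam x0 l M fun y hy => hM (mem_cl lam x0 l y hy)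

theorem Phi_top (lam : ℝ) : Phi lam (⊤ : Submodule ℤ (ι → ℤ)) = lam * Fintype.card ι := by
  simp [Phi]

theorem Phi_cl_le (lam : ℝ) (x0 : ι → ℤ) (l : List (ι → ℤ)) :
    Phi lam (cl lam x0 l) ≤ lam * Fintype.card ι := by
  rw [← Phi_top]; exact cl_closed lam x0 l ⊤ le_top

theorem Phi_cl_mono (lam : ℝ) (x0 x : ι → ℤ) (l : List (ι → ℤ)) :
    Phi lam (cl lam x0 l) ≤ Phi lam (cl lam x0 (x :: l)) :=
  cl_closed lam x0 l _ (cl_cons_spec lam x0 x l).1.1

/-- **two-sided control, upper side** -/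
theorem rk_cl_le {lam : ℝ} (hlam : 0 < lam) (x0 : ι → ℤ) (l : List (ι → ℤ))
    (U : Submodule ℤ (ι → ℤ)) (hU : ∀ y ∈ l, y - x0 ∈ U) :
    (rk (cl lam x0 l) : ℝ) ≤ rk (cl lam x0 l ⊓ U) + lc U / lam := by
  set F := cl lam x0 l with hF
  have h1 := cl_min lam x0 l (F ⊓ U) (fun y hy => ⟨mem_cl lam x0 l y hy, hU y hy⟩)
  have h2 := Phi_submod lam F U
  have h3 : Phi lam (F ⊔ U) ≤ Phi lam U := by linarith
  unfold Phi at h3
  have h4 := lc_nonneg (F ⊔ U)
  have h5 : (rk (F ⊔ U) : ℝ) + rk (F ⊓ U) = rk F + rk U := by exact_mod_cast rk_modular F U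
  have h6 : lam * ((rk F : ℝ) - rk (F ⊓ U)) ≤ lc U := by nlinarith
  have h7 : (rk F : ℝ) - rk (F ⊓ U) ≤ lc U / lam := by
    rw [le_div_iff₀ hlam]; linarith
  linarith

/-- **the greedy algorithm** -/
theorem greedy {lam K0 θ N : ℝ} {Δ D : ℕ} (hlam : 0 ≤ lam) (hK0 : 0 < K0) (hΔ : 0 < Δ)
    (hθ : 0 ≤ θ)
    {U : Submodule ℤ (ι → ℤ)} {S : Finset (ι → ℤ)} {x0 : ι → ℤ} (hS : Robust θ U S)
    (hx0 : x0 ∈ S)
    (hN : ∀ F : Submodule ℤ (ι → ℤ), Closed lam F → (cheapSet lam F K0 Δ).Finite ∧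
      ((cheapSet lam F K0 Δ).ncard : ℝ) ≤ N)
    (hlt : N * (2 : ℝ) ^ (-θ * ((D : ℝ) - Δ)) < 1) (m : ℕ) :
    ∃ l : List (ι → ℤ), l.length = m ∧ (∀ y ∈ l, y ∈ S) ∧
      (rk U < rk (cl lam x0 l ⊓ U) + D ∨
        (m : ℝ) ≤ Phi lam (cl lam x0 l) / K0 + rk (cl lam x0 l) / Δ) := by
  have hΔ' : (0 : ℝ) < Δ := by exact_mod_cast hΔ
  induction m with
  | zero =>
    refine ⟨[], rfl, by simp, Or.inr ?_⟩
    have h1 : 0 ≤ Phi lam (cl lam x0 []) := by
      unfold Phi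
      have := lc_nonneg (cl lam x0 [])
      positivity
    push_cast
    positivity
  | succ m ih =>
    obtain ⟨l, hl, hlS, hor⟩ := ih
    set F := cl lam x0 l with hF
    have hmono : ∀ x, rk (F ⊓ U) ≤ rk (cl lam x0 (x :: l) ⊓ U) := fun x =>
      rk_mono (inf_le_inf_right _ (cl_cons_spec lam x0 x l).1.1)
    by_cases hcase : rk U < rk (F ⊓ U) + D
    · refine ⟨x0 :: l, by simp [hl], ?_, Or.inl ?_⟩
      · intro y hy
        rcases List.mem_cons.1 hy with rfl | hy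
        · exact hx0
        · exact hlS y hy
      · have := hmono x0
        omega
    · obtain ⟨hfin, hcard⟩ := hN F (cl_closed lam x0 l)
      obtain ⟨x, hxS, hx⟩ := exists_step hθ hS hx0 hfin hcard (by omega) hlt
      refine ⟨x :: l, by simp [hl], ?_, ?_⟩
      · intro y hy
        rcases List.mem_cons.1 hy with rfl | hy
        · exact hxS
        · exact hlS y hy
      · right
        have hm : (m : ℝ) ≤ Phi lam F / K0 + rk F / Δ := by
          rcases hor with h | h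
          · exact absurd h hcase
          · exact h
        obtain ⟨⟨h1, h2⟩, _⟩ := cl_cons_spec lam x0 x l
        have h3 := Phi_cl_mono lam x0 x l
        have h4 : (rk F : ℝ) ≤ rk (cl lam x0 (x :: l)) := by exact_mod_cast rk_mono h1
        push_cast
        rcases hx _ h1 h2 with h5 | h5
        · have h6 : Phi lam F / K0 + 1 ≤ Phi lam (cl lam x0 (x :: l)) / K0 := by
            rw [le_div_iff₀ hK0]
            have : (Phi lam F / K0 + 1) * K0 = Phi lam F + K0 := by field_simp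
            rw [this]; exact h5.le
          have h7 : (rk F : ℝ) / Δ ≤ rk (cl lam x0 (x :: l)) / Δ := by gcongr
          linarith
        · have h6 : (rk F : ℝ) / Δ + 1 ≤ rk (cl lam x0 (x :: l)) / Δ := by
            rw [le_div_iff₀ hΔ']
            have h8 : ((rk F : ℝ) / Δ + 1) * Δ = rk F + Δ := by field_simp
            rw [h8]
            exact_mod_cast h5.le
          have h7 : Phi lam F / K0 ≤ Phi lam (cl lam x0 (x :: l)) / K0 := by gcongr
          linarith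

end Crest.Agent.R152.Cheap
end

-- ▼ part R152/GlopG1
section

set_option autoImplicit false
set_option linter.unusedSectionVars false

/-!
# Row 152, robust core (helper745)

`dl S` is the lattice generated by the differences of a finite set `S` of integer vectors, `Rob θ S`
says that `S` is `θ`-robust: every coset of every lattice `V` contains at most the proportion
`2^(-θ (rk (dl S) - rk V))` of `S`.
-/

namespace Crest.Agent.R152.Glop

open Module Crest.Agent.R152.Lat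

variable {ι : Type*} [Fintype ι]

/-- lattice generated by the differences -/
def dl (S : Finset (ι → ℤ)) : Submodule ℤ (ι → ℤ) :=
  Submodule.span ℤ {z | ∃ x ∈ S, ∃ y ∈ S, z = x - y}

theorem sub_mem_dl {S : Finset (ι → ℤ)} {x y : ι → ℤ} (hx : x ∈ S) (hy : y ∈ S) :
    x - y ∈ dl S := Submodule.subset_span ⟨x, hx, y, hy, rfl⟩


theorem dl_le {S : Finset (ι → ℤ)} {V : Submodule ℤ (ι → ℤ)} {a : ι → ℤ}
    (h : ∀ x ∈ S, x - a ∈ V) : dl S ≤ V := by
  unfold dl
  rw [Submodule.span_le]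
  rintro z ⟨x, hx, y, hy, rfl⟩
  have h1 : x - y = (x - a) - (y - a) := by abel
  rw [h1]
  exact V.sub_mem (h x hx) (h y hy)

open Classical in
/-- `θ`-robust sets -/
def Rob (θ : ℝ) (S : Finset (ι → ℤ)) : Prop :=
  ∀ (V : Submodule ℤ (ι → ℤ)) (a : ι → ℤ),
    ((S.filter (fun y => y - a ∈ V)).card : ℝ) ≤
      (2 : ℝ) ^ (-(θ * ((rk (dl S) : ℝ) - rk V))) * S.card

/-- every nonempty set contains a large robust subset -/
theorem exists_rob {θ : ℝ} (hθ : 0 ≤ θ) {S : Finset (ι → ℤ)} (hS : S.Nonempty) :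
    ∃ T ⊆ S, T.Nonempty ∧ Rob θ T ∧
      (S.card : ℝ) * (2 : ℝ) ^ (-(θ * ((rk (dl S) : ℝ) - rk (dl T)))) ≤ T.card := by
  classical
  set g : Finset (ι → ℤ) → ℝ := fun T => (T.card : ℝ) * (2 : ℝ) ^ (-(θ * (rk (dl T) : ℝ)))
    with hg
  set P : Finset (Finset (ι → ℤ)) := S.powerset.filter (fun T => T.Nonempty) with hP
  have hSP : S ∈ P := by simp [hP, hS]
  obtain ⟨T, hT, hmax⟩ := Finset.exists_max_image P g ⟨S, hSP⟩
  have hTS : T ⊆ S := by
    have := (Finset.mem_filter.mp hT).1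
    exact Finset.mem_powerset.mp this
  have hTne : T.Nonempty := (Finset.mem_filter.mp hT).2
  have key : ∀ T' ∈ P, (T'.card : ℝ) ≤
      (2 : ℝ) ^ (-(θ * ((rk (dl T) : ℝ) - rk (dl T')))) * T.card := by
    intro T' hT'
    have h1 := hmax T' hT'
    simp only [hg] at h1
    have h2 : (0 : ℝ) < (2 : ℝ) ^ (θ * (rk (dl T') : ℝ)) := Real.rpow_pos_of_pos two_pos _
    have h3 := mul_le_mul_of_nonneg_right h1 h2.le
    rw [mul_assoc, ← Real.rpow_add two_pos, mul_assoc, ← Real.rpow_add two_pos] at h3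
    have h4 : (-(θ * (rk (dl T') : ℝ)) + θ * (rk (dl T') : ℝ)) = 0 := by ring
    rw [h4, Real.rpow_zero, mul_one] at h3
    have h5 : -(θ * ((rk (dl T) : ℝ) - rk (dl T'))) =
        -(θ * (rk (dl T) : ℝ)) + θ * (rk (dl T') : ℝ) := by ring
    rw [mul_comm, h5]
    exact h3
  refine ⟨T, hTS, hTne, ?_, ?_⟩
  · intro V a
    rcases (T.filter (fun y => y - a ∈ V)).eq_empty_or_nonempty with h0 | h0
    · have h1 : ((T.filter (fun y => y - a ∈ V)).card : ℝ) = 0 := by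
        rw [h0]; simp
      rw [h1]
      positivity
    · have h1 : T.filter (fun y => y - a ∈ V) ∈ P := by
        rw [hP, Finset.mem_filter, Finset.mem_powerset]
        exact ⟨(Finset.filter_subset _ _).trans hTS, h0⟩
      have h2 := key _ h1
      refine h2.trans ?_
      have h3 : dl (T.filter (fun y => y - a ∈ V)) ≤ V :=
        dl_le (a := a) fun x hx => (Finset.mem_filter.mp hx).2
      have h4 : (rk (dl (T.filter (fun y => y - a ∈ V))) : ℝ) ≤ rk V := by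
        exact_mod_cast rk_mono h3
      apply mul_le_mul_of_nonneg_right _ (Nat.cast_nonneg _)
      apply Real.rpow_le_rpow_of_exponent_le one_le_two
      nlinarith
  · have h1 := key S hSP
    have h2 : (0 : ℝ) < (2 : ℝ) ^ (-(θ * ((rk (dl S) : ℝ) - rk (dl T)))) :=
      Real.rpow_pos_of_pos two_pos _
    have h3 := mul_le_mul_of_nonneg_right h1 h2.le
    refine h3.trans_eq ?_
    rw [mul_right_comm, ← Real.rpow_add two_pos]
    have h4 : -(θ * ((rk (dl T) : ℝ) - rk (dl S))) + -(θ * ((rk (dl S) : ℝ) - rk (dl T))) = 0 := by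
      ring
    rw [h4, Real.rpow_zero, one_mul]

theorem exists_rob' {θ : ℝ} (hθ : 0 ≤ θ) {S : Finset (ι → ℤ)} (hS : S.Nonempty) :
    ∃ T ⊆ S, T.Nonempty ∧ Rob θ T ∧
      (S.card : ℝ) * (2 : ℝ) ^ (-(θ * (Fintype.card ι : ℝ))) ≤ T.card := by
  obtain ⟨T, h1, h2, h3, h4⟩ := exists_rob hθ hS
  refine ⟨T, h1, h2, h3, le_trans ?_ h4⟩
  apply mul_le_mul_of_nonneg_left _ (Nat.cast_nonneg _)
  apply Real.rpow_le_rpow_of_exponent_le one_le_two
  have h5 : (rk (dl S) : ℝ) ≤ Fintype.card ι := by exact_mod_cast rk_le_card _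
  have h6 : (0 : ℝ) ≤ rk (dl T) := Nat.cast_nonneg _
  nlinarith

/-- a lattice generated by short vectors has small covolume over any sublattice -/
theorem lc_le_of_gen {D : Set (ι → ℤ)} {ρ : ℝ} (hD : ∀ y ∈ D, ‖ev y‖ ≤ ρ)
    {F : Submodule ℤ (ι → ℤ)} (hF : F ≤ Submodule.span ℤ D) :
    lc (Submodule.span ℤ D) ≤ lc F + ((rk (Submodule.span ℤ D) : ℝ) - rk F) * Real.log ρ := by
  set L := Submodule.span ℤ D with hL
  obtain ⟨k, hk⟩ : ∃ k : ℕ, rk L = rk F + k := ⟨rk L - rk F, by have := rk_mono hF; omega⟩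
  induction k generalizing F with
  | zero =>
    have h1 := lc_le_of_le hF (by omega)
    have h2 : (rk L : ℝ) = rk F := by rw [hk]; simp
    rw [h2, sub_self, zero_mul]
    linarith
  | succ k ih =>
    obtain ⟨y, hy, hyF⟩ : ∃ y ∈ D, ev y ∉ rsp F := by
      by_contra hcon
      push Not at hcon
      have h1 : L ≤ sat F := by
        rw [hL, Submodule.span_le]
        intro y hy
        exact mem_sat_iff.mpr (hcon y hy)
      have h2 := rk_mono h1
      rw [rk_sat] at h2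
      omega
    have hyL : y ∈ L := Submodule.subset_span hy
    have hF' : F ⊔ Submodule.span ℤ {y} ≤ L :=
      sup_le hF (by rw [Submodule.span_le]; simpa using hyL)
    have hr := rk_sup_span hyF
    have hc := lc_sup_span hyF
    have h1 := ih hF' (by omega)
    have h2 : Real.log (dst F (ev y)) ≤ Real.log ρ :=
      Real.log_le_log (dst_pos hyF) ((dst_le_norm F (ev y)).trans (hD y hy))
    rw [hr, hc] at h1
    push_cast at h1
    linarith

/-- real estimate -/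
theorem est {δ κ : ℝ} (hδ : 0 < δ) (hκ : 0 < κ) : ∃ n0 : ℕ, ∀ n : ℕ, n0 ≤ n →
    2 * (n : ℝ) ^ (1 - δ / 2 / 4) + Real.pi * (n : ℝ) ^ (2 * (δ / 2)) *
      (Real.exp (-(2 * (δ * Real.log n))) * (4 * n)) ≤ κ * n := by
  have h1 : Filter.Tendsto (fun n : ℕ => 2 * (n : ℝ) ^ (-(δ / 8)) +
      4 * Real.pi * (n : ℝ) ^ (-δ)) Filter.atTop (nhds (2 * 0 + 4 * Real.pi * 0)) := by
    apply Filter.Tendsto.add
    · exact ((tendsto_rpow_neg_atTop (by positivity : 0 < δ / 8)).comp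
        tendsto_natCast_atTop_atTop).const_mul 2
    · exact ((tendsto_rpow_neg_atTop hδ).comp tendsto_natCast_atTop_atTop).const_mul _
  rw [mul_zero, mul_zero, add_zero] at h1
  have h2 := (h1.eventually (gt_mem_nhds hκ)).and (Filter.eventually_ge_atTop 1)
  rw [Filter.eventually_atTop] at h2
  obtain ⟨n0, h2⟩ := h2
  refine ⟨n0, fun n hn => ?_⟩
  obtain ⟨h3, h4⟩ := h2 n hn
  have hn0 : (0 : ℝ) < n := by exact_mod_cast h4
  have e1 : (n : ℝ) ^ (1 - δ / 2 / 4) = (n : ℝ) ^ (-(δ / 8)) * n := by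
    rw [show (1 - δ / 2 / 4 : ℝ) = -(δ / 8) + 1 by ring, Real.rpow_add hn0, Real.rpow_one]
  have e2 : Real.exp (-(2 * (δ * Real.log n))) = (n : ℝ) ^ (-(2 * δ)) := by
    rw [Real.rpow_def_of_pos hn0]; congr 1; ring
  have e3 : (n : ℝ) ^ (2 * (δ / 2)) * (n : ℝ) ^ (-(2 * δ)) = (n : ℝ) ^ (-δ) := by
    rw [← Real.rpow_add hn0]; congr 1; ring
  rw [e1, e2]
  have e4 : Real.pi * (n : ℝ) ^ (2 * (δ / 2)) * ((n : ℝ) ^ (-(2 * δ)) * (4 * n)) =
      4 * Real.pi * ((n : ℝ) ^ (2 * (δ / 2)) * (n : ℝ) ^ (-(2 * δ))) * n := by ring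
  rw [e4, e3]
  have : 2 * ((n : ℝ) ^ (-(δ / 8)) * n) + 4 * Real.pi * (n : ℝ) ^ (-δ) * n =
      (2 * (n : ℝ) ^ (-(δ / 8)) + 4 * Real.pi * (n : ℝ) ^ (-δ)) * n := by ring
  rw [this]
  exact mul_le_mul_of_nonneg_right h3.le hn0.le

theorem norm_ev_le {v : ι → ℤ} {m : ℕ} (hv : ∀ i, |v i| ≤ m) :
    ‖ev v‖ ^ 2 ≤ (m : ℝ) ^ 2 * Fintype.card ι := by
  rw [norm_ev_sq]
  have h1 : v ⬝ᵥ v ≤ ∑ _i : ι, (m : ℤ) ^ 2 := by
    unfold dotProduct
    apply Finset.sum_le_sum
    intro i _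
    have := hv i
    rw [← abs_mul_abs_self]
    have h0 := abs_nonneg (v i)
    nlinarith
  rw [Finset.sum_const, Finset.card_univ, nsmul_eq_mul] at h1
  have h2 : ((v ⬝ᵥ v : ℤ) : ℝ) ≤ ((Fintype.card ι * (m : ℤ) ^ 2 : ℤ) : ℝ) := by exact_mod_cast h1
  push_cast at h2
  linarith

/-- **robust core**: a robust set of sign vectors generates a lattice of small covolume -/
theorem g1 {θ ε : ℝ} (hθ : 0 < θ) (hε : 0 < ε) :
    ∃ n0 : ℕ, ∀ n : ℕ, n0 ≤ n → ∀ (ι : Type) [Fintype ι],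
    Fintype.card ι ≤ n → ∀ S : Finset (ι → ℤ), S.Nonempty → (∀ x ∈ S, ∀ i, |x i| ≤ 1) →
      Rob θ S → lc (dl S) ≤ ε * n * Real.log n := by
  classical
  set κ : ℝ := ε / 2 * (θ * Real.log 2) with hκ
  have hκ0 : 0 < κ := by
    have := Real.log_pos (by norm_num : (1 : ℝ) < 2)
    positivity
  obtain ⟨n1, h1⟩ := Rel.count_cls (δ := ε / 2 / 2) (by positivity)
  obtain ⟨n2, h2⟩ := est (δ := ε / 2) (κ := κ) (by positivity) hκ0
  refine ⟨max (max n1 n2) 4, fun n hn ι _ hι S hS hsign hrob => ?_⟩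
  have hn1 : n1 ≤ n := by omega
  have hn2 : n2 ≤ n := by omega
  have hn4 : 4 ≤ n := by omega
  have hnpos : (0 : ℝ) < n := by positivity
  have hlog : 0 ≤ Real.log n := Real.log_nonneg (by exact_mod_cast (by omega : 1 ≤ n))
  set t : ℝ := ε / 2 * Real.log n with ht
  set L := dl S with hL
  obtain ⟨F, hF⟩ := exists_isMin (-t) (bot_le : (⊥ : Submodule ℤ (ι → ℤ)) ≤ L)
  have hFlc : lc F ≤ t * rk F := by
    have := hF.min ⊥ le_rfl bot_le
    unfold fK at this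
    rw [lc_bot, rk_bot] at this
    push_cast at this
    linarith
  have hmin : ∀ H, F ≤ H → H ≤ L → t * ((rk H : ℝ) - rk F) ≤ lc H - lc F := by
    intro H h3 h4
    have := hF.lc_above h3 h4
    linarith
  have hsat : Rel.Sat F L := by
    intro z hz k hk hkz
    have h3 : F ⊔ Submodule.span ℤ {z} ≤ L := sup_le hF.ge (by
      rw [Submodule.span_le]; simpa using hz)
    have h4 : rk F = rk (F ⊔ Submodule.span ℤ {z}) :=
      (rk_sup_span_of_mem (mem_sat_iff.mp ⟨k, hk, hkz⟩)).symm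
    have h5 := hmin _ le_sup_left h3
    rw [← h4, sub_self, mul_zero] at h5
    have h6 := eq_of_lc_eq (le_sup_left : F ≤ F ⊔ Submodule.span ℤ {z}) h4 (by linarith)
    rw [h6]
    exact Submodule.mem_sup_right (Submodule.mem_span_singleton_self z)
  have hnorm : ∀ x ∈ S, ∀ y ∈ S, ‖ev (x - y)‖ ^ 2 ≤ 4 * n := by
    intro x hx y hy
    have h3 := norm_ev_le (v := x - y) (m := 2) (fun i => by
      have h3 := abs_le.mp (hsign x hx i)
      have h4 := abs_le.mp (hsign y hy i)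
      rw [abs_le]
      simp only [Pi.sub_apply]
      constructor <;> push_cast <;> linarith [h3.1, h3.2, h4.1, h4.2])
    have h4 : (Fintype.card ι : ℝ) ≤ n := by exact_mod_cast hι
    push_cast at h3
    nlinarith
  obtain ⟨_, h1'⟩ := h1 n hn1
  obtain ⟨hCfin, hCc⟩ := h1' ι hι F L hF.ge hsat t hmin (4 * n)
  obtain ⟨x0, hx0⟩ := hS
  have hne : ∀ q : (ι → ℤ) ⧸ F, ∃ z, F.mkQ z = q := Submodule.mkQ_surjective F
  choose rp hrp using hne
  set C := hCfin.toFinset with hCdef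
  have hcov : S ⊆ C.biUnion (fun q => S.filter (fun y => y - (x0 + rp q) ∈ F)) := by
    intro x hx
    rw [Finset.mem_biUnion]
    refine ⟨F.mkQ (x - x0), ?_, Finset.mem_filter.mpr ⟨hx, ?_⟩⟩
    · rw [hCdef, Set.Finite.mem_toFinset]
      exact ⟨x - x0, sub_mem_dl hx hx0, rfl, (Rel.nq_le F _).trans (by
        rw [← norm_ev_sq]; exact hnorm x hx x0 hx0)⟩
    · have h3 : F.mkQ (x - (x0 + rp (F.mkQ (x - x0)))) = 0 := by
        have h4 : x - (x0 + rp (F.mkQ (x - x0))) = (x - x0) - rp (F.mkQ (x - x0)) := by abel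
        rw [h4, map_sub, hrp, sub_self]
      rwa [Submodule.mkQ_apply, Submodule.Quotient.mk_eq_zero] at h3
  have hcard : (S.card : ℝ) ≤ C.card *
      ((2 : ℝ) ^ (-(θ * ((rk L : ℝ) - rk F))) * S.card) := by
    have h3 := (Finset.card_le_card hcov).trans Finset.card_biUnion_le
    have h4 : (S.card : ℝ) ≤ ∑ q ∈ C, ((S.filter (fun y => y - (x0 + rp q) ∈ F)).card : ℝ) := by
      exact_mod_cast h3
    refine h4.trans ?_
    rw [← nsmul_eq_mul, ← Finset.sum_const]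
    exact Finset.sum_le_sum fun q _ => hrob F (x0 + rp q)
  have hSpos : (0 : ℝ) < S.card := by exact_mod_cast Finset.card_pos.mpr ⟨x0, hx0⟩
  have h3 : (2 : ℝ) ^ (θ * ((rk L : ℝ) - rk F)) ≤ C.card := by
    have h4 : (0 : ℝ) < (2 : ℝ) ^ (θ * ((rk L : ℝ) - rk F)) := Real.rpow_pos_of_pos two_pos _
    rw [Real.rpow_neg two_pos.le] at hcard
    have h5 : (1 : ℝ) ≤ C.card * ((2 : ℝ) ^ (θ * ((rk L : ℝ) - rk F)))⁻¹ := by
      have h6 : (S.card : ℝ) * 1 ≤ S.card *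
          (C.card * ((2 : ℝ) ^ (θ * ((rk L : ℝ) - rk F)))⁻¹) := by
        calc (S.card : ℝ) * 1 = S.card := mul_one _
          _ ≤ _ := hcard
          _ = _ := by ring
      exact le_of_mul_le_mul_left h6 hSpos
    rw [← div_eq_mul_inv, le_div_iff₀ h4, one_mul] at h5
    exact h5
  have hCc' : (C.card : ℝ) ≤ Real.exp (2 * (n : ℝ) ^ (1 - ε / 2 / 2 / 4) +
      Real.pi * (n : ℝ) ^ (2 * (ε / 2 / 2)) * (Real.exp (-(2 * t)) * (4 * n))) := by
    rw [hCdef, ← Set.ncard_eq_toFinset_card _ hCfin]; exact hCc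
  have h4 : θ * ((rk L : ℝ) - rk F) * Real.log 2 ≤ κ * n := by
    have h5 := h3.trans hCc'
    have h6 := Real.log_le_log (Real.rpow_pos_of_pos two_pos _) h5
    rw [Real.log_rpow two_pos, Real.log_exp] at h6
    exact h6.trans (h2 n hn2)
  have h5 : ((rk L : ℝ) - rk F) ≤ ε / 2 * n := by
    have hl2 : 0 < Real.log 2 := Real.log_pos (by norm_num)
    have h6 : (θ * Real.log 2) * ((rk L : ℝ) - rk F) ≤ (θ * Real.log 2) * (ε / 2 * n) := by
      calc (θ * Real.log 2) * ((rk L : ℝ) - rk F) = θ * ((rk L : ℝ) - rk F) * Real.log 2 := by ring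
        _ ≤ κ * n := h4
        _ = _ := by rw [hκ]; ring
    exact le_of_mul_le_mul_left h6 (by positivity)
  have h1n : (1 : ℝ) ≤ n := by exact_mod_cast (by omega : 1 ≤ n)
  have h4n : (4 : ℝ) ≤ n := by exact_mod_cast hn4
  set R : ℝ := Real.sqrt (4 * n) with hR
  have hR1 : 1 ≤ R := by
    rw [hR]
    exact Real.one_le_sqrt.mpr (by linarith)
  have hRn : R ≤ n := by
    rw [hR]
    apply Real.sqrt_le_iff.mpr
    constructor
    · positivity
    · nlinarith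
  have h6 : lc L ≤ lc F + ((rk L : ℝ) - rk F) * Real.log R := by
    rw [hL]
    unfold dl
    apply lc_le_of_gen
    · rintro y ⟨u, hu, v, hv, rfl⟩
      exact Real.le_sqrt_of_sq_le (hnorm u hu v hv)
    · exact hF.ge
  have h7 : Real.log R ≤ Real.log n := Real.log_le_log (by linarith) hRn
  have h8 : (0 : ℝ) ≤ (rk L : ℝ) - rk F := by
    have : (rk F : ℝ) ≤ rk L := by exact_mod_cast rk_mono hF.ge
    linarith
  have h9 : (rk F : ℝ) ≤ n := by
    have : (rk F : ℝ) ≤ Fintype.card ι := by exact_mod_cast rk_le_card F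
    exact this.trans (by exact_mod_cast hι)
  calc lc L ≤ t * rk F + ((rk L : ℝ) - rk F) * Real.log R := by linarith
    _ ≤ t * n + (ε / 2 * n) * Real.log n := by
        apply add_le_add
        · exact mul_le_mul_of_nonneg_left h9 (by rw [ht]; positivity)
        · exact mul_le_mul h5 h7 (Real.log_nonneg hR1) (by positivity)
    _ = ε * n * Real.log n := by rw [ht]; ring

/-- `Rob` in helper877's form -/
theorem Rob.robust {θ : ℝ} {S : Finset (ι → ℤ)} (h : Rob θ S) :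
    Cheap.Robust θ (sat (dl S)) S := by
  classical
  refine ⟨fun x hx y hy => le_sat _ (sub_mem_dl hx hy), fun L x0 hx0 => ?_⟩
  have h1 := h (L ⊓ sat (dl S)) x0
  rw [rk_sat]
  have h2 : S.filter (fun y => y - x0 ∈ L ⊓ sat (dl S)) = S.filter (fun y => y - x0 ∈ L) := by
    apply Finset.filter_congr
    intro y hy
    rw [Submodule.mem_inf]
    exact ⟨fun h => h.1, fun h => ⟨h, le_sat _ (sub_mem_dl hy hx0)⟩⟩
  rw [h2] at h1
  rw [neg_mul]
  exact h1

/-- Odlyzko's lemma, counting form -/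
theorem card_le_two_pow {S : Finset (ι → ℤ)} (hS : ∀ x ∈ S, ∀ i, x i = 1 ∨ x i = -1) :
    S.card ≤ 2 ^ rk (dl S) := by
  classical
  rcases S.eq_empty_or_nonempty with rfl | ⟨x0, hx0⟩
  · simp
  set T : Finset (ι → Bool) := Finset.univ.filter
    (fun z => (fun i => Base.sg (z i)) ∈ S) with hT
  have hST : S ⊆ T.image (fun z i => Base.sg (z i)) := by
    intro x hx
    rw [Finset.mem_image]
    have h1 : (fun i => Base.sg (decide (x i = 1))) = x := by
      funext i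
      rcases hS x hx i with h | h <;> simp [Base.sg, h]
    refine ⟨fun i => decide (x i = 1), ?_, h1⟩
    rw [hT, Finset.mem_filter]
    refine ⟨Finset.mem_univ _, ?_⟩
    rw [h1]; exact hx
  have hcard : S.card ≤ T.card := (Finset.card_le_card hST).trans Finset.card_image_le
  let V : Submodule ℝ (ι → ℝ) := (rsp (dl S)).map
    (WithLp.linearEquiv 2 ℝ (ι → ℝ)).toLinearMap
  have hV : finrank ℝ V = rk (dl S) := by
    rw [← finrank_rsp]
    exact LinearEquiv.finrank_map_eq (WithLp.linearEquiv 2 ℝ (ι → ℝ)) _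
  have h1 := ROD.odlyzko_sign (K := ℝ) (p := 1 / 2) (M := 1 / 2) (by norm_num) (by norm_num)
    (by norm_num) (by norm_num) (by norm_num) two_ne_zero V (fun i => (x0 i : ℝ))
  have h2 : Crest.FinProb.bernoulliProb (1 / 2) (T : Set (ι → Bool)) ≤
      (1 / 2 : ℝ) ^ (Fintype.card ι - finrank ℝ V) := by
    refine le_trans (Base.prob_mono (by norm_num) (by norm_num) ?_) h1
    intro z hz
    have hz' : (fun i => Base.sg (z i)) ∈ S := by
      have := Finset.mem_coe.mp hz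
      rw [hT, Finset.mem_filter] at this
      exact this.2
    change (fun i => ((Base.sg (z i) : ℤ) : ℝ)) - (fun i => (x0 i : ℝ)) ∈ V
    refine ⟨ev ((fun i => Base.sg (z i)) - x0), ev_mem_rsp (sub_mem_dl hz' hx0), ?_⟩
    ext i
    simp [ev]
  rw [ROD.prob_half_eq, hV, div_le_iff₀ (by positivity)] at h2
  have h3 : rk (dl S) ≤ Fintype.card ι := rk_le_card _
  have h4 : (T.card : ℝ) ≤ 2 ^ rk (dl S) := by
    refine h2.trans (le_of_eq ?_)
    obtain ⟨k, hk⟩ : ∃ k, Fintype.card ι = rk (dl S) + k := ⟨_, (Nat.add_sub_cancel' h3).symm⟩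
    rw [hk, Nat.add_sub_cancel_left, pow_add, one_div, inv_pow]
    field_simp
  have h5 : T.card ≤ 2 ^ rk (dl S) := by exact_mod_cast h4
  exact hcard.trans h5

/-- **ROBUST CORE** -/
theorem core {θ ε : ℝ} (hθ : 0 < θ) (hε : 0 < ε) :
    ∃ n0 : ℕ, ∀ n : ℕ, n0 ≤ n → ∀ (ι : Type) [Fintype ι],
    Fintype.card ι ≤ n → ∀ S : Finset (ι → ℤ), S.Nonempty →
    (∀ x ∈ S, ∀ i, x i = 1 ∨ x i = -1) →
    ∃ T ⊆ S, T.Nonempty ∧ Rob θ T ∧ Cheap.Robust θ (sat (dl T)) T ∧
      (S.card : ℝ) * (2 : ℝ) ^ (-(θ * (n : ℝ))) ≤ T.card ∧ T.card ≤ 2 ^ rk (dl T) ∧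
      lc (dl T) ≤ ε * n * Real.log n ∧ lc (sat (dl T)) ≤ ε * n * Real.log n ∧
      (ind (dl T) (sat (dl T)) : ℝ) ≤ (n : ℝ) ^ (ε * n) := by
  obtain ⟨n0, h⟩ := g1 hθ hε
  refine ⟨max n0 1, fun n hn ι _ hι S hS hsign => ?_⟩
  obtain ⟨T, hTS, hTne, hTr, hTc⟩ := exists_rob' hθ.le hS
  have hn0 : (0 : ℝ) < n := by exact_mod_cast (by omega : 0 < n)
  have h1 : lc (dl T) ≤ ε * n * Real.log n := h n (by omega) ι hι T hTne (fun x hx i => by
    rcases hsign x (hTS hx) i with h | h <;> rw [h] <;> norm_num) hTr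
  have h2 := lc_sat (dl T)
  have h3 := lc_nonneg (sat (dl T))
  refine ⟨T, hTS, hTne, hTr, hTr.robust, le_trans ?_ hTc,
    card_le_two_pow fun x hx => hsign x (hTS hx), h1, (lc_sat_le _).trans h1, ?_⟩
  · apply mul_le_mul_of_nonneg_left _ (Nat.cast_nonneg _)
    apply Real.rpow_le_rpow_of_exponent_le one_le_two
    have : (Fintype.card ι : ℝ) ≤ n := by exact_mod_cast hι
    nlinarith
  · have h4 : (0 : ℝ) < ind (dl T) (sat (dl T)) := by
      exact_mod_cast ind_pos (le_sat _) (rk_sat _).symm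
    rw [Real.rpow_def_of_pos hn0, ← Real.log_le_iff_le_exp h4]
    linarith

end Crest.Agent.R152.Glop
end

-- ▼ part R152/Glo4
section

set_option autoImplicit false
set_option linter.unusedSectionVars false
set_option linter.unusedVariables false

/-!
# Row 152, module GLO, part 4: assembly from the robust core, CHEAP and LEMMA S
-/

namespace Crest.Agent.R152.Glo

open Matrix Module Crest.Agent.R152.Lat Crest.Agent.R152.Base Crest.FinProb

/-- CHEAP (helper877): a family of `2 ^ (ε n²)` saturated lattices of small covolume, one of which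
approximates (from above) the span of any robust set of sign vectors of small covolume. -/
def CheapFam : Prop := ∀ θ κ ε : ℝ, 0 < θ → 0 < κ → 0 < ε → ∃ η : ℝ, 0 < η ∧ ∃ n0 : ℕ,
  ∀ n : ℕ, n0 ≤ n → ∃ VV : Finset (Submodule ℤ (Fin n → ℤ)),
    (VV.card : ℝ) ≤ (2 : ℝ) ^ (ε * (n : ℝ) ^ 2) ∧
    (∀ V ∈ VV, sat V = V ∧ lc V ≤ ε * n * Real.log n) ∧
    ∀ (U : Submodule ℤ (Fin n → ℤ)) (S : Finset (Fin n → ℤ)), sat U = U → S.Nonempty →
      (∀ x ∈ S, ∀ i, x i = 1 ∨ x i = -1) → Cheap.Robust θ U S → lc U ≤ η * n * Real.log n →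
      ∃ V ∈ VV, (rk V : ℝ) ≤ rk (V ⊓ U) + κ * n ∧ (rk U : ℝ) ≤ rk (V ⊓ U) + κ * n

/-- the inputs `OneStep` for all parameters -/
def OneStepAll (p : ℝ) : Prop := ∀ c : ℝ, 0 < c → ∃ K0 : ℝ, 0 ≤ K0 ∧
  ∀ d : ℝ, 0 < d → LS.OneStep p c d K0

/-- the bad event for `d, b` -/
def Bad (n : ℕ) (d b : ℝ) : Set (Sym2 (Fin n) → Bool) :=
  {w | (symMat w).det ≠ 0 ∧ ∃ L : AddSubgroup (Fin n → ℤ), Asm.rng (symMat w) ≤ L ∧
    (n : ℝ) ^ (d * n) ≤ (L.index : ℝ) ∧ ∃ r : Fin n → ℤ,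
      (2 : ℝ) ^ (b * n) < (Nat.card {x : Fin n → Bool // Asm.sv x - r ∈ L} : ℝ)}

theorem sv_injective (n : ℕ) : Function.Injective (Asm.sv : (Fin n → Bool) → Fin n → ℤ) := by
  intro x y h
  funext i
  exact sg_injective (congrFun h i)

theorem sv_sign {n : ℕ} (x : Fin n → Bool) (i : Fin n) : Asm.sv x i = 1 ∨ Asm.sv x i = -1 := by
  unfold Asm.sv sg
  cases x i <;> simp

/-- inclusion of the bad event into a small union -/
theorem bad_subset {θ κ ε1 e0 K η b d : ℝ} {n : ℕ} (hn : 1 ≤ n) (hθ : θ = b / 4) (hb : 0 < b)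
    (hd : 0 < d) (hκb : κ ≤ b / 4) (hK : 0 ≤ K) (hκK : (K + 1 / 2) * κ ≤ d / 8)
    (he0 : e0 ≤ d / 16) (hε1 : ε1 ≤ d / 64) (hlog : 16 / d ≤ Real.log n) (hη : ε1 ≤ η)
    (hcore : ∀ S : Finset (Fin n → ℤ), S.Nonempty → (∀ x ∈ S, ∀ i, x i = 1 ∨ x i = -1) →
      ∃ T ⊆ S, T.Nonempty ∧ Glop.Rob θ T ∧ Cheap.Robust θ (sat (Glop.dl T)) T ∧
      (S.card : ℝ) * (2 : ℝ) ^ (-(θ * (n : ℝ))) ≤ T.card ∧ T.card ≤ 2 ^ rk (Glop.dl T) ∧
      lc (Glop.dl T) ≤ ε1 * n * Real.log n ∧ lc (sat (Glop.dl T)) ≤ ε1 * n * Real.log n ∧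
      (ind (Glop.dl T) (sat (Glop.dl T)) : ℝ) ≤ (n : ℝ) ^ (ε1 * n))
    (VV : Finset (Submodule ℤ (Fin n → ℤ)))
    (hVV : ∀ V ∈ VV, sat V = V ∧ lc V ≤ e0 * n * Real.log n)
    (hch : ∀ (U : Submodule ℤ (Fin n → ℤ)) (S : Finset (Fin n → ℤ)), sat U = U → S.Nonempty →
      (∀ x ∈ S, ∀ i, x i = 1 ∨ x i = -1) → Cheap.Robust θ U S → lc U ≤ η * n * Real.log n →
      ∃ V ∈ VV, (rk V : ℝ) ≤ rk (V ⊓ U) + κ * n ∧ (rk U : ℝ) ≤ rk (V ⊓ U) + κ * n) :
    Bad n d b ⊆ ⋃ V ∈ VV.filter (fun V => (rk (orth V) : ℝ) + b / 2 * n ≤ n),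
      {w : Sym2 (Fin n) → Bool | Psi (K * Real.log n) (LS.act (symMat w) (orth V)) ≤
        ((K + 1 / 2) * rk (orth V) - d / 2 * n) * Real.log n} := by
  classical
  have hn' : (1 : ℝ) ≤ n := by exact_mod_cast hn
  have hn0 : (0 : ℝ) < n := by linarith
  have hL0 : 0 ≤ Real.log n := Real.log_nonneg hn'
  rintro w ⟨hdet, L, hL, hidx, r, hcard⟩
  set Lam : Submodule ℤ (Fin n → ℤ) := AddSubgroup.toIntSubmodule L with hLam
  have hmemL : ∀ z, z ∈ Lam ↔ z ∈ L := fun z => Iff.rfl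
  set S : Finset (Fin n → ℤ) :=
    (Finset.univ.filter (fun x : Fin n → Bool => Asm.sv x - r ∈ L)).image Asm.sv with hS
  have hScard : (S.card : ℝ) = Nat.card {x : Fin n → Bool // Asm.sv x - r ∈ L} := by
    rw [hS, Finset.card_image_of_injective _ (sv_injective n), Nat.card_eq_fintype_card,
      Fintype.card_subtype]
  have hSmem : ∀ z ∈ S, z - r ∈ L ∧ ∀ i, z i = 1 ∨ z i = -1 := by
    intro z hz
    rw [hS, Finset.mem_image] at hz
    obtain ⟨x, hx, rfl⟩ := hz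
    rw [Finset.mem_filter] at hx
    exact ⟨hx.2, sv_sign x⟩
  rw [← hScard] at hcard
  have hSne : S.Nonempty := by
    rw [← Finset.card_pos]
    have : (0 : ℝ) < S.card := lt_trans (by positivity) hcard
    exact_mod_cast this
  obtain ⟨T, hTS, hTne, hTr, hTrob, hTcard, hTrk, hTlc, hTlcs, hTind⟩ :=
    hcore S hSne fun x hx => (hSmem x hx).2
  set D := Glop.dl T with hD
  have hDL : D ≤ Lam := by
    refine Submodule.span_le.mpr ?_
    rintro z ⟨x, hx, y, hy, rfl⟩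
    have e : x - y = (x - r) - (y - r) := by abel
    rw [e]
    exact L.sub_mem (hSmem x (hTS hx)).1 (hSmem y (hTS hy)).1
  -- rank of D
  have hrkD : (b - θ) * n ≤ rk D := by
    have h1 : (2 : ℝ) ^ ((b - θ) * n) ≤ (2 : ℝ) ^ (rk D : ℝ) := by
      have e1 : (2 : ℝ) ^ ((b - θ) * n) = (2 : ℝ) ^ (b * n) * (2 : ℝ) ^ (-(θ * (n : ℝ))) := by
        rw [← Real.rpow_add two_pos]; congr 1; ring
      rw [e1]
      have h2 : (T.card : ℝ) ≤ (2 : ℝ) ^ (rk D : ℝ) := by
        rw [Real.rpow_natCast]; exact_mod_cast hTrk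
      refine le_trans ?_ h2
      refine le_trans ?_ hTcard
      gcongr
    exact (Real.rpow_le_rpow_left_iff one_lt_two).mp h1
  obtain ⟨V, hV, hV1, hV2⟩ := hch (sat D) T (sat_sat D) hTne
    (fun x hx => (hSmem x (hTS hx)).2) hTrob (hTlcs.trans (by gcongr))
  obtain ⟨hVs, hVlc⟩ := hVV V hV
  have hVrk : (b / 2) * n ≤ rk V := by
    have h1 : (rk (V ⊓ sat D) : ℝ) ≤ rk V := by exact_mod_cast rk_mono inf_le_left
    rw [rk_sat] at hV2
    rw [hθ] at hrkD
    nlinarith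
  have horth : (rk (orth V) : ℝ) + rk V = n := by
    have := Lat.rk_orth V
    rw [Fintype.card_fin] at this
    exact_mod_cast this
  rw [Set.mem_iUnion₂]
  refine ⟨V, ?_, ?_⟩
  · rw [Finset.mem_filter]
    exact ⟨hV, by linarith⟩
  -- the deterministic core
  have hent : ∀ i j, (symMat w i j) ^ 2 = 1 := by
    intro i j
    rw [symMat_apply, sq, sg_mul_self]
  have hrange : LinearMap.range (symMat w).mulVecLin ≤ Lam := by
    intro z hz
    exact hL hz
  obtain ⟨W, hW1, hW2⟩ := det_core (A := symMat w) (symMat_symm w) hdet hent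
    (by rw [Fintype.card_fin]; exact hn) hrange hDL hVs hK (κ := κ)
    (by rw [Fintype.card_fin]; exact hV1)
  rw [Fintype.card_fin] at hW2
  have hidx2 : d * n * Real.log n ≤ Real.log (ind Lam ⊤) := by
    have e1 : (ind Lam ⊤ : ℕ) = L.index := by
      unfold ind
      rw [show (⊤ : Submodule ℤ (Fin n → ℤ)).toAddSubgroup = ⊤ from rfl,
        AddSubgroup.relIndex_top_right]
      rfl
    rw [e1, ← Real.log_rpow hn0]
    exact Real.log_le_log (by positivity) hidx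
  have hPsi : Psi (K * Real.log n) (LS.act (symMat w) (orth V)) ≤ fK (K * Real.log n) W :=
    Psi_le hW1
  refine hPsi.trans ?_
  unfold fK
  have h16 : (16 : ℝ) ≤ d * Real.log n := by
    rw [div_le_iff₀ hd] at hlog
    linarith
  have hnL : 0 ≤ (n : ℝ) * Real.log n := by positivity
  have a1 : (K + 1 / 2) * κ * n * Real.log n ≤ d / 8 * (n * Real.log n) := by
    have := mul_le_mul_of_nonneg_right hκK hnL
    linarith
  have a2 : lc V ≤ d / 16 * (n * Real.log n) := by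
    refine hVlc.trans ?_
    have := mul_le_mul_of_nonneg_right he0 hnL
    linarith
  have a3 : lc D ≤ d / 64 * (n * Real.log n) := by
    refine hTlc.trans ?_
    have := mul_le_mul_of_nonneg_right hε1 hnL
    linarith
  have a4 : (n : ℝ) ≤ d / 16 * (n * Real.log n) := by
    have := mul_le_mul_of_nonneg_left h16 hn0.le
    linarith
  have a5 : d * n * Real.log n = d * (n * Real.log n) := by ring
  have hdn : 0 ≤ d * (n * Real.log n) := by positivity
  have e2 : ((K + 1 / 2) * (rk (orth V) : ℝ) - d / 2 * n) * Real.log n =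
      (K + 1 / 2) * rk (orth V) * Real.log n - d / 2 * (n * Real.log n) := by ring
  rw [e2]
  linarith

/-- **GLO, strong form** (any coset, failure `exp(-c n²)`). -/
theorem glo_gen {p : ℝ} (hp0 : 0 < p) (hp1 : p < 1) (hone : OneStepAll p) (hch : CheapFam)
    {d b : ℝ} (hd : 0 < d) (hb : 0 < b) :
    ∃ c0 : ℝ, 0 < c0 ∧ ∃ n0 : ℕ, ∀ n : ℕ, n0 ≤ n →
      bernoulliProb p (Bad n d b) ≤ Real.exp (-(c0 * (n : ℝ) ^ 2)) := by
  classical
  obtain ⟨K, hK, hstep⟩ := hone (b / 2) (by positivity)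
  obtain ⟨e0, he0, c1, hc1, n1, hS⟩ := LS.lemmaS_of hp0.le hp1.le hK hstep le_rfl
    (show 0 < d / 2 by positivity)
  set κ : ℝ := min (b / 4) (d / (8 * (K + 1 / 2))) with hκ
  have hK2 : 0 < K + 1 / 2 := by linarith
  have hκ0 : 0 < κ := lt_min (by positivity) (by positivity)
  have hκb : κ ≤ b / 4 := min_le_left _ _
  have hκK : (K + 1 / 2) * κ ≤ d / 8 := by
    have h1 : κ ≤ d / (8 * (K + 1 / 2)) := min_le_right _ _
    calc (K + 1 / 2) * κ ≤ (K + 1 / 2) * (d / (8 * (K + 1 / 2))) := by gcongr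
      _ = d / 8 := by field_simp
  set ε : ℝ := min (min e0 (d / 16)) (c1 / 2) with hε
  have hε0 : 0 < ε := lt_min (lt_min he0 (by positivity)) (by positivity)
  have hεe : ε ≤ e0 := (min_le_left _ _).trans (min_le_left _ _)
  have hεd : ε ≤ d / 16 := (min_le_left _ _).trans (min_le_right _ _)
  have hεc : ε ≤ c1 / 2 := min_le_right _ _
  obtain ⟨η, hη, n2, hfam⟩ := hch (b / 4) κ ε (by positivity) hκ0 hε0
  set ε1 : ℝ := min η (d / 64) with hε1
  have hε10 : 0 < ε1 := lt_min hη (by positivity)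
  obtain ⟨n3, hcore⟩ := Glop.core (show 0 < b / 4 by positivity) hε10
  obtain ⟨n4, hn4⟩ := exists_nat_ge (Real.exp (16 / d))
  refine ⟨c1 / 2, by positivity, max (max n1 n2) (max (max n3 n4) 1), fun n hn => ?_⟩
  have hn1 : n1 ≤ n := by omega
  have hn2 : n2 ≤ n := by omega
  have hn3 : n3 ≤ n := by omega
  have hn4' : n4 ≤ n := by omega
  have hn5 : 1 ≤ n := by omega
  have hn' : (1 : ℝ) ≤ n := by exact_mod_cast hn5
  have hn0 : (0 : ℝ) < n := by linarith
  have hL0 : 0 ≤ Real.log n := Real.log_nonneg hn'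
  obtain ⟨VV, hVVc, hVV, hch'⟩ := hfam n hn2
  have hlog : 16 / d ≤ Real.log n := by
    rw [Real.le_log_iff_exp_le hn0]
    exact hn4.trans (by exact_mod_cast hn4')
  have hsub := bad_subset hn5 rfl hb hd hκb hK hκK hεd (min_le_right _ _) hlog (min_le_left _ _)
    (hcore n hn3 (Fin n) (by rw [Fintype.card_fin])) VV hVV hch'
  refine (prob_mono hp0.le hp1.le hsub).trans ?_
  refine (prob_biUnion_le hp0.le hp1.le _ _).trans ?_
  have hterm : ∀ V ∈ VV.filter (fun V => (rk (orth V) : ℝ) + b / 2 * n ≤ n),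
      bernoulliProb p {w : Sym2 (Fin n) → Bool | Psi (K * Real.log n)
        (LS.act (symMat w) (orth V)) ≤
        ((K + 1 / 2) * rk (orth V) - d / 2 * n) * Real.log n} ≤ Real.exp (-(c1 * n ^ 2)) := by
    intro V hV
    rw [Finset.mem_filter] at hV
    refine hS n hn1 (Fin n) (Fintype.card_fin n) (orth V) hV.2 ?_
    rw [Lat.lc_orth_sat, (hVV V hV.1).1]
    refine (hVV V hV.1).2.trans ?_
    gcongr
  refine (Finset.sum_le_card_nsmul _ _ _ hterm).trans ?_
  rw [nsmul_eq_mul]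
  have h1 : ((VV.filter (fun V => (rk (orth V) : ℝ) + b / 2 * n ≤ n)).card : ℝ) ≤
      Real.exp (c1 / 2 * (n : ℝ) ^ 2) := by
    have e1 : ((VV.filter (fun V => (rk (orth V) : ℝ) + b / 2 * n ≤ n)).card : ℝ) ≤ VV.card := by
      exact_mod_cast Finset.card_filter_le _ _
    refine e1.trans (hVVc.trans ?_)
    rw [Real.rpow_def_of_pos two_pos]
    refine Real.exp_le_exp.mpr ?_
    have h2 : Real.log 2 ≤ 1 := by
      have := Real.log_le_sub_one_of_pos (show (0 : ℝ) < 2 by norm_num)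
      linarith
    have h3 : 0 ≤ Real.log 2 := Real.log_nonneg (by norm_num)
    have h4 : ε * (n : ℝ) ^ 2 ≤ c1 / 2 * (n : ℝ) ^ 2 := by gcongr
    have h5 : 0 ≤ ε * (n : ℝ) ^ 2 := by positivity
    nlinarith
  calc _ ≤ Real.exp (c1 / 2 * (n : ℝ) ^ 2) * Real.exp (-(c1 * (n : ℝ) ^ 2)) := by gcongr
    _ = Real.exp (-(c1 / 2 * (n : ℝ) ^ 2)) := by rw [← Real.exp_add]; congr 1; ring

/-- **GLO in the frozen form of `AsmDefs`.** -/
theorem glo_of {p : ℝ} (hp0 : 0 < p) (hp1 : p < 1) (hone : OneStepAll p) (hch : CheapFam) :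
    Asm.GLO p := by
  intro d hd b hb
  obtain ⟨c0, hc0, n0, h⟩ := glo_gen hp0 hp1 hone hch hd hb
  obtain ⟨n1, hn1⟩ := exists_nat_ge (Real.log 4 / c0)
  refine ⟨max n0 n1, fun n hn => ?_⟩
  have h1 := h n (by omega)
  have hsub : {w : Sym2 (Fin n) → Bool | (symMat w).det ≠ 0 ∧
      ∃ L : AddSubgroup (Fin n → ℤ), Asm.rng (symMat w) ≤ L ∧
      (n : ℝ) ^ (d * n) ≤ (L.index : ℝ) ∧
      (2 : ℝ) ^ (b * n) < (Nat.card {x : Fin n → Bool // Asm.sv x ∈ L} : ℝ)} ⊆ Bad n d b := by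
    rintro w ⟨a1, L, a2, a3, a4⟩
    refine ⟨a1, L, a2, a3, 0, ?_⟩
    simpa only [sub_zero] using a4
  refine (prob_mono hp0.le hp1.le hsub).trans (h1.trans ?_)
  have h2 : (n1 : ℝ) ≤ n := by exact_mod_cast (by omega : n1 ≤ n)
  have h3 : Real.log 4 ≤ c0 * n := by
    rw [div_le_iff₀ hc0] at hn1
    nlinarith
  have h4 : (1 / 4 : ℝ) ^ n = Real.exp (-(Real.log 4 * n)) := by
    rw [one_div, inv_pow, Real.exp_neg, mul_comm, Real.exp_nat_mul, Real.exp_log (by norm_num)]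
  rw [h4]
  refine Real.exp_le_exp.mpr ?_
  have h5 : (0 : ℝ) ≤ n := Nat.cast_nonneg n
  nlinarith [mul_le_mul_of_nonneg_right h3 h5]

end Crest.Agent.R152.Glo
end

-- ▼ part R152/Cheap4
section

set_option autoImplicit false
set_option linter.unusedSectionVars false

/-!
# Row 152, module CHEAP, part 4: choice of the constants, the family
-/

namespace Crest.Agent.R152.Cheap

open Matrix Module Filter Crest.Agent.R152.Lat Crest.Agent.R152.Rel

theorem eventually_rpow_le {C c a : ℝ} (hc : 0 < c) (ha : a < 1) :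
    ∀ᶠ n : ℕ in atTop, C * (n : ℝ) ^ a ≤ c * n := by
  have h1 : Tendsto (fun x : ℝ => x ^ (-(1 - a))) atTop (nhds 0) :=
    tendsto_rpow_neg_atTop (by linarith)
  have h2 : Tendsto (fun n : ℕ => (|C| + 1) * (n : ℝ) ^ (-(1 - a))) atTop (nhds 0) := by
    have := (h1.comp tendsto_natCast_atTop_atTop).const_mul (|C| + 1)
    simpa using this
  filter_upwards [h2.eventually_lt_const hc, eventually_ge_atTop 1] with n hn hn1
  have hn0 : (0 : ℝ) < n := by exact_mod_cast hn1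
  have h3 : (n : ℝ) ^ a = (n : ℝ) ^ (-(1 - a)) * n := by
    rw [← Real.rpow_add_one hn0.ne']
    congr 1; ring
  rw [h3]
  have h4 : 0 ≤ (n : ℝ) ^ (-(1 - a)) := Real.rpow_nonneg hn0.le _
  have h5 : C ≤ |C| + 1 := by linarith [le_abs_self C]
  calc C * ((n : ℝ) ^ (-(1 - a)) * n) = (C * (n : ℝ) ^ (-(1 - a))) * n := by ring
    _ ≤ ((|C| + 1) * (n : ℝ) ^ (-(1 - a))) * n := by gcongr
    _ ≤ c * n := by gcongr

/-- sign vectors -/
def sgn (ι : Type*) [Fintype ι] [DecidableEq ι] : Finset (ι → ℤ) :=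
  Fintype.piFinset (fun _ => ({1, -1} : Finset ℤ))

theorem mem_sgn {ι : Type*} [Fintype ι] [DecidableEq ι] {x : ι → ℤ} :
    x ∈ sgn ι ↔ ∀ i, x i = 1 ∨ x i = -1 := by
  simp [sgn, Fintype.mem_piFinset]

theorem card_sgn {ι : Type*} [Fintype ι] [DecidableEq ι] :
    (sgn ι).card = 2 ^ Fintype.card ι := by
  unfold sgn
  rw [Fintype.card_piFinset]
  simp

/-- the family of closures of `k` samples -/
noncomputable def fam (ι : Type*) [Fintype ι] [DecidableEq ι] (lam : ℝ) (k : ℕ) :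
    Finset (Submodule ℤ (ι → ℤ)) :=
  open Classical in
  ((sgn ι) ×ˢ (Fintype.piFinset (fun _ : Fin k => sgn ι))).image
    (fun p => cl lam p.1 (List.ofFn p.2))

theorem card_fam (ι : Type*) [Fintype ι] [DecidableEq ι] (lam : ℝ) (k : ℕ) :
    (fam ι lam k).card ≤ 2 ^ (Fintype.card ι * (k + 1)) := by
  classical
  unfold fam
  refine Finset.card_image_le.trans ?_
  rw [Finset.card_product, Fintype.card_piFinset_const, card_sgn, ← pow_mul, ← pow_add]
  apply le_of_eq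
  congr 1
  ring

theorem cl_mem_fam {ι : Type*} [Fintype ι] [DecidableEq ι] {lam : ℝ} {k : ℕ} {x0 : ι → ℤ}
    (hx0 : x0 ∈ sgn ι) {l : List (ι → ℤ)} (hl : l.length = k) (hl2 : ∀ y ∈ l, y ∈ sgn ι) :
    cl lam x0 l ∈ fam ι lam k := by
  classical
  subst hl
  unfold fam
  rw [Finset.mem_image]
  refine ⟨(x0, l.get), ?_, ?_⟩
  · rw [Finset.mem_product, Fintype.mem_piFinset]
    exact ⟨hx0, fun i => hl2 _ (List.get_mem l i)⟩
  · simp only [List.ofFn_get]

theorem sat_eq_of_sat {ι : Type*} [Fintype ι] {F : Submodule ℤ (ι → ℤ)} (h : Sat F ⊤) :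
    sat F = F := by
  apply le_antisymm
  · intro x hx
    obtain ⟨m, hm, hmx⟩ := hx
    exact h x Submodule.mem_top m hm hmx
  · exact le_sat F

/-- numerical bound of the exponent -/
theorem expo_bound {n : ℕ} (hn : 1 ≤ n) {lam0 lam K0 r E : ℝ} {Δ : ℕ}
    (hlam0a : lam0 ≤ 1 / 8) (hlam : lam = lam0 * Real.log n) (hK0 : K0 = Real.log n / 8)
    (hΔ2 : (Δ : ℝ) ≤ 2 * (n : ℝ) ^ (1 / 64 : ℝ))
    (hr : r = 4 * (Δ : ℝ) ^ 2 * Real.exp (2 * K0))
    (hE : E = 2 * (n : ℝ) ^ (1 - (1 / 8 : ℝ) / 4) +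
      Real.pi * (n : ℝ) ^ (2 * (1 / 8 : ℝ)) * (Real.exp (-(2 * (-lam))) * r)) :
    Δ * E ≤ (4 + 32 * Real.pi) * (n : ℝ) ^ (1 - 1 / 64 : ℝ) := by
  have hn1 : (1 : ℝ) ≤ n := by exact_mod_cast hn
  have hnpos : (0 : ℝ) < n := by linarith
  have hlog : 0 ≤ Real.log n := Real.log_nonneg hn1
  have hpi := Real.pi_pos
  have hexpK : Real.exp (2 * K0) = (n : ℝ) ^ (1 / 4 : ℝ) := by
    rw [Real.rpow_def_of_pos hnpos, hK0]; congr 1; ring
  have hexpL : Real.exp (-(2 * (-lam))) ≤ (n : ℝ) ^ (1 / 4 : ℝ) := by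
    rw [Real.rpow_def_of_pos hnpos, hlam]
    apply Real.exp_le_exp.2
    nlinarith
  have e1 : (Δ : ℝ) ^ 2 ≤ 4 * (n : ℝ) ^ (2 / 64 : ℝ) := by
    have h1 : (n : ℝ) ^ (2 / 64 : ℝ) = ((n : ℝ) ^ (1 / 64 : ℝ)) ^ 2 := by
      rw [← Real.rpow_natCast, ← Real.rpow_mul hnpos.le]; norm_num
    rw [h1]
    have h2 : (0 : ℝ) ≤ Δ := Nat.cast_nonneg _
    nlinarith
  have e2 : r ≤ 4 * (4 * (n : ℝ) ^ (2 / 64 : ℝ)) * (n : ℝ) ^ (1 / 4 : ℝ) := by
    rw [hr, hexpK]
    have := Real.rpow_nonneg hnpos.le (1 / 4 : ℝ)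
    apply mul_le_mul_of_nonneg_right _ this
    linarith
  have hr0 : 0 ≤ r := by rw [hr]; positivity
  have e2' : Real.exp (-(2 * (-lam))) * r ≤ (n : ℝ) ^ (1 / 4 : ℝ) *
      (4 * (4 * (n : ℝ) ^ (2 / 64 : ℝ)) * (n : ℝ) ^ (1 / 4 : ℝ)) :=
    mul_le_mul hexpL e2 hr0 (Real.rpow_nonneg hnpos.le _)
  have e4 : Real.pi * (n : ℝ) ^ (2 * (1 / 8 : ℝ)) * (Real.exp (-(2 * (-lam))) * r) ≤
      Real.pi * (n : ℝ) ^ (2 * (1 / 8 : ℝ)) * ((n : ℝ) ^ (1 / 4 : ℝ) *
      (4 * (4 * (n : ℝ) ^ (2 / 64 : ℝ)) * (n : ℝ) ^ (1 / 4 : ℝ))) := by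
    apply mul_le_mul_of_nonneg_left e2'
    have := Real.rpow_nonneg hnpos.le (2 * (1 / 8 : ℝ))
    positivity
  have e5 : Real.pi * (n : ℝ) ^ (2 * (1 / 8 : ℝ)) * ((n : ℝ) ^ (1 / 4 : ℝ) *
      (4 * (4 * (n : ℝ) ^ (2 / 64 : ℝ)) * (n : ℝ) ^ (1 / 4 : ℝ))) =
      16 * Real.pi * (n : ℝ) ^ (25 / 32 : ℝ) := by
    have h1 : (n : ℝ) ^ (25 / 32 : ℝ) = (n : ℝ) ^ (2 * (1 / 8 : ℝ)) * (n : ℝ) ^ (1 / 4 : ℝ) *
        (n : ℝ) ^ (2 / 64 : ℝ) * (n : ℝ) ^ (1 / 4 : ℝ) := by
      rw [← Real.rpow_add hnpos, ← Real.rpow_add hnpos, ← Real.rpow_add hnpos]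
      norm_num
    rw [h1]; ring
  have e3 : E ≤ 2 * (n : ℝ) ^ (31 / 32 : ℝ) + 16 * Real.pi * (n : ℝ) ^ (25 / 32 : ℝ) := by
    have e6 : (n : ℝ) ^ (1 - (1 / 8 : ℝ) / 4) = (n : ℝ) ^ (31 / 32 : ℝ) := by norm_num
    rw [hE, e6]
    linarith
  have e7 : (n : ℝ) ^ (1 / 64 : ℝ) * (n : ℝ) ^ (31 / 32 : ℝ) = (n : ℝ) ^ (1 - 1 / 64 : ℝ) := by
    rw [← Real.rpow_add hnpos]; norm_num
  have e8 : (n : ℝ) ^ (1 / 64 : ℝ) * (n : ℝ) ^ (25 / 32 : ℝ) ≤ (n : ℝ) ^ (1 - 1 / 64 : ℝ) := by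
    rw [← Real.rpow_add hnpos]
    exact Real.rpow_le_rpow_of_exponent_le hn1 (by norm_num)
  have hE0 : 0 ≤ E := by
    rw [hE]
    have := Real.rpow_nonneg hnpos.le (1 - (1 / 8 : ℝ) / 4)
    have := Real.rpow_nonneg hnpos.le (2 * (1 / 8 : ℝ))
    positivity
  calc Δ * E ≤ (2 * (n : ℝ) ^ (1 / 64 : ℝ)) *
        (2 * (n : ℝ) ^ (31 / 32 : ℝ) + 16 * Real.pi * (n : ℝ) ^ (25 / 32 : ℝ)) := by
        apply mul_le_mul hΔ2 e3 hE0
        have := Real.rpow_nonneg hnpos.le (1 / 64 : ℝ)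
        linarith
    _ = 4 * ((n : ℝ) ^ (1 / 64 : ℝ) * (n : ℝ) ^ (31 / 32 : ℝ)) +
        32 * Real.pi * ((n : ℝ) ^ (1 / 64 : ℝ) * (n : ℝ) ^ (25 / 32 : ℝ)) := by ring
    _ ≤ 4 * (n : ℝ) ^ (1 - 1 / 64 : ℝ) + 32 * Real.pi * (n : ℝ) ^ (1 - 1 / 64 : ℝ) := by
        rw [e7]
        have h1 : 32 * Real.pi * ((n : ℝ) ^ (1 / 64 : ℝ) * (n : ℝ) ^ (25 / 32 : ℝ)) ≤
          32 * Real.pi * (n : ℝ) ^ (1 - 1 / 64 : ℝ) :=
          mul_le_mul_of_nonneg_left e8 (by positivity)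
        linarith
    _ = _ := by ring

/-- deterministic core, all numerical conditions as hypotheses -/
theorem family_core {ι : Type} [Fintype ι] [DecidableEq ι] {n : ℕ} (hcard : Fintype.card ι = n)
    {θ κ ε η lam K0 N : ℝ} {Δ D k : ℕ} (hθ : 0 < θ)
    (hlampos : 0 < lam) (hK0pos : 0 < K0) (hΔpos : 0 < Δ)
    (hcheap : ∀ F : Submodule ℤ (ι → ℤ), Closed lam F → (cheapSet lam F K0 Δ).Finite ∧
      ((cheapSet lam F K0 Δ).ncard : ℝ) ≤ N)
    (hlt : N * (2 : ℝ) ^ (-θ * ((D : ℝ) - Δ)) < 1)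
    (hk : lam * n / K0 + n / Δ < k)
    (hk2 : (n : ℝ) * (k + 1) ≤ ε * (n : ℝ) ^ 2)
    (hD1 : (D : ℝ) ≤ κ * n)
    (hlam1 : lam * n ≤ ε * n * Real.log n)
    (hη : η * n * Real.log n ≤ lam * (κ * n)) :
    ∃ V : Finset (Submodule ℤ (ι → ℤ)),
        (V.card : ℝ) ≤ (2 : ℝ) ^ (ε * (n : ℝ) ^ 2) ∧
        (∀ F ∈ V, sat F = F ∧ lc F ≤ ε * n * Real.log n) ∧
        ∀ (S : Finset (ι → ℤ)) (U : Submodule ℤ (ι → ℤ)),
          (∀ x ∈ S, ∀ i, x i = 1 ∨ x i = -1) → S.Nonempty → Robust θ U S →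
          lc U ≤ η * n * Real.log n →
          ∃ F ∈ V, (rk F : ℝ) ≤ rk (F ⊓ U) + κ * n ∧ (rk U : ℝ) ≤ rk (F ⊓ U) + κ * n := by
  refine ⟨fam ι lam k, ?_, ?_, ?_⟩
  · have e1 : ((fam ι lam k).card : ℝ) ≤ (2 : ℝ) ^ (((Fintype.card ι * (k + 1) : ℕ)) : ℝ) := by
      rw [Real.rpow_natCast]
      exact_mod_cast card_fam ι lam k
    refine e1.trans ?_
    apply Real.rpow_le_rpow_of_exponent_le (by norm_num)
    rw [hcard]
    push_cast
    exact hk2
  · intro F hF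
    unfold fam at hF
    obtain ⟨p, _, rfl⟩ := Finset.mem_image.1 hF
    have hcl := cl_closed lam p.1 (List.ofFn p.2)
    refine ⟨sat_eq_of_sat (hcl.sat ⊤), ?_⟩
    have e1 := Phi_cl_le lam p.1 (List.ofFn p.2)
    unfold Phi at e1
    rw [hcard] at e1
    have e2 : (0 : ℝ) ≤ lam * rk (cl lam p.1 (List.ofFn p.2)) :=
      mul_nonneg hlampos.le (Nat.cast_nonneg _)
    linarith
  · intro S U hSs hSne hrob hU
    obtain ⟨x0, hx0⟩ := hSne
    have hx0s : x0 ∈ sgn ι := mem_sgn.2 (hSs x0 hx0)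
    obtain ⟨l, hl, hlS, hor⟩ := greedy hlampos.le hK0pos hΔpos hθ.le hrob hx0 hcheap hlt k
    refine ⟨cl lam x0 l, cl_mem_fam hx0s hl (fun y hy => mem_sgn.2 (hSs y (hlS y hy))), ?_, ?_⟩
    · have e1 := rk_cl_le hlampos x0 l U (fun y hy => hrob.1 y (hlS y hy) x0 hx0)
      have e2 : lc U / lam ≤ κ * n := by
        rw [div_le_iff₀ hlampos]
        linarith
      linarith
    · rcases hor with hor | hor
      · have : (rk U : ℝ) ≤ rk (cl lam x0 l ⊓ U) + D := by exact_mod_cast hor.le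
        linarith
      · exfalso
        have e1 := Phi_cl_le lam x0 l
        rw [hcard] at e1
        have e2 : Phi lam (cl lam x0 l) / K0 ≤ lam * n / K0 :=
          div_le_div_of_nonneg_right e1 hK0pos.le
        have e3 : (rk (cl lam x0 l) : ℝ) / Δ ≤ n / Δ := by
          have hΔ' : (0 : ℝ) < Δ := by exact_mod_cast hΔpos
          apply div_le_div_of_nonneg_right _ hΔ'.le
          have := rk_le_card (cl lam x0 l)
          rw [hcard] at this
          exact_mod_cast this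
        linarith

/-- **CHEAP: the sampling theorem** -/
theorem family {θ κ ε : ℝ} (hθ : 0 < θ) (hκ : 0 < κ) (hε : 0 < ε) :
    ∃ η : ℝ, 0 < η ∧ ∀ᶠ n : ℕ in atTop, ∀ (ι : Type) [Fintype ι] [DecidableEq ι],
      Fintype.card ι = n → ∃ V : Finset (Submodule ℤ (ι → ℤ)),
        (V.card : ℝ) ≤ (2 : ℝ) ^ (ε * (n : ℝ) ^ 2) ∧
        (∀ F ∈ V, sat F = F ∧ lc F ≤ ε * n * Real.log n) ∧
        ∀ (S : Finset (ι → ℤ)) (U : Submodule ℤ (ι → ℤ)),
          (∀ x ∈ S, ∀ i, x i = 1 ∨ x i = -1) → S.Nonempty → Robust θ U S →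
          lc U ≤ η * n * Real.log n →
          ∃ F ∈ V, (rk F : ℝ) ≤ rk (F ⊓ U) + κ * n ∧ (rk U : ℝ) ≤ rk (F ⊓ U) + κ * n := by
  -- constants
  obtain ⟨lam0, hlam0pos, hlam0a, hlam0b⟩ : ∃ lam0 : ℝ, 0 < lam0 ∧ lam0 ≤ 1 / 8 ∧
      lam0 ≤ ε / 16 := ⟨min (1 / 8) (ε / 16), by positivity, min_le_left _ _, min_le_right _ _⟩
  have hlog2 : 0 < Real.log 2 := Real.log_pos (by norm_num)
  obtain ⟨n0, hcnt⟩ := count_cls (δ := 1 / 8) (by norm_num)
  refine ⟨lam0 * κ, by positivity, ?_⟩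
  have ev1 := eventually_rpow_le (C := 1) (c := ε / 8) (a := 1 - 1 / 64) (by positivity)
    (by norm_num)
  have ev2 := eventually_rpow_le (C := 4 + 32 * Real.pi) (c := θ * κ * Real.log 2 / 4)
    (a := 1 - 1 / 64) (by positivity) (by norm_num)
  have ev3 := eventually_rpow_le (C := 2) (c := κ / 4) (a := 1 / 64) (by positivity)
    (by norm_num)
  have ev4 := eventually_rpow_le (C := 2) (c := ε / 4) (a := 0) (by positivity)
    (by norm_num)
  have ev5 := eventually_rpow_le (C := 1) (c := κ / 4) (a := 0) (by positivity)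
    (by norm_num)
  filter_upwards [ev1, ev2, ev3, ev4, ev5, eventually_ge_atTop n0, eventually_ge_atTop 3]
    with n h1 h2 h3 h4 h5 hn0 hn3
  rw [Real.rpow_zero] at h4 h5
  intro ι _ _ hcard
  have hn1' : 1 ≤ n := by omega
  have hn1 : (1 : ℝ) ≤ n := by exact_mod_cast hn1'
  have hnpos : (0 : ℝ) < n := by linarith
  have hlog : 0 < Real.log n := Real.log_pos (by exact_mod_cast (by omega : 1 < n))
  obtain ⟨lam, hlam⟩ : ∃ lam : ℝ, lam = lam0 * Real.log n := ⟨_, rfl⟩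
  have hlampos : 0 < lam := by rw [hlam]; positivity
  obtain ⟨K0, hK0⟩ : ∃ K0 : ℝ, K0 = Real.log n / 8 := ⟨_, rfl⟩
  have hK0pos : 0 < K0 := by rw [hK0]; positivity
  have hnr : (1 : ℝ) ≤ (n : ℝ) ^ (1 / 64 : ℝ) := Real.one_le_rpow hn1 (by norm_num)
  obtain ⟨Δ, hΔ1, hΔ2⟩ : ∃ Δ : ℕ, (n : ℝ) ^ (1 / 64 : ℝ) ≤ Δ ∧
      (Δ : ℝ) ≤ 2 * (n : ℝ) ^ (1 / 64 : ℝ) := by
    refine ⟨⌈(n : ℝ) ^ (1 / 64 : ℝ)⌉₊, Nat.le_ceil _, ?_⟩
    have := Nat.ceil_lt_add_one (by linarith : (0 : ℝ) ≤ (n : ℝ) ^ (1 / 64 : ℝ))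
    linarith
  have hΔpos : 0 < Δ := by
    have : (0 : ℝ) < Δ := by linarith
    exact_mod_cast this
  obtain ⟨D, hD1, hD2⟩ : ∃ D : ℕ, (D : ℝ) ≤ κ * n ∧ κ * n - 1 ≤ D := by
    refine ⟨⌊κ * n⌋₊, Nat.floor_le (by positivity), ?_⟩
    have := Nat.lt_floor_add_one (κ * n)
    linarith
  have hq : 0 ≤ 8 * lam0 * n + (n : ℝ) ^ (1 - 1 / 64 : ℝ) := by
    have := Real.rpow_nonneg hnpos.le (1 - 1 / 64 : ℝ)
    positivity
  obtain ⟨k, hk1, hk2⟩ : ∃ k : ℕ, 8 * lam0 * n + (n : ℝ) ^ (1 - 1 / 64 : ℝ) < k ∧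
      (k : ℝ) ≤ 8 * lam0 * n + (n : ℝ) ^ (1 - 1 / 64 : ℝ) + 1 := by
    refine ⟨⌊8 * lam0 * n + (n : ℝ) ^ (1 - 1 / 64 : ℝ)⌋₊ + 1, ?_, ?_⟩
    · push_cast
      exact Nat.lt_floor_add_one _
    · push_cast
      have := Nat.floor_le hq
      linarith
  -- count of cheap supersets
  obtain ⟨r, hr⟩ : ∃ r : ℝ, r = 4 * (Δ : ℝ) ^ 2 * Real.exp (2 * K0) := ⟨_, rfl⟩
  obtain ⟨E, hE⟩ : ∃ E : ℝ, E = 2 * (n : ℝ) ^ (1 - (1 / 8 : ℝ) / 4) +
    Real.pi * (n : ℝ) ^ (2 * (1 / 8 : ℝ)) * (Real.exp (-(2 * (-lam))) * r) := ⟨_, rfl⟩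
  have hcheap : ∀ F : Submodule ℤ (ι → ℤ), Closed lam F → (cheapSet lam F K0 Δ).Finite ∧
      ((cheapSet lam F K0 Δ).ncard : ℝ) ≤ Real.exp (Δ * E) := by
    intro F hF
    obtain ⟨hfin, hb⟩ := (hcnt n hn0).2 ι hcard.le F ⊤ le_top (hF.sat ⊤) (-lam)
      (fun L hL _ => hF.lower hL) r
    rw [← hE] at hb
    rw [hr] at hfin hb
    obtain ⟨hfin2, hb2⟩ := cheap_card hlampos.le hF hK0pos.le hfin
    refine ⟨hfin2, ?_⟩
    have hb3 : ((cheapSet lam F K0 Δ).ncard : ℝ) ≤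
        (((cls F ⊤ (4 * (Δ : ℝ) ^ 2 * Real.exp (2 * K0))).ncard ^ Δ : ℕ) : ℝ) :=
      Nat.cast_le.2 hb2
    rw [Nat.cast_pow] at hb3
    refine hb3.trans ?_
    rw [Real.exp_nat_mul]
    exact pow_le_pow_left₀ (Nat.cast_nonneg _) hb _
  have hEb := expo_bound hn1' hlam0a hlam hK0 hΔ2 hr hE
  have hlt : Real.exp (Δ * E) * (2 : ℝ) ^ (-θ * ((D : ℝ) - Δ)) < 1 := by
    rw [Real.rpow_def_of_pos (by norm_num : (0 : ℝ) < 2), ← Real.exp_add, Real.exp_lt_one_iff]
    have e1 : κ / 2 * n ≤ (D : ℝ) - Δ := by linarith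
    have e2 : Real.log 2 * (θ * (κ / 2 * n)) ≤ Real.log 2 * (θ * ((D : ℝ) - Δ)) :=
      mul_le_mul_of_nonneg_left (mul_le_mul_of_nonneg_left e1 hθ.le) hlog2.le
    have e3 : 0 < θ * κ * Real.log 2 * n := by positivity
    linarith
  refine family_core hcard hθ hlampos hK0pos hΔpos hcheap hlt (k := k) ?_ ?_ hD1 ?_ ?_
  · -- number of samples
    have e1 : lam * n / K0 = 8 * lam0 * n := by
      rw [hlam, hK0]; field_simp
    have e2 : (n : ℝ) / Δ ≤ (n : ℝ) ^ (1 - 1 / 64 : ℝ) := by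
      have hΔ' : (0 : ℝ) < Δ := by exact_mod_cast hΔpos
      rw [div_le_iff₀ hΔ']
      have e5 : (n : ℝ) = (n : ℝ) ^ (1 - 1 / 64 : ℝ) * (n : ℝ) ^ (1 / 64 : ℝ) := by
        rw [← Real.rpow_add hnpos]; norm_num
      calc (n : ℝ) = (n : ℝ) ^ (1 - 1 / 64 : ℝ) * (n : ℝ) ^ (1 / 64 : ℝ) := e5
        _ ≤ (n : ℝ) ^ (1 - 1 / 64 : ℝ) * Δ :=
          mul_le_mul_of_nonneg_left hΔ1 (Real.rpow_nonneg hnpos.le _)
    linarith
  · have e1 : 8 * lam0 * n ≤ ε / 2 * n := by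
      apply mul_le_mul_of_nonneg_right _ hnpos.le
      linarith
    have e2 : (k : ℝ) + 1 ≤ ε * n := by linarith
    calc (n : ℝ) * (k + 1) ≤ n * (ε * n) := mul_le_mul_of_nonneg_left e2 hnpos.le
      _ = ε * (n : ℝ) ^ 2 := by ring
  · rw [hlam]
    have e1 : lam0 ≤ ε := by linarith
    calc lam0 * Real.log n * n = lam0 * (n * Real.log n) := by ring
      _ ≤ ε * (n * Real.log n) := mul_le_mul_of_nonneg_right e1 (by positivity)
      _ = ε * n * Real.log n := by ring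
  · rw [hlam]
    apply le_of_eq
    ring


end Crest.Agent.R152.Cheap
end

-- ▼ part R152/LemS2
section

set_option autoImplicit false
set_option linter.unusedSectionVars false

/-! Row 152, LEMMA S (note 11125), part 2: Odlyzko's lemma for `{0,1}` vectors over any field,
and its consequences for integer sign vectors modulo an integer. -/

open Crest.FinProb Crest.ProbabilityR.SignMatrix

namespace Crest.Agent.R152.LemS

open Crest.Agent.R152.Base

variable {ι : Type*} [Fintype ι] [DecidableEq ι]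

/-- the `{0,1}` vector of `ω` over `K` -/
def bv (K : Type*) [Zero K] [One K] (ω : ι → Bool) : ι → K := fun i => if ω i then 1 else 0

theorem bv_update (K : Type*) [Field K] (ω : ι → Bool) (i : ι) (c : Bool) :
    bv K (Function.update ω i c) = bv K ω + ((if c then 1 else 0) - (if ω i then 1 else 0) : K) •
      (Pi.single i (1 : K)) := by
  funext j
  by_cases hj : j = i
  · subst hj; simp [bv]
  · simp [bv, hj]

/-- **Odlyzko's lemma over a field**, for `{0,1}` vectors. -/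
theorem odl {K : Type*} [Field K] {p q : ℝ} (hp0 : 0 ≤ p) (hp1 : p ≤ 1) (hq1 : p ≤ q)
    (hq2 : 1 - p ≤ q) (s : ℕ) :
    ∀ V : Submodule K (ι → K), Module.finrank K V + s ≤ Fintype.card ι → ∀ a : ι → K,
      bernoulliProb p {ω : ι → Bool | bv K ω - a ∈ V} ≤ q ^ s := by
  classical
  have hq0 : 0 ≤ q := hp0.trans hq1
  induction s with
  | zero =>
    intro V _ a
    rw [pow_zero]
    exact prob_le_one hp0 hp1 _
  | succ s ih =>
    intro V hV a
    -- a coordinate vector outside `V`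
    have hex : ∃ i, (Pi.single i (1 : K) : ι → K) ∉ V := by
      by_contra hcon
      push Not at hcon
      have htop : V = ⊤ := by
        rw [eq_top_iff]
        intro x _
        have : x = ∑ i, x i • (Pi.single i (1 : K) : ι → K) := by
          funext j
          simp [Finset.sum_apply, Pi.single_apply]
        rw [this]
        exact Submodule.sum_mem _ fun i _ => V.smul_mem _ (hcon i)
      rw [htop, finrank_top, Module.finrank_fintype_fun_eq_card] at hV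
      omega
    obtain ⟨i, hi⟩ := hex
    set V' : Submodule K (ι → K) := V ⊔ Submodule.span K {(Pi.single i (1 : K) : ι → K)} with hV'
    have hfr : Module.finrank K V' ≤ Module.finrank K V + 1 := by
      have h1 := Submodule.finrank_add_le_finrank_add_finrank V
        (Submodule.span K {(Pi.single i (1 : K) : ι → K)})
      have h2 : Module.finrank K (Submodule.span K {(Pi.single i (1 : K) : ι → K)}) ≤ 1 := by
        have := finrank_span_le_card (R := K) ({(Pi.single i (1 : K) : ι → K)} : Set (ι → K))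
        simpa using this
      rw [hV']
      omega
    have hih := ih V' (by omega) a
    have hsub : ∀ x, x ∈ V → x ∈ V' := fun x hx => (le_sup_left : V ≤ V') hx
    have heV' : (Pi.single i (1 : K) : ι → K) ∈ V' :=
      (le_sup_right : _ ≤ V') (Submodule.mem_span_singleton_self _)
    have hV'upd : ∀ (ω : ι → Bool) (c : Bool),
        (bv K (Function.update ω i c) - a ∈ V' ↔ bv K ω - a ∈ V') := by
      intro ω c
      rw [bv_update, add_sub_right_comm]
      constructor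
      · intro h
        have := V'.sub_mem h (V'.smul_mem
          ((if c then 1 else 0) - (if ω i then 1 else 0) : K) heV')
        simpa using this
      · intro h
        exact V'.add_mem h (V'.smul_mem _ heV')
    have hnot : ∀ ω : ι → Bool, ¬ (bv K (Function.update ω i true) - a ∈ V ∧
        bv K (Function.update ω i false) - a ∈ V) := by
      rintro ω ⟨h1, h2⟩
      apply hi
      have := V.sub_mem h1 h2
      rw [bv_update, bv_update] at this
      have e : bv K ω + ((if true = true then (1:K) else 0) - if ω i = true then 1 else 0) •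
          (Pi.single i (1 : K) : ι → K) - a -
          (bv K ω + ((if false = true then (1:K) else 0) - if ω i = true then 1 else 0) •
          (Pi.single i (1 : K) : ι → K) - a) = Pi.single i (1 : K) := by
        simp only [if_true, Bool.false_eq_true, if_false]
        rw [sub_smul, sub_smul, one_smul, zero_smul]
        abel
      rwa [e] at this
    rw [prob_eq_ex, LS.ex_update p i]
    rw [pow_succ, mul_comm (q ^ s)]
    refine le_trans ?_ (mul_le_mul_of_nonneg_left hih hq0)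
    rw [prob_eq_ex, ← ex_smul]
    refine ex_mono hp0 hp1 fun ω => ?_
    simp only [Set.mem_ofPred_eq]
    by_cases h1 : bv K (Function.update ω i true) - a ∈ V
    · have h2 : ¬ (bv K (Function.update ω i false) - a ∈ V) := fun h => hnot ω ⟨h1, h⟩
      have h3 : bv K ω - a ∈ V' := (hV'upd ω true).1 (hsub _ h1)
      simp [h1, h2, h3, hq1]
    · by_cases h2 : bv K (Function.update ω i false) - a ∈ V
      · have h3 : bv K ω - a ∈ V' := (hV'upd ω false).1 (hsub _ h2)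
        simp [h1, h2, h3]
        linarith
      · simp only [h1, h2, if_false, mul_zero, add_zero]
        split_ifs <;> positivity

/-! ### integer lattices and their reductions -/

open Crest.Agent.R152.Lat in
/-- the `K`-span of the image of an integer lattice -/
noncomputable def redK (K : Type*) [Field K] (F : Submodule ℤ (ι → ℤ)) : Submodule K (ι → K) :=
  Submodule.span K ((fun z : ι → ℤ => (fun i => (z i : K))) '' (F : Set (ι → ℤ)))

omit [Fintype ι] [DecidableEq ι] in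
theorem mem_redK (K : Type*) [Field K] {F : Submodule ℤ (ι → ℤ)} {z : ι → ℤ} (hz : z ∈ F) :
    (fun i => (z i : K)) ∈ redK K F :=
  Submodule.subset_span ⟨z, hz, rfl⟩

theorem finrank_redK_le (K : Type*) [Field K] (F : Submodule ℤ (ι → ℤ)) :
    Module.finrank K (redK K F) ≤ Lat.rk F := by
  classical
  set b := Module.Free.chooseBasis ℤ F with hb
  have h1 : redK K F ≤ Submodule.span K
      (Set.range (fun k => (fun i => (((b k : F) : ι → ℤ) i : K)))) := by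
    unfold redK
    rw [Submodule.span_le]
    rintro _ ⟨z, hz, rfl⟩
    have h2 := b.sum_repr ⟨z, hz⟩
    have h3 := congrArg (fun x : F => (x : ι → ℤ)) h2
    simp only [AddSubmonoidClass.coe_finsetSum, SetLike.val_smul] at h3
    have h4 : (fun i => (z i : K)) = ∑ k, ((b.repr ⟨z, hz⟩ k : ℤ) : K) •
        (fun i => (((b k : F) : ι → ℤ) i : K)) := by
      funext i
      have h5 := congrFun h3 i
      simp only [Finset.sum_apply, Pi.smul_apply, smul_eq_mul] at h5 ⊢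
      rw [← h5]
      push_cast
      rfl
    show (fun i => (z i : K)) ∈ _
    rw [h4]
    exact Submodule.sum_mem _ fun k _ => Submodule.smul_mem _ _ (Submodule.subset_span ⟨k, rfl⟩)
  have h2 := Submodule.finrank_mono h1
  have h3 := finrank_range_le_card (R := K) (fun k => (fun i => (((b k : F) : ι → ℤ) i : K)))
  unfold Set.finrank at h3
  rw [Lat.rk_eq b]
  omega

/-- integer sign vector -/
def sgv (x : ι → Bool) : ι → ℤ := fun i => sg (x i)

omit [Fintype ι] [DecidableEq ι] in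
theorem sgv_eq (x : ι → Bool) (i : ι) : sgv x i = 2 * (if x i then 1 else 0) - 1 := by
  unfold sgv sg
  by_cases h : x i <;> simp [h]

/-- a sign vector lies in a translate of a lattice of small rank with small probability -/
theorem prob_mem {p q : ℝ} (hp0 : 0 ≤ p) (hp1 : p ≤ 1) (hq1 : p ≤ q) (hq2 : 1 - p ≤ q)
    (F : Submodule ℤ (ι → ℤ)) (s : ℕ) (hs : Lat.rk F + s ≤ Fintype.card ι)
    (s0 : ι → ℤ) {τ : ℤ} (hτ : 1 ≤ τ) :
    bernoulliProb p {x : ι → Bool | s0 + τ • sgv x ∈ F} ≤ q ^ s := by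
  have h := odl (K := ℚ) hp0 hp1 hq1 hq2 s (redK ℚ F)
    (by have := finrank_redK_le ℚ F; omega) (fun i => ((τ : ℚ) - s0 i) / (2 * τ))
  refine le_trans (prob_mono hp0 hp1 fun x hx => ?_) h
  simp only [Set.mem_ofPred_eq] at hx ⊢
  have h1 := mem_redK ℚ hx
  have hτ0 : (τ : ℚ) ≠ 0 := by
    have : (1 : ℚ) ≤ τ := by exact_mod_cast hτ
    intro h0; rw [h0] at this; norm_num at this
  have h2 : bv ℚ x - (fun i => ((τ : ℚ) - s0 i) / (2 * τ)) =
      (1 / (2 * (τ : ℚ))) • (fun i => (((s0 + τ • sgv x) i : ℤ) : ℚ)) := by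
    funext i
    simp only [Pi.sub_apply, Pi.smul_apply, Pi.add_apply, smul_eq_mul, sgv_eq, bv]
    by_cases hx : x i
    · simp only [hx, if_true]
      push_cast
      field_simp
      ring
    · simp only [hx, Bool.false_eq_true, if_false]
      push_cast
      field_simp
      ring
  rw [h2]
  exact Submodule.smul_mem _ _ h1

/-- a sign vector lies in a given class modulo `m` (up to a saturated lattice of small rank) with
small probability, if `|m| > 2 τ` -/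
theorem prob_mod {p q : ℝ} (hp0 : 0 ≤ p) (hp1 : p ≤ 1) (hq1 : p ≤ q) (hq2 : 1 - p ≤ q)
    (F : Submodule ℤ (ι → ℤ)) (hF : ∀ (k : ℤ) (z : ι → ℤ), k ≠ 0 → k • z ∈ F → z ∈ F)
    (s : ℕ) (hs : Lat.rk F + s ≤ Fintype.card ι)
    (s0 : ι → ℤ) {τ m : ℤ} (hτ : 1 ≤ τ) (hm : 2 * τ < |m|) :
    bernoulliProb p {x : ι → Bool | ∃ u : ι → ℤ, s0 + τ • sgv x - m • u ∈ F} ≤ q ^ s := by
  classical
  have hq0 : 0 ≤ q := hp0.trans hq1
  by_cases hne : ∃ x : ι → Bool, ∃ u : ι → ℤ, s0 + τ • sgv x - m • u ∈ F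
  swap
  · have : {x : ι → Bool | ∃ u : ι → ℤ, s0 + τ • sgv x - m • u ∈ F} = ∅ := by
      ext x
      simp only [Set.mem_ofPred_eq, Set.mem_empty_iff_false, iff_false]
      intro h; exact hne ⟨x, h⟩
    rw [this, prob_empty]
    positivity
  obtain ⟨x', u', hx'⟩ := hne
  have hm0 : m ≠ 0 := by
    intro h; rw [h, abs_zero] at hm; linarith
  have hg0 : (Int.gcd (2 * τ) m : ℤ) ≠ 0 := by
    have := Int.gcd_pos_of_ne_zero_right (2 * τ) hm0
    exact_mod_cast this.ne'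
  set g : ℤ := (Int.gcd (2 * τ) m : ℤ) with hg
  obtain ⟨t', ht'⟩ : g ∣ 2 * τ := Int.gcd_dvd_left ..
  obtain ⟨m', hm'⟩ : g ∣ m := Int.gcd_dvd_right ..
  have hgpos : 0 < g := lt_of_le_of_ne (by rw [hg]; positivity) (Ne.symm hg0)
  have ht'pos : 0 < t' := by
    have h1 : 0 < g * t' := by rw [← ht']; linarith
    exact (mul_pos_iff_of_pos_left hgpos).1 h1
  have hm1 : m'.natAbs ≠ 1 := by
    intro h1
    have h2 : |m| = g := by
      rw [hm', abs_mul, abs_of_pos hgpos, Int.abs_eq_natAbs m', h1]; simp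
    rw [h2] at hm
    have h3 : g ≤ 2 * τ := Int.le_of_dvd (by linarith) ⟨t', ht'⟩
    linarith
  have hcop : IsCoprime t' m' := by
    rw [Int.isCoprime_iff_gcd_eq_one]
    have h1 : Int.gcd (g * t') (g * m') = g.natAbs * Int.gcd t' m' := Int.gcd_mul_left ..
    rw [← ht', ← hm'] at h1
    have h2 : g.natAbs = Int.gcd (2 * τ) m := by rw [hg]; rfl
    rw [h2] at h1
    have h3 : 0 < Int.gcd (2 * τ) m := Int.gcd_pos_of_ne_zero_right _ hm0
    exact (Nat.eq_of_mul_eq_mul_left h3 (by rw [mul_one]; exact h1.symm))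
  have : Fact (Nat.Prime m'.natAbs.minFac) := ⟨Nat.minFac_prime hm1⟩
  set ℓ := m'.natAbs.minFac with hℓ
  have hm'0 : ((m' : ℤ) : ZMod ℓ) = 0 := by
    rw [ZMod.intCast_zmod_eq_zero_iff_dvd, ← Int.dvd_natAbs]
    exact_mod_cast Nat.minFac_dvd _
  have ht'0 : ((t' : ℤ) : ZMod ℓ) ≠ 0 := by
    intro h0
    obtain ⟨a, b, hab⟩ := hcop
    have h1 := congrArg (fun z : ℤ => (z : ZMod ℓ)) hab
    push_cast at h1
    rw [h0, hm'0, mul_zero, mul_zero, add_zero] at h1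
    exact zero_ne_one h1
  have h := odl (K := ZMod ℓ) hp0 hp1 hq1 hq2 s (redK (ZMod ℓ) F)
    (by have := finrank_redK_le (ZMod ℓ) F; omega) (bv (ZMod ℓ) x')
  refine le_trans (prob_mono hp0 hp1 fun x hx => ?_) h
  simp only [Set.mem_ofPred_eq] at hx ⊢
  obtain ⟨u, hu⟩ := hx
  -- the difference
  set δ : ι → ℤ := fun i => (if x i then 1 else 0) - (if x' i then 1 else 0) with hδ
  have h1 : g • (t' • δ - m' • (u - u')) ∈ F := by
    have h2 := F.sub_mem hu hx'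
    have h3 : s0 + τ • sgv x - m • u - (s0 + τ • sgv x' - m • u') =
        g • (t' • δ - m' • (u - u')) := by
      funext i
      simp only [Pi.sub_apply, Pi.smul_apply, Pi.add_apply, smul_eq_mul, sgv_eq, hδ]
      have e1 : g * (t' * ((if x i = true then (1:ℤ) else 0) - if x' i = true then 1 else 0) -
          m' * (u i - u' i)) = (g * t') * ((if x i = true then (1:ℤ) else 0) -
            if x' i = true then 1 else 0) - (g * m') * (u i - u' i) := by ring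
      rw [e1, ← ht', ← hm']
      ring
    rwa [h3] at h2
  have h2 := hF g _ hg0 h1
  have h3 := mem_redK (ZMod ℓ) h2
  have h4 : bv (ZMod ℓ) x - bv (ZMod ℓ) x' = ((t' : ℤ) : ZMod ℓ)⁻¹ •
      (fun i => (((t' • δ - m' • (u - u')) i : ℤ) : ZMod ℓ)) := by
    funext i
    simp only [Pi.sub_apply, Pi.smul_apply, smul_eq_mul, hδ, bv]
    push_cast
    rw [hm'0, zero_mul, sub_zero, ← mul_assoc, inv_mul_cancel₀ ht'0, one_mul]
  rw [h4]
  exact Submodule.smul_mem _ _ h3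

end Crest.Agent.R152.LemS
end

-- ▼ part R152/LemS3
section

set_option autoImplicit false
set_option linter.unusedSectionVars false

/-! Row 152, LEMMA S (note 11125), part 3: potentials `lc F + κ rk F` on integer lattices and the
deterministic one-step dichotomy. -/

namespace Crest.Agent.R152.LemS

open Crest.Agent.R152.Lat Module

variable {ι : Type*} [Fintype ι]

/-- potential of a lattice -/
noncomputable def pot (κ : ℝ) (F : Submodule ℤ (ι → ℤ)) : ℝ := lc F + κ * rk F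

theorem pot_submod (κ : ℝ) (L M : Submodule ℤ (ι → ℤ)) :
    pot κ (L ⊔ M) + pot κ (L ⊓ M) ≤ pot κ L + pot κ M := by
  unfold pot
  have h1 := lc_submod L M
  have h2 : ((rk (L ⊔ M) : ℝ) + rk (L ⊓ M)) = rk L + rk M := by exact_mod_cast rk_modular L M
  have h3 : κ * rk (L ⊔ M) + κ * rk (L ⊓ M) = κ * rk L + κ * rk M := by
    rw [← mul_add, h2, mul_add]
  linarith


/-- `F` minimises the potential among the lattices containing `X` -/
def IsMin (κ : ℝ) (X F : Submodule ℤ (ι → ℤ)) : Prop :=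
  X ≤ F ∧ ∀ W, X ≤ W → pot κ F ≤ pot κ W

theorem exists_isMin {κ : ℝ} (hκ : 0 ≤ κ) (X : Submodule ℤ (ι → ℤ)) : ∃ F, IsMin κ X F := by
  classical
  -- the set of pairs `(dsc W, rk W)` with small potential is finite
  set C : ℝ := pot κ X with hC
  let S : Set (Submodule ℤ (ι → ℤ)) := {W | X ≤ W ∧ pot κ W ≤ C}
  let g : Submodule ℤ (ι → ℤ) → ℕ × ℕ := fun W => ((dsc W).toNat, rk W)
  have hfin : (g '' S).Finite := by
    apply Set.Finite.subset (s := (Set.Iic ⌈Real.exp (2 * C)⌉₊) ×ˢ (Set.Iic (Fintype.card ι)))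
    · exact (Set.finite_Iic _).prod (Set.finite_Iic _)
    · rintro _ ⟨W, ⟨_, hW⟩, rfl⟩
      refine ⟨?_, ?_⟩
      · show (dsc W).toNat ≤ ⌈Real.exp (2 * C)⌉₊
        have h1 : lc W ≤ C := by
          have h2 : 0 ≤ κ * rk W := by positivity
          unfold pot at hW
          linarith
        unfold lc at h1
        have hd : (0 : ℝ) < dsc W := by exact_mod_cast dsc_pos W
        have h2 : (dsc W : ℝ) ≤ Real.exp (2 * C) := by
          rw [← Real.exp_log hd]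
          apply Real.exp_le_exp.2
          linarith
        have h3 : (((dsc W).toNat : ℕ) : ℝ) = dsc W := by
          have : (((dsc W).toNat : ℕ) : ℤ) = dsc W := Int.toNat_of_nonneg (dsc_pos W).le
          exact_mod_cast this
        have h4 : (((dsc W).toNat : ℕ) : ℝ) ≤ ⌈Real.exp (2 * C)⌉₊ := by
          rw [h3]; exact h2.trans (Nat.le_ceil _)
        exact_mod_cast h4
      · exact rk_le_card W
  have hne : (g '' S).Nonempty := ⟨g X, X, ⟨le_rfl, le_rfl⟩, rfl⟩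
  obtain ⟨ab, ⟨F, hF, rfl⟩, hmin⟩ := Set.exists_min_image (g '' S)
    (fun ab => Real.log ab.1 / 2 + κ * ab.2) hfin hne
  have hg : ∀ W : Submodule ℤ (ι → ℤ), Real.log (g W).1 / 2 + κ * (g W).2 = pot κ W := by
    intro W
    unfold pot lc
    have h3 : (((dsc W).toNat : ℕ) : ℝ) = dsc W := by
      have : (((dsc W).toNat : ℕ) : ℤ) = dsc W := Int.toNat_of_nonneg (dsc_pos W).le
      exact_mod_cast this
    show Real.log ((dsc W).toNat : ℕ) / 2 + κ * rk W = _
    rw [h3]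
  refine ⟨F, hF.1, fun W hW => ?_⟩
  by_cases hWC : pot κ W ≤ C
  · have := hmin (g W) ⟨W, ⟨hW, hWC⟩, rfl⟩
    rwa [hg, hg] at this
  · exact hF.2.trans (not_le.1 hWC).le

/-- saturated lattices -/
def Sat (F : Submodule ℤ (ι → ℤ)) : Prop := ∀ (k : ℤ) (z : ι → ℤ), k ≠ 0 → k • z ∈ F → z ∈ F

theorem Sat.inf {F G : Submodule ℤ (ι → ℤ)} (hF : Sat F) (hG : Sat G) : Sat (F ⊓ G) :=
  fun k z hk hz => ⟨hF k z hk hz.1, hG k z hk hz.2⟩

theorem IsMin.sat {κ : ℝ} {X F : Submodule ℤ (ι → ℤ)} (h : IsMin κ X F) : Sat F := by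
  intro k z hk hz
  have h1 : ev z ∈ rsp F := mem_rsp_iff.2 ⟨k, hk, hz⟩
  have h2 := h.2 (F ⊔ Submodule.span ℤ {z}) (h.1.trans le_sup_left)
  unfold pot at h2
  rw [rk_sup_span_of_mem h1, lc_sup_span_of_mem h1] at h2
  have h3 : Real.log (ind F (F ⊔ Submodule.span ℤ {z})) ≤ 0 := by linarith
  have h4 : 0 < ind F (F ⊔ Submodule.span ℤ {z}) :=
    ind_pos le_sup_left (rk_sup_span_of_mem h1).symm
  have h5 : ind F (F ⊔ Submodule.span ℤ {z}) = 1 := by
    by_contra hne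
    have h6 : (1 : ℝ) < ind F (F ⊔ Submodule.span ℤ {z}) := by
      exact_mod_cast lt_of_le_of_ne h4 (Ne.symm hne)
    have := Real.log_pos h6
    linarith
  unfold ind at h5
  rw [AddSubgroup.relIndex_eq_one] at h5
  exact h5 ((le_sup_right : _ ≤ F ⊔ Submodule.span ℤ {z}) (Submodule.mem_span_singleton_self z))

theorem rsp_mem_of_sat {F : Submodule ℤ (ι → ℤ)} (hF : Sat F) {z : ι → ℤ} (hz : ev z ∈ rsp F) :
    z ∈ F := by
  obtain ⟨m, hm, h⟩ := mem_rsp_iff.1 hz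
  exact hF m z hm h

/-- a saturated sublattice of corank one has a complementary generator -/
theorem exists_gen {B F : Submodule ℤ (ι → ℤ)} (hB : Sat B) (h : B ≤ F)
    (hr : rk F = rk B + 1) : ∃ u ∈ F, F = B ⊔ Submodule.span ℤ {u} := by
  classical
  set N : Submodule ℤ F := Submodule.comap F.subtype B with hN
  have h1 : Module.finrank ℤ N = rk B := (Submodule.comapSubtypeEquivOfLe h).finrank_eq
  have h2 := Submodule.finrank_quotient_add_finrank (R := ℤ) N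
  have h3 : Module.finrank ℤ (F ⧸ N) = 1 := by
    have : Module.finrank ℤ F = rk B + 1 := hr
    omega
  have : Module.IsTorsionFree ℤ (F ⧸ N) := by
    apply Module.IsTorsionFree.of_smul_eq_zero
    intro r m hrm
    by_cases hr0 : r = 0
    · exact Or.inl hr0
    · right
      obtain ⟨z, rfl⟩ := N.mkQ_surjective m
      rw [← map_smul] at hrm
      simp only [Submodule.mkQ_apply, Submodule.Quotient.mk_eq_zero] at hrm ⊢
      exact hB r z hr0 hrm
  obtain ⟨v, hv0, hv⟩ := finrank_eq_one_iff'.1 h3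
  obtain ⟨⟨u, hu⟩, rfl⟩ := N.mkQ_surjective v
  refine ⟨u, hu, le_antisymm ?_ (sup_le h (by simpa using hu))⟩
  intro z hz
  obtain ⟨c, hc⟩ := hv (N.mkQ ⟨z, hz⟩)
  have h6 : z - c • u ∈ B := by
    rw [← map_smul, ← sub_eq_zero, ← map_sub] at hc
    simp only [Submodule.mkQ_apply, Submodule.Quotient.mk_eq_zero] at hc
    have h7 : c • u - z ∈ B := hc
    have := B.neg_mem h7
    rwa [neg_sub] at this
  have : z = (z - c • u) + c • u := by abel
  rw [this]
  exact Submodule.add_mem_sup h6 (Submodule.smul_mem _ _ (Submodule.mem_span_singleton_self u))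

/-- **deterministic one-step dichotomy** -/
theorem det_step {κ κ1 : ℝ} (hκ : κ1 ≤ κ) {X F F1 F' : Submodule ℤ (ι → ℤ)}
    (hF : IsMin κ X F) (hF1 : IsMin κ1 F F1) (hF' : Sat F') (hFF' : F ≤ F') :
    (pot κ F + 2 * (κ - κ1) ≤ pot κ F') ∨ F' ≤ F1 ∨
    ∃ u, u ∈ F' ∧ ev u ∉ rsp F1 ∧ F' = (F' ⊓ F1) ⊔ Submodule.span ℤ {u} ∧
      pot κ F + κ + Real.log (dst (F' ⊓ F1) (ev u)) ≤ pot κ F' := by
  set B := F' ⊓ F1 with hB
  have hBsat : Sat B := hF'.inf hF1.sat
  have hBF' : B ≤ F' := inf_le_left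
  have hBF1 : B ≤ F1 := inf_le_right
  have hFB : F ≤ B := le_inf hFF' hF1.1
  have h1 : pot κ1 B ≤ pot κ1 F' := by
    have h2 := pot_submod κ1 F' F1
    have h3 := hF1.2 (F' ⊔ F1) (hFF'.trans le_sup_left)
    rw [← hB] at h2
    linarith
  have h4 : pot κ F ≤ pot κ B := hF.2 B (hF.1.trans hFB)
  have hrk : rk B ≤ rk F' := rk_mono hBF'
  rcases Nat.lt_or_ge (rk F') (rk B + 2) with hlt | hge
  · rcases Nat.lt_or_ge (rk F') (rk B + 1) with hlt1 | hge1
    · -- same rank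
      right; left
      have hr : rk B = rk F' := by omega
      intro z hz
      have h5 : ev z ∈ rsp B := by
        have h6 : rsp B = rsp F' := by
          apply Submodule.eq_of_le_of_finrank_eq (rsp_mono hBF')
          rw [finrank_rsp, finrank_rsp, hr]
        rw [h6]
        exact ev_mem_rsp hz
      exact hBF1 (rsp_mem_of_sat hBsat h5)
    · right; right
      have hr : rk F' = rk B + 1 := by omega
      obtain ⟨u, hu, hgen⟩ := exists_gen hBsat hBF' hr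
      have huB : ev u ∉ rsp B := by
        intro h
        rw [hgen, rk_sup_span_of_mem h] at hr
        omega
      have huF1 : ev u ∉ rsp F1 := by
        intro h
        exact huB (ev_mem_rsp ⟨hu, rsp_mem_of_sat hF1.sat h⟩)
      refine ⟨u, hu, huF1, hgen, ?_⟩
      have h5 : pot κ F' = pot κ B + κ + Real.log (dst B (ev u)) := by
        conv_lhs => rw [hgen]
        unfold pot
        rw [lc_sup_span huB, rk_sup_span huB]
        push_cast; ring
      linarith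
  · left
    unfold pot at h1 h4 ⊢
    have h5 : (rk B : ℝ) + 2 ≤ rk F' := by exact_mod_cast hge
    have h6 : (κ - κ1) * (rk B + 2) ≤ (κ - κ1) * rk F' :=
      mul_le_mul_of_nonneg_left h5 (by linarith)
    nlinarith

theorem dst_smul_add {F : Submodule ℤ (ι → ℤ)} (m : ℤ) (u b : ι → ℤ) (hb : b ∈ F) :
    dst F (ev (b + m • u)) = |(m : ℝ)| * dst F (ev u) := by
  unfold dst
  have h1 : (rsp F).starProjection (ev b) = ev b :=
    Submodule.starProjection_eq_self_iff.2 (ev_mem_rsp hb)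
  rw [map_add, map_smul, map_add, h1, ← Int.cast_smul_eq_zsmul ℝ, map_smul]
  rw [add_sub_add_left_eq_sub, ← smul_sub, norm_smul, Real.norm_eq_abs]

/-- the minimiser of the larger potential keeps every outside integer point at distance at least
`exp (-κ)` -/
theorem IsMin.dst_ge {κ : ℝ} {X F : Submodule ℤ (ι → ℤ)} (h : IsMin κ X F) {u : ι → ℤ}
    (hu : ev u ∉ rsp F) : Real.exp (-κ) ≤ dst F (ev u) := by
  have h1 := h.2 (F ⊔ Submodule.span ℤ {u}) (h.1.trans le_sup_left)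
  unfold pot at h1
  rw [lc_sup_span hu, rk_sup_span hu] at h1
  push_cast at h1
  have h2 : -κ ≤ Real.log (dst F (ev u)) := by linarith
  calc Real.exp (-κ) ≤ Real.exp (Real.log (dst F (ev u))) := Real.exp_le_exp.2 h2
    _ = _ := Real.exp_log (dst_pos hu)

/-- one step, deterministic: if the potential of `F' ∋ y` is only slightly larger than that of `F`
then `y` is in `F1`, or `y ≡ m u` modulo `F1` with `u` close to (but outside) `F1`. -/
theorem det_step' {κ κ1 g : ℝ} (hκ : κ1 ≤ κ) {X F F1 F' : Submodule ℤ (ι → ℤ)}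
    (hF : IsMin κ X F) (hF1 : IsMin κ1 F F1) (hF' : Sat F') (hFF' : F ≤ F')
    {y : ι → ℤ} (hy : y ∈ F') (hg : pot κ F' < pot κ F + κ + g) (hg2 : κ + g ≤ 2 * (κ - κ1)) :
    y ∈ F1 ∨ ∃ (u : ι → ℤ) (m : ℤ), y - m • u ∈ F1 ∧ m ≠ 0 ∧
      Real.exp (-κ1) ≤ dst F1 (ev u) ∧ dst F1 (ev u) < Real.exp g ∧
      dst F1 (ev y) = |(m : ℝ)| * dst F1 (ev u) := by
  rcases det_step hκ hF hF1 hF' hFF' with h | h | ⟨u, hu, huF1, hgen, h⟩
  · exfalso; linarith
  · exact Or.inl (h hy)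
  · by_cases hyF : y ∈ F1
    · exact Or.inl hyF
    right
    have hy2 := hy
    rw [hgen] at hy2
    obtain ⟨b, hb, c, hc, hbc⟩ := Submodule.mem_sup.1 hy2
    obtain ⟨m, rfl⟩ := Submodule.mem_span_singleton.1 hc
    refine ⟨u, m, ?_, ?_, hF1.dst_ge huF1, ?_, ?_⟩
    · rw [← hbc, add_sub_cancel_right]
      exact hb.2
    · rintro rfl
      apply hyF
      rw [← hbc, zero_smul, add_zero]
      exact hb.2
    · have h2 : Real.log (dst (F' ⊓ F1) (ev u)) < g := by linarith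
      have h3 : ev u ∉ rsp (F' ⊓ F1) := fun h => huF1 (rsp_mono inf_le_right h)
      calc dst F1 (ev u) ≤ dst (F' ⊓ F1) (ev u) := dst_anti inf_le_right _
        _ = Real.exp (Real.log (dst (F' ⊓ F1) (ev u))) := (Real.exp_log (dst_pos h3)).symm
        _ < Real.exp g := Real.exp_lt_exp.2 h2
    · rw [← hbc]
      exact dst_smul_add m u b hb.2

/-- one can choose the minimiser for the larger lattice above the one for the smaller lattice -/
theorem IsMin.sup {κ : ℝ} {X X' F F' : Submodule ℤ (ι → ℤ)} (hXX' : X ≤ X') (hF : IsMin κ X F)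
    (hF' : IsMin κ X' F') : IsMin κ X' (F' ⊔ F) := by
  refine ⟨hF'.1.trans le_sup_left, fun W hW => ?_⟩
  have h1 := pot_submod κ F' F
  have h2 := hF.2 (F' ⊓ F) (le_inf (hXX'.trans hF'.1) hF.1)
  have h3 := hF'.2 W hW
  linarith

/-- rank bound for the double minimiser -/
theorem rk_le_of_isMin {κ κ1 : ℝ} (hκ : κ1 ≤ κ) {X F F1 : Submodule ℤ (ι → ℤ)}
    (hF : IsMin κ X F) (hF1 : IsMin κ1 F F1) :
    κ1 * rk F1 ≤ κ1 * rk X + lc X := by
  have h1 := hF.2 X le_rfl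
  have h2 := hF1.2 F le_rfl
  have h3 : (rk X : ℝ) ≤ rk F := by exact_mod_cast rk_mono hF.1
  have h4 := lc_nonneg F1
  unfold pot at h1 h2
  nlinarith [mul_le_mul_of_nonneg_left h3 (by linarith : 0 ≤ κ - κ1)]

end Crest.Agent.R152.LemS
end

-- ▼ part R152/LemS4
section

set_option autoImplicit false
set_option linter.unusedSectionVars false

/-! Row 152, LEMMA S (note 11125), part 4: the probabilistic one-step claim. -/

open Crest.FinProb Crest.ProbabilityR.SignMatrix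
open scoped InnerProductSpace RealInnerProductSpace

namespace Crest.Agent.R152.LemS

open Crest.Agent.R152.Base Crest.Agent.R152.Lat Module

variable {ι : Type*} [Fintype ι] [DecidableEq ι]

theorem ev_sgv (x : ι → Bool) : ev (sgv x) = LS.sv x := by
  ext i; rfl

/-- a sign vector is close to a translate of a lattice of small rank with small probability -/
theorem prob_close {p q ρ : ℝ} (hp0 : 0 ≤ p) (hp1 : p ≤ 1) (hq1 : p ≤ q) (hq2 : 1 - p ≤ q)
    (hq : q ≤ 1) (hρ : 0 < ρ) (s : ℕ) (F : Submodule ℤ (ι → ℤ))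
    (hF : ρ ^ 2 * Fintype.card ι + s + rk F ≤ Fintype.card ι)
    (s0 : ι → ℤ) {τ : ℤ} (hτ : 1 ≤ τ) {R : ℝ} (hR : 0 ≤ R) :
    bernoulliProb p {x : ι → Bool | dst F (ev (s0 + τ • sgv x)) ≤ τ * R} ≤
      Real.exp (R ^ 2) * (q + (1 - q) * Real.exp (-ρ ^ 2)) ^ s := by
  have hτ0 : (0 : ℝ) < τ := by
    have : (1 : ℝ) ≤ τ := by exact_mod_cast hτ
    linarith
  have hU : ρ ^ 2 * Fintype.card ι + s ≤ Module.finrank ℝ ((rsp F)ᗮ : Submodule ℝ _) := by
    have h1 := (rsp F).finrank_add_finrank_orthogonal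
    rw [finrank_rsp, finrank_euclideanSpace] at h1
    have h2 : (rk F : ℝ) + Module.finrank ℝ ((rsp F)ᗮ : Submodule ℝ _) = Fintype.card ι := by
      exact_mod_cast h1
    linarith
  have h := LS.prob_near hp0 hp1 hq1 hq2 hq hρ zero_le_one s ((rsp F)ᗮ) hU
    ((-(τ : ℝ)⁻¹) • ev s0) R hR
  rw [one_mul, neg_one_mul] at h
  refine le_trans (prob_mono hp0 hp1 fun x hx => ?_) h
  simp only [Set.mem_ofPred_eq] at hx ⊢
  have h1 : ev (s0 + τ • sgv x) = (τ : ℝ) • (LS.sv x - (-(τ : ℝ)⁻¹) • ev s0) := by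
    rw [map_add, map_smul, ← Int.cast_smul_eq_zsmul ℝ, ev_sgv, smul_sub, smul_smul]
    rw [mul_neg, mul_inv_cancel₀ hτ0.ne']
    simp [add_comm]
  have h2 : dst F (ev (s0 + τ • sgv x)) =
      τ * ‖(rsp F)ᗮ.starProjection (LS.sv x - (-(τ : ℝ)⁻¹) • ev s0)‖ := by
    unfold dst
    have h3 : ∀ v : EuclideanSpace ℝ ι, v - (rsp F).starProjection v =
        (rsp F)ᗮ.starProjection v := by
      intro v
      have := (rsp F).starProjection_add_starProjection_orthogonal v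
      rw [sub_eq_iff_eq_add']
      exact this.symm
    rw [h3, h1, map_smul, norm_smul, Real.norm_eq_abs, abs_of_pos hτ0]
  rw [h2] at hx
  exact le_of_mul_le_mul_left hx hτ0

/-- asymptotics -/
theorem asym {c d Q k : ℝ} (hc : 0 < c) (hd : 0 < d) (hQ0 : 0 < Q) (hQ1 : Q < 1) :
    ∃ c' : ℝ, 0 < c' ∧ ∃ n0 : ℕ, ∀ n : ℕ, n0 ≤ n →
      (3 + 2 * (n : ℝ) ^ k) * Real.exp ((2 * (n : ℝ) ^ (1 / 2 - d)) ^ 2) * Q ^ ⌊c * n / 2⌋₊ ≤
        Real.exp (-c' * n) := by
  set ε : ℝ := c / 4 * (-Real.log Q) with hε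
  have hlogQ : Real.log Q < 0 := Real.log_neg hQ0 hQ1
  have hεpos : 0 < ε := by
    rw [hε]; have : 0 < -Real.log Q := by linarith
    positivity
  refine ⟨ε, hεpos, ?_⟩
  have hA : ∀ᶠ n : ℕ in Filter.atTop,
      (2 * (n : ℝ) ^ (1 / 2 - d)) ^ 2 ≤ (ε / 2) * n := by
    have h1 : Filter.Tendsto (fun n : ℕ => (n : ℝ) ^ (-(2 * d))) Filter.atTop (nhds 0) :=
      (tendsto_rpow_neg_atTop (by linarith : 0 < 2 * d)).comp tendsto_natCast_atTop_atTop
    have h2 : ∀ᶠ n : ℕ in Filter.atTop, (n : ℝ) ^ (-(2 * d)) < ε / 8 :=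
      h1.eventually_lt_const (by positivity)
    filter_upwards [h2, Filter.eventually_ge_atTop 1] with n hn hn1
    have hn0 : (0 : ℝ) < n := by exact_mod_cast hn1
    have h3 : (2 * (n : ℝ) ^ (1 / 2 - d)) ^ 2 = 4 * ((n : ℝ) ^ (-(2 * d)) * n) := by
      rw [mul_pow, ← Real.rpow_natCast ((n : ℝ) ^ (1 / 2 - d)) 2, ← Real.rpow_mul hn0.le]
      congr 1
      · norm_num
      · rw [← Real.rpow_add_one hn0.ne']
        congr 1
        push_cast; ring
    rw [h3]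
    nlinarith
  have hB : ∀ᶠ n : ℕ in Filter.atTop,
      (3 + 2 * (n : ℝ) ^ k) * Q⁻¹ ≤ Real.exp ((ε / 2) * n) := by
    have h1 : Filter.Tendsto (fun x : ℝ => x ^ k * Real.exp (-(ε / 2) * x)) Filter.atTop (nhds 0) :=
      tendsto_rpow_mul_exp_neg_mul_atTop_nhds_zero k (ε / 2) (by positivity)
    have h2 : Filter.Tendsto (fun x : ℝ => x ^ (0 : ℝ) * Real.exp (-(ε / 2) * x)) Filter.atTop
        (nhds 0) :=
      tendsto_rpow_mul_exp_neg_mul_atTop_nhds_zero 0 (ε / 2) (by positivity)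
    have h3 : ∀ᶠ n : ℕ in Filter.atTop, (n : ℝ) ^ k * Real.exp (-(ε / 2) * n) < Q / 8 :=
      (h1.comp tendsto_natCast_atTop_atTop).eventually_lt_const (by positivity)
    have h4 : ∀ᶠ n : ℕ in Filter.atTop, (n : ℝ) ^ (0 : ℝ) * Real.exp (-(ε / 2) * n) < Q / 8 :=
      (h2.comp tendsto_natCast_atTop_atTop).eventually_lt_const (by positivity)
    filter_upwards [h3, h4] with n hn3 hn4
    rw [Real.rpow_zero, one_mul] at hn4
    have hE := Real.exp_pos ((ε / 2) * (n : ℝ))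
    have hEE : Real.exp (-(ε / 2) * (n : ℝ)) * Real.exp ((ε / 2) * (n : ℝ)) = 1 := by
      rw [← Real.exp_add]; simp
    have e1 : (n : ℝ) ^ k ≤ Q / 8 * Real.exp ((ε / 2) * (n : ℝ)) := by
      have := mul_le_mul_of_nonneg_right hn3.le hE.le
      rwa [mul_assoc, hEE, mul_one] at this
    have e2 : 1 ≤ Q / 8 * Real.exp ((ε / 2) * (n : ℝ)) := by
      have := mul_le_mul_of_nonneg_right hn4.le hE.le
      rwa [hEE] at this
    rw [← div_eq_mul_inv, div_le_iff₀ hQ0]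
    nlinarith
  obtain ⟨n0, hn0⟩ := Filter.eventually_atTop.1 (hA.and hB)
  refine ⟨n0, fun n hn => ?_⟩
  obtain ⟨h1, h2⟩ := hn0 n hn
  have h3 : Q ^ ⌊c * n / 2⌋₊ ≤ Q⁻¹ * Real.exp (-(2 * ε) * n) := by
    have h4 : (⌊c * n / 2⌋₊ : ℝ) ≥ c * n / 2 - 1 := by
      have := Nat.lt_floor_add_one (c * n / 2)
      linarith
    have h5 : Q ^ ⌊c * n / 2⌋₊ = Real.exp (Real.log Q * ⌊c * n / 2⌋₊) := by
      rw [← Real.rpow_natCast, Real.rpow_def_of_pos hQ0]
    rw [h5, ← Real.exp_log (inv_pos.2 hQ0), Real.log_inv, ← Real.exp_add]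
    apply Real.exp_le_exp.2
    rw [hε]
    nlinarith
  have h0 : 0 ≤ (3 + 2 * (n : ℝ) ^ k) := by positivity
  calc (3 + 2 * (n : ℝ) ^ k) * Real.exp ((2 * (n : ℝ) ^ (1 / 2 - d)) ^ 2) * Q ^ ⌊c * n / 2⌋₊
      ≤ (3 + 2 * (n : ℝ) ^ k) * Real.exp ((ε / 2) * n) * (Q⁻¹ * Real.exp (-(2 * ε) * n)) := by
        gcongr
    _ = ((3 + 2 * (n : ℝ) ^ k) * Q⁻¹) * (Real.exp ((ε / 2) * n) * Real.exp (-(2 * ε) * n)) := by
        ring
    _ ≤ Real.exp ((ε / 2) * n) * (Real.exp ((ε / 2) * n) * Real.exp (-(2 * ε) * n)) := by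
        gcongr
    _ = Real.exp (-ε * n) := by
        rw [← Real.exp_add, ← Real.exp_add]
        congr 1
        ring

end Crest.Agent.R152.LemS
end

-- ▼ part R152/LemS5
section

set_option autoImplicit false
set_option linter.unusedSectionVars false

/-! Row 152, LEMMA S (note 11125), part 5: the one-step claim. -/

open Crest.FinProb Crest.ProbabilityR.SignMatrix

namespace Crest.Agent.R152.LemS

open Crest.Agent.R152.Base Crest.Agent.R152.Lat Module

universe u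

set_option maxHeartbeats 2000000 in
/-- **The one-step claim of LEMMA S**: adding the row `s0 + τ x` (`x` a random sign vector) to a
lattice `X` of rank at most `card β - c n` raises the minimal potential
`min_{F ≥ X} (lc F + K' log n * rk F)` by at least `(K' + 1/2 - d) log n`, outside probability
`exp (-c' n)`. -/
theorem one_step {p c d : ℝ} (hp0 : 0 < p) (hp1 : p < 1) (hc : 0 < c) (hd : 0 < d) :
    ∃ c' : ℝ, 0 < c' ∧ ∃ n0 : ℕ, ∀ n : ℕ, n0 ≤ n → ∀ (β : Type u) [Fintype β] [DecidableEq β],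
      Fintype.card β ≤ n → ∀ K' : ℝ, 16 / c + 1 / 2 ≤ K' → ∀ X : Submodule ℤ (β → ℤ),
      (rk X : ℝ) + c * n ≤ Fintype.card β → lc X ≤ 2 * n * Real.log n →
      ∀ (s0 : β → ℤ) (τ : ℤ), 1 ≤ τ →
      (∀ x : β → Bool, dst X (ev (s0 + τ • sgv x)) ≤ (n : ℝ) ^ 3) →
      bernoulliProb p {x : β → Bool | ∃ F' : Submodule ℤ (β → ℤ),
        X ⊔ Submodule.span ℤ {s0 + τ • sgv x} ≤ F' ∧ ∀ F, X ≤ F →
          pot (K' * Real.log n) F' < pot (K' * Real.log n) F + (K' + 1 / 2 - d) * Real.log n} ≤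
      Real.exp (-c' * n) := by
  classical
  set q : ℝ := max p (1 - p) with hq
  have hpq : p ≤ q := le_max_left _ _
  have hpq' : 1 - p ≤ q := le_max_right _ _
  have hq1 : q < 1 := max_lt hp1 (by linarith)
  have hq0 : 0 < q := hp0.trans_le hpq
  set ρ : ℝ := Real.sqrt (c / 4) with hρ
  have hρpos : 0 < ρ := Real.sqrt_pos.2 (by positivity)
  have hρ2 : ρ ^ 2 = c / 4 := Real.sq_sqrt (by positivity)
  set Q : ℝ := q + (1 - q) * Real.exp (-ρ ^ 2) with hQ
  have hE1 : Real.exp (-ρ ^ 2) < 1 := by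
    rw [Real.exp_lt_one_iff]
    rw [hρ2]; linarith
  have hE0 := Real.exp_pos (-ρ ^ 2)
  have hQ1 : Q < 1 := by rw [hQ]; nlinarith
  have hqQ : q ≤ Q := by
    rw [hQ]
    have : 0 ≤ (1 - q) * Real.exp (-ρ ^ 2) := mul_nonneg (by linarith) hE0.le
    linarith
  have hQ0 : 0 < Q := hq0.trans_le hqQ
  obtain ⟨c', hc', n0, hn0⟩ := asym (c := c) (d := d) (Q := Q) (k := 8 / c + 3) hc hd hQ0 hQ1
  refine ⟨c', hc', max n0 2, fun n hn β _ _ hβ K' hK' X hX hlX s0 τ hτ hdist => ?_⟩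
  have hn2 : 2 ≤ n := (le_max_right _ _).trans hn
  have hnn0 : n0 ≤ n := (le_max_left _ _).trans hn
  have hnR : (2 : ℝ) ≤ n := by exact_mod_cast hn2
  have hnpos : (0 : ℝ) < n := by linarith
  set L : ℝ := Real.log n with hL
  have hLpos : 0 < L := Real.log_pos (by linarith)
  set κ : ℝ := K' * L with hκ
  set κ1 : ℝ := 8 / c * L with hκ1
  set g : ℝ := (1 / 2 - d) * L with hg
  have hκ1pos : 0 < κ1 := by positivity
  have hκκ1 : κ + g ≤ 2 * (κ - κ1) := by
    have h1 : (16 / c + 1 / 2) * L ≤ K' * L := mul_le_mul_of_nonneg_right hK' hLpos.le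
    have h2 : 0 ≤ d * L := by positivity
    rw [hκ, hκ1, hg]
    have h3 : 16 / c * L = 2 * (8 / c * L) := by ring
    nlinarith
  have hκ1κ : κ1 ≤ κ := by
    have h1 : (16 / c + 1 / 2) * L ≤ K' * L := mul_le_mul_of_nonneg_right hK' hLpos.le
    have h3 : 16 / c * L = 2 * (8 / c * L) := by ring
    have h4 : 0 < 8 / c * L := hκ1pos
    rw [hκ, hκ1]
    nlinarith
  have hκpos : 0 ≤ κ := hκ1pos.le.trans hκ1κ
  -- minimisers
  obtain ⟨F, hF⟩ := exists_isMin hκpos X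
  obtain ⟨F1, hF1⟩ := exists_isMin hκ1pos.le F
  set s : ℕ := ⌊c * n / 2⌋₊ with hs
  have hsle : (s : ℝ) ≤ c * n / 2 := Nat.floor_le (by positivity)
  have hrk : (rk F1 : ℝ) ≤ rk X + c * n / 4 := by
    have h1 := rk_le_of_isMin hκ1κ hF hF1
    have h2 : κ1 * rk F1 ≤ κ1 * (rk X + c * n / 4) := by
      have h3 : κ1 * (c * n / 4) = 2 * n * L := by
        rw [hκ1]; field_simp; ring
      rw [mul_add, h3]
      linarith
    exact le_of_mul_le_mul_left h2 hκ1pos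
  have hrk2 : (rk F1 : ℝ) + 3 * (c * n / 4) ≤ Fintype.card β := by linarith
  have hrks : rk F1 + s ≤ Fintype.card β := by
    have : (rk F1 : ℝ) + s ≤ Fintype.card β := by nlinarith
    exact_mod_cast this
  have hβn : (Fintype.card β : ℝ) ≤ n := by exact_mod_cast hβ
  -- events
  set R : ℝ := 2 * (n : ℝ) ^ (1 / 2 - d) with hR
  have hR0 : 0 ≤ R := by positivity
  have hexpg : Real.exp g = (n : ℝ) ^ (1 / 2 - d) := by
    rw [Real.rpow_def_of_pos hnpos, hg, mul_comm]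
  set M : ℤ := ⌊(n : ℝ) ^ (8 / c + 3)⌋ with hM
  have hM0 : 0 ≤ M := Int.floor_nonneg.2 (by positivity)
  have hsub : {x : β → Bool | ∃ F' : Submodule ℤ (β → ℤ),
        X ⊔ Submodule.span ℤ {s0 + τ • sgv x} ≤ F' ∧ ∀ F, X ≤ F →
          pot κ F' < pot κ F + (K' + 1 / 2 - d) * L} ⊆
      ({x : β → Bool | s0 + τ • sgv x ∈ F1} ∪
        {x : β → Bool | dst F1 (ev (s0 + τ • sgv x)) ≤ τ * R}) ∪
        ⋃ m ∈ ((Finset.Icc (-M) M).filter fun m => 2 * τ < |m|),
          {x : β → Bool | ∃ u : β → ℤ, s0 + τ • sgv x - m • u ∈ F1} := by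
    rintro x ⟨F'0, hXF', hF'0⟩
    obtain ⟨F'm, hF'm⟩ := exists_isMin hκpos (X ⊔ Submodule.span ℤ {s0 + τ • sgv x})
    have hF'' := IsMin.sup le_sup_left hF hF'm
    have h1 : pot κ (F'm ⊔ F) < pot κ F + κ + g := by
      have h2 := hF''.2 F'0 hXF'
      have h3 := hF'0 F hF.1
      have h4 : (K' + 1 / 2 - d) * L = κ + g := by rw [hκ, hg]; ring
      linarith
    have hy : s0 + τ • sgv x ∈ F'm ⊔ F :=
      hF''.1 ((le_sup_right : _ ≤ X ⊔ Submodule.span ℤ {s0 + τ • sgv x})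
        (Submodule.mem_span_singleton_self _))
    rcases det_step' hκ1κ hF hF1 hF''.sat le_sup_right hy h1 hκκ1 with h | ⟨u, m, hum, hm0, hlow,
      hup, hdst⟩
    · exact Or.inl (Or.inl h)
    · by_cases hmτ : 2 * τ < |m|
      · right
        have hmM : |m| ≤ M := by
          rw [hM]
          apply Int.le_floor.2
          have h2 : |(m : ℝ)| * Real.exp (-κ1) ≤ (n : ℝ) ^ 3 := by
            calc |(m : ℝ)| * Real.exp (-κ1) ≤ |(m : ℝ)| * dst F1 (ev u) := by gcongr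
              _ = dst F1 (ev (s0 + τ • sgv x)) := hdst.symm
              _ ≤ dst X (ev (s0 + τ • sgv x)) := dst_anti (hF.1.trans hF1.1) _
              _ ≤ (n : ℝ) ^ 3 := hdist x
          have h3 : |(m : ℝ)| ≤ (n : ℝ) ^ 3 * Real.exp κ1 := by
            have h4 := mul_le_mul_of_nonneg_right h2 (Real.exp_pos κ1).le
            rwa [mul_assoc, ← Real.exp_add, neg_add_cancel, Real.exp_zero, mul_one] at h4
          have h5 : Real.exp κ1 = (n : ℝ) ^ (8 / c) := by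
            rw [Real.rpow_def_of_pos hnpos, hκ1, mul_comm]
          rw [h5, mul_comm, ← Real.rpow_natCast, ← Real.rpow_add hnpos] at h3
          push_cast at h3 ⊢
          exact h3
        simp only [Set.mem_iUnion]
        refine ⟨m, ?_, u, hum⟩
        rw [Finset.mem_filter, Finset.mem_Icc]
        exact ⟨abs_le.1 hmM, hmτ⟩
      · left; right
        show dst F1 (ev (s0 + τ • sgv x)) ≤ τ * R
        rw [hdst, hR, ← hexpg]
        have h2 : |(m : ℝ)| ≤ 2 * τ := by exact_mod_cast not_lt.1 hmτ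
        have h3 := Real.exp_pos g
        have hτR : (1 : ℝ) ≤ τ := by exact_mod_cast hτ
        calc |(m : ℝ)| * dst F1 (ev u) ≤ (2 * τ) * Real.exp g := by
              apply mul_le_mul h2 hup.le (dst_nonneg _ _) (by linarith)
          _ = τ * (2 * Real.exp g) := by ring
  -- probabilities
  have hp0' := hp0.le
  have hp1' := hp1.le
  have hqs0 : 0 ≤ q ^ s := by positivity
  have hP1 : bernoulliProb p {x : β → Bool | s0 + τ • sgv x ∈ F1} ≤ q ^ s :=
    prob_mem hp0' hp1' hpq hpq' F1 s hrks s0 hτ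
  have hP2 : bernoulliProb p {x : β → Bool | dst F1 (ev (s0 + τ • sgv x)) ≤ τ * R} ≤
      Real.exp (R ^ 2) * Q ^ s := by
    apply prob_close hp0' hp1' hpq hpq' hq1.le hρpos s F1 _ s0 hτ hR0
    rw [hρ2]
    have h1 : c / 4 * Fintype.card β ≤ c / 4 * n := by gcongr
    nlinarith
  have hP3 : bernoulliProb p (⋃ m ∈ ((Finset.Icc (-M) M).filter fun m => 2 * τ < |m|),
          {x : β → Bool | ∃ u : β → ℤ, s0 + τ • sgv x - m • u ∈ F1}) ≤
      (2 * (n : ℝ) ^ (8 / c + 3) + 1) * q ^ s := by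
    refine (prob_biUnion_le hp0' hp1' _ _).trans ?_
    have h1 : ∑ m ∈ ((Finset.Icc (-M) M).filter fun m => 2 * τ < |m|),
        bernoulliProb p {x : β → Bool | ∃ u : β → ℤ, s0 + τ • sgv x - m • u ∈ F1} ≤
        ∑ _m ∈ ((Finset.Icc (-M) M).filter fun m => 2 * τ < |m|), q ^ s := by
      refine Finset.sum_le_sum fun m hm => ?_
      rw [Finset.mem_filter] at hm
      exact prob_mod hp0' hp1' hpq hpq' F1 hF1.sat s hrks s0 hτ hm.2
    refine h1.trans ?_
    rw [Finset.sum_const, nsmul_eq_mul]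
    refine mul_le_mul_of_nonneg_right ?_ hqs0
    have h2 : (((Finset.Icc (-M) M).filter fun m => 2 * τ < |m|).card : ℝ) ≤
        ((Finset.Icc (-M) M).card : ℝ) := by
      exact_mod_cast Finset.card_filter_le _ _
    refine h2.trans ?_
    rw [Int.card_Icc]
    have h3 : (((M + 1 - -M).toNat : ℕ) : ℝ) = 2 * M + 1 := by
      have : (((M + 1 - -M).toNat : ℕ) : ℤ) = 2 * M + 1 := by
        rw [Int.toNat_of_nonneg (by linarith)]; ring
      exact_mod_cast this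
    rw [h3]
    have h4 : (M : ℝ) ≤ (n : ℝ) ^ (8 / c + 3) := Int.floor_le _
    linarith
  refine (prob_mono hp0' hp1' hsub).trans ((prob_union_le hp0' hp1' _ _).trans ?_)
  refine (add_le_add ((prob_union_le hp0' hp1' _ _).trans (add_le_add hP1 hP2)) hP3).trans ?_
  refine le_trans ?_ (hn0 n hnn0)
  have hqQs : q ^ s ≤ Q ^ s := by gcongr
  have hER : 1 ≤ Real.exp (R ^ 2) := Real.one_le_exp (sq_nonneg _)
  have hQs : 0 ≤ Q ^ s := by positivity
  have hnk : 0 ≤ (n : ℝ) ^ (8 / c + 3) := by positivity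
  have h1 : q ^ s ≤ Real.exp (R ^ 2) * Q ^ s :=
    hqQs.trans (le_mul_of_one_le_left hQs hER)
  have h2 : (2 * (n : ℝ) ^ (8 / c + 3) + 1) * q ^ s ≤
      (2 * (n : ℝ) ^ (8 / c + 3) + 1) * (Real.exp (R ^ 2) * Q ^ s) := by gcongr
  calc q ^ s + Real.exp (R ^ 2) * Q ^ s + (2 * (n : ℝ) ^ (8 / c + 3) + 1) * q ^ s
      ≤ Real.exp (R ^ 2) * Q ^ s + Real.exp (R ^ 2) * Q ^ s +
        (2 * (n : ℝ) ^ (8 / c + 3) + 1) * (Real.exp (R ^ 2) * Q ^ s) := by linarith
    _ = (3 + 2 * (n : ℝ) ^ (8 / c + 3)) * Real.exp (R ^ 2) * Q ^ s := by ring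

end Crest.Agent.R152.LemS
end

-- ▼ part R152/LS7

set_option autoImplicit false
set_option linter.unusedSectionVars false

/-! Row 152: **Lemma S** (helper162, note 11125), final form. -/

open Crest.FinProb Crest.ProbabilityR.SignMatrix

namespace Crest.Agent.R152.LS

open Crest.Agent.R152.Base Crest.Agent.R152.Lat

theorem oneStep {p c : ℝ} (hp0 : 0 < p) (hp1 : p < 1) (hc : 0 < c) {d : ℝ} (hd : 0 < d) :
    OneStep p c d (16 / c + 1 / 2) := by
  obtain ⟨c2, hc2, n0, h⟩ := LemS.one_step.{0} hp0 hp1 hc hd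
  refine ⟨c2, hc2, n0, ?_⟩
  intro n hn K hK β _ _ hcard X hrk hlc s0 τ hτ hdst
  have h1 := h n hn β hcard K hK X hrk hlc s0 τ hτ hdst
  have e : -(c2 * (n : ℝ)) = -c2 * n := by ring
  rw [e]
  refine (prob_mono hp0.le hp1.le ?_).trans h1
  intro x hx
  refine ⟨Fmin (K * Real.log n) (X ⊔ Submodule.span ℤ {s0 + τ • fun i => sg (x i)}),
    le_Fmin _ _, ?_⟩
  intro F hF
  have h2 : Psi (K * Real.log n) (X ⊔ Submodule.span ℤ {s0 + τ • fun i => sg (x i)}) <
      Psi (K * Real.log n) X + (K + 1 / 2 - d) * Real.log n := hx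
  have h3 : Psi (K * Real.log n) X ≤ LemS.pot (K * Real.log n) F := Psi_le hF
  have h4 : LemS.pot (K * Real.log n)
      (Fmin (K * Real.log n) (X ⊔ Submodule.span ℤ {s0 + τ • fun i => sg (x i)})) =
      Psi (K * Real.log n) (X ⊔ Submodule.span ℤ {s0 + τ • fun i => sg (x i)}) := rfl
  rw [h4]
  linarith



end Crest.Agent.R152.LS
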