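import Crest.Agent.R152.WRMDefs

-- ▼ part R152/WRM3a
section

/-!
# Row 152, WRM-3a: reduction theory for positive definite Gram matrices

Every positive definite `G` has a unimodular transform which is *reduced*
(Hermite / LLL type reduction), hence if `det G ≤ C` and all nonzero integral vectors have
`qf G z ≥ c > 0`, then some transform has all its diagonal entries bounded by a constant.
-/

namespace Crest.Agent.R152.WRM3

open Matrix
open Crest.Agent.R152.WRM

set_option autoImplicit false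

lemma im_mul {α β γ : Type*} [Fintype β] (U : Matrix α β ℤ) (V : Matrix β γ ℤ) :
    im (U * V) = im U * im V := by
  ext i j; simp [Matrix.mul_apply, im]

lemma im_transpose {α β : Type*} (U : Matrix α β ℤ) : im Uᵀ = (im U)ᵀ := rfl

lemma im_one {α : Type*} [DecidableEq α] : im (1 : Matrix α α ℤ) = 1 := by
  ext i j; by_cases h : i = j <;> simp [im, Matrix.one_apply, h]

lemma im_det {α : Type*} [DecidableEq α] [Fintype α] (U : Matrix α α ℤ) :
    (im U).det = (U.det : ℝ) := by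
  have := (RingHom.map_det (Int.castRingHom ℝ) U).symm
  simpa [im, RingHom.mapMatrix_apply] using this

/-- Gram matrix of the sublattice spanned by the columns of `Z` -/
def gr {α β : Type*} [Fintype α] (G : Matrix α α ℝ) (Z : Matrix α β ℤ) : Matrix β β ℝ :=
  (im Z)ᵀ * G * im Z

lemma gr_mul {α β γ : Type*} [Fintype α] [Fintype β] (G : Matrix α α ℝ) (Z : Matrix α β ℤ)
    (W : Matrix β γ ℤ) : gr G (Z * W) = gr (gr G Z) W := by
  unfold gr
  rw [im_mul, Matrix.transpose_mul]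
  simp only [Matrix.mul_assoc]

lemma gr_one {α : Type*} [DecidableEq α] [Fintype α] (G : Matrix α α ℝ) :
    gr G (1 : Matrix α α ℤ) = G := by
  unfold gr; rw [im_one]; simp

lemma qf_gr {α β : Type*} [Fintype α] [Fintype β] (G : Matrix α α ℝ) (Z : Matrix α β ℤ)
    (x : β → ℝ) : qf (gr G Z) x = qf G (im Z *ᵥ x) := by
  unfold qf gr
  rw [Matrix.mul_assoc, ← Matrix.mulVec_mulVec, Matrix.dotProduct_mulVec, Matrix.vecMul_transpose,
    ← Matrix.mulVec_mulVec]

lemma PosDef.qf_pos {α : Type*} [Fintype α] {G : Matrix α α ℝ} (hG : G.PosDef) {x : α → ℝ}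
    (hx : x ≠ 0) : 0 < qf G x := by
  have := hG.dotProduct_mulVec_pos hx
  simpa [qf] using this

lemma det_gr {α : Type*} [DecidableEq α] [Fintype α] (G : Matrix α α ℝ) (U : Matrix α α ℤ) :
    (gr G U).det = (U.det : ℝ) ^ 2 * G.det := by
  unfold gr
  rw [Matrix.det_mul, Matrix.det_mul, Matrix.det_transpose, im_det]; ring

lemma isUnit_det_cast {α : Type*} [DecidableEq α] [Fintype α] {U : Matrix α α ℤ}
    (h : IsUnit U.det) : (U.det : ℝ) ^ 2 = 1 := by
  rcases Int.isUnit_iff.mp h with h | h <;> simp [h]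

lemma det_gr_unit {α : Type*} [DecidableEq α] [Fintype α] (G : Matrix α α ℝ)
    {U : Matrix α α ℤ} (h : IsUnit U.det) : (gr G U).det = G.det := by
  rw [det_gr, isUnit_det_cast h, one_mul]

/-- Schur complement of the upper left entry -/
noncomputable def schur {m : ℕ} (G : Matrix (Fin (m+1)) (Fin (m+1)) ℝ) :
    Matrix (Fin m) (Fin m) ℝ :=
  Matrix.of fun i j => G i.succ j.succ - G i.succ 0 * G 0 j.succ / G 0 0

lemma qf_eq_sum {α : Type*} [Fintype α] (G : Matrix α α ℝ) (x : α → ℝ) :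
    qf G x = ∑ i, ∑ j, x i * G i j * x j := by
  unfold qf
  simp only [dotProduct, Matrix.mulVec, Finset.mul_sum]
  refine Finset.sum_congr rfl fun i _ => Finset.sum_congr rfl fun j _ => ?_
  ring

lemma qf_cons {m : ℕ} (G : Matrix (Fin (m+1)) (Fin (m+1)) ℝ) (hs : ∀ i j, G i j = G j i)
    (h0 : G 0 0 ≠ 0) (x : Fin (m+1) → ℝ) :
    qf G x = G 0 0 * (x 0 + (∑ j : Fin m, G 0 j.succ * x j.succ) / G 0 0) ^ 2
      + qf (schur G) (fun j => x j.succ) := by
  rw [qf_eq_sum, qf_eq_sum]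
  simp only [Fin.sum_univ_succ, schur, Matrix.of_apply]
  have h1 : ∑ i : Fin m, x i.succ * G i.succ 0 * x 0
      = (∑ j : Fin m, G 0 j.succ * x j.succ) * x 0 := by
    rw [Finset.sum_mul]; refine Finset.sum_congr rfl fun i _ => ?_
    rw [hs i.succ 0]; ring
  have h2 : ∑ i : Fin m, x 0 * G 0 i.succ * x i.succ
      = (∑ j : Fin m, G 0 j.succ * x j.succ) * x 0 := by
    rw [Finset.sum_mul]; refine Finset.sum_congr rfl fun i _ => ?_
    ring
  have h3 : ∑ i : Fin m, ∑ j : Fin m, x i.succ * (G i.succ j.succ -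
      G i.succ 0 * G 0 j.succ / G 0 0) * x j.succ
      = (∑ i : Fin m, ∑ j : Fin m, x i.succ * G i.succ j.succ * x j.succ)
        - (∑ j : Fin m, G 0 j.succ * x j.succ) ^ 2 / G 0 0 := by
    have : (∑ j : Fin m, G 0 j.succ * x j.succ) ^ 2 / G 0 0
        = ∑ i : Fin m, ∑ j : Fin m, (G 0 i.succ * x i.succ) * (G 0 j.succ * x j.succ) / G 0 0 := by
      rw [sq, Finset.sum_mul_sum, Finset.sum_div]
      refine Finset.sum_congr rfl fun i _ => ?_
      rw [Finset.sum_div]
    rw [this, ← Finset.sum_sub_distrib]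
    refine Finset.sum_congr rfl fun i _ => ?_
    rw [← Finset.sum_sub_distrib]
    refine Finset.sum_congr rfl fun j _ => ?_
    rw [hs i.succ 0]; ring
  rw [Finset.sum_add_distrib, h1, h2, h3]
  field_simp
  ring

lemma posDef_symm {α : Type*} [Fintype α] {G : Matrix α α ℝ} (hG : G.PosDef) (i j : α) :
    G i j = G j i := by
  have := hG.isHermitian.apply j i
  simpa using this.symm ▸ rfl


lemma posDef_diag {α : Type*} [Fintype α] [DecidableEq α] {G : Matrix α α ℝ} (hG : G.PosDef)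
    (i : α) : 0 < G i i := by
  have h := PosDef.qf_pos hG (x := Pi.single i 1) (by
    intro h; have := congrFun h i; simp at this)
  simpa [qf] using h

lemma posDef_of_q {α : Type*} [Fintype α] {G : Matrix α α ℝ} (hs : ∀ i j, G i j = G j i)
    (h : ∀ x : α → ℝ, x ≠ 0 → 0 < qf G x) : G.PosDef := by
  refine Matrix.PosDef.of_dotProduct_mulVec_pos ?_ ?_
  · ext i j; simp [Matrix.conjTranspose_apply, hs j i]
  · intro x hx; simpa [qf] using h x hx

lemma schur_symm {m : ℕ} {G : Matrix (Fin (m+1)) (Fin (m+1)) ℝ} (hs : ∀ i j, G i j = G j i)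
    (i j : Fin m) : schur G i j = schur G j i := by
  simp only [schur, Matrix.of_apply]
  rw [hs i.succ j.succ, hs i.succ 0, hs 0 j.succ]; ring

lemma schur_posDef {m : ℕ} {G : Matrix (Fin (m+1)) (Fin (m+1)) ℝ} (hG : G.PosDef) :
    (schur G).PosDef := by
  have hs := posDef_symm hG
  have h0 : 0 < G 0 0 := posDef_diag hG 0
  refine posDef_of_q (schur_symm hs) fun y hy => ?_
  set x : Fin (m+1) → ℝ := Fin.cons (-(∑ j : Fin m, G 0 j.succ * y j) / G 0 0) y with hx
  have hx0 : x ≠ 0 := by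
    intro h
    apply hy
    ext j
    have := congrFun h j.succ
    simpa [hx] using this
  have h1 := PosDef.qf_pos hG hx0
  rw [qf_cons G hs h0.ne' x] at h1
  have h2 : (x 0 + (∑ j : Fin m, G 0 j.succ * x j.succ) / G 0 0) = 0 := by
    simp only [hx, Fin.cons_zero, Fin.cons_succ]; field_simp; ring
  rw [h2] at h1
  simpa [hx] using h1

lemma det_schur {m : ℕ} (G : Matrix (Fin (m+1)) (Fin (m+1)) ℝ) (h0 : G 0 0 ≠ 0) :
    G.det = G 0 0 * (schur G).det := by
  -- column operations: subtract `G 0 j.succ / G 0 0` times column 0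
  set B : Matrix (Fin (m+1)) (Fin (m+1)) ℝ := Matrix.of fun i j =>
    Fin.cases (motive := fun _ => ℝ) (G i 0) (fun j' => G i j'.succ - G i 0 * G 0 j'.succ / G 0 0) j
    with hB
  have h1 : G.det = B.det := by
    rw [← Matrix.det_transpose G, ← Matrix.det_transpose B]
    refine Matrix.det_eq_of_forall_row_eq_smul_add_const
      (fun j => Fin.cases (motive := fun _ => ℝ) 0 (fun j' => G 0 j'.succ / G 0 0) j) 0
      (by simp) ?_
    intro j i
    rw [Matrix.transpose_apply, Matrix.transpose_apply, Matrix.transpose_apply]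
    refine Fin.cases ?_ (fun j' => ?_) j
    · simp [hB]
    · simp only [hB, Matrix.of_apply, Fin.cases_succ, Fin.cases_zero]; ring
  rw [h1, Matrix.det_succ_row_zero, Fin.sum_univ_succ]
  have h2 : ∀ j : Fin m, B 0 j.succ = 0 := by
    intro j; simp only [hB, Matrix.of_apply, Fin.cases_succ]; field_simp; ring
  have h3 : B 0 0 = G 0 0 := by simp [hB]
  simp only [h2, h3, mul_zero, zero_mul, Finset.sum_const_zero, add_zero, Fin.val_zero, pow_zero,
    one_mul]
  congr 2

/-- extension of `U2` to a unimodular matrix with first column `e_0` and first row `(1,t)` -/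
def ext1 {m k : ℕ} (t : Fin k → ℤ) (U : Matrix (Fin m) (Fin k) ℤ) :
    Matrix (Fin (m+1)) (Fin (k+1)) ℤ :=
  Matrix.of (Fin.cons (Fin.cons 1 t) (fun i => Fin.cons 0 (U i)))

@[simp] lemma ext1_00 {m k : ℕ} (t : Fin k → ℤ) (U : Matrix (Fin m) (Fin k) ℤ) :
    ext1 t U 0 0 = 1 := rfl
@[simp] lemma ext1_0s {m k : ℕ} (t : Fin k → ℤ) (U : Matrix (Fin m) (Fin k) ℤ) (j : Fin k) :
    ext1 t U 0 j.succ = t j := rfl
@[simp] lemma ext1_s0 {m k : ℕ} (t : Fin k → ℤ) (U : Matrix (Fin m) (Fin k) ℤ) (i : Fin m) :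
    ext1 t U i.succ 0 = 0 := rfl
@[simp] lemma ext1_ss {m k : ℕ} (t : Fin k → ℤ) (U : Matrix (Fin m) (Fin k) ℤ) (i : Fin m)
    (j : Fin k) : ext1 t U i.succ j.succ = U i j := rfl

lemma det_ext1 {m : ℕ} (t : Fin m → ℤ) (U : Matrix (Fin m) (Fin m) ℤ) :
    (ext1 t U).det = U.det := by
  rw [Matrix.det_succ_column_zero, Fin.sum_univ_succ]
  simp only [ext1_00, ext1_s0, mul_zero, zero_mul, Finset.sum_const_zero, add_zero, Fin.val_zero,
    pow_zero, one_mul]
  congr 1

lemma gr_apply {α β : Type*} [Fintype α] (G : Matrix α α ℝ) (Z : Matrix α β ℤ) (i j : β) :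
    gr G Z i j = ∑ a, ∑ b, (Z a i : ℝ) * G a b * (Z b j : ℝ) := by
  simp only [gr, Matrix.mul_apply, Matrix.transpose_apply, im, Matrix.map_apply,
    Finset.sum_mul]
  rw [Finset.sum_comm]

lemma gr_ext1_00 {m k : ℕ} (G : Matrix (Fin (m+1)) (Fin (m+1)) ℝ) (t : Fin k → ℤ)
    (U : Matrix (Fin m) (Fin k) ℤ) : gr G (ext1 t U) 0 0 = G 0 0 := by
  rw [gr_apply]; simp [Fin.sum_univ_succ]

lemma gr_ext1_0s {m k : ℕ} (G : Matrix (Fin (m+1)) (Fin (m+1)) ℝ) (t : Fin k → ℤ)
    (U : Matrix (Fin m) (Fin k) ℤ) (j : Fin k) : gr G (ext1 t U) 0 j.succ =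
      G 0 0 * t j + ∑ l : Fin m, G 0 l.succ * U l j := by
  rw [gr_apply]; simp [Fin.sum_univ_succ]

lemma gr_ext1_s0 {m k : ℕ} (G : Matrix (Fin (m+1)) (Fin (m+1)) ℝ) (t : Fin k → ℤ)
    (U : Matrix (Fin m) (Fin k) ℤ) (i : Fin k) : gr G (ext1 t U) i.succ 0 =
      G 0 0 * t i + ∑ l : Fin m, G l.succ 0 * U l i := by
  rw [gr_apply]; simp [Fin.sum_univ_succ, mul_comm]

lemma schur_gr_ext1 {m k : ℕ} (G : Matrix (Fin (m+1)) (Fin (m+1)) ℝ) (h0 : G 0 0 ≠ 0)
    (t : Fin k → ℤ) (U : Matrix (Fin m) (Fin k) ℤ) :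
    schur (gr G (ext1 t U)) = gr (schur G) U := by
  ext i j
  have hss : gr G (ext1 t U) i.succ j.succ = t i * G 0 0 * t j
      + t i * (∑ l : Fin m, G 0 l.succ * U l j) + (∑ l : Fin m, G l.succ 0 * U l i) * t j
      + ∑ a : Fin m, ∑ b : Fin m, (U a i : ℝ) * G a.succ b.succ * U b j := by
    rw [gr_apply]
    simp only [Fin.sum_univ_succ, ext1_0s, ext1_ss]
    rw [Finset.sum_add_distrib, Finset.sum_mul, Finset.mul_sum]
    have e1 : ∑ x : Fin m, (t i : ℝ) * G 0 x.succ * (U x j : ℝ)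
      = ∑ x : Fin m, (t i : ℝ) * (G 0 x.succ * U x j) :=
      Finset.sum_congr rfl fun x _ => by ring
    have e2 : ∑ x : Fin m, (U x i : ℝ) * G x.succ 0 * (t j : ℝ)
      = ∑ x : Fin m, (G x.succ 0 * U x i) * (t j : ℝ) :=
      Finset.sum_congr rfl fun x _ => by ring
    rw [e1, e2]; ring
  have hr : gr (schur G) U i j = (∑ a : Fin m, ∑ b : Fin m, (U a i : ℝ) * G a.succ b.succ * U b j)
      - (∑ l : Fin m, G l.succ 0 * U l i) * (∑ l : Fin m, G 0 l.succ * U l j) / G 0 0 := by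
    rw [gr_apply, Finset.sum_mul_sum, Finset.sum_div, ← Finset.sum_sub_distrib]
    refine Finset.sum_congr rfl fun a _ => ?_
    rw [Finset.sum_div, ← Finset.sum_sub_distrib]
    refine Finset.sum_congr rfl fun b _ => ?_
    simp only [schur, Matrix.of_apply]; ring
  rw [hr]
  simp only [schur, Matrix.of_apply]
  rw [hss, gr_ext1_00, gr_ext1_0s, gr_ext1_s0]
  field_simp
  ring

lemma im_injective_of_isUnit {m : ℕ} {U : Matrix (Fin m) (Fin m) ℤ} (h : IsUnit U.det) :
    Function.Injective (im U).mulVec := by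
  have h1 : IsUnit (im U).det := by
    rw [im_det]
    rcases Int.isUnit_iff.mp h with h | h <;> simp [h]
  exact Matrix.mulVec_injective_iff_isUnit.mpr ((Matrix.isUnit_iff_isUnit_det _).mpr h1)

lemma gr_posDef {α β : Type*} [Fintype α] [Fintype β] {G : Matrix α α ℝ} (hG : G.PosDef)
    {Z : Matrix α β ℤ} (h : Function.Injective (im Z).mulVec) : (gr G Z).PosDef := by
  have := hG.conjTranspose_mul_mul_same (B := im Z) h
  simpa [gr, Matrix.conjTranspose_eq_transpose_of_trivial] using this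

lemma gr_posDef_unit {m : ℕ} {G : Matrix (Fin m) (Fin m) ℝ} (hG : G.PosDef)
    {U : Matrix (Fin m) (Fin m) ℤ} (h : IsUnit U.det) : (gr G U).PosDef :=
  gr_posDef hG (im_injective_of_isUnit h)

end Crest.Agent.R152.WRM3
end

-- ▼ part R152/WRM3b
section

/-!
# Row 152, WRM-3b: existence of reduced bases
-/

namespace Crest.Agent.R152.WRM3

open Matrix
open Crest.Agent.R152.WRM

set_option autoImplicit false

lemma qf_smul {α : Type*} [Fintype α] (G : Matrix α α ℝ) (c : ℝ) (x : α → ℝ) :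
    qf G (c • x) = c ^ 2 * qf G x := by
  unfold qf
  rw [Matrix.mulVec_smul, dotProduct_smul, smul_dotProduct]
  simp only [smul_eq_mul]; ring

lemma continuous_qf {α : Type*} [Fintype α] (G : Matrix α α ℝ) : Continuous (qf G) := by
  unfold qf
  fun_prop

/-- a positive definite form dominates a multiple of the squared sup norm -/
lemma exists_qf_lower {α : Type*} [Fintype α] {G : Matrix α α ℝ} (hG : G.PosDef) :
    ∃ c : ℝ, 0 < c ∧ ∀ x : α → ℝ, c * ‖x‖ ^ 2 ≤ qf G x := by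
  rcases isEmpty_or_nonempty α with he | hne
  · refine ⟨1, one_pos, fun x => ?_⟩
    have : x = 0 := Subsingleton.elim _ _
    simp [this, qf]
  have hc : IsCompact (Metric.sphere (0 : α → ℝ) 1) := isCompact_sphere _ _
  have hne' : (Metric.sphere (0 : α → ℝ) 1).Nonempty := by
    refine ⟨fun _ => 1, ?_⟩
    rw [mem_sphere_zero_iff_norm]
    simp
  obtain ⟨x0, hx0, hmin⟩ := hc.exists_isMinOn hne' (continuous_qf G).continuousOn
  have hx0' : x0 ≠ 0 := by
    intro h; simp [h] at hx0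
  refine ⟨qf G x0, PosDef.qf_pos hG hx0', fun x => ?_⟩
  by_cases hx : x = 0
  · simp [hx, qf]
  have hn : 0 < ‖x‖ := norm_pos_iff.mpr hx
  have h1 : (‖x‖⁻¹ • x) ∈ Metric.sphere (0 : α → ℝ) 1 := by
    simp [norm_smul, hn.ne']
  have h2 := hmin h1
  have h2 : qf G x0 ≤ qf G (‖x‖⁻¹ • x) := h2
  rw [qf_smul] at h2
  have h3 : qf G x = ‖x‖ ^ 2 * (‖x‖⁻¹ ^ 2 * qf G x) := by
    field_simp
  rw [h3]
  calc qf G x0 * ‖x‖ ^ 2 = ‖x‖ ^ 2 * qf G x0 := by ring
    _ ≤ _ := by gcongr

lemma norm_iv_sq_le {α : Type*} [Fintype α] {G : Matrix α α ℝ} {c : ℝ} (hc : 0 < c)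
    (h : ∀ x : α → ℝ, c * ‖x‖ ^ 2 ≤ qf G x) {R : ℝ} {z : α → ℤ} (hz : qf G (iv z) ≤ R) :
    ∀ i, |(z i : ℝ)| ^ 2 ≤ R / c := by
  intro i
  have h1 : |(z i : ℝ)| ≤ ‖iv z‖ := by
    have := norm_le_pi_norm (iv z) i
    simpa [iv] using this
  have h2 := h (iv z)
  rw [le_div_iff₀ hc]
  calc |(z i : ℝ)| ^ 2 * c ≤ ‖iv z‖ ^ 2 * c := by gcongr
    _ ≤ R := by linarith

/-- finitely many integral vectors of bounded length -/
lemma finite_qf_le {α : Type*} [Fintype α] {G : Matrix α α ℝ} (hG : G.PosDef) (R : ℝ) :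
    {z : α → ℤ | qf G (iv z) ≤ R}.Finite := by
  obtain ⟨c, hc, h⟩ := exists_qf_lower hG
  set K : ℤ := ⌈R / c⌉ with hK
  refine Set.Finite.subset (Set.Finite.pi' (t := fun _ : α => Set.Icc (-K) K)
    (fun _ => Set.finite_Icc _ _)) ?_
  intro z hz i
  have h1 := norm_iv_sq_le hc h hz i
  have h2 : ((|z i| : ℤ) : ℝ) ^ 2 ≤ K := by
    push_cast
    exact h1.trans (Int.le_ceil _)
  have h3 : |z i| ^ 2 ≤ K := by exact_mod_cast h2
  have h4 : |z i| ≤ K := by
    rcases eq_or_ne (z i) 0 with h0 | h0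
    · rw [h0] at h3 ⊢; simpa using h3
    · have : 1 ≤ |z i| := Int.one_le_abs h0
      nlinarith
  exact abs_le.mp h4

/-- reduced Gram matrices -/
def Reduced : ∀ {m : ℕ}, Matrix (Fin m) (Fin m) ℝ → Prop
  | 0, _ => True
  | m + 1, G => (∀ j : Fin m, |G 0 j.succ| ≤ G 0 0 / 2) ∧
      (∀ h : 0 < m, 3 / 4 * G 0 0 ≤ schur G ⟨0, h⟩ ⟨0, h⟩) ∧ Reduced (schur G)

lemma isUnit_det_mul {m : ℕ} {U V : Matrix (Fin m) (Fin m) ℤ} (hU : IsUnit U.det)
    (hV : IsUnit V.det) : IsUnit (U * V).det := by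
  rw [Matrix.det_mul]; exact hU.mul hV

/-- permutation matrices -/
def permM {α : Type*} [DecidableEq α] (σ : Equiv.Perm α) : Matrix α α ℤ :=
  (1 : Matrix α α ℤ).submatrix id σ

lemma permM_det {α : Type*} [DecidableEq α] [Fintype α] (σ : Equiv.Perm α) :
    IsUnit (permM σ).det := by
  rw [permM, Matrix.det_permute', Matrix.det_one, mul_one]
  rcases Int.units_eq_one_or (Equiv.Perm.sign σ) with h | h <;> simp [h]

lemma gr_permM {α : Type*} [DecidableEq α] [Fintype α] (G : Matrix α α ℝ) (σ : Equiv.Perm α)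
    (i j : α) : gr G (permM σ) i j = G (σ i) (σ j) := by
  rw [gr_apply]
  simp [permM, Matrix.one_apply]

/-- minimal first vector of a basis -/
lemma exists_min_first {m : ℕ} {G : Matrix (Fin (m+1)) (Fin (m+1)) ℝ} (hG : G.PosDef) :
    ∃ U : Matrix (Fin (m+1)) (Fin (m+1)) ℤ, IsUnit U.det ∧
      ∀ V : Matrix (Fin (m+1)) (Fin (m+1)) ℤ, IsUnit V.det → gr G U 0 0 ≤ gr G V 0 0 := by
  have key : ∀ V : Matrix (Fin (m+1)) (Fin (m+1)) ℤ, gr G V 0 0 = qf G (iv (fun a => V a 0)) := by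
    intro V
    rw [gr_apply, qf_eq_sum]
    simp only [iv]
  set S : Set (Fin (m+1) → ℤ) := {z | qf G (iv z) ≤ G 0 0 ∧ ∃ V : Matrix (Fin (m+1)) (Fin (m+1)) ℤ,
    IsUnit V.det ∧ z = fun a => V a 0} with hS
  have hfin : S.Finite := (finite_qf_le hG (G 0 0)).subset fun z hz => hz.1
  have hne : S.Nonempty := by
    refine ⟨fun a => (1 : Matrix (Fin (m+1)) (Fin (m+1)) ℤ) a 0, ?_, 1, by simp, rfl⟩
    have := key 1
    rw [gr_one] at this
    rw [← this]
  obtain ⟨z, hz, hmin⟩ := Set.exists_min_image S (fun z => qf G (iv z)) hfin hne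
  obtain ⟨hz1, U, hU, rfl⟩ := hz
  refine ⟨U, hU, fun V hV => ?_⟩
  rw [key, key]
  by_cases h : qf G (iv (fun a => V a 0)) ≤ G 0 0
  · exact hmin _ ⟨h, V, hV, rfl⟩
  · push Not at h
    exact hz1.trans h.le

/-- every positive definite form is unimodularly equivalent to a reduced one -/
theorem exists_reduced : ∀ {m : ℕ} (G : Matrix (Fin m) (Fin m) ℝ), G.PosDef →
    ∃ U : Matrix (Fin m) (Fin m) ℤ, IsUnit U.det ∧ Reduced (gr G U) := by
  intro m
  induction m with
  | zero => intro G _; exact ⟨1, by simp, trivial⟩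
  | succ m ih =>
    intro G hG
    obtain ⟨U1, hU1, hmin⟩ := exists_min_first hG
    set G1 := gr G U1 with hG1
    have hG1p : G1.PosDef := gr_posDef_unit hG hU1
    have h0 : 0 < G1 0 0 := posDef_diag hG1p 0
    obtain ⟨U2, hU2, hred⟩ := ih (schur G1) (schur_posDef hG1p)
    -- size reduction
    set P : Fin m → ℝ := fun j => ∑ l : Fin m, G1 0 l.succ * U2 l j with hP
    set t : Fin m → ℤ := fun j => -round (P j / G1 0 0) with ht
    set G2 := gr G1 (ext1 t U2) with hG2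
    have h00 : G2 0 0 = G1 0 0 := gr_ext1_00 _ _ _
    have hsr : ∀ j : Fin m, |G2 0 j.succ| ≤ G2 0 0 / 2 := by
      intro j
      rw [h00, hG2, gr_ext1_0s]
      have h1 : G1 0 0 * (t j : ℝ) + ∑ l : Fin m, G1 0 l.succ * (U2 l j : ℝ)
          = G1 0 0 * (P j / G1 0 0 - round (P j / G1 0 0)) := by
        rw [ht, hP]; push_cast; field_simp; ring
      rw [h1, abs_mul, abs_of_pos h0]
      have := abs_sub_round (P j / G1 0 0)
      nlinarith
    have hs : schur G2 = gr (schur G1) U2 := schur_gr_ext1 G1 h0.ne' t U2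
    have hU : IsUnit (U1 * ext1 t U2).det := isUnit_det_mul hU1 (by rw [det_ext1]; exact hU2)
    have hG2p : G2.PosDef := gr_posDef_unit hG1p (by rw [det_ext1]; exact hU2)
    refine ⟨U1 * ext1 t U2, hU, ?_⟩
    rw [gr_mul]
    refine ⟨hsr, ?_, by rw [hs]; exact hred⟩
    intro hm
    -- swap the first two vectors
    set j1 : Fin (m+1) := (⟨0, hm⟩ : Fin m).succ with hj1
    set W : Matrix (Fin (m+1)) (Fin (m+1)) ℤ := permM (Equiv.swap 0 j1) with hW
    have hWdet : IsUnit W.det := permM_det _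
    have h3 := hmin (U1 * ext1 t U2 * W) (isUnit_det_mul hU hWdet)
    rw [gr_mul, gr_mul] at h3
    have h4 : gr G2 W 0 0 = G2 j1 j1 := by
      rw [hW, gr_permM, Equiv.swap_apply_left]
    rw [← hG1, ← hG2, h4] at h3
    have h5 : G2 j1 j1 = schur G2 ⟨0, hm⟩ ⟨0, hm⟩ + G2 0 j1 ^ 2 / G2 0 0 := by
      have := posDef_symm hG2p j1 0
      simp only [schur, Matrix.of_apply]
      rw [← hj1, this]; ring
    have h6 : G2 0 j1 ^ 2 / G2 0 0 ≤ G2 0 0 / 4 := by
      have h00' : 0 < G2 0 0 := by rw [h00]; exact h0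
      rw [div_le_iff₀ h00']
      have := hsr ⟨0, hm⟩
      have h7 : G2 0 j1 ^ 2 ≤ (G2 0 0 / 2) ^ 2 := by
        rw [← sq_abs]; gcongr
      nlinarith
    rw [h00] at h6
    rw [h00] at h5
    show 3 / 4 * G2 0 0 ≤ schur G2 ⟨0, hm⟩ ⟨0, hm⟩
    rw [h00]
    linarith

end Crest.Agent.R152.WRM3
end

-- ▼ part R152/WRM3c
section

/-!
# Row 152, WRM-3c: compactness of reduced forms
-/

namespace Crest.Agent.R152.WRM3

open Matrix
open Crest.Agent.R152.WRM

set_option autoImplicit false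

/-- diagonal bound for reduced forms -/
noncomputable def KB : ℕ → ℝ → ℝ → ℝ
  | 0, _, C => C
  | m + 1, c, C => 4 / 3 * KB m (3 / 4 * c) (C / c)

theorem reduced_bound : ∀ (m : ℕ) (c C : ℝ) (G : Matrix (Fin (m+1)) (Fin (m+1)) ℝ), 0 < c →
    G.PosDef → Reduced G → c ≤ G 0 0 → G.det ≤ C → ∀ j, G j j ≤ KB m c C := by
  intro m
  induction m with
  | zero =>
    intro c C G hc hG _ _ hdet j
    have : j = 0 := Fin.fin_one_eq_zero j
    subst this
    simpa [KB] using hdet
  | succ m ih =>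
    intro c C G hc hG hred h0 hdet
    have hpos : 0 < G 0 0 := posDef_diag hG 0
    have hSp := schur_posDef hG
    have hdetS : (schur G).det ≤ C / c := by
      rw [det_schur G hpos.ne'] at hdet
      rw [le_div_iff₀ hc]
      have h1 : 0 < (schur G).det := hSp.det_pos
      nlinarith
    have h1 : 3 / 4 * G 0 0 ≤ schur G 0 0 := hred.2.1 (Nat.succ_pos m)
    have hb := ih (3 / 4 * c) (C / c) (schur G) (by positivity) hSp hred.2.2 (by linarith) hdetS
    have hb0 := hb 0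
    intro j
    refine Fin.cases ?_ (fun j => ?_) j
    · simp only [KB]; linarith
    · have h2 : G j.succ j.succ = schur G j j + G 0 j.succ ^ 2 / G 0 0 := by
        simp only [schur, Matrix.of_apply]
        rw [posDef_symm hG j.succ 0]; ring
      have h3 : G 0 j.succ ^ 2 / G 0 0 ≤ G 0 0 / 4 := by
        rw [div_le_iff₀ hpos]
        have := hred.1 j
        have h7 : G 0 j.succ ^ 2 ≤ (G 0 0 / 2) ^ 2 := by
          rw [← sq_abs]; gcongr
        nlinarith
      have := hb j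
      simp only [KB]
      linarith

/-- **RED**: bounded determinant and bounded first minimum ⟹ bounded basis. -/
theorem red (m : ℕ) (c C : ℝ) (hc : 0 < c) : ∃ C1 : ℝ, ∀ G : Matrix (Fin m) (Fin m) ℝ,
    G.PosDef → (∀ z : Fin m → ℤ, z ≠ 0 → c ≤ qf G (iv z)) → G.det ≤ C →
    ∃ U : Matrix (Fin m) (Fin m) ℤ, IsUnit U.det ∧ ∀ i, gr G U i i ≤ C1 := by
  rcases m with _ | m
  · exact ⟨0, fun G _ _ _ => ⟨1, by simp, fun i => i.elim0⟩⟩
  refine ⟨KB m c C, fun G hG hmin hdet => ?_⟩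
  obtain ⟨U, hU, hred⟩ := exists_reduced G hG
  refine ⟨U, hU, reduced_bound m c C _ hc (gr_posDef_unit hG hU) hred ?_ ?_⟩
  · have key : gr G U 0 0 = qf G (iv (fun a => U a 0)) := by
      rw [gr_apply, qf_eq_sum]; simp only [iv]
    rw [key]
    apply hmin
    intro h
    have : U.det = 0 := Matrix.det_eq_zero_of_column_eq_zero 0 (fun i => congrFun h i)
    rw [this] at hU
    exact not_isUnit_zero hU
  · rw [det_gr_unit G hU]; exact hdet

end Crest.Agent.R152.WRM3
private theorem rz_3a3a1bb620 : type_of% @_root_.Crest.Agent.R152.WRM3.KB.eq_def := @_root_.Crest.Agent.R152.WRM3.KB.eq_def -- L15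
private theorem rz_22291e1be7 : type_of% @_root_.Crest.Agent.R152.WRM3.KB.eq_1 := @_root_.Crest.Agent.R152.WRM3.KB.eq_1 -- L15
end

-- ▼ part R152/WRM3d

/-!
# Row 152, WRM-3d: Minkowski's first theorem, primitive vectors and the covering radius
-/

namespace Crest.Agent.R152.WRM3

open Matrix MeasureTheory Module
open Crest.Agent.R152.WRM

set_option autoImplicit false

lemma qf_AtA {m : ℕ} (A : Matrix (Fin m) (Fin m) ℝ) (x : Fin m → ℝ) :
    qf (Aᵀ * A) x = ∑ i, (A *ᵥ x) i ^ 2 := by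
  unfold qf
  rw [← Matrix.mulVec_mulVec, Matrix.dotProduct_mulVec, Matrix.vecMul_transpose]
  simp [dotProduct, sq]

open scoped MatrixOrder in
lemma exists_AtA {m : ℕ} {G : Matrix (Fin m) (Fin m) ℝ} (hG : G.PosDef) :
    ∃ A : Matrix (Fin m) (Fin m) ℝ, G = Aᵀ * A ∧ A.det ≠ 0 := by
  obtain ⟨A, hA⟩ := CStarAlgebra.nonneg_iff_eq_star_mul_self.mp hG.posSemidef.nonneg
  have hA' : G = Aᵀ * A := by
    rw [hA, Matrix.star_eq_conjTranspose, Matrix.conjTranspose_eq_transpose_of_trivial]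
  refine ⟨A, hA', ?_⟩
  have := hG.det_pos
  rw [hA', Matrix.det_mul, Matrix.det_transpose] at this
  intro h
  simp [h] at this

/-- Minkowski: a positive definite form of determinant `≤ 1` in `m ≥ 1` variables has a nonzero
integral vector with `qf ≤ 4m`. -/
theorem minkowski {m : ℕ} {G : Matrix (Fin (m+1)) (Fin (m+1)) ℝ} (hG : G.PosDef)
    (hdet : G.det ≤ 1) : ∃ z : Fin (m+1) → ℤ, z ≠ 0 ∧ qf G (iv z) ≤ 4 * (m + 1) := by
  obtain ⟨A, rfl, hA⟩ := exists_AtA hG
  have hA1 : |A.det| ≤ 1 := by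
    rw [Matrix.det_mul, Matrix.det_transpose, ← sq] at hdet
    rw [← sq_abs] at hdet
    have := abs_nonneg A.det
    nlinarith
  set b := Pi.basisFun ℝ (Fin (m+1)) with hb
  have h_fund := ZSpan.isAddFundamentalDomain' b volume
  have hcount : Countable (Submodule.span ℤ (Set.range b)).toAddSubgroup := by
    change Countable (Submodule.span ℤ (Set.range b))
    infer_instance
  set s : Set (Fin (m+1) → ℝ) := (Matrix.toLin' A) ⁻¹' (Metric.closedBall 0 2) with hs
  have hsymm : ∀ x ∈ s, -x ∈ s := by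
    intro x hx
    simp only [hs, Set.mem_preimage, mem_closedBall_zero_iff, map_neg, norm_neg] at hx ⊢
    exact hx
  have hconv : Convex ℝ s := (convex_closedBall _ _).linear_preimage _
  have hvol : volume (ZSpan.fundamentalDomain b) = 1 := by
    rw [hb, ZSpan.fundamentalDomain_pi_basisFun, volume_pi, Measure.pi_pi, Real.volume_Ico]
    simp
  have hlt : volume (ZSpan.fundamentalDomain b) * 2 ^ finrank ℝ (Fin (m+1) → ℝ) < volume s := by
    rw [hvol, one_mul, hs, Measure.addHaar_preimage_linearMap volume (by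
      rw [LinearMap.det_toLin']; exact hA), LinearMap.det_toLin', Real.volume_pi_closedBall _ (by norm_num)]
    simp only [finrank_fintype_fun_eq_card, Fintype.card_fin]
    have h1 : (2:ENNReal) ^ (m+1) = ENNReal.ofReal (2 ^ (m+1)) := by
      rw [ENNReal.ofReal_pow (by norm_num)]; simp
    rw [h1, ← ENNReal.ofReal_mul (by positivity)]
    rw [ENNReal.ofReal_lt_ofReal_iff (by positivity)]
    have h2 : (1:ℝ) ≤ |A.det⁻¹| := by
      rw [abs_inv]; exact (one_le_inv₀ (abs_pos.mpr hA)).mpr hA1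
    calc (2:ℝ) ^ (m+1) < (2*2)^(m+1) := by gcongr; norm_num
      _ ≤ |A.det⁻¹| * (2*2)^(m+1) := le_mul_of_one_le_left (by positivity) h2
  obtain ⟨⟨x, hx⟩, hne, hmem⟩ :=
    exists_ne_zero_mem_lattice_of_measure_mul_two_pow_lt_measure h_fund hsymm hconv hlt
  have hx' : ∃ z : Fin (m+1) → ℤ, x = iv z := by
    have hx2 : x ∈ Submodule.span ℤ (Set.range b) := hx
    have h3 := (b.mem_span_iff_repr_mem ℤ x).mp hx2
    choose z hz using h3
    refine ⟨z, ?_⟩
    ext i
    have := hz i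
    simp only [hb, Pi.basisFun_repr] at this
    rw [← this]; simp [iv]
  obtain ⟨z, rfl⟩ := hx'
  refine ⟨z, ?_, ?_⟩
  · rintro rfl
    apply hne
    ext i
    simp [iv]
  · rw [qf_AtA]
    have h5 : ∀ i, (A *ᵥ iv z) i ^ 2 ≤ 4 := by
      intro i
      have h6 : ‖(Matrix.toLin' A) (iv z)‖ ≤ 2 := by
        simpa [hs] using hmem
      have h7 := (norm_le_pi_norm ((Matrix.toLin' A) (iv z)) i).trans h6
      rw [Matrix.toLin'_apply, Real.norm_eq_abs] at h7
      rw [← sq_abs]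
      nlinarith [abs_nonneg ((A *ᵥ iv z) i)]
    calc ∑ i, (A *ᵥ iv z) i ^ 2 ≤ ∑ i : Fin (m+1), (4:ℝ) := Finset.sum_le_sum fun i _ => h5 i
      _ = 4 * (m+1) := by simp; ring


/-- a nonzero integral vector is a multiple of the first vector of a basis of `ℤ^(m+1)` -/
theorem exists_primitive {m : ℕ} (z : Fin (m+1) → ℤ) (hz : z ≠ 0) :
    ∃ (U : Matrix (Fin (m+1)) (Fin (m+1)) ℤ) (d : ℤ), IsUnit U.det ∧ d ≠ 0 ∧
      z = fun a => d * U a 0 := by
  obtain ⟨n, snf⟩ := (Submodule.span ℤ {z}).smithNormalForm (Pi.basisFun ℤ (Fin (m+1)))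
  have hn : n = 1 := by
    have h1 := Module.finrank_eq_card_basis snf.bN
    rw [← (LinearEquiv.toSpanNonzeroSingleton ℤ (Fin (m+1) → ℤ) z hz).finrank_eq] at h1
    simpa using h1.symm
  subst hn
  set σ : Equiv.Perm (Fin (m+1)) := Equiv.swap 0 (snf.f 0) with hσ
  set b : Basis (Fin (m+1)) ℤ (Fin (m+1) → ℤ) := snf.bM.reindex σ with hb
  have hb0 : b 0 = snf.bM (snf.f 0) := by
    simp [hb, hσ]
  set U : Matrix (Fin (m+1)) (Fin (m+1)) ℤ := (Pi.basisFun ℤ (Fin (m+1))).toMatrix b with hU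
  have hUdet : IsUnit U.det := by
    have := (Pi.basisFun ℤ (Fin (m+1))).invertibleToMatrix b
    exact (Matrix.isUnit_iff_isUnit_det _).mp (isUnit_of_invertible U)
  have hU0 : ∀ a, U a 0 = b 0 a := by
    intro a
    simp [hU, Basis.toMatrix_apply]
  have hmem : z ∈ Submodule.span ℤ {z} := Submodule.mem_span_singleton_self z
  have h2 : (⟨z, hmem⟩ : Submodule.span ℤ {z}) = ∑ i, snf.bN.repr ⟨z, hmem⟩ i • snf.bN i :=
    (snf.bN.sum_repr _).symm
  have h3 : z = (snf.bN.repr ⟨z, hmem⟩ 0 * snf.a 0) • b 0 := by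
    have h4 := congrArg Subtype.val h2
    simp only [Fin.sum_univ_one, Submodule.coe_smul_of_tower] at h4
    rw [snf.snf 0] at h4
    rw [mul_smul, hb0]
    exact h4
  refine ⟨U, snf.bN.repr ⟨z, hmem⟩ 0 * snf.a 0, hUdet, ?_, ?_⟩
  · intro h
    rw [h, zero_smul] at h3
    exact hz h3
  · ext a
    rw [hU0]
    have := congrFun h3 a
    simpa using this


/-- all sublattice determinants are at least `c` -/
def DetGe {α : Type*} [Fintype α] (c : ℝ) (G : Matrix α α ℝ) : Prop :=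
  ∀ (k : ℕ) (Z : Matrix α (Fin k) ℤ), (gr G Z).det ≠ 0 → c ≤ (gr G Z).det

lemma subDet_iff {α : Type*} [Fintype α] (G : Matrix α α ℝ) : SubDet G ↔ DetGe 1 G := Iff.rfl

lemma DetGe.gr {α β : Type*} [Fintype α] [Fintype β] {c : ℝ} {G : Matrix α α ℝ} (h : DetGe c G)
    (U : Matrix α β ℤ) : DetGe c (gr G U) := by
  intro k Z hZ
  rw [← gr_mul] at hZ ⊢
  exact h k _ hZ

lemma DetGe.schur {m : ℕ} {c : ℝ} {G : Matrix (Fin (m+1)) (Fin (m+1)) ℝ} (h : DetGe c G)
    (h0 : 0 < G 0 0) : DetGe (c / G 0 0) (schur G) := by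
  intro k Z hZ
  have h1 : (Crest.Agent.R152.WRM3.gr G (ext1 0 Z)).det
      = G 0 0 * (Crest.Agent.R152.WRM3.gr (Crest.Agent.R152.WRM3.schur G) Z).det := by
    rw [det_schur _ (by rw [gr_ext1_00]; exact h0.ne'), gr_ext1_00, schur_gr_ext1 G h0.ne']
  have h2 := h (k+1) (ext1 0 Z) (by rw [h1]; exact mul_ne_zero h0.ne' hZ)
  rw [div_le_iff₀ h0]
  rw [h1] at h2
  linarith

lemma iv_smul_int {α : Type*} (d : ℤ) (v : α → ℤ) : iv (fun a => d * v a) = (d : ℝ) • iv v := by
  ext a; simp [iv]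

/-- short primitive vector as the first basis vector -/
theorem exists_short_first {m : ℕ} {G : Matrix (Fin (m+1)) (Fin (m+1)) ℝ} (hG : G.PosDef)
    (hdet : G.det ≤ 1) :
    ∃ U : Matrix (Fin (m+1)) (Fin (m+1)) ℤ, IsUnit U.det ∧ gr G U 0 0 ≤ 4 * (m + 1) := by
  obtain ⟨z, hz, hq⟩ := minkowski hG hdet
  obtain ⟨U, d, hU, hd, rfl⟩ := exists_primitive z hz
  refine ⟨U, hU, ?_⟩
  have key : gr G U 0 0 = qf G (iv (fun a => U a 0)) := by
    rw [gr_apply, qf_eq_sum]; simp only [iv]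
  rw [key]
  rw [iv_smul_int, qf_smul] at hq
  have h1 : (1:ℝ) ≤ (d:ℝ) ^ 2 := by
    have : (1:ℤ) ≤ d ^ 2 := by
      have := Int.one_le_abs hd
      nlinarith [abs_nonneg d, sq_abs d]
    exact_mod_cast this
  have h2 : 0 ≤ qf G (iv fun a => U a 0) := by
    rw [← key]; exact (posDef_diag (gr_posDef_unit hG hU) 0).le
  nlinarith

lemma im_mulVec_iv {α β : Type*} [Fintype β] (U : Matrix α β ℤ) (z : β → ℤ) :
    im U *ᵥ iv z = iv (U *ᵥ z) := by
  ext a; simp [im, iv, Matrix.mulVec, dotProduct]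

/-- **covering radius** of a lattice all of whose sublattices have determinant `≥ det G` -/
theorem cover : ∀ (m : ℕ) (G : Matrix (Fin m) (Fin m) ℝ), G.PosDef → DetGe G.det G →
    ∀ x : Fin m → ℝ, ∃ z : Fin m → ℤ, qf G (x - iv z) ≤ m * (m + 1) / 2 := by
  intro m
  induction m with
  | zero =>
    intro G _ _ x
    refine ⟨0, ?_⟩
    simp [qf, dotProduct]
  | succ m ih =>
    intro G hG hd x
    have hdet1 : G.det ≤ 1 := by
      have := hd 0 (Matrix.of fun _ (j : Fin 0) => j.elim0) (by simp)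
      simpa using this
    obtain ⟨U, hU, hU0⟩ := exists_short_first hG hdet1
    set G' := gr G U with hG'
    have hGp : G'.PosDef := gr_posDef_unit hG hU
    have h0 : 0 < G' 0 0 := posDef_diag hGp 0
    have hd' : DetGe G'.det G' := by
      rw [hG', det_gr_unit G hU]; exact hd.gr U
    have hd2 : DetGe (schur G').det (schur G') := by
      have h1 := hd'.schur h0
      rwa [det_schur G' h0.ne', mul_div_cancel_left₀ _ h0.ne'] at h1
    -- coordinates of `x`
    have hUr : IsUnit (im U).det := by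
      rw [im_det]
      rcases Int.isUnit_iff.mp hU with h | h <;> simp [h]
    set x' : Fin (m+1) → ℝ := (im U)⁻¹ *ᵥ x with hx'
    have hxx : x = im U *ᵥ x' := by
      rw [hx', Matrix.mulVec_mulVec, Matrix.mul_nonsing_inv _ hUr, Matrix.one_mulVec]
    obtain ⟨z2, hz2⟩ := ih (schur G') (schur_posDef hGp) hd2 (fun j => x' j.succ)
    set y : Fin m → ℝ := fun j => x' j.succ - z2 j with hy
    set r : ℝ := x' 0 + (∑ j : Fin m, G' 0 j.succ * y j) / G' 0 0 with hr
    set z' : Fin (m+1) → ℤ := Fin.cons (round r) z2 with hz'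
    refine ⟨U *ᵥ z', ?_⟩
    have h1 : qf G (x - iv (U *ᵥ z')) = qf G' (x' - iv z') := by
      rw [hG', qf_gr, Matrix.mulVec_sub, im_mulVec_iv, ← hxx]
    rw [h1, qf_cons G' (posDef_symm hGp) h0.ne']
    have h2 : (fun j : Fin m => (x' - iv z') j.succ) = (fun j => x' j.succ) - iv z2 := by
      ext j; simp [hz', iv]
    have h3 : (x' - iv z') 0 + (∑ j : Fin m, G' 0 j.succ * (x' - iv z') j.succ) / G' 0 0
        = r - round r := by
      have h4 : ∀ j : Fin m, (x' - iv z') j.succ = y j := by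
        intro j; simp [hz', iv, hy]
      simp only [h4]
      simp only [Pi.sub_apply, hz', iv, Fin.cons_zero, hr]
      ring
    rw [h2, h3]
    have h5 : (r - round r) ^ 2 ≤ 1 / 4 := by
      have := abs_sub_round r
      rw [← sq_abs]
      nlinarith [abs_nonneg (r - round r)]
    push_cast
    nlinarith

/-- covering radius of a stable lattice -/
theorem cover_stable {m : ℕ} {G : Matrix (Fin m) (Fin m) ℝ} (hG : Stable G) (x : Fin m → ℝ) :
    ∃ z : Fin m → ℤ, qf G (x - iv z) ≤ m * (m + 1) / 2 :=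
  cover m G hG.posDef (by rw [hG.det_eq]; exact hG.sub) x

end Crest.Agent.R152.WRM3
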