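import Mathlib
import Crest.Agent.R152.WRM1b
import Crest.Agent.R152.WRM3d
import Crest.Agent.R152.WRMDefs

-- ▼ part R152/WRM1c
section

set_option autoImplicit false

/-!
# Row 152, WRM-1: steps (1a), (1b), (1c)
-/

namespace Crest.Agent.R152.WRM

open Matrix MeasureTheory ENNReal

variable {ι κ : Type*} [Fintype ι] [Fintype κ]

/-- `sup_z exp(-c q(x - z))` -/
noncomputable def dE (c : ℝ) (G : Matrix ι ι ℝ) (x : ι → ℝ) : ℝ≥0∞ :=
  ⨆ z : ι → ℤ, gE c G (x - iv z)

theorem measurable_dE (c : ℝ) (G : Matrix ι ι ℝ) : Measurable (dE c G) :=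
  Measurable.iSup fun _ => (measurable_gE c G).comp (measurable_id.sub_const _)

theorem dE_add (c : ℝ) (G : Matrix ι ι ℝ) (x : ι → ℝ) (w : ι → ℤ) :
    dE c G (x + iv w) = dE c G x := by
  unfold dE
  rw [← (Equiv.addLeft w).iSup_comp]
  apply iSup_congr
  intro z
  rw [Equiv.coe_addLeft, iv_add]
  congr 1
  abel

theorem ofReal_exp_dsq {c : ℝ} (hc : 0 ≤ c) {G : Matrix ι ι ℝ} (hG : G.PosSemidef)
    (x : ι → ℝ) : ENNReal.ofReal (Real.exp (-c * dsq G x)) = dE c G x := by
  unfold dsq dE gE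
  have hf : Continuous (fun a : ℝ => ENNReal.ofReal (Real.exp (-c * a))) :=
    ENNReal.continuous_ofReal.comp (Real.continuous_exp.comp (continuous_const.mul continuous_id))
  have ha : Antitone (fun a : ℝ => ENNReal.ofReal (Real.exp (-c * a))) := by
    intro a b hab
    apply ENNReal.ofReal_le_ofReal
    apply Real.exp_le_exp.2
    nlinarith
  exact Antitone.map_ciInf_of_continuousAt (f := fun a : ℝ => ENNReal.ofReal (Real.exp (-c * a)))
    hf.continuousAt ha ⟨0, by rintro _ ⟨z, rfl⟩; exact qf_nonneg hG _⟩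

theorem dE_le_one {c : ℝ} (hc : 0 ≤ c) {G : Matrix ι ι ℝ} (hG : G.PosSemidef) (x : ι → ℝ) :
    dE c G x ≤ 1 := by
  apply iSup_le
  intro z
  unfold gE
  rw [← ENNReal.ofReal_one]
  apply ENNReal.ofReal_le_ofReal
  rw [← Real.exp_zero]
  apply Real.exp_le_exp.2
  have := qf_nonneg hG (x - iv z)
  nlinarith

/-- `I c G` -/
noncomputable def Iv (c : ℝ) (G : Matrix ι ι ℝ) : ℝ≥0∞ := ∫⁻ x in cube ι, dE c G x

theorem Iv_le_one {c : ℝ} (hc : 0 ≤ c) {G : Matrix ι ι ℝ} (hG : G.PosSemidef) :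
    Iv c G ≤ 1 := by
  calc Iv c G ≤ ∫⁻ _ in cube ι, (1 : ℝ≥0∞) := lintegral_mono fun x => dE_le_one hc hG x
    _ = 1 := by rw [lintegral_one, Measure.restrict_apply_univ, volume_cube]

theorem fV_eq [DecidableEq ι] {s : ℝ} {G : Matrix ι ι ℝ} (hG : G.PosSemidef) :
    fV s G = (Real.sqrt G.det / s ^ Fintype.card ι) * (Iv (Real.pi / s ^ 2) G).toReal := by
  have hc : 0 ≤ Real.pi / s ^ 2 := by positivity
  unfold fV Iv
  congr 1
  rw [integral_eq_lintegral_of_nonneg_ae (Filter.Eventually.of_forall fun x => (Real.exp_pos _).le)]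
  · congr 1
    apply lintegral_congr
    intro x
    exact ofReal_exp_dsq hc hG x
  · have h1 : Measurable (fun x => Real.exp (-(Real.pi / s ^ 2) * dsq G x)) := by
      have h2 : (fun x => Real.exp (-(Real.pi / s ^ 2) * dsq G x)) =
          fun x => (dE (Real.pi / s ^ 2) G x).toReal := by
        funext x
        rw [← ofReal_exp_dsq hc hG x, ENNReal.toReal_ofReal (Real.exp_pos _).le]
      rw [h2]
      exact (measurable_dE _ _).ennreal_toReal
    exact h1.aestronglyMeasurable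

theorem gE_mul_le (c : ℝ) (G : Matrix ι ι ℝ) (x y : ι → ℝ) :
    2 * (gE c G x * gE c G y) ≤ gE c G (x + y) + gE c G (x - y) := by
  unfold gE
  rw [← ENNReal.ofReal_mul (Real.exp_pos _).le, ← Real.exp_add,
    ← ENNReal.ofReal_add (Real.exp_pos _).le (Real.exp_pos _).le,
    show (2 : ℝ≥0∞) = ENNReal.ofReal 2 by simp, ← ENNReal.ofReal_mul (by norm_num)]
  apply ENNReal.ofReal_le_ofReal
  have h1 := qf_add_sub G x y
  have h2 : Real.exp (-c * qf G x + -c * qf G y) =
      Real.exp (-c * qf G (x + y) / 2) * Real.exp (-c * qf G (x - y) / 2) := by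
    rw [← Real.exp_add]
    congr 1
    linear_combination (c / 2) * h1
  have h3 : ∀ a : ℝ, Real.exp a = Real.exp (a / 2) ^ 2 := by
    intro a
    rw [← Real.exp_nat_mul]
    congr 1
    push_cast
    ring
  rw [h2, h3 (-c * qf G (x + y)), h3 (-c * qf G (x - y))]
  nlinarith [sq_nonneg (Real.exp (-c * qf G (x + y) / 2) - Real.exp (-c * qf G (x - y) / 2))]

theorem gE_mul_Th_le (c : ℝ) (G : Matrix ι ι ℝ) (x : ι → ℝ) :
    gE c G x * Th c G 0 ≤ Th c G x := by
  have h1 : 2 * (gE c G x * Th c G 0) ≤ 2 * Th c G x := by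
    have e1 : 2 * (gE c G x * Th c G 0) =
        ∑' z : ι → ℤ, 2 * (gE c G x * gE c G (iv z)) := by
      rw [ENNReal.tsum_mul_left, ENNReal.tsum_mul_left, Th]
      simp only [zero_add]
    have e2 : (2 : ℝ≥0∞) * Th c G x = ∑' z : ι → ℤ, (gE c G (x + iv z) + gE c G (x - iv z)) := by
      rw [ENNReal.tsum_add, two_mul]
      congr 1
      rw [Th, ← (Equiv.neg (ι → ℤ)).tsum_eq]
      apply tsum_congr
      intro z
      rw [Equiv.neg_apply, iv_neg, ← sub_eq_add_neg]
    rw [e1, e2]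
    exact ENNReal.tsum_le_tsum fun z => gE_mul_le c G x (iv z)
  exact (ENNReal.mul_le_mul_iff_right (by norm_num) (by norm_num)).1 h1

theorem dE_mul_Th_le (c : ℝ) (G : Matrix ι ι ℝ) (x : ι → ℝ) :
    dE c G x * Th c G 0 ≤ Th c G x := by
  unfold dE
  rw [ENNReal.iSup_mul]
  apply iSup_le
  intro z
  have h1 := gE_mul_Th_le c G (x - iv z)
  have h2 : Th c G (x - iv z) = Th c G x := by
    rw [sub_eq_add_neg, ← iv_neg, Th_add]
  rwa [h2] at h1

theorem rho_eq {s : ℝ} (G : Matrix ι ι ℝ) :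
    rho s G = (Th (Real.pi / s ^ 2) G 0).toReal := by
  unfold rho Th
  rw [ENNReal.tsum_toReal_eq (fun z => by unfold gE; exact ENNReal.ofReal_ne_top)]
  apply tsum_congr
  intro z
  rw [gE, ENNReal.toReal_ofReal (Real.exp_pos _).le, zero_add]

variable [DecidableEq ι] [DecidableEq κ]

theorem summable_rho {s : ℝ} (hs : 0 < s) {G : Matrix ι ι ℝ} (hG : G.PosDef) :
    Summable (fun z : ι → ℤ => Real.exp (-(Real.pi / s ^ 2) * qf G (iv z))) := by
  have hc : 0 < Real.pi / s ^ 2 := by positivity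
  have h1 := Th_zero_lt_top hc hG
  have h2 := ENNReal.summable_toReal h1.ne
  refine h2.congr fun z => ?_
  rw [gE, ENNReal.toReal_ofReal (Real.exp_pos _).le, zero_add]

theorem rho_ge_one {s : ℝ} (hs : 0 < s) {G : Matrix ι ι ℝ} (hG : G.PosDef) : 1 ≤ rho s G := by
  have h := (summable_rho hs hG).le_tsum 0 (fun z _ => (Real.exp_pos _).le)
  simpa [rho] using h

theorem rho_pos {s : ℝ} (hs : 0 < s) {G : Matrix ι ι ℝ} (hG : G.PosDef) : 0 < rho s G :=
  lt_of_lt_of_le one_pos (rho_ge_one hs hG)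


theorem sqrt_pi_div {s : ℝ} (hs : 0 < s) : Real.sqrt (Real.pi / (Real.pi / s ^ 2)) = s := by
  rw [div_div_eq_mul_div, mul_div_cancel_left₀ _ Real.pi_ne_zero, Real.sqrt_sq hs.le]

/-- **(1a)** -/
theorem rho_mul_fV_le {s : ℝ} (hs : 0 < s) {G : Matrix ι ι ℝ} (hG : G.PosDef) :
    rho s G * fV s G ≤ 1 := by
  have hc : 0 < Real.pi / s ^ 2 := by positivity
  have h1 : Th (Real.pi / s ^ 2) G 0 * Iv (Real.pi / s ^ 2) G ≤
      ENNReal.ofReal (s ^ Fintype.card ι / Real.sqrt G.det) := by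
    have h2 := lint_Th hc hG
    rw [sqrt_pi_div hs] at h2
    rw [← h2, Iv, ← lintegral_const_mul _ (measurable_dE _ _)]
    apply lintegral_mono
    intro x
    change Th (Real.pi / s ^ 2) G 0 * dE (Real.pi / s ^ 2) G x ≤ _
    rw [mul_comm]
    exact dE_mul_Th_le _ _ _
  have hdet : 0 < Real.sqrt G.det := Real.sqrt_pos.2 hG.det_pos
  have h3 : (Th (Real.pi / s ^ 2) G 0).toReal * (Iv (Real.pi / s ^ 2) G).toReal ≤
      s ^ Fintype.card ι / Real.sqrt G.det := by
    rw [← ENNReal.toReal_mul]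
    exact ENNReal.toReal_le_of_le_ofReal (by positivity) h1
  rw [rho_eq, fV_eq hG.posSemidef]
  calc (Th (Real.pi / s ^ 2) G 0).toReal *
        (Real.sqrt G.det / s ^ Fintype.card ι * (Iv (Real.pi / s ^ 2) G).toReal)
      = (Real.sqrt G.det / s ^ Fintype.card ι) *
        ((Th (Real.pi / s ^ 2) G 0).toReal * (Iv (Real.pi / s ^ 2) G).toReal) := by ring
    _ ≤ (Real.sqrt G.det / s ^ Fintype.card ι) * (s ^ Fintype.card ι / Real.sqrt G.det) := by
        gcongr
    _ = 1 := by field_simp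

section block

variable (A : Matrix ι ι ℝ) (B : Matrix ι κ ℝ) (D : Matrix κ κ ℝ)

/-- Schur complement -/
noncomputable def schur : Matrix κ κ ℝ := D - Bᵀ * A⁻¹ * B

/-- the block Gram matrix -/
def blk : Matrix (ι ⊕ κ) (ι ⊕ κ) ℝ := fromBlocks A B Bᵀ D

variable {A B D}

theorem posDef_of_blk (h : (blk A B D).PosDef) : A.PosDef := by
  have h1 := h.submatrix (e := (Sum.inl : ι → ι ⊕ κ)) Sum.inl_injective
  have h2 : (blk A B D).submatrix (Sum.inl : ι → ι ⊕ κ) Sum.inl = A := by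
    ext i j; rfl
  rwa [h2] at h1

omit [DecidableEq κ] in
/-- completing the square -/
theorem qf_blk (hA : A.PosDef) (x : ι → ℝ) (y : κ → ℝ) :
    qf (blk A B D) (Sum.elim x y) =
      qf A (x + (A⁻¹ * B) *ᵥ y) + qf (schur A B D) y := by
  have : Invertible A := hA.isUnit.invertible
  have h := schur_complement_eq₁₁ (α := ℝ) B D x y hA.1
  rw [conjTranspose_eq_transpose_of_trivial] at h
  simp only [star_trivial] at h
  unfold qf blk schur
  rw [dotProduct_mulVec, dotProduct_mulVec, dotProduct_mulVec]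
  exact h

theorem schur_posDef (h : (blk A B D).PosDef) : (schur A B D).PosDef := by
  have hA := posDef_of_blk h
  have : Invertible A := hA.isUnit.invertible
  have hD : Dᵀ = D := by
    have h1 := h.1
    rw [IsHermitian, conjTranspose_eq_transpose_of_trivial] at h1
    ext i j
    exact congrFun (congrFun h1 (Sum.inr i)) (Sum.inr j)
  have hAt : Aᵀ = A := by
    have := hA.1
    rwa [IsHermitian, conjTranspose_eq_transpose_of_trivial] at this
  refine PosDef.of_dotProduct_mulVec_pos ?_ ?_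
  · rw [IsHermitian, conjTranspose_eq_transpose_of_trivial, schur, transpose_sub, hD,
      transpose_mul, transpose_mul, transpose_transpose, transpose_nonsing_inv, hAt,
      Matrix.mul_assoc]
  · intro y hy
    have h1 : 0 < qf (blk A B D) (Sum.elim (-((A⁻¹ * B) *ᵥ y)) y) := by
      apply qf_pos h
      intro h2
      apply hy
      funext i
      have := congrFun h2 (Sum.inr i)
      simpa using this
    rw [qf_blk hA, neg_add_cancel, qf_zero, zero_add] at h1
    simpa [qf] using h1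

theorem det_blk (hA : A.PosDef) : (blk A B D).det = A.det * (schur A B D).det := by
  have : Invertible A := hA.isUnit.invertible
  rw [blk, det_fromBlocks₁₁, schur, invOf_eq_nonsing_inv]

omit [Fintype ι] [Fintype κ] [DecidableEq ι] [DecidableEq κ] in
theorem iv_elim (a : ι → ℤ) (b : κ → ℤ) : iv (Sum.elim a b) = Sum.elim (iv a) (iv b) := by
  funext i
  rcases i with i | i <;> rfl

theorem gE_blk (c : ℝ) (hA : A.PosDef) (x : ι → ℝ) (y : κ → ℝ) :
    gE c (blk A B D) (Sum.elim x y) =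
      gE c A (x + (A⁻¹ * B) *ᵥ y) * gE c (schur A B D) y := by
  unfold gE
  rw [qf_blk hA, ← ENNReal.ofReal_mul (Real.exp_pos _).le, ← Real.exp_add]
  congr 2
  ring

/-- **(1c)**, in `ℝ≥0∞` -/
theorem Th_blk_le {c : ℝ} (hc : 0 < c) (h : (blk A B D).PosDef) :
    Th c (blk A B D) 0 ≤ Th c A 0 * Th c (schur A B D) 0 := by
  have hA := posDef_of_blk h
  have e1 : Th c (blk A B D) 0 = ∑' y : κ → ℤ, ∑' x : ι → ℤ,
      gE c (blk A B D) (Sum.elim (iv x) (iv y)) := by
    unfold Th
    rw [← (Equiv.sumArrowEquivProdArrow ι κ ℤ).symm.tsum_eq, ENNReal.tsum_comm,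
      ← ENNReal.tsum_prod (f := fun x y => gE c (blk A B D) (Sum.elim (iv x) (iv y)))]
    apply tsum_congr
    rintro ⟨x, y⟩
    rw [zero_add]
    congr 1
    exact iv_elim x y
  rw [e1]
  calc ∑' y : κ → ℤ, ∑' x : ι → ℤ, gE c (blk A B D) (Sum.elim (iv x) (iv y))
      = ∑' y : κ → ℤ, Th c A ((A⁻¹ * B) *ᵥ iv y) * gE c (schur A B D) (iv y) := by
        apply tsum_congr
        intro y
        unfold Th
        rw [← ENNReal.tsum_mul_right]
        apply tsum_congr
        intro x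
        rw [gE_blk c hA, add_comm (iv x)]
    _ ≤ ∑' y : κ → ℤ, Th c A 0 * gE c (schur A B D) (iv y) :=
        ENNReal.tsum_le_tsum fun y => mul_le_mul' (Th_le hc hA _) le_rfl
    _ = Th c A 0 * Th c (schur A B D) 0 := by
        rw [ENNReal.tsum_mul_left]
        unfold Th
        simp only [zero_add]

/-- **(1c)** -/
theorem rho_blk_le {s : ℝ} (hs : 0 < s) (h : (blk A B D).PosDef) :
    rho s (blk A B D) ≤ rho s A * rho s (schur A B D) := by
  have hc : 0 < Real.pi / s ^ 2 := by positivity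
  rw [rho_eq, rho_eq, rho_eq, ← ENNReal.toReal_mul]
  exact ENNReal.toReal_mono (ENNReal.mul_ne_top (Th_zero_lt_top hc (posDef_of_blk h)).ne
    (Th_zero_lt_top hc (schur_posDef h)).ne) (Th_blk_le hc h)

omit [Fintype ι] [Fintype κ] [DecidableEq ι] [DecidableEq κ] in
theorem elim_mem_cube {x : ι → ℝ} {y : κ → ℝ} :
    Sum.elim x y ∈ cube (ι ⊕ κ) ↔ x ∈ cube ι ∧ y ∈ cube κ := by
  simp [mem_cube, Sum.forall]

/-- **(1b)**, in `ℝ≥0∞` -/
theorem Iv_blk_ge {c : ℝ} (h : (blk A B D).PosDef) :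
    Iv c A * Iv c (schur A B D) ≤ Iv c (blk A B D) := by
  have hA := posDef_of_blk h
  have e1 : Iv c (blk A B D) =
      ∫⁻ y in cube κ, ∫⁻ x in cube ι, dE c (blk A B D) (Sum.elim x y) := by
    unfold Iv
    rw [← lintegral_indicator measurableSet_cube,
      ← (volume_measurePreserving_sumPiEquivProdPi_symm (fun _ : ι ⊕ κ => ℝ)).lintegral_comp
        ((measurable_dE _ _).indicator measurableSet_cube)]
    have hm : Measurable (fun p : (ι → ℝ) × (κ → ℝ) =>
        (cube (ι ⊕ κ)).indicator (dE c (blk A B D))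
          ((MeasurableEquiv.sumPiEquivProdPi fun _ : ι ⊕ κ => ℝ).symm p)) :=
      ((measurable_dE _ _).indicator measurableSet_cube).comp (MeasurableEquiv.measurable _)
    rw [Measure.volume_eq_prod, lintegral_prod_symm _ hm.aemeasurable,
      ← lintegral_indicator measurableSet_cube]
    apply lintegral_congr
    intro y
    by_cases hy : y ∈ cube κ
    · rw [Set.indicator_of_mem hy, ← lintegral_indicator measurableSet_cube]
      apply lintegral_congr
      intro x
      by_cases hx : x ∈ cube ι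
      · rw [Set.indicator_of_mem hx, Set.indicator_of_mem]
        · rfl
        · exact elim_mem_cube.2 ⟨hx, hy⟩
      · rw [Set.indicator_of_notMem hx, Set.indicator_of_notMem]
        exact fun h2 => hx (elim_mem_cube.1 h2).1
    · rw [Set.indicator_of_notMem hy]
      have : ∀ x : ι → ℝ, (cube (ι ⊕ κ)).indicator (dE c (blk A B D))
          ((MeasurableEquiv.sumPiEquivProdPi fun _ : ι ⊕ κ => ℝ).symm (x, y)) = 0 := by
        intro x
        rw [Set.indicator_of_notMem]
        exact fun h2 => hy (elim_mem_cube.1 h2).2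
      simp_rw [this]
      simp
  rw [e1]
  have h1 : ∀ y : κ → ℝ, Iv c A * dE c (schur A B D) y ≤
      ∫⁻ x in cube ι, dE c (blk A B D) (Sum.elim x y) := by
    intro y
    unfold dE
    rw [ENNReal.mul_iSup]
    apply iSup_le
    intro b
    have h2 : Iv c A = ∫⁻ x in cube ι, dE c A (x + (A⁻¹ * B) *ᵥ (y - iv b)) := by
      unfold Iv
      rw [periodic_lint (dE c A) (measurable_dE _ _) (fun x z => dE_add c A x z)]
    rw [h2, ← lintegral_mul_const]
    · apply lintegral_mono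
      intro x
      change dE c A (x + (A⁻¹ * B) *ᵥ (y - iv b)) * gE c (schur A B D) (y - iv b) ≤ _
      unfold dE
      rw [ENNReal.iSup_mul]
      apply iSup_le
      intro a
      have h3 : Sum.elim x y - iv (Sum.elim a b) = Sum.elim (x - iv a) (y - iv b) := by
        rw [iv_elim]
        funext i
        rcases i with i | i <;> rfl
      have h4 := gE_blk (B := B) (D := D) c hA (x - iv a) (y - iv b)
      have h5 : x + (A⁻¹ * B) *ᵥ (y - iv b) - iv a =
          x - iv a + (A⁻¹ * B) *ᵥ (y - iv b) := by abel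
      rw [h5, ← h4, ← h3]
      exact le_iSup (fun z => gE c (blk A B D) (Sum.elim x y - iv z)) (Sum.elim a b)
    · exact (measurable_dE _ _).comp (measurable_id.add_const _)
  calc Iv c A * Iv c (schur A B D) = ∫⁻ y in cube κ, Iv c A * dE c (schur A B D) y := by
        conv_lhs => rw [Iv.eq_1 c (schur A B D)]
        rw [lintegral_const_mul _ (measurable_dE _ _)]
    _ ≤ _ := lintegral_mono fun y => h1 y

/-- **(1b)** -/
theorem fV_blk_ge {s : ℝ} (hs : 0 < s) (h : (blk A B D).PosDef) :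
    fV s A * fV s (schur A B D) ≤ fV s (blk A B D) := by
  have hA := posDef_of_blk h
  have hS := schur_posDef h
  have hc : 0 ≤ Real.pi / s ^ 2 := by positivity
  rw [fV_eq h.posSemidef, fV_eq hA.posSemidef, fV_eq hS.posSemidef, det_blk hA,
    Real.sqrt_mul hA.det_pos.le, Fintype.card_sum, pow_add]
  have h1 : (Iv (Real.pi / s ^ 2) A).toReal * (Iv (Real.pi / s ^ 2) (schur A B D)).toReal ≤
      (Iv (Real.pi / s ^ 2) (blk A B D)).toReal := by
    rw [← ENNReal.toReal_mul]
    exact ENNReal.toReal_mono (ne_top_of_le_ne_top ENNReal.one_ne_top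
      (Iv_le_one hc h.posSemidef)) (Iv_blk_ge h)
  calc Real.sqrt A.det / s ^ Fintype.card ι * (Iv (Real.pi / s ^ 2) A).toReal *
        (Real.sqrt (schur A B D).det / s ^ Fintype.card κ *
          (Iv (Real.pi / s ^ 2) (schur A B D)).toReal)
      = Real.sqrt A.det * Real.sqrt (schur A B D).det /
          (s ^ Fintype.card ι * s ^ Fintype.card κ) *
        ((Iv (Real.pi / s ^ 2) A).toReal * (Iv (Real.pi / s ^ 2) (schur A B D)).toReal) := by
        field_simp
    _ ≤ _ := by gcongr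

end block

end Crest.Agent.R152.WRM
end

-- ▼ part R152/WRM2a
section

set_option autoImplicit false

/-!
# Row 152, WRM-2: invariance of `rho`, `fV`, `SubDet`, `Stable` under change of basis and reindexing
-/

namespace Crest.Agent.R152.WRM

open Matrix MeasureTheory ENNReal

variable {ι κ : Type*} [Fintype ι] [Fintype κ]

theorem qf_conj (G : Matrix ι ι ℝ) (P : Matrix ι κ ℝ) (x : κ → ℝ) :
    qf (Pᵀ * G * P) x = qf G (P *ᵥ x) := by
  unfold qf
  rw [Matrix.mul_assoc, ← mulVec_mulVec, dotProduct_mulVec, vecMul_transpose, ← mulVec_mulVec]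

theorem im_mulVec_iv (Z : Matrix ι κ ℤ) (w : κ → ℤ) : im Z *ᵥ iv w = iv (Z *ᵥ w) := by
  funext i
  simp [im, iv, mulVec, dotProduct]

omit [Fintype ι] in
theorem im_mul {l : Type*} (Z : Matrix l κ ℤ) (Y : Matrix κ ι ℤ) : im (Z * Y) = im Z * im Y := by
  ext i j
  simp [im, Matrix.mul_apply]

omit [Fintype ι] in
theorem im_one [DecidableEq ι] : im (1 : Matrix ι ι ℤ) = 1 := by
  ext i j
  by_cases h : i = j
  · subst h; simp [im]
  · simp [im, h]

theorem det_im [DecidableEq ι] (Z : Matrix ι ι ℤ) : (im Z).det = (Z.det : ℝ) := by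
  unfold im
  exact ((Int.castRingHom ℝ).map_det Z).symm

/-- an integer vector equivalence -/
def eqv [DecidableEq ι] [DecidableEq κ] (U : Matrix ι κ ℤ) (V : Matrix κ ι ℤ) (h1 : U * V = 1)
    (h2 : V * U = 1) : (κ → ℤ) ≃ (ι → ℤ) where
  toFun w := U *ᵥ w
  invFun w := V *ᵥ w
  left_inv w := by simp [h2]
  right_inv w := by simp [h1]

theorem rho_conj [DecidableEq ι] [DecidableEq κ] (s : ℝ) (G : Matrix ι ι ℝ) (U : Matrix ι κ ℤ)
    (V : Matrix κ ι ℤ) (h1 : U * V = 1) (h2 : V * U = 1) :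
    rho s ((im U)ᵀ * G * im U) = rho s G := by
  unfold rho
  rw [← (eqv U V h1 h2).tsum_eq (fun z => Real.exp (-(Real.pi / s ^ 2) * qf G (iv z)))]
  apply tsum_congr
  intro w
  rw [qf_conj, im_mulVec_iv]
  rfl

theorem dE_conj [DecidableEq ι] [DecidableEq κ] (c : ℝ) (G : Matrix ι ι ℝ) (U : Matrix ι κ ℤ)
    (V : Matrix κ ι ℤ) (h1 : U * V = 1) (h2 : V * U = 1) (x : κ → ℝ) :
    dE c ((im U)ᵀ * G * im U) x = dE c G (im U *ᵥ x) := by
  unfold dE
  rw [← (eqv U V h1 h2).iSup_comp]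
  apply iSup_congr
  intro w
  unfold gE
  rw [qf_conj, mulVec_sub, im_mulVec_iv]
  rfl

/-- change of variables by a matrix in `GL(ℤ)` in the integral of a periodic function -/
theorem lint_conj [DecidableEq ι] (h : (ι → ℝ) → ℝ≥0∞) (hm : Measurable h)
    (hp : ∀ x (z : ι → ℤ), h (x + iv z) = h x) (U V : Matrix ι ι ℤ) (h1 : U * V = 1) :
    ∫⁻ x in cube ι, h (im U *ᵥ x) = ∫⁻ x in cube ι, h x := by
  have h2 : V * U = 1 := by
    exact mul_eq_one_comm.1 h1
  have hPQ : im U * im V = 1 := by rw [← im_mul, h1, im_one]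
  have hQP : im V * im U = 1 := by rw [← im_mul, h2, im_one]
  have hdet : |(im U).det| = 1 := by
    have h3 : U.det * V.det = 1 := by rw [← det_mul, h1, det_one]
    have h4 : IsUnit U.det := IsUnit.of_mul_eq_one _ h3
    rw [det_im, ← Int.cast_abs, Int.isUnit_iff_abs_eq.1 h4]
    simp
  have hdet0 : (im U).det ≠ 0 := by
    intro h0
    rw [h0] at hdet
    simp at hdet
  have hmt : MeasurableSet {y : ι → ℝ | im V *ᵥ y ∈ cube ι} :=
    measurableSet_cube.preimage
      (LinearMap.continuous_of_finiteDimensional (Matrix.mulVecLin (im V))).measurable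
  have e1 : ∫⁻ x in cube ι, h (im U *ᵥ x) =
      ∫⁻ y, {y : ι → ℝ | im V *ᵥ y ∈ cube ι}.indicator h y := by
    rw [← lintegral_indicator measurableSet_cube]
    have e2 : ∀ x : ι → ℝ, (cube ι).indicator (fun x => h (im U *ᵥ x)) x =
        ({y : ι → ℝ | im V *ᵥ y ∈ cube ι}.indicator h) (toLin' (im U) x) := by
      intro x
      rw [toLin'_apply]
      have e3 : im V *ᵥ (im U *ᵥ x) = x := by rw [mulVec_mulVec, hQP, one_mulVec]
      by_cases hx : x ∈ cube ι
      · rw [Set.indicator_of_mem hx, Set.indicator_of_mem]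
        change im V *ᵥ (im U *ᵥ x) ∈ cube ι
        rwa [e3]
      · rw [Set.indicator_of_notMem hx, Set.indicator_of_notMem]
        change im V *ᵥ (im U *ᵥ x) ∉ cube ι
        rwa [e3]
    simp_rw [e2]
    rw [← lintegral_map (hm.indicator hmt)
      (LinearMap.continuous_of_finiteDimensional (toLin' (im U))).measurable,
      Real.map_matrix_volume_pi_eq_smul_volume_pi hdet0, lintegral_smul_measure, abs_inv, hdet]
    simp
  rw [e1, unfold_lint _ (hm.indicator hmt)]
  apply lintegral_congr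
  intro y
  rw [tsum_eq_single (-(U *ᵥ fl (im V *ᵥ y)))]
  · rw [Set.indicator_of_mem, hp]
    change im V *ᵥ (y + iv (-(U *ᵥ fl (im V *ᵥ y)))) ∈ cube ι
    rw [mulVec_add, iv_neg, mulVec_neg, im_mulVec_iv, mulVec_mulVec, h2, one_mulVec,
      ← sub_eq_add_neg]
    exact sub_fl_mem _
  · intro z hz
    rw [Set.indicator_of_notMem]
    intro hx
    apply hz
    change im V *ᵥ (y + iv z) ∈ cube ι at hx
    rw [mulVec_add, im_mulVec_iv] at hx
    have h3 : im V *ᵥ y - iv (-(V *ᵥ z)) ∈ cube ι := by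
      rw [iv_neg, sub_neg_eq_add]; exact hx
    have h4 := mem_cube_iff_fl.1 h3
    rw [← h4, mulVec_neg, neg_neg, mulVec_mulVec, h1, one_mulVec]

theorem Iv_conj [DecidableEq ι] (c : ℝ) (G : Matrix ι ι ℝ) (U V : Matrix ι ι ℤ)
    (h1 : U * V = 1) : Iv c ((im U)ᵀ * G * im U) = Iv c G := by
  have h2 : V * U = 1 := by
    exact mul_eq_one_comm.1 h1
  unfold Iv
  rw [← lint_conj (dE c G) (measurable_dE _ _) (fun x z => dE_add c G x z) U V h1]
  apply lintegral_congr
  intro x
  exact dE_conj c G U V h1 h2 x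

theorem det_conj [DecidableEq ι] (G : Matrix ι ι ℝ) (U V : Matrix ι ι ℤ)
    (h1 : U * V = 1) : ((im U)ᵀ * G * im U).det = G.det := by
  have hdet : (im U).det * (im U).det = 1 := by
    have h3 : U.det * V.det = 1 := by rw [← det_mul, h1, det_one]
    have h4 : IsUnit U.det := IsUnit.of_mul_eq_one _ h3
    have h5 : U.det * U.det = 1 := Int.isUnit_mul_self h4
    rw [det_im]
    exact_mod_cast h5
  rw [det_mul, det_mul, det_transpose]
  linear_combination G.det * hdet

theorem posDef_conj [DecidableEq ι] {G : Matrix ι ι ℝ} (hG : G.PosDef) (U V : Matrix ι ι ℤ)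
    (h1 : U * V = 1) : ((im U)ᵀ * G * im U).PosDef := by
  have hinj : Function.Injective (im U).mulVec := by
    have h2 : V * U = 1 := by
      exact mul_eq_one_comm.1 h1
    have hQP : im V * im U = 1 := by rw [← im_mul, h2, im_one]
    intro x y hxy
    have := congrArg (fun v => im V *ᵥ v) hxy
    simpa [mulVec_mulVec, hQP] using this
  have := hG.conjTranspose_mul_mul_same hinj
  rwa [conjTranspose_eq_transpose_of_trivial] at this

theorem fV_conj [DecidableEq ι] (s : ℝ) {G : Matrix ι ι ℝ} (hG : G.PosDef) (U V : Matrix ι ι ℤ)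
    (h1 : U * V = 1) : fV s ((im U)ᵀ * G * im U) = fV s G := by
  rw [fV_eq (posDef_conj hG U V h1).posSemidef, fV_eq hG.posSemidef, det_conj G U V h1,
    Iv_conj _ G U V h1]


section reindex

variable (e : κ ≃ ι)

theorem qf_reindex (G : Matrix ι ι ℝ) (x : κ → ℝ) :
    qf (G.submatrix e e) x = qf G (x ∘ e.symm) := by
  unfold qf
  rw [dotProduct, dotProduct, ← e.sum_comp]
  apply Finset.sum_congr rfl
  intro i _
  simp only [Function.comp, Equiv.symm_apply_apply]
  congr 1
  rw [mulVec, mulVec, dotProduct, dotProduct, ← e.sum_comp]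
  apply Finset.sum_congr rfl
  intro j _
  simp

theorem rho_reindex (s : ℝ) (G : Matrix ι ι ℝ) : rho s (G.submatrix e e) = rho s G := by
  unfold rho
  rw [← (Equiv.arrowCongr e (Equiv.refl ℤ)).tsum_eq
    (fun z => Real.exp (-(Real.pi / s ^ 2) * qf G (iv z)))]
  apply tsum_congr
  intro w
  rw [qf_reindex]
  rfl

theorem dE_reindex (c : ℝ) (G : Matrix ι ι ℝ) (x : κ → ℝ) :
    dE c (G.submatrix e e) x = dE c G (x ∘ e.symm) := by
  unfold dE
  rw [← (Equiv.arrowCongr e (Equiv.refl ℤ)).iSup_comp]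
  apply iSup_congr
  intro w
  unfold gE
  rw [qf_reindex]
  rfl

theorem Iv_reindex (c : ℝ) (G : Matrix ι ι ℝ) : Iv c (G.submatrix e e) = Iv c G := by
  unfold Iv
  rw [← lintegral_indicator measurableSet_cube, ← lintegral_indicator measurableSet_cube,
    ← (volume_measurePreserving_piCongrLeft (fun _ : ι => ℝ) e).lintegral_comp
      ((measurable_dE _ _).indicator measurableSet_cube)]
  apply lintegral_congr
  intro x
  have h1 : (MeasurableEquiv.piCongrLeft (fun _ : ι => ℝ) e) x = x ∘ e.symm := by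
    funext i
    obtain ⟨j, rfl⟩ := e.surjective i
    rw [MeasurableEquiv.coe_piCongrLeft, Equiv.piCongrLeft_apply_apply]
    simp
  rw [h1]
  have h2 : x ∈ cube κ ↔ x ∘ e.symm ∈ cube ι := by
    rw [mem_cube, mem_cube, ← e.symm.forall_congr_right]
    rfl
  by_cases hx : x ∈ cube κ
  · rw [Set.indicator_of_mem hx, Set.indicator_of_mem (h2.1 hx), dE_reindex]
  · rw [Set.indicator_of_notMem hx, Set.indicator_of_notMem (fun h => hx (h2.2 h))]

theorem posDef_reindex {G : Matrix ι ι ℝ} (hG : G.PosDef) : (G.submatrix e e).PosDef :=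
  hG.submatrix e.injective

theorem fV_reindex [DecidableEq ι] [DecidableEq κ] (s : ℝ) {G : Matrix ι ι ℝ} (hG : G.PosDef) :
    fV s (G.submatrix e e) = fV s G := by
  rw [fV_eq (posDef_reindex e hG).posSemidef, fV_eq hG.posSemidef, det_submatrix_equiv_self,
    Iv_reindex, Fintype.card_congr e]

theorem subDet_reindex {G : Matrix ι ι ℝ} (hG : SubDet G) : SubDet (G.submatrix e e) := by
  intro k Z hZ
  have h1 : (im Z)ᵀ * G.submatrix e e * im Z =
      (im (Z.submatrix e.symm id))ᵀ * G * im (Z.submatrix e.symm id) := by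
    have h2 : im Z = (im (Z.submatrix e.symm id)).submatrix e id := by
      ext i j; simp [im]
    conv_lhs => rw [h2]
    rw [transpose_submatrix, submatrix_mul_equiv, submatrix_mul_equiv]
    rfl
  rw [h1] at hZ ⊢
  exact hG k _ hZ

end reindex

end Crest.Agent.R152.WRM
end

-- ▼ part R152/WRM2b
section

set_option autoImplicit false

/-!
# Row 152, WRM-2: Cauchy-Binet over functions, discreteness of the determinants of sublattices
-/

namespace Crest.Agent.R152.WRM

open Matrix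

section CB

variable {R : Type*} [CommRing R] {ι : Type*} [Fintype ι] {k : ℕ}

/-- Cauchy-Binet, unsymmetrised -/
theorem det_mul_rect (P : Matrix (Fin k) ι R) (Q : Matrix ι (Fin k) R) :
    (P * Q).det = ∑ I : Fin k → ι, (∏ i, P i (I i)) * (Q.submatrix I id).det := by
  classical
  have h1 : (P * Q).det = (detRowAlternating : (Fin k → R) [⋀^Fin k]→ₗ[R] R)
      (fun i => ∑ j, P i j • Q j) := by
    change (detRowAlternating : (Fin k → R) [⋀^Fin k]→ₗ[R] R) (P * Q) = _
    congr 1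
    ext i j
    simp [Matrix.mul_apply, Finset.sum_apply]
  rw [h1]
  rw [← AlternatingMap.coe_multilinearMap, MultilinearMap.map_sum]
  apply Finset.sum_congr rfl
  intro I _
  rw [MultilinearMap.map_smul_univ, smul_eq_mul]
  rfl

/-- Cauchy-Binet, symmetrised: sums over all functions -/
theorem factorial_mul_det (P : Matrix (Fin k) ι R) (Q : Matrix ι (Fin k) R) :
    (k.factorial : R) * (P * Q).det =
      ∑ I : Fin k → ι, (P.submatrix id I).det * (Q.submatrix I id).det := by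
  classical
  symm
  calc ∑ I : Fin k → ι, (P.submatrix id I).det * (Q.submatrix I id).det
      = ∑ I : Fin k → ι, ∑ σ : Equiv.Perm (Fin k),
          ((Equiv.Perm.sign σ : ℤ) : R) * (∏ i, P (σ i) (I i)) * (Q.submatrix I id).det := by
        apply Finset.sum_congr rfl
        intro I _
        rw [det_apply', Finset.sum_mul]
        rfl
    _ = ∑ σ : Equiv.Perm (Fin k), ∑ I : Fin k → ι,
          ((Equiv.Perm.sign σ : ℤ) : R) * (∏ i, P (σ i) (I i)) * (Q.submatrix I id).det :=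
        Finset.sum_comm
    _ = ∑ σ : Equiv.Perm (Fin k), ∑ J : Fin k → ι, (∏ i, P i (J i)) * (Q.submatrix J id).det := by
        apply Finset.sum_congr rfl
        intro σ _
        rw [← (Equiv.arrowCongr σ.symm (Equiv.refl ι)).sum_comp]
        apply Finset.sum_congr rfl
        intro J _
        have e1 : ∀ i, (Equiv.arrowCongr σ.symm (Equiv.refl ι)) J i = J (σ i) := by
          intro i; simp
        have e2 : (∏ i, P (σ i) ((Equiv.arrowCongr σ.symm (Equiv.refl ι)) J i)) =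
            ∏ i, P i (J i) := by
          simp_rw [e1]
          exact Equiv.prod_comp σ (fun i => P i (J i))
        have e3 : (Q.submatrix ((Equiv.arrowCongr σ.symm (Equiv.refl ι)) J) id).det =
            ((Equiv.Perm.sign σ : ℤ) : R) * (Q.submatrix J id).det := by
          have : Q.submatrix ((Equiv.arrowCongr σ.symm (Equiv.refl ι)) J) id =
              (Q.submatrix J id).submatrix σ id := by
            ext i j
            simp
          rw [this, det_permute]
        rw [e2, e3]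
        have e4 : ((Equiv.Perm.sign σ : ℤ) : R) * ((Equiv.Perm.sign σ : ℤ) : R) = 1 := by
          rw [← Int.cast_mul]
          rcases Int.units_eq_one_or (Equiv.Perm.sign σ) with h | h <;> rw [h] <;> simp
        linear_combination ((∏ i, P i (J i)) * (Q.submatrix J id).det) * e4
    _ = (k.factorial : R) * (P * Q).det := by
        rw [Finset.sum_const, Finset.card_univ, Fintype.card_perm, Fintype.card_fin,
          ← det_mul_rect, nsmul_eq_mul]

end CB

variable {ι : Type*} [Fintype ι]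

/-- minors of an integral matrix -/
def minr {k : ℕ} (Z : Matrix ι (Fin k) ℤ) (I : Fin k → ι) : ℤ := (Z.submatrix I id).det

theorem im_submatrix {κ l₁ l₂ : Type*} (Z : Matrix ι κ ℤ) (f : l₁ → ι) (g : l₂ → κ) :
    im (Z.submatrix f g) = (im Z).submatrix f g := rfl

theorem det_im_fin {k : ℕ} (Z : Matrix (Fin k) (Fin k) ℤ) : (im Z).det = (Z.det : ℝ) :=
  det_im Z



/-- the function of the minors giving the determinant of the Gram matrix -/
noncomputable def plF (A : Matrix ι ι ℝ) (k : ℕ) (p : (Fin k → ι) → ℤ) : ℝ :=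
  (k.factorial : ℝ)⁻¹ * ∑ I : Fin k → ι,
    ((k.factorial : ℝ)⁻¹ * ∑ J : Fin k → ι, (A.submatrix I J).det * (p J : ℝ)) ^ 2

theorem det_submatrix_mul {k : ℕ} (A : Matrix ι ι ℝ) (Y : Matrix ι (Fin k) ℝ) (I : Fin k → ι) :
    ((A * Y).submatrix I id).det =
      (k.factorial : ℝ)⁻¹ * ∑ J : Fin k → ι, (A.submatrix I J).det * (Y.submatrix J id).det := by
  have h := factorial_mul_det (A.submatrix I id) Y
  have h1 : (A * Y).submatrix I id = A.submatrix I id * Y := by
    ext i j; simp [Matrix.mul_apply]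
  rw [h1, eq_comm, inv_mul_eq_iff_eq_mul₀ (by positivity), h]
  rfl

theorem det_gram_eq {k : ℕ} (W : Matrix ι (Fin k) ℝ) :
    (Wᵀ * W).det = (k.factorial : ℝ)⁻¹ * ∑ I : Fin k → ι, (W.submatrix I id).det ^ 2 := by
  have h := factorial_mul_det Wᵀ W
  rw [eq_comm, inv_mul_eq_iff_eq_mul₀ (by positivity), h]
  apply Finset.sum_congr rfl
  intro I _
  have : Wᵀ.submatrix id I = (W.submatrix I id)ᵀ := rfl
  rw [this, det_transpose, sq]

theorem det_eq_plF {G A : Matrix ι ι ℝ} (hA : G = Aᵀ * A) {k : ℕ} (Z : Matrix ι (Fin k) ℤ) :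
    ((im Z)ᵀ * G * im Z).det = plF A k (minr Z) := by
  have h1 : (im Z)ᵀ * G * im Z = (A * im Z)ᵀ * (A * im Z) := by
    rw [hA, transpose_mul]
    simp only [Matrix.mul_assoc]
  rw [h1, det_gram_eq, plF]
  congr 1
  apply Finset.sum_congr rfl
  intro I _
  rw [det_submatrix_mul]
  congr 3
  funext J
  rw [← im_submatrix, det_im_fin]
  rfl

/-- minors are bounded by the determinant -/
theorem minr_le [DecidableEq ι] {G A : Matrix ι ι ℝ} (hA : G = Aᵀ * A) (hdet : A.det ≠ 0) {k : ℕ}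
    (Z : Matrix ι (Fin k) ℤ) (J : Fin k → ι) :
    |(minr Z J : ℝ)| ≤ ((k.factorial : ℝ)⁻¹ * ∑ I : Fin k → ι, |(A⁻¹.submatrix J I).det|) *
      Real.sqrt ((k.factorial : ℝ) * ((im Z)ᵀ * G * im Z).det) := by
  have h1 : (im Z)ᵀ * G * im Z = (A * im Z)ᵀ * (A * im Z) := by
    rw [hA, transpose_mul]
    simp only [Matrix.mul_assoc]
  have h2 : A⁻¹ * (A * im Z) = im Z := by
    rw [← Matrix.mul_assoc, nonsing_inv_mul _ (Ne.isUnit hdet), Matrix.one_mul]
  have h3 : (minr Z J : ℝ) = (k.factorial : ℝ)⁻¹ *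
      ∑ I : Fin k → ι, (A⁻¹.submatrix J I).det * ((A * im Z).submatrix I id).det := by
    rw [← det_submatrix_mul, h2, ← im_submatrix, det_im_fin]
    rfl
  have h4 : ∀ I : Fin k → ι, |((A * im Z).submatrix I id).det| ≤
      Real.sqrt ((k.factorial : ℝ) * ((im Z)ᵀ * G * im Z).det) := by
    intro I
    rw [h1, det_gram_eq, ← mul_assoc, mul_inv_cancel₀ (by positivity), one_mul]
    apply Real.abs_le_sqrt
    exact Finset.single_le_sum (f := fun I : Fin k → ι => ((A * im Z).submatrix I id).det ^ 2)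
      (fun I _ => sq_nonneg _) (Finset.mem_univ I)
  rw [h3, abs_mul, abs_of_pos (show (0 : ℝ) < (k.factorial : ℝ)⁻¹ by positivity), mul_assoc]
  apply mul_le_mul_of_nonneg_left _ (by positivity)
  rw [Finset.sum_mul]
  refine (Finset.abs_sum_le_sum_abs _ _).trans (Finset.sum_le_sum fun I _ => ?_)
  rw [abs_mul]
  exact mul_le_mul_of_nonneg_left (h4 I) (abs_nonneg _)

/-- **discreteness of the determinants of sublattices** -/
theorem det_values_finite [DecidableEq ι] {G : Matrix ι ι ℝ} (hG : G.PosDef) (k : ℕ) (C : ℝ) :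
    {d : ℝ | d ≤ C ∧ ∃ Z : Matrix ι (Fin k) ℤ, d = ((im Z)ᵀ * G * im Z).det}.Finite := by
  classical
  obtain ⟨A, hA, hdet⟩ := exists_factor hG
  -- bound for the minors
  obtain ⟨b, hb⟩ : ∃ b : ℕ, ∀ J : Fin k → ι,
      ((k.factorial : ℝ)⁻¹ * ∑ I : Fin k → ι, |(A⁻¹.submatrix J I).det|) *
        Real.sqrt ((k.factorial : ℝ) * C) ≤ b := by
    obtain ⟨b, hb⟩ := exists_nat_ge (∑ J : Fin k → ι,
      ((k.factorial : ℝ)⁻¹ * ∑ I : Fin k → ι, |(A⁻¹.submatrix J I).det|) *
        Real.sqrt ((k.factorial : ℝ) * C))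
    refine ⟨b, fun J => le_trans ?_ hb⟩
    exact Finset.single_le_sum (f := fun J : Fin k → ι =>
      ((k.factorial : ℝ)⁻¹ * ∑ I : Fin k → ι, |(A⁻¹.submatrix J I).det|) *
        Real.sqrt ((k.factorial : ℝ) * C)) (fun J _ => by positivity) (Finset.mem_univ J)
  have hfin : {p : (Fin k → ι) → ℤ | ∀ J, -(b : ℤ) ≤ p J ∧ p J ≤ b}.Finite := by
    have := Set.Finite.pi' (ι := Fin k → ι) (t := fun _ => {a : ℤ | -(b : ℤ) ≤ a ∧ a ≤ b})
      (fun _ => Set.finite_Icc (-(b : ℤ)) b)
    exact this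
  refine (hfin.image (plF A k)).subset ?_
  rintro d ⟨hd, Z, rfl⟩
  refine ⟨minr Z, ?_, (det_eq_plF hA Z).symm⟩
  intro J
  have h1 := minr_le hA hdet Z J
  have h2 : |(minr Z J : ℝ)| ≤ b := by
    refine h1.trans (le_trans ?_ (hb J))
    gcongr
  rw [abs_le] at h2
  constructor
  · exact_mod_cast h2.1
  · exact_mod_cast h2.2

/-- the rank of a sublattice is at most the rank of the lattice -/
theorem det_eq_zero_of_lt {G : Matrix ι ι ℝ} {k : ℕ} (hk : Fintype.card ι < k)
    (Z : Matrix ι (Fin k) ℤ) : ((im Z)ᵀ * G * im Z).det = 0 := by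
  rw [Matrix.mul_assoc, det_mul_rect]
  have h0 : ∀ I : Fin k → ι, ((G * im Z).submatrix I id).det = 0 := by
    intro I
    obtain ⟨i, j, hij, h⟩ := Fintype.exists_ne_map_eq_of_card_lt I (by simpa using hk)
    apply det_zero_of_row_eq hij
    funext l
    simp only [submatrix_apply]
    rw [h]
  simp [h0]

/-- all nonzero sublattices have slope at least `c` -/
def SubC (c : ℝ) (G : Matrix ι ι ℝ) : Prop :=
  ∀ (k : ℕ) (Z : Matrix ι (Fin k) ℤ), ((im Z)ᵀ * G * im Z).det ≠ 0 →
    Real.exp (c * k) ≤ ((im Z)ᵀ * G * im Z).det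

theorem SubC.subDet {c : ℝ} (hc : 0 ≤ c) {G : Matrix ι ι ℝ} (h : SubC c G) : SubDet G := by
  intro k Z hZ
  refine le_trans ?_ (h k Z hZ)
  rw [← Real.exp_zero]
  apply Real.exp_le_exp.2
  positivity

theorem SubDet.subC {G : Matrix ι ι ℝ} (h : SubDet G) : SubC 0 G := by
  intro k Z hZ
  rw [zero_mul, Real.exp_zero]
  exact h k Z hZ

/-- **existence of a sublattice of minimal slope** -/
theorem exists_min_slope [DecidableEq ι] [Nonempty ι] {G : Matrix ι ι ℝ} (hG : G.PosDef)
    (hsub : SubDet G) :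
    ∃ (c : ℝ) (k : ℕ) (Z : Matrix ι (Fin k) ℤ), 0 ≤ c ∧ 1 ≤ k ∧ SubC c G ∧
      ((im Z)ᵀ * G * im Z).det = Real.exp (c * k) := by
  classical
  set m := Fintype.card ι with hm
  have hm1 : 1 ≤ m := Fintype.card_pos
  -- the whole lattice
  let e : Fin m ≃ ι := (Fintype.equivFin ι).symm
  have hfull : ∃ Z : Matrix ι (Fin m) ℤ, ((im Z)ᵀ * G * im Z).det ≠ 0 := by
    refine ⟨(1 : Matrix ι ι ℤ).submatrix id e, ?_⟩
    have h1 : (im ((1 : Matrix ι ι ℤ).submatrix id e))ᵀ * G * im ((1 : Matrix ι ι ℤ).submatrix id e)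
        = G.submatrix e e := by
      rw [im_submatrix, im_one, transpose_submatrix, transpose_one, Matrix.mul_assoc]
      ext i j
      simp [Matrix.mul_apply, Matrix.one_apply]
    rw [h1, det_submatrix_equiv_self]
    exact hG.det_pos.ne'
  obtain ⟨Z0, hZ0⟩ := hfull
  have hZ0' := hsub m Z0 hZ0
  set C := Real.log ((im Z0)ᵀ * G * im Z0).det / m with hC
  have hC0 : 0 ≤ C := by
    rw [hC]
    exact div_nonneg (Real.log_nonneg hZ0') (by positivity)
  -- finite set of candidates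
  let S : Set (ℕ × ℝ) := {q | 1 ≤ q.1 ∧ q.1 ≤ m ∧ q.2 ≠ 0 ∧ q.2 ≤ Real.exp (C * m) ∧
    ∃ Z : Matrix ι (Fin q.1) ℤ, q.2 = ((im Z)ᵀ * G * im Z).det}
  have hSfin : S.Finite := by
    have h1 : S ⊆ ⋃ k ∈ Finset.Icc 1 m, (fun d => (k, d)) ''
        {d : ℝ | d ≤ Real.exp (C * m) ∧ ∃ Z : Matrix ι (Fin k) ℤ,
          d = ((im Z)ᵀ * G * im Z).det} := by
      rintro ⟨k, d⟩ ⟨h1, h2, h3, h4, h5⟩
      simp only [Set.mem_iUnion]
      exact ⟨k, Finset.mem_Icc.2 ⟨h1, h2⟩, d, ⟨h4, h5⟩, rfl⟩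
    refine Set.Finite.subset ?_ h1
    refine Set.Finite.biUnion (Finset.finite_toSet _) fun k _ => ?_
    exact (det_values_finite hG k _).image _
  have hSne : S.Nonempty := by
    refine ⟨(m, ((im Z0)ᵀ * G * im Z0).det), hm1, le_rfl, hZ0, ?_, Z0, rfl⟩
    rw [hC, div_mul_cancel₀ _ (by positivity), Real.exp_log (by linarith)]
  obtain ⟨⟨k, d⟩, hkd, hmin⟩ := Set.exists_min_image S (fun q => Real.log q.2 / q.1) hSfin hSne
  obtain ⟨hk1, hkm, hd0, hdC, Z, hZ⟩ := hkd
  simp only at hk1 hkm hd0 hdC Z hZ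
  have hd1 : 1 ≤ d := by
    rw [hZ]
    exact hsub k Z (by rw [← hZ]; exact hd0)
  have hkpos : (0 : ℝ) < k := by exact_mod_cast hk1
  refine ⟨Real.log d / k, k, Z, div_nonneg (Real.log_nonneg hd1) hkpos.le, hk1, ?_, ?_⟩
  · intro j Y hY
    rcases Nat.eq_zero_or_pos j with hj | hj
    · subst hj
      simp
    have hjm : j ≤ m := by
      by_contra h
      exact hY (det_eq_zero_of_lt (by omega) Y)
    have hY1 := hsub j Y hY
    have hjpos : (0 : ℝ) < j := by exact_mod_cast hj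
    have hlog : Real.log d / k ≤ Real.log ((im Y)ᵀ * G * im Y).det / j := by
      by_cases hle : ((im Y)ᵀ * G * im Y).det ≤ Real.exp (C * m)
      · exact hmin (j, ((im Y)ᵀ * G * im Y).det) ⟨hj, hjm, hY, hle, Y, rfl⟩
      · push Not at hle
        have h1 := hmin (m, ((im Z0)ᵀ * G * im Z0).det) ⟨hm1, le_rfl, hZ0, by
          rw [hC, div_mul_cancel₀ _ (by positivity), Real.exp_log (by linarith)], Z0, rfl⟩
        simp only at h1
        rw [← hC] at h1
        refine h1.trans ?_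
        rw [le_div_iff₀ hjpos]
        have h2 : C * m ≤ Real.log ((im Y)ᵀ * G * im Y).det := by
          rw [← Real.log_exp (C * m)]
          exact Real.log_le_log (Real.exp_pos _) hle.le
        refine le_trans ?_ h2
        have : (j : ℝ) ≤ m := by exact_mod_cast hjm
        nlinarith
    rw [← Real.le_log_iff_exp_le (by linarith)]
    rw [le_div_iff₀ hjpos] at hlog
    exact hlog
  · rw [← hZ, div_mul_cancel₀ _ hkpos.ne', Real.exp_log (by linarith)]

end Crest.Agent.R152.WRM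
end

-- ▼ part R152/WRM2c
section

set_option autoImplicit false

/-!
# Row 152, WRM-2: splitting a lattice along a sublattice of minimal slope
-/

namespace Crest.Agent.R152.WRM

open Matrix Module

section subC

variable {ι κ : Type*} [Fintype ι] [Fintype κ]

theorem subC_conj {c : ℝ} {G : Matrix ι ι ℝ} (hG : SubC c G) (U : Matrix ι κ ℤ) :
    SubC c ((im U)ᵀ * G * im U) := by
  intro k Z hZ
  have e : (im Z)ᵀ * ((im U)ᵀ * G * im U) * im Z = (im (U * Z))ᵀ * G * im (U * Z) := by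
    rw [im_mul, transpose_mul]
    simp only [Matrix.mul_assoc]
  rw [e] at hZ ⊢
  exact hG k (U * Z) hZ

theorem subC_reindex (e : κ ≃ ι) {c : ℝ} {G : Matrix ι ι ℝ} (hG : SubC c G) :
    SubC c (G.submatrix e e) := by
  intro k Z hZ
  have h1 : (im Z)ᵀ * G.submatrix e e * im Z =
      (im (Z.submatrix e.symm id))ᵀ * G * im (Z.submatrix e.symm id) := by
    have h2 : im Z = (im (Z.submatrix e.symm id)).submatrix e id := by
      ext i j; simp [im]
    conv_lhs => rw [h2]
    rw [transpose_submatrix, submatrix_mul_equiv, submatrix_mul_equiv]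
    rfl
  rw [h1] at hZ ⊢
  exact hG k _ hZ

variable {k l : ℕ} {A : Matrix (Fin k) (Fin k) ℝ} {B : Matrix (Fin k) (Fin l) ℝ}
  {D : Matrix (Fin l) (Fin l) ℝ}

theorem subC_fst {c : ℝ} (h : SubC c (blk A B D)) : SubC c A := by
  have h1 := subC_conj h (fromRows (1 : Matrix (Fin k) (Fin k) ℤ) (0 : Matrix (Fin l) (Fin k) ℤ))
  have h2 : (im (fromRows (1 : Matrix (Fin k) (Fin k) ℤ) (0 : Matrix (Fin l) (Fin k) ℤ)))ᵀ *
      blk A B D * im (fromRows (1 : Matrix (Fin k) (Fin k) ℤ) (0 : Matrix (Fin l) (Fin k) ℤ))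
      = A := by
    have h3 : im (fromRows (1 : Matrix (Fin k) (Fin k) ℤ) (0 : Matrix (Fin l) (Fin k) ℤ)) =
        fromRows (1 : Matrix (Fin k) (Fin k) ℝ) (0 : Matrix (Fin l) (Fin k) ℝ) := by
      ext i j
      rcases i with i | i
      · simp [im, Matrix.one_apply]
      · simp [im]
    rw [h3, blk, transpose_fromRows, fromCols_mul_fromBlocks, fromCols_mul_fromRows]
    simp
  rwa [h2] at h1

/-- Gram matrix of the sublattice generated by the first block and a lift of `W` -/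
theorem gram_lift {j : ℕ} (W : Matrix (Fin l) (Fin j) ℤ) :
    (im (fromBlocks (1 : Matrix (Fin k) (Fin k) ℤ) 0 0 W))ᵀ * blk A B D *
      im (fromBlocks (1 : Matrix (Fin k) (Fin k) ℤ) 0 0 W) =
    blk A (B * im W) ((im W)ᵀ * D * im W) := by
  have h3 : im (fromBlocks (1 : Matrix (Fin k) (Fin k) ℤ) 0 0 W) =
      fromBlocks (1 : Matrix (Fin k) (Fin k) ℝ) 0 0 (im W) := by
    ext i j
    rcases i with i | i <;> rcases j with j | j
    · simp [im, Matrix.one_apply]
    · simp [im]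
    · simp [im]
    · simp [im]
  rw [h3, blk, blk, fromBlocks_transpose, fromBlocks_multiply, fromBlocks_multiply]
  simp [transpose_mul, Matrix.mul_assoc]

theorem schur_lift {j : ℕ} (W : Matrix (Fin l) (Fin j) ℤ) :
    schur A (B * im W) ((im W)ᵀ * D * im W) = (im W)ᵀ * schur A B D * im W := by
  unfold schur
  rw [transpose_mul]
  simp only [Matrix.mul_sub, Matrix.sub_mul, Matrix.mul_assoc]

theorem subC_schur {c : ℝ} (hp : (blk A B D).PosDef) (h : SubC c (blk A B D))
    (hA : A.det = Real.exp (c * k)) : SubC c (schur A B D) := by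
  intro j W hW
  have hApos := posDef_of_blk hp
  set Z : Matrix (Fin k ⊕ Fin l) (Fin (k + j)) ℤ :=
    (fromBlocks (1 : Matrix (Fin k) (Fin k) ℤ) 0 0 W).submatrix id finSumFinEquiv.symm with hZ
  have h1 : ((im Z)ᵀ * blk A B D * im Z).det = A.det * ((im W)ᵀ * schur A B D * im W).det := by
    have h2 : (im Z)ᵀ * blk A B D * im Z =
        (blk A (B * im W) ((im W)ᵀ * D * im W)).submatrix finSumFinEquiv.symm
          finSumFinEquiv.symm := by
      rw [← gram_lift W, hZ, im_submatrix]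
      ext a b
      simp [Matrix.mul_apply]
    rw [h2, det_submatrix_equiv_self, det_blk hApos, schur_lift]
  have h3 := h (k + j) Z (by rw [h1]; exact mul_ne_zero hApos.det_pos.ne' hW)
  rw [h1, hA] at h3
  push_cast at h3
  rw [mul_add, Real.exp_add] at h3
  exact le_of_mul_le_mul_left h3 (Real.exp_pos _)

end subC

theorem eq_blk {k l : ℕ} {M : Matrix (Fin k ⊕ Fin l) (Fin k ⊕ Fin l) ℝ} (hM : M.PosDef) :
    M = blk M.toBlocks₁₁ M.toBlocks₁₂ M.toBlocks₂₂ := by
  have h1 : Mᵀ = M := by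
    have := hM.1
    rwa [IsHermitian, conjTranspose_eq_transpose_of_trivial] at this
  ext i j
  rcases i with i | i <;> rcases j with j | j
  · rfl
  · rfl
  · change M (Sum.inr i) (Sum.inl j) = M (Sum.inl j) (Sum.inr i)
    exact (congrFun (congrFun h1 (Sum.inl j)) (Sum.inr i))
  · rfl

theorem linearIndependent_cols {n k : ℕ} {G : Matrix (Fin n) (Fin n) ℝ}
    (Z : Matrix (Fin n) (Fin k) ℤ) (hZ : ((im Z)ᵀ * G * im Z).det ≠ 0) :
    LinearIndependent ℤ (fun (j : Fin k) (i : Fin n) => Z i j) := by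
  rw [Fintype.linearIndependent_iff]
  intro g hg
  have h1 : Z *ᵥ g = 0 := by
    funext i
    have := congrFun hg i
    simp only [Finset.sum_apply, Pi.smul_apply, smul_eq_mul, Pi.zero_apply] at this
    rw [mulVec, dotProduct, Pi.zero_apply, ← this]
    exact Finset.sum_congr rfl fun j _ => mul_comm _ _
  have h2 : ((im Z)ᵀ * G * im Z) *ᵥ iv g = 0 := by
    rw [← mulVec_mulVec, im_mulVec_iv, h1, iv_zero, mulVec_zero]
  have h3 := eq_zero_of_mulVec_eq_zero hZ h2
  intro i
  have := congrFun h3 i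
  simpa [iv] using this

/-- **splitting along a sublattice of minimal slope** -/
theorem split_of {n k : ℕ} {G : Matrix (Fin n) (Fin n) ℝ} (hG : G.PosDef) {c : ℝ}
    (hsub : SubC c G) (Z : Matrix (Fin n) (Fin k) ℤ)
    (hZ : ((im Z)ᵀ * G * im Z).det = Real.exp (c * k)) :
    ∃ (l : ℕ) (e : Fin k ⊕ Fin l ≃ Fin n) (U V : Matrix (Fin n) (Fin n) ℤ)
      (A : Matrix (Fin k) (Fin k) ℝ) (B : Matrix (Fin k) (Fin l) ℝ)
      (D : Matrix (Fin l) (Fin l) ℝ), k + l = n ∧ U * V = 1 ∧
      ((im U)ᵀ * G * im U).submatrix e e = blk A B D ∧ A.det = Real.exp (c * k) := by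
  classical
  have hZ0 : ((im Z)ᵀ * G * im Z).det ≠ 0 := by rw [hZ]; exact (Real.exp_pos _).ne'
  have hli := linearIndependent_cols Z hZ0
  set v : Fin k → (Fin n → ℤ) := fun j i => Z i j with hv
  set N : Submodule ℤ (Fin n → ℤ) := Submodule.span ℤ (Set.range v) with hN
  obtain ⟨r, snf⟩ := Submodule.smithNormalForm (Pi.basisFun ℤ (Fin n)) N
  have hr : r = k := by
    have h1 := Module.finrank_eq_card_basis snf.bN
    have h2 := Module.finrank_eq_card_basis (Basis.span hli)
    rw [h1] at h2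
    simpa using h2
  subst hr
  -- the base change
  set U : Matrix (Fin n) (Fin n) ℤ := (Pi.basisFun ℤ (Fin n)).toMatrix snf.bM with hU
  set V : Matrix (Fin n) (Fin n) ℤ := snf.bM.toMatrix (Pi.basisFun ℤ (Fin n)) with hV
  have hUV : U * V = 1 := Basis.toMatrix_mul_toMatrix_flip _ _
  have hUapp : ∀ i j, U i j = snf.bM j i := by
    intro i j
    rw [hU, Basis.toMatrix_apply, Pi.basisFun_repr]
  -- complement of the range of `f`
  let l := Fintype.card {i : Fin n // i ∉ Set.range snf.f}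
  let e : Fin r ⊕ Fin l ≃ Fin n :=
    (Equiv.sumCongr (Equiv.ofInjective snf.f snf.f.injective)
      (Fintype.equivFin {i : Fin n // i ∉ Set.range snf.f}).symm).trans
      (Equiv.Set.sumCompl (Set.range snf.f))
  have he : ∀ j, e (Sum.inl j) = snf.f j := fun j => rfl
  set M := ((im U)ᵀ * G * im U).submatrix e e with hM
  have hMpos : M.PosDef := posDef_reindex e (posDef_conj hG U V hUV)
  have hMsub : SubC c M := subC_reindex e (subC_conj hsub U)
  refine ⟨l, e, U, V, M.toBlocks₁₁, M.toBlocks₁₂, M.toBlocks₂₂, ?_, hUV, eq_blk hMpos, ?_⟩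
  · have := Fintype.card_congr e
    simpa using this
  · -- the sublattice spanned by the `bM (f j)`
    set Z' : Matrix (Fin n) (Fin r) ℤ := U.submatrix id snf.f with hZ'
    have hA : M.toBlocks₁₁ = (im Z')ᵀ * G * im Z' := by
      ext i j
      simp [M, toBlocks₁₁, he, hZ', im_submatrix, Matrix.mul_apply]
    -- `Z = Z' * T`
    have hvmem : ∀ j, v j ∈ N := fun j => Submodule.subset_span ⟨j, rfl⟩
    set T : Matrix (Fin r) (Fin r) ℤ := fun i j => snf.bN.repr ⟨v j, hvmem j⟩ i * snf.a i with hT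
    have hZT : Z = Z' * T := by
      ext i' j
      have h1 := snf.bN.sum_repr ⟨v j, hvmem j⟩
      have h2 := congrArg (fun w : N => (w : Fin n → ℤ) i') h1
      simp only [AddSubmonoidClass.coe_finsetSum, Submodule.coe_smul, Finset.sum_apply,
        Pi.smul_apply, smul_eq_mul] at h2
      rw [Matrix.mul_apply]
      change v j i' = _
      rw [← h2]
      apply Finset.sum_congr rfl
      intro i _
      rw [snf.snf i, hT, hZ', submatrix_apply, hUapp]
      simp only [Pi.smul_apply, smul_eq_mul, id]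
      ring
    have hdet : ((im Z)ᵀ * G * im Z).det = (T.det : ℝ) ^ 2 * M.toBlocks₁₁.det := by
      have h1 : (im Z)ᵀ * G * im Z = (im T)ᵀ * M.toBlocks₁₁ * im T := by
        rw [hA, hZT, im_mul, transpose_mul]
        simp only [Matrix.mul_assoc]
      rw [h1, det_mul, det_mul, det_transpose, det_im]
      ring
    have hT0 : T.det ≠ 0 := by
      intro h0
      rw [h0] at hdet
      simp at hdet
      exact hZ0 hdet
    have hT1 : (1 : ℝ) ≤ (T.det : ℝ) ^ 2 := by
      have h2 : (1 : ℤ) ≤ T.det ^ 2 := by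
        have := sq_nonneg T.det
        have h3 : T.det ^ 2 ≠ 0 := pow_ne_zero 2 hT0
        omega
      exact_mod_cast h2
    have hA0 : M.toBlocks₁₁.det ≠ 0 := by
      intro h0
      rw [h0, mul_zero] at hdet
      exact hZ0 hdet
    have hge : Real.exp (c * r) ≤ M.toBlocks₁₁.det := by
      rw [hA] at hA0 ⊢
      exact hsub r Z' hA0
    have hle : M.toBlocks₁₁.det ≤ Real.exp (c * r) := by
      rw [← hZ, hdet]
      nlinarith [Real.exp_pos (c * r)]
    exact le_antisymm hle hge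

end Crest.Agent.R152.WRM
end

-- ▼ part R152/WRM2d
section

set_option autoImplicit false

/-!
# Row 152, WRM-2: the inductions (2) and (4)(i), and the counting corollary
-/

namespace Crest.Agent.R152.WRM

open Matrix

theorem rho_fin_zero (s : ℝ) (G : Matrix (Fin 0) (Fin 0) ℝ) : rho s G = 1 := by
  unfold rho
  rw [tsum_eq_single (0 : Fin 0 → ℤ) (fun z hz => absurd (Subsingleton.elim z 0) hz)]
  have h : qf G (iv (0 : Fin 0 → ℤ)) = 0 := by rw [iv_zero, qf_zero]
  rw [h, mul_zero, Real.exp_zero]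

theorem fV_fin_zero {s : ℝ} {G : Matrix (Fin 0) (Fin 0) ℝ} (hG : G.PosDef) : fV s G = 1 := by
  rw [fV_eq hG.posSemidef]
  have h2 : Iv (Real.pi / s ^ 2) G = 1 := by
    unfold Iv
    have h3 : ∀ x : Fin 0 → ℝ, dE (Real.pi / s ^ 2) G x = 1 := by
      intro x
      unfold dE gE
      have h4 : ∀ z : Fin 0 → ℤ, qf G (x - iv z) = 0 := by
        intro z; simp [qf]
      simp only [h4, mul_zero, Real.exp_zero, ENNReal.ofReal_one, ciSup_const]
    simp_rw [h3]
    rw [MeasureTheory.lintegral_one, MeasureTheory.Measure.restrict_apply_univ, volume_cube]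
  rw [h2]
  simp

/-- scaling to determinant one -/
theorem stable_smul {k : ℕ} {A : Matrix (Fin k) (Fin k) ℝ} (hA : A.PosDef) {c : ℝ}
    (hsub : SubC c A) (hdet : A.det = Real.exp (c * k)) : Stable (Real.exp (-c) • A) where
  posDef := hA.smul (Real.exp_pos _)
  det_eq := by
    rw [det_smul, Fintype.card_fin, hdet, ← Real.exp_nat_mul, ← Real.exp_add]
    have : (k : ℝ) * -c + c * k = 0 := by ring
    rw [this, Real.exp_zero]
  sub := by
    intro j Z hZ
    have h1 : (im Z)ᵀ * (Real.exp (-c) • A) * im Z = Real.exp (-c) • ((im Z)ᵀ * A * im Z) := by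
      rw [Matrix.mul_smul, Matrix.smul_mul]
    rw [h1, det_smul, Fintype.card_fin] at hZ ⊢
    have h2 := hsub j Z (right_ne_zero_of_mul hZ)
    calc (1 : ℝ) = Real.exp (-c) ^ j * Real.exp (c * j) := by
          rw [← Real.exp_nat_mul, ← Real.exp_add]
          have : (j : ℝ) * -c + c * j = 0 := by ring
          rw [this, Real.exp_zero]
      _ ≤ Real.exp (-c) ^ j * ((im Z)ᵀ * A * im Z).det := by gcongr

theorem rho_le_smul {ι : Type*} [Fintype ι] [DecidableEq ι] {s : ℝ} (hs : 0 < s)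
    {A : Matrix ι ι ℝ} (hA : A.PosDef) {a : ℝ} (ha : 0 < a) (ha1 : a ≤ 1) :
    rho s A ≤ rho s (a • A) := by
  unfold rho
  refine (summable_rho hs hA).tsum_le_tsum (fun z => ?_) (summable_rho hs (hA.smul ha))
  apply Real.exp_le_exp.2
  rw [qf_smul_mat]
  have h1 := qf_nonneg hA.posSemidef (iv z)
  have h2 : 0 ≤ Real.pi / s ^ 2 := by positivity
  have h3 : a * qf A (iv z) ≤ qf A (iv z) := by nlinarith
  nlinarith

/-- **(2)**: from stable lattices to all lattices with all sublattice determinants `≥ 1`. -/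
theorem rho_le_of_stable {s : ℝ} (hs : 0 < s) {C : ℝ} (n : ℕ)
    (hstab : ∀ k, 1 ≤ k → k ≤ n → ∀ A : Matrix (Fin k) (Fin k) ℝ, Stable A → rho s A ≤ C ^ k) :
    ∀ m ≤ n, ∀ G : Matrix (Fin m) (Fin m) ℝ, G.PosDef → SubDet G → rho s G ≤ C ^ m := by
  intro m
  induction m using Nat.strong_induction_on with
  | _ m ih =>
    intro hm G hG hsub
    rcases Nat.eq_zero_or_pos m with h0 | hpos
    · subst h0
      rw [rho_fin_zero, pow_zero]
    have : Nonempty (Fin m) := ⟨⟨0, hpos⟩⟩
    obtain ⟨c, k, Z, hc, hk, hsubc, hZ⟩ := exists_min_slope hG hsub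
    obtain ⟨l, e, U, V, A, B, D, hkl, hUV, hblk, hA⟩ := split_of hG hsubc Z hZ
    have hVU : V * U = 1 := mul_eq_one_comm.1 hUV
    have hbp : (blk A B D).PosDef := by
      rw [← hblk]; exact posDef_reindex e (posDef_conj hG U V hUV)
    have hbs : SubC c (blk A B D) := by
      rw [← hblk]; exact subC_reindex e (subC_conj hsubc U)
    have hr : rho s G = rho s (blk A B D) := by
      rw [← hblk, rho_reindex, rho_conj s G U V hUV hVU]
    have hApos := posDef_of_blk hbp
    have hst := stable_smul hApos (subC_fst hbs) hA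
    have h1 : rho s A ≤ C ^ k := by
      refine (rho_le_smul hs hApos (Real.exp_pos (-c)) ?_).trans (hstab k hk (by omega) _ hst)
      rw [← Real.exp_zero]
      exact Real.exp_le_exp.2 (by linarith)
    have h2 : rho s (schur A B D) ≤ C ^ l :=
      ih l (by omega) (by omega) _ (schur_posDef hbp)
        ((subC_schur hbp hbs hA).subDet hc)
    rw [hr]
    calc rho s (blk A B D) ≤ rho s A * rho s (schur A B D) := rho_blk_le hs hbp
      _ ≤ C ^ k * C ^ l := by
          have a1 := rho_pos hs hApos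
          have a2 := rho_pos hs (schur_posDef hbp)
          gcongr
          exact a1.le.trans h1
      _ = C ^ m := by rw [← pow_add, hkl]

/-- **(4)(i)**: induction on the rank for the lower bound of `fV` on stable lattices. -/
theorem fV_ge_of_min {s : ℝ} (hs : 0 < s) {q : ℝ} (hq0 : 0 < q) (hq1 : q ≤ 1) (n : ℕ)
    (hmin : ∀ k, 1 ≤ k → k ≤ n → ∃ G0 : Matrix (Fin k) (Fin k) ℝ, Stable G0 ∧
      (∀ G : Matrix (Fin k) (Fin k) ℝ, Stable G → fV s G0 ≤ fV s G) ∧
      ((∃ j, 0 < j ∧ j < k ∧ ∃ Z : Matrix (Fin k) (Fin j) ℤ, ((im Z)ᵀ * G0 * im Z).det = 1) ∨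
        q ≤ fV s G0)) :
    ∀ k ≤ n, ∀ G : Matrix (Fin k) (Fin k) ℝ, Stable G → q ^ k ≤ fV s G := by
  intro k
  induction k using Nat.strong_induction_on with
  | _ k ih =>
    intro hk G hG
    rcases Nat.eq_zero_or_pos k with h0 | hpos
    · subst h0
      rw [fV_fin_zero hG.posDef, pow_zero]
    obtain ⟨G0, hst, hle, h⟩ := hmin k hpos hk
    refine le_trans ?_ (hle G hG)
    rcases h with ⟨j, hj0, hjk, Z, hZ⟩ | h
    · have hsubc : SubC 0 G0 := hst.sub.subC
      have hZ' : ((im Z)ᵀ * G0 * im Z).det = Real.exp (0 * j) := by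
        rw [hZ, zero_mul, Real.exp_zero]
      obtain ⟨l, e, U, V, A, B, D, hjl, hUV, hblk, hA⟩ := split_of hst.posDef hsubc Z hZ'
      have hbp : (blk A B D).PosDef := by
        rw [← hblk]; exact posDef_reindex e (posDef_conj hst.posDef U V hUV)
      have hbs : SubC 0 (blk A B D) := by
        rw [← hblk]; exact subC_reindex e (subC_conj hsubc U)
      have hr : fV s G0 = fV s (blk A B D) := by
        rw [← hblk, fV_reindex e s (posDef_conj hst.posDef U V hUV),
          fV_conj s hst.posDef U V hUV]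
      have hApos := posDef_of_blk hbp
      have hA1 : A.det = 1 := by rw [hA, zero_mul, Real.exp_zero]
      have hAst : Stable A := ⟨hApos, hA1, (subC_fst hbs).subDet le_rfl⟩
      have hSst : Stable (schur A B D) := by
        refine ⟨schur_posDef hbp, ?_, (subC_schur hbp hbs hA).subDet le_rfl⟩
        have h1 := det_blk (B := B) (D := D) hApos
        have h2 : (blk A B D).det = 1 := by
          rw [← hblk, det_submatrix_equiv_self, det_conj G0 U V hUV, hst.det_eq]
        rw [h2, hA1, one_mul] at h1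
        exact h1.symm
      have h1 := ih j hjk (by omega) A hAst
      have h2 := ih l (by omega) (by omega) _ hSst
      rw [hr]
      calc q ^ k = q ^ j * q ^ l := by rw [← pow_add, hjl]
        _ ≤ fV s A * fV s (schur A B D) := by
            have a1 : 0 < q ^ j := pow_pos hq0 j
            have a2 : 0 < q ^ l := pow_pos hq0 l
            exact mul_le_mul h1 h2 a2.le (a1.le.trans h1)
        _ ≤ fV s (blk A B D) := fV_blk_ge hs hbp
    · refine le_trans ?_ h
      calc q ^ k ≤ q ^ 1 := pow_le_pow_of_le_one hq0.le hq1 hpos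
        _ = q := pow_one q

/-- combination of (1a), (2), (4)(i) -/
theorem rho_le_of_min {s : ℝ} (hs : 0 < s) {q : ℝ} (hq0 : 0 < q) (hq1 : q ≤ 1) (n : ℕ)
    (hmin : ∀ k, 1 ≤ k → k ≤ n → ∃ G0 : Matrix (Fin k) (Fin k) ℝ, Stable G0 ∧
      (∀ G : Matrix (Fin k) (Fin k) ℝ, Stable G → fV s G0 ≤ fV s G) ∧
      ((∃ j, 0 < j ∧ j < k ∧ ∃ Z : Matrix (Fin k) (Fin j) ℤ, ((im Z)ᵀ * G0 * im Z).det = 1) ∨
        q ≤ fV s G0)) :
    ∀ m ≤ n, ∀ G : Matrix (Fin m) (Fin m) ℝ, G.PosDef → SubDet G → rho s G ≤ (q⁻¹) ^ m := by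
  apply rho_le_of_stable hs n
  intro k _ hk A hA
  have h1 := fV_ge_of_min hs hq0 hq1 n hmin k hk A hA
  have h2 := rho_mul_fV_le hs hA.posDef
  have h3 := rho_pos hs hA.posDef
  rw [inv_pow, ← one_div, le_div_iff₀ (pow_pos hq0 k)]
  nlinarith

/-- counting lattice points -/
theorem count_le {ι : Type*} [Fintype ι] [DecidableEq ι] {s : ℝ} (hs : 0 < s)
    {G : Matrix ι ι ℝ} (hG : G.PosDef) {X : ℝ} (hX : rho s G ≤ X) (r : ℝ) :
    {z : ι → ℤ | qf G (iv z) ≤ r}.Finite ∧
      ({z : ι → ℤ | qf G (iv z) ≤ r}.ncard : ℝ) ≤ X * Real.exp (Real.pi / s ^ 2 * r) := by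
  have hc : 0 ≤ Real.pi / s ^ 2 := by positivity
  have key : ∀ F : Finset (ι → ℤ), (∀ z ∈ F, qf G (iv z) ≤ r) →
      (F.card : ℝ) ≤ X * Real.exp (Real.pi / s ^ 2 * r) := by
    intro F hF
    have h1 : (F.card : ℝ) * Real.exp (-(Real.pi / s ^ 2) * r) ≤ rho s G := by
      calc (F.card : ℝ) * Real.exp (-(Real.pi / s ^ 2) * r)
          = ∑ z ∈ F, Real.exp (-(Real.pi / s ^ 2) * r) := by simp
        _ ≤ ∑ z ∈ F, Real.exp (-(Real.pi / s ^ 2) * qf G (iv z)) := by
            apply Finset.sum_le_sum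
            intro z hz
            apply Real.exp_le_exp.2
            have := hF z hz
            nlinarith
        _ ≤ rho s G := (summable_rho hs hG).sum_le_tsum F (fun z _ => (Real.exp_pos _).le)
    have h2 : (F.card : ℝ) = ((F.card : ℝ) * Real.exp (-(Real.pi / s ^ 2) * r)) *
        Real.exp (Real.pi / s ^ 2 * r) := by
      rw [mul_assoc, ← Real.exp_add]
      have : -(Real.pi / s ^ 2) * r + Real.pi / s ^ 2 * r = 0 := by ring
      rw [this, Real.exp_zero, mul_one]
    rw [h2]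
    have h3 := Real.exp_pos (Real.pi / s ^ 2 * r)
    nlinarith
  have hfin : {z : ι → ℤ | qf G (iv z) ≤ r}.Finite := by
    by_contra hinf
    obtain ⟨N, hN⟩ := exists_nat_gt (X * Real.exp (Real.pi / s ^ 2 * r))
    obtain ⟨F, hF, hcard⟩ := Set.Infinite.exists_subset_card_eq hinf N
    have := key F (fun z hz => hF hz)
    rw [hcard] at this
    linarith
  refine ⟨hfin, ?_⟩
  rw [Set.ncard_eq_toFinset_card _ hfin]
  exact key _ (fun z hz => by simpa using hz)

end Crest.Agent.R152.WRM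
end

-- ▼ part R152/WRM3e
section

/-!
# Row 152, WRM-3e: minimisers on the set of stable lattices, openness
-/

namespace Crest.Agent.R152.WRM3

open Matrix Module Filter Topology
open Crest.Agent.R152.WRM

set_option autoImplicit false

lemma continuous_gr {α β : Type*} [Fintype α] (Z : Matrix α β ℤ) :
    Continuous (fun G : Matrix α α ℝ => gr G Z) := by
  unfold gr
  fun_prop

lemma continuous_det_gr {α β : Type*} [Fintype α] [Fintype β] [DecidableEq β]
    (Z : Matrix α β ℤ) : Continuous (fun G : Matrix α α ℝ => (gr G Z).det) :=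
  (continuous_gr Z).matrix_det

/-- integral vector as a one-column matrix -/
lemma det_col {α : Type*} [Fintype α] (G : Matrix α α ℝ) (z : α → ℤ) :
    (gr G (Matrix.of fun a (_ : Fin 1) => z a)).det = qf G (iv z) := by
  rw [Matrix.det_fin_one, gr_apply, qf_eq_sum]; simp [iv]

lemma iv_ne_zero {α : Type*} {z : α → ℤ} (hz : z ≠ 0) : iv z ≠ 0 := by
  intro h
  apply hz
  ext i
  have := congrFun h i
  simpa [iv] using this

lemma Stable.one_le {α : Type*} [Fintype α] [DecidableEq α] {G : Matrix α α ℝ} (hG : Stable G)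
    {z : α → ℤ} (hz : z ≠ 0) : 1 ≤ qf G (iv z) := by
  have h := hG.sub 1 (Matrix.of fun a (_ : Fin 1) => z a)
  have h1 : ((im (Matrix.of fun a (_ : Fin 1) => z a))ᵀ * G *
    im (Matrix.of fun a (_ : Fin 1) => z a)).det = qf G (iv z) := det_col G z
  rw [h1] at h
  exact h (PosDef.qf_pos hG.posDef (iv_ne_zero hz)).ne'

lemma stable_gr {m : ℕ} {G : Matrix (Fin m) (Fin m) ℝ} (hG : Stable G)
    {U : Matrix (Fin m) (Fin m) ℤ} (hU : IsUnit U.det) : Stable (gr G U) :=
  ⟨gr_posDef_unit hG.posDef hU, by rw [det_gr_unit G hU, hG.det_eq],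
    DetGe.gr (c := 1) hG.sub U⟩

/-- every stable lattice has a bounded basis -/
theorem stable_red (m : ℕ) : ∃ C1 : ℝ, ∀ G : Matrix (Fin m) (Fin m) ℝ, Stable G →
    ∃ U : Matrix (Fin m) (Fin m) ℤ, IsUnit U.det ∧ ∀ i, gr G U i i ≤ C1 := by
  obtain ⟨C1, h⟩ := red m 1 1 one_pos
  exact ⟨C1, fun G hG => h G hG.posDef (fun z hz => Stable.one_le hG hz) hG.det_eq.le⟩

lemma abs_entry_le {α : Type*} [Fintype α] [DecidableEq α] {G : Matrix α α ℝ}
    (hs : ∀ i j, G i j = G j i) (hq : ∀ x : α → ℝ, 0 ≤ qf G x) {C : ℝ} (hC : ∀ i, G i i ≤ C)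
    (i j : α) : |G i j| ≤ C := by
  have key : ∀ (i j : α) (e : ℝ), qf G (Pi.single i 1 + e • Pi.single j 1)
      = G i i + e * (G i j + G j i) + e ^ 2 * G j j := by
    intro i j e
    unfold qf
    rw [Matrix.mulVec_add, Matrix.mulVec_smul, add_dotProduct, dotProduct_add, dotProduct_add,
      smul_dotProduct, smul_dotProduct, dotProduct_smul, dotProduct_smul]
    simp only [Matrix.mulVec_single_one, single_one_dotProduct, Matrix.col_apply, smul_eq_mul]
    ring
  have h1 := hq (Pi.single i 1 + (1:ℝ) • Pi.single j 1)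
  have h2 := hq (Pi.single i 1 + (-1:ℝ) • Pi.single j 1)
  rw [key] at h1 h2
  have h3 := hC i
  have h4 := hC j
  rw [hs j i] at h1 h2
  rw [abs_le]; constructor <;> nlinarith

lemma stable_one (m : ℕ) : Stable (1 : Matrix (Fin m) (Fin m) ℝ) := by
  refine ⟨Matrix.PosDef.one, Matrix.det_one, ?_⟩
  intro k Z hZ
  have h1 : (im Z)ᵀ * (1 : Matrix (Fin m) (Fin m) ℝ) * im Z = im (Zᵀ * Z) := by
    rw [im_mul, im_transpose, Matrix.mul_one]
  rw [h1, im_det] at hZ ⊢
  have h2 : (0:ℝ) ≤ ((Zᵀ * Z).det : ℝ) := by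
    rw [← im_det, im_mul, im_transpose]
    have := (Matrix.posSemidef_conjTranspose_mul_self (im Z)).det_nonneg
    rwa [Matrix.conjTranspose_eq_transpose_of_trivial] at this
  have h3 : (0:ℤ) ≤ (Zᵀ * Z).det := by exact_mod_cast h2
  have h4 : (Zᵀ * Z).det ≠ 0 := by exact_mod_cast hZ
  have h5 : 1 ≤ (Zᵀ * Z).det := by omega
  exact_mod_cast h5

/-- **existence of minimisers** on the set of stable lattices -/
theorem exists_min_stable (m : ℕ) (F : Matrix (Fin m) (Fin m) ℝ → ℝ)
    (hF : ContinuousOn F {G | G.PosDef})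
    (hinv : ∀ (G : Matrix (Fin m) (Fin m) ℝ) (U : Matrix (Fin m) (Fin m) ℤ), G.PosDef →
      IsUnit U.det → F ((im U)ᵀ * G * im U) = F G) :
    ∃ G0 : Matrix (Fin m) (Fin m) ℝ, Stable G0 ∧
      ∀ G : Matrix (Fin m) (Fin m) ℝ, Stable G → F G0 ≤ F G := by
  obtain ⟨C, hC⟩ := stable_red m
  set K : Set (Matrix (Fin m) (Fin m) ℝ) := {G | (∀ i j, G i j = G j i) ∧ (∀ x, 0 ≤ qf G x) ∧
    G.det = 1 ∧ (∀ (k : ℕ) (Z : Matrix (Fin m) (Fin k) ℤ), (gr G Z).det = 0 ∨
      1 ≤ (gr G Z).det) ∧ ∀ i, G i i ≤ C} with hK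
  have hKs : ∀ G ∈ K, Stable G := by
    rintro G ⟨h1, h2, h3, h4, -⟩
    have hps : G.PosSemidef := by
      refine Matrix.PosSemidef.of_dotProduct_mulVec_nonneg ?_ ?_
      · ext i j; simp [Matrix.conjTranspose_apply, h1 j i]
      · intro x; simpa [qf] using h2 x
    refine ⟨hps.posDef_iff_det_ne_zero.mpr (by rw [h3]; norm_num), h3, ?_⟩
    intro k Z hZ
    rcases h4 k Z with h | h
    · exact absurd h hZ
    · exact h
  have hclosed : IsClosed K := by
    have e1 : IsClosed {G : Matrix (Fin m) (Fin m) ℝ | ∀ i j, G i j = G j i} := by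
      simp only [Set.ofPred_forall]
      refine isClosed_iInter fun i => isClosed_iInter fun j => ?_
      exact isClosed_eq (by fun_prop) (by fun_prop)
    have e2 : IsClosed {G : Matrix (Fin m) (Fin m) ℝ | ∀ x, 0 ≤ qf G x} := by
      simp only [Set.ofPred_forall]
      refine isClosed_iInter fun x => isClosed_le continuous_const ?_
      unfold qf; fun_prop
    have e3 : IsClosed {G : Matrix (Fin m) (Fin m) ℝ | G.det = 1} :=
      isClosed_eq (by fun_prop) continuous_const
    have e4 : IsClosed {G : Matrix (Fin m) (Fin m) ℝ | ∀ (k : ℕ) (Z : Matrix (Fin m) (Fin k) ℤ),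
        (gr G Z).det = 0 ∨ 1 ≤ (gr G Z).det} := by
      simp only [Set.ofPred_forall]
      refine isClosed_iInter fun k => isClosed_iInter fun Z => ?_
      exact (isClosed_eq (continuous_det_gr Z) continuous_const).union
        (isClosed_le continuous_const (continuous_det_gr Z))
    have e5 : IsClosed {G : Matrix (Fin m) (Fin m) ℝ | ∀ i, G i i ≤ C} := by
      simp only [Set.ofPred_forall]
      exact isClosed_iInter fun i => isClosed_le (by fun_prop) continuous_const
    exact e1.inter (e2.inter (e3.inter (e4.inter e5)))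
  have hcomp : IsCompact K := by
    have hbox : IsCompact (Set.univ.pi fun _ : Fin m => Set.univ.pi fun _ : Fin m =>
        Set.Icc (-C) C) := isCompact_univ_pi fun _ => isCompact_univ_pi fun _ => isCompact_Icc
    refine IsCompact.of_isClosed_subset hbox hclosed ?_
    rintro G ⟨h1, h2, -, -, h5⟩ i _ j _
    exact abs_le.mp (abs_entry_le h1 h2 h5 i j)
  have hmem : ∀ G : Matrix (Fin m) (Fin m) ℝ, Stable G → ∃ G' ∈ K, F G' = F G := by
    intro G hG
    obtain ⟨U, hU, hb⟩ := hC G hG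
    refine ⟨gr G U, ?_, hinv G U hG.posDef hU⟩
    have hS := stable_gr hG hU
    refine ⟨posDef_symm hS.posDef, ?_, hS.det_eq, ?_, hb⟩
    · intro x
      by_cases hx : x = 0
      · simp [hx, qf]
      · exact (PosDef.qf_pos hS.posDef hx).le
    · intro k Z
      by_cases h : (gr (gr G U) Z).det = 0
      · exact Or.inl h
      · exact Or.inr (hS.sub k Z h)
  obtain ⟨G1, hG1, -⟩ := hmem 1 (stable_one m)
  obtain ⟨G0, hG0, hmin⟩ := hcomp.exists_isMinOn ⟨G1, hG1⟩
    (hF.mono fun G hG => (hKs G hG).posDef)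
  refine ⟨G0, hKs G0 hG0, fun G hG => ?_⟩
  obtain ⟨G', hG', h⟩ := hmem G hG
  rw [← h]
  exact hmin hG'

end Crest.Agent.R152.WRM3
end

-- ▼ part R152/WRM3f
section

/-!
# Row 152, WRM-3f: openness of stability
-/

namespace Crest.Agent.R152.WRM3

open Matrix Module Filter Topology
open Crest.Agent.R152.WRM

set_option autoImplicit false

lemma inj_of_det_ne {α β : Type*} [Fintype α] [Fintype β] [DecidableEq β] {G : Matrix α α ℝ}
    {Z : Matrix α β ℤ} (h : (gr G Z).det ≠ 0) : Function.Injective (im Z).mulVec := by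
  have h1 : Function.Injective (gr G Z).mulVec :=
    Matrix.mulVec_injective_iff_isUnit.mpr ((Matrix.isUnit_iff_isUnit_det _).mpr
      (isUnit_iff_ne_zero.mpr h))
  intro x y hxy
  apply h1
  have hxy' : im Z *ᵥ x = im Z *ᵥ y := hxy
  unfold gr
  rw [← Matrix.mulVec_mulVec, hxy', Matrix.mulVec_mulVec]

lemma card_le_of_inj {m k : ℕ} {Z : Matrix (Fin m) (Fin k) ℤ}
    (h : Function.Injective (im Z).mulVec) : k ≤ m := by
  have := LinearMap.finrank_le_finrank_of_injective (f := (im Z).mulVecLin) (by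
    intro x y hxy; exact h hxy)
  simpa using this

lemma one_le_norm_iv {α : Type*} [Fintype α] {z : α → ℤ} (hz : z ≠ 0) : 1 ≤ ‖iv z‖ := by
  obtain ⟨i, hi⟩ := Function.ne_iff.mp hz
  have h1 := norm_le_pi_norm (iv z) i
  have h2 : (1:ℝ) ≤ ‖iv z i‖ := by
    simp only [iv, Real.norm_eq_abs]
    have : 1 ≤ |z i| := Int.one_le_abs hi
    exact_mod_cast this
  exact h2.trans h1

lemma abs_qf_sub_le {m : ℕ} {G G' : Matrix (Fin m) (Fin m) ℝ} {δ : ℝ}
    (h : ∀ i j, |G' i j - G i j| ≤ δ) (x : Fin m → ℝ) :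
    |qf G' x - qf G x| ≤ (m : ℝ) ^ 2 * δ * ‖x‖ ^ 2 := by
  rw [qf_eq_sum, qf_eq_sum, ← Finset.sum_sub_distrib]
  calc |∑ i, ((∑ j, x i * G' i j * x j) - ∑ j, x i * G i j * x j)|
      ≤ ∑ i, |(∑ j, x i * G' i j * x j) - ∑ j, x i * G i j * x j| :=
        Finset.abs_sum_le_sum_abs _ _
    _ ≤ ∑ i : Fin m, ∑ j : Fin m, δ * ‖x‖ ^ 2 := by
        refine Finset.sum_le_sum fun i _ => ?_
        rw [← Finset.sum_sub_distrib]
        refine (Finset.abs_sum_le_sum_abs _ _).trans (Finset.sum_le_sum fun j _ => ?_)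
        have e : x i * G' i j * x j - x i * G i j * x j = x i * (G' i j - G i j) * x j := by ring
        rw [e, abs_mul, abs_mul]
        have h1 : |x i| ≤ ‖x‖ := norm_le_pi_norm x i
        have h2 : |x j| ≤ ‖x‖ := norm_le_pi_norm x j
        have h0 : 0 ≤ δ := (abs_nonneg _).trans (h i j)
        calc |x i| * |G' i j - G i j| * |x j| ≤ ‖x‖ * δ * ‖x‖ := by
              gcongr
              exact h i j
          _ = δ * ‖x‖ ^ 2 := by ring
    _ = (m : ℝ) ^ 2 * δ * ‖x‖ ^ 2 := by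
        simp; ring

lemma uniform_lower {m : ℕ} {G : Matrix (Fin m) (Fin m) ℝ} (hG : G.PosDef) :
    ∃ c : ℝ, 0 < c ∧ ∀ᶠ G' in 𝓝 G, ∀ x : Fin m → ℝ, c * ‖x‖ ^ 2 ≤ qf G' x := by
  obtain ⟨c0, hc0, h⟩ := exists_qf_lower hG
  set δ : ℝ := c0 / (2 * ((m:ℝ) ^ 2 + 1)) with hδ
  have hδp : 0 < δ := by positivity
  have hm : (m:ℝ) ^ 2 * δ ≤ c0 / 2 := by
    rw [hδ, mul_div_assoc', div_le_div_iff₀ (by positivity) (by norm_num)]
    nlinarith [sq_nonneg (m:ℝ)]
  refine ⟨c0 / 2, by positivity, ?_⟩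
  have hev : ∀ᶠ G' in 𝓝 G, ∀ i j, |G' i j - G i j| < δ := by
    rw [eventually_all]; intro i
    rw [eventually_all]; intro j
    have hcont : Continuous fun G' : Matrix (Fin m) (Fin m) ℝ => |G' i j - G i j| := by
      fun_prop
    have : (fun G' : Matrix (Fin m) (Fin m) ℝ => |G' i j - G i j|) G < δ := by simpa using hδp
    exact hcont.continuousAt.eventually_lt continuousAt_const this
  filter_upwards [hev] with G' hG' x
  have h1 := abs_qf_sub_le (fun i j => (hG' i j).le) x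
  have h2 := h x
  have h3 := (abs_le.mp h1).1
  have h4 : (m:ℝ) ^ 2 * δ * ‖x‖ ^ 2 ≤ c0 / 2 * ‖x‖ ^ 2 := by gcongr
  linarith

lemma finite_bounded_mat {m k : ℕ} (K : ℝ) :
    {Z : Matrix (Fin m) (Fin k) ℤ | ∀ i j, (Z i j : ℝ) ^ 2 ≤ K}.Finite := by
  set N : ℤ := ⌈K⌉ with hN
  refine Set.Finite.subset (Set.Finite.pi' (t := fun _ : Fin m =>
    {f : Fin k → ℤ | ∀ j, f j ∈ Set.Icc (-N) N}) (fun _ => Set.Finite.pi' fun _ =>
      Set.finite_Icc _ _)) ?_
  intro Z hZ i j
  have h1 : (Z i j : ℝ) ^ 2 ≤ N := (hZ i j).trans (Int.le_ceil _)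
  have h2 : (Z i j) ^ 2 ≤ N := by exact_mod_cast h1
  have h4 : |Z i j| ≤ N := by
    rcases eq_or_ne (Z i j) 0 with h0 | h0
    · rw [h0] at h2 ⊢; simpa using h2
    · have : 1 ≤ |Z i j| := Int.one_le_abs h0
      nlinarith [sq_abs (Z i j)]
  exact abs_le.mp h4

/-- **openness of stability** in the absence of proper sublattices of determinant one -/
theorem eventually_stable {m : ℕ} {G : Matrix (Fin m) (Fin m) ℝ} (hG : Stable G)
    (hno : ∀ (k : ℕ) (Z : Matrix (Fin m) (Fin k) ℤ), 0 < k → k < m → (gr G Z).det ≠ 1) :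
    ∀ᶠ G' in 𝓝 G, G'.PosDef → G'.det = 1 → Stable G' := by
  obtain ⟨c, hc, hlow⟩ := uniform_lower hG.posDef
  choose C1 hC1 using fun k : ℕ => red k c 1 hc
  have hfin : ∀ k : Fin m, ∀ᶠ G' in 𝓝 G, ∀ Z : Matrix (Fin m) (Fin k) ℤ,
      (∀ i j, (Z i j : ℝ) ^ 2 ≤ C1 k / c) → 1 < (gr G Z).det → 1 < (gr G' Z).det := by
    intro k
    have hf := finite_bounded_mat (m := m) (k := k) (C1 k / c)
    have h1 : ∀ Z ∈ {Z : Matrix (Fin m) (Fin k) ℤ | ∀ i j, (Z i j : ℝ) ^ 2 ≤ C1 k / c},
        ∀ᶠ G' in 𝓝 G, 1 < (gr G Z).det → 1 < (gr G' Z).det := by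
      intro Z _
      by_cases hd : 1 < (gr G Z).det
      · have := (continuous_det_gr (α := Fin m) Z).continuousAt (x := G)
        filter_upwards [continuousAt_const.eventually_lt this hd] with G' hG' _ using hG'
      · exact Eventually.of_forall fun G' h => absurd h hd
    have h2 := (Filter.eventually_all_finite hf).mpr h1
    filter_upwards [h2] with G' hG' Z hZ hd using hG' Z hZ hd
  have hall := Filter.eventually_all.mpr hfin
  filter_upwards [hlow, hall] with G' hlow' hG' hpos hdet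
  refine ⟨hpos, hdet, ?_⟩
  intro k Z hZ
  change (gr G' Z).det ≠ 0 at hZ
  change 1 ≤ (gr G' Z).det
  have hinj := inj_of_det_ne hZ
  have hkm := card_le_of_inj hinj
  rcases Nat.eq_zero_or_pos k with rfl | hk
  · simp
  rcases hkm.eq_or_lt with rfl | hlt
  · rw [det_gr, hdet, mul_one] at hZ ⊢
    have h1 : Z.det ≠ 0 := by
      intro h; simp [h] at hZ
    have h2 : 1 ≤ Z.det ^ 2 := by
      have := Int.one_le_abs h1
      nlinarith [sq_abs Z.det]
    exact_mod_cast h2
  by_contra hlt1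
  push Not at hlt1
  have hpd : (gr G' Z).PosDef := gr_posDef hpos hinj
  obtain ⟨U, hU, hb⟩ := hC1 k (gr G' Z) hpd (by
    intro w hw
    rw [qf_gr, im_mulVec_iv]
    have hne : Z *ᵥ w ≠ 0 := by
      intro h
      have h1 : im Z *ᵥ iv w = im Z *ᵥ 0 := by
        rw [im_mulVec_iv, h, Matrix.mulVec_zero]; ext i; simp [iv]
      exact iv_ne_zero hw (hinj h1)
    have h1 := one_le_norm_iv hne
    calc c = c * 1 ^ 2 := by ring
      _ ≤ c * ‖iv (Z *ᵥ w)‖ ^ 2 := by gcongr
      _ ≤ _ := hlow' _) hlt1.le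
  have hb' : ∀ i j, (((Z * U) i j : ℤ) : ℝ) ^ 2 ≤ C1 k / c := by
    intro i j
    have h1 := hb j
    rw [← gr_mul] at h1
    have key : gr G' (Z * U) j j = qf G' (iv (fun a => (Z * U) a j)) := by
      rw [gr_apply, qf_eq_sum]; simp only [iv]
    rw [key] at h1
    have h2 := norm_iv_sq_le hc hlow' h1 i
    rwa [sq_abs] at h2
  have hd' : (gr G' (Z * U)).det = (gr G' Z).det := by
    rw [gr_mul, det_gr_unit _ hU]
  have hinj' : Function.Injective (im (Z * U)).mulVec :=
    inj_of_det_ne (G := G') (by rw [hd']; exact hZ)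
  have hGpos : 0 < (gr G (Z * U)).det := (gr_posDef hG.posDef hinj').det_pos
  have h1 : 1 ≤ (gr G (Z * U)).det := hG.sub k (Z * U) hGpos.ne'
  have h2 : 1 < (gr G (Z * U)).det := lt_of_le_of_ne h1 (Ne.symm (hno k (Z * U) hk hlt))
  have h3 := hG' ⟨k, hlt⟩ (Z * U) hb' h2
  rw [hd'] at h3
  linarith

end Crest.Agent.R152.WRM3
end

-- ▼ part R152/WRM4b
section

/-!
Row 152, weak reverse Minkowski, module WRM-4 (b): Voronoi cell in Gram matrix form.
-/

set_option linter.unusedSectionVars false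
set_option linter.deprecated false
set_option autoImplicit false

open MeasureTheory Metric Matrix Filter Topology

namespace Crest.Agent.R152.WRM4

open Crest.Agent.R152.WRM

variable {ι : Type*} [Fintype ι]

/-- Voronoi cell of the Gram matrix `G` -/
def VG (G : Matrix ι ι ℝ) : Set (ι → ℝ) := {x | ∀ z : ι → ℤ, qf G x ≤ qf G (x - iv z)}

/-- entrywise ℓ¹ norm -/
noncomputable def S1 (M : Matrix ι ι ℝ) : ℝ := ∑ i, ∑ j, |M i j|

theorem S1_nonneg (M : Matrix ι ι ℝ) : 0 ≤ S1 M :=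
  Finset.sum_nonneg fun _ _ => Finset.sum_nonneg fun _ _ => abs_nonneg _

theorem qf_eq_sum (G : Matrix ι ι ℝ) (x : ι → ℝ) : qf G x = ∑ i, ∑ j, x i * G i j * x j := by
  simp only [qf, dotProduct, mulVec, Finset.mul_sum, mul_assoc]

theorem continuous_qf (G : Matrix ι ι ℝ) : Continuous (qf G) := by
  have : qf G = fun x => ∑ i, ∑ j, x i * G i j * x j := funext (qf_eq_sum G)
  rw [this]
  fun_prop


theorem qf_sub_left (G G' : Matrix ι ι ℝ) (x : ι → ℝ) : qf (G - G') x = qf G x - qf G' x := by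
  simp [qf, sub_mulVec, dotProduct_sub]




theorem qf_zero (G : Matrix ι ι ℝ) : qf G 0 = 0 := by simp [qf]

theorem qf_smul (G : Matrix ι ι ℝ) (a : ℝ) (x : ι → ℝ) : qf G (a • x) = a ^ 2 * qf G x := by
  simp only [qf, mulVec_smul, dotProduct_smul, smul_dotProduct, smul_eq_mul]; ring

theorem abs_qf_le (M : Matrix ι ι ℝ) (x : ι → ℝ) : |qf M x| ≤ S1 M * ‖x‖ ^ 2 := by
  rw [qf_eq_sum, S1, Finset.sum_mul]
  refine (Finset.abs_sum_le_sum_abs _ _).trans (Finset.sum_le_sum fun i _ => ?_)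
  rw [Finset.sum_mul]
  refine (Finset.abs_sum_le_sum_abs _ _).trans (Finset.sum_le_sum fun j _ => ?_)
  rw [abs_mul, abs_mul]
  have hi : |x i| ≤ ‖x‖ := norm_le_pi_norm x i
  have hj : |x j| ≤ ‖x‖ := norm_le_pi_norm x j
  calc |x i| * |M i j| * |x j| ≤ ‖x‖ * |M i j| * ‖x‖ := by gcongr
    _ = |M i j| * ‖x‖ ^ 2 := by ring

theorem qf_pos {G : Matrix ι ι ℝ} (hG : G.PosDef) {x : ι → ℝ} (hx : x ≠ 0) : 0 < qf G x := by
  have := hG.dotProduct_mulVec_pos hx
  simpa [qf] using this

theorem qf_nonneg {G : Matrix ι ι ℝ} (hG : G.PosDef) (x : ι → ℝ) : 0 ≤ qf G x := by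
  by_cases hx : x = 0
  · rw [hx, qf_zero]
  · exact (qf_pos hG hx).le

theorem exists_lower {G : Matrix ι ι ℝ} (hG : G.PosDef) :
    ∃ κ : ℝ, 0 < κ ∧ ∀ x : ι → ℝ, κ * ‖x‖ ^ 2 ≤ qf G x := by
  by_cases hne : (sphere (0 : ι → ℝ) 1).Nonempty
  · obtain ⟨x0, hx0, hmin⟩ := (isCompact_sphere (0 : ι → ℝ) 1).exists_isMinOn hne
      (continuous_qf G).continuousOn
    have hx0' : x0 ≠ 0 := by
      rintro rfl; simp at hx0
    refine ⟨qf G x0, qf_pos hG hx0', fun x => ?_⟩
    by_cases hx : x = 0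
    · simp [hx, qf_zero]
    · have hxn : 0 < ‖x‖ := norm_pos_iff.2 hx
      have hmem : (‖x‖⁻¹ • x) ∈ sphere (0 : ι → ℝ) 1 := by
        simp [norm_smul, hxn.ne']
      have h1 : qf G x0 ≤ qf G (‖x‖⁻¹ • x) := hmin hmem
      rw [qf_smul] at h1
      have h2 : qf G x0 * ‖x‖ ^ 2 ≤ (‖x‖⁻¹ ^ 2 * qf G x) * ‖x‖ ^ 2 :=
        mul_le_mul_of_nonneg_right h1 (by positivity)
      calc qf G x0 * ‖x‖ ^ 2 ≤ (‖x‖⁻¹ ^ 2 * qf G x) * ‖x‖ ^ 2 := h2
        _ = qf G x := by field_simp
  · refine ⟨1, one_pos, fun x => ?_⟩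
    have hx : x = 0 := by
      by_contra hx
      apply hne
      have hxn : 0 < ‖x‖ := norm_pos_iff.2 hx
      exact ⟨‖x‖⁻¹ • x, by simp [norm_smul, hxn.ne']⟩
    simp [hx, qf_zero]

/-- cross terms -/
theorem qf_sub {G : Matrix ι ι ℝ} (hG : G.IsSymm) (x y : ι → ℝ) :
    qf G (x - y) = qf G x - 2 * (x ⬝ᵥ (G *ᵥ y)) + qf G y := by
  have h : y ⬝ᵥ (G *ᵥ x) = x ⬝ᵥ (G *ᵥ y) := by
    rw [dotProduct_mulVec, ← mulVec_transpose, hG.eq, dotProduct_comm]
  simp only [qf, mulVec_sub, dotProduct_sub, sub_dotProduct, h]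
  ring

theorem isSymm_of_posDef {G : Matrix ι ι ℝ} (hG : G.PosDef) : G.IsSymm := by
  have := hG.isHermitian
  rw [IsHermitian, conjTranspose_eq_transpose_of_trivial] at this
  exact this

theorem iv_zero : iv (0 : ι → ℤ) = 0 := by ext i; simp [iv]
theorem iv_neg (z : ι → ℤ) : iv (-z) = -iv z := by ext i; simp [iv]
theorem iv_add (z w : ι → ℤ) : iv (z + w) = iv z + iv w := by ext i; simp [iv]
theorem iv_sub (z w : ι → ℤ) : iv (z - w) = iv z - iv w := by ext i; simp [iv]

theorem iv_injective : Function.Injective (iv : (ι → ℤ) → (ι → ℝ)) := by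
  intro z w h
  ext i
  have := congrFun h i
  simpa [iv] using this

theorem norm_iv (z : ι → ℤ) : ‖iv z‖ = ‖z‖ := by
  simp only [Pi.norm_def, iv]
  congr 1

theorem finite_norm_iv_le (R : ℝ) : {z : ι → ℤ | ‖iv z‖ ≤ R}.Finite := by
  have : {z : ι → ℤ | ‖iv z‖ ≤ R} = closedBall (0 : ι → ℤ) R := by
    ext z; simp [norm_iv]
  rw [this]
  exact (isCompact_closedBall (0 : ι → ℤ) R).finite_of_discrete

theorem isClosed_VG (G : Matrix ι ι ℝ) : IsClosed (VG G) := by
  have : VG G = ⋂ z : ι → ℤ, {x | qf G x ≤ qf G (x - iv z)} := by ext; simp [VG]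
  rw [this]
  exact isClosed_iInter fun z => isClosed_le (continuous_qf G)
    ((continuous_qf G).comp (continuous_id.sub continuous_const))

theorem measurableSet_VG (G : Matrix ι ι ℝ) : MeasurableSet (VG G) := (isClosed_VG G).measurableSet



/-- coordinatewise rounding -/
theorem exists_round (x : ι → ℝ) : ∃ z : ι → ℤ, ‖x - iv z‖ ≤ 1 := by
  refine ⟨fun i => ⌊x i⌋, ?_⟩
  rw [pi_norm_le_iff_of_nonneg zero_le_one]
  intro i
  simp only [Pi.sub_apply, iv, Real.norm_eq_abs]
  rw [abs_le]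
  constructor
  · linarith [Int.floor_le (x i)]
  · linarith [Int.lt_floor_add_one (x i)]

theorem norm_le_of_mem_VG {G : Matrix ι ι ℝ} {κ : ℝ} (hκ : 0 < κ)
    (hlow : ∀ x : ι → ℝ, κ * ‖x‖ ^ 2 ≤ qf G x) {x : ι → ℝ} (hx : x ∈ VG G) :
    ‖x‖ ^ 2 ≤ S1 G / κ := by
  obtain ⟨z, hz⟩ := exists_round x
  rw [le_div_iff₀ hκ]
  calc ‖x‖ ^ 2 * κ = κ * ‖x‖ ^ 2 := by ring
    _ ≤ qf G x := hlow x
    _ ≤ qf G (x - iv z) := hx z
    _ ≤ |qf G (x - iv z)| := le_abs_self _
    _ ≤ S1 G * ‖x - iv z‖ ^ 2 := abs_qf_le _ _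
    _ ≤ S1 G * 1 ^ 2 := by
        have := S1_nonneg G
        gcongr
    _ = S1 G := by ring

theorem isBounded_VG {G : Matrix ι ι ℝ} (hG : G.PosDef) : Bornology.IsBounded (VG G) := by
  obtain ⟨κ, hκ, hlow⟩ := exists_lower hG
  refine isBounded_iff_forall_norm_le.2 ⟨Real.sqrt (S1 G / κ), fun x hx => ?_⟩
  exact Real.le_sqrt_of_sq_le (norm_le_of_mem_VG hκ hlow hx)

theorem isCompact_VG {G : Matrix ι ι ℝ} (hG : G.PosDef) : IsCompact (VG G) :=
  isCompact_of_isClosed_isBounded (isClosed_VG G) (isBounded_VG hG)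

/-- attained minimum -/
theorem exists_min {G : Matrix ι ι ℝ} (hG : G.PosDef) (x : ι → ℝ) :
    ∃ z : ι → ℤ, ∀ w : ι → ℤ, qf G (x - iv z) ≤ qf G (x - iv w) := by
  classical
  obtain ⟨κ, hκ, hlow⟩ := exists_lower hG
  -- candidates
  let R : ℝ := Real.sqrt (qf G x / κ) + ‖x‖
  have hfin : {z : ι → ℤ | ‖iv z‖ ≤ R}.Finite := finite_norm_iv_le R
  have h0 : (0 : ι → ℤ) ∈ hfin.toFinset := by
    simp only [Set.Finite.mem_toFinset, Set.mem_setOf_eq, iv_zero, norm_zero]
    positivity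
  obtain ⟨z, hz, hmin⟩ := hfin.toFinset.exists_min_image (fun z => qf G (x - iv z)) ⟨0, h0⟩
  refine ⟨z, fun w => ?_⟩
  by_cases hw : ‖iv w‖ ≤ R
  · exact hmin w (by simpa using hw)
  · push Not at hw
    have h1 : qf G (x - iv z) ≤ qf G x := by
      have := hmin 0 h0
      simpa [iv_zero] using this
    have h2 : Real.sqrt (qf G x / κ) < ‖x - iv w‖ := by
      have : ‖iv w‖ ≤ ‖x - iv w‖ + ‖x‖ := by
        calc ‖iv w‖ = ‖x - (x - iv w)‖ := by congr 1; abel
          _ ≤ ‖x‖ + ‖x - iv w‖ := norm_sub_le _ _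
          _ = _ := add_comm _ _
      linarith
    have h3 : qf G x / κ ≤ ‖x - iv w‖ ^ 2 := by
      have := Real.sqrt_nonneg (qf G x / κ)
      calc qf G x / κ = (Real.sqrt (qf G x / κ)) ^ 2 :=
            (Real.sq_sqrt (div_nonneg (qf_nonneg hG x) hκ.le)).symm
        _ ≤ ‖x - iv w‖ ^ 2 := by gcongr
    rw [div_le_iff₀ hκ] at h3
    calc qf G (x - iv z) ≤ qf G x := h1
      _ ≤ ‖x - iv w‖ ^ 2 * κ := h3
      _ = κ * ‖x - iv w‖ ^ 2 := by ring
      _ ≤ qf G (x - iv w) := hlow _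

theorem bddBelow_range {G : Matrix ι ι ℝ} (hG : G.PosDef) (x : ι → ℝ) :
    BddBelow (Set.range fun z : ι → ℤ => qf G (x - iv z)) :=
  ⟨0, by rintro _ ⟨z, rfl⟩; exact qf_nonneg hG _⟩

theorem dsq_le {G : Matrix ι ι ℝ} (hG : G.PosDef) (x : ι → ℝ) (z : ι → ℤ) :
    dsq G x ≤ qf G (x - iv z) := ciInf_le (bddBelow_range hG x) z


theorem dsq_le_qf {G : Matrix ι ι ℝ} (hG : G.PosDef) (x : ι → ℝ) : dsq G x ≤ qf G x := by
  have := dsq_le hG x 0
  simpa [iv_zero] using this

theorem dsq_eq_of_mem_VG {G : Matrix ι ι ℝ} (hG : G.PosDef) {x : ι → ℝ} (hx : x ∈ VG G) :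
    dsq G x = qf G x :=
  le_antisymm (dsq_le_qf hG x) (le_ciInf hx)

theorem dsq_add_iv (G : Matrix ι ι ℝ) (x : ι → ℝ) (w : ι → ℤ) :
    dsq G (x + iv w) = dsq G x := by
  unfold dsq
  refine Equiv.iInf_congr (Equiv.subRight w) fun z => ?_
  congr 1
  rw [Equiv.subRight_apply, iv_sub]; abel

theorem exists_sub_mem_VG {G : Matrix ι ι ℝ} (hG : G.PosDef) (x : ι → ℝ) :
    ∃ z : ι → ℤ, x - iv z ∈ VG G := by
  obtain ⟨z, hz⟩ := exists_min hG x
  refine ⟨z, fun w => ?_⟩
  have := hz (z + w)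
  rw [iv_add] at this
  convert! this using 2
  abel

/-- equidistant points form a null set -/
theorem volume_equidist {G : Matrix ι ι ℝ} (hG : G.PosDef) {y : ι → ℝ} (hy : y ≠ 0) :
    volume {x : ι → ℝ | qf G x = qf G (x - y)} = 0 := by
  classical
  let f : (ι → ℝ) →ₗ[ℝ] ℝ :=
    { toFun := fun x => x ⬝ᵥ (G *ᵥ y)
      map_add' := fun a b => add_dotProduct _ _ _
      map_smul' := fun a b => smul_dotProduct _ _ _ }
  have hf : ∀ x, f x = x ⬝ᵥ (G *ᵥ y) := fun _ => rfl
  have hqy : 0 < qf G y := qf_pos hG hy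
  have hset : {x : ι → ℝ | qf G x = qf G (x - y)} ⊆
      (AffineSubspace.mk' ((1 / 2 : ℝ) • y) (LinearMap.ker f) : Set (ι → ℝ)) := by
    intro x hx
    simp only [Set.mem_setOf_eq] at hx
    rw [qf_sub (isSymm_of_posDef hG)] at hx
    rw [SetLike.mem_coe, AffineSubspace.mem_mk', LinearMap.mem_ker]
    rw [vsub_eq_sub, map_sub, map_smul, hf, hf]
    have : y ⬝ᵥ (G *ᵥ y) = qf G y := rfl
    rw [this, smul_eq_mul]
    linarith
  refine measure_mono_null hset (Measure.addHaar_affineSubspace volume _ ?_)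
  intro htop
  have h0 : (y : ι → ℝ) ∈ (AffineSubspace.mk' ((1 / 2 : ℝ) • y) (LinearMap.ker f)) := by
    rw [htop]; exact AffineSubspace.mem_top _ _ _
  rw [AffineSubspace.mem_mk', LinearMap.mem_ker, vsub_eq_sub, map_sub, map_smul, hf] at h0
  have : y ⬝ᵥ (G *ᵥ y) = qf G y := rfl
  rw [this, smul_eq_mul] at h0
  linarith

/-- the lattice `ℤ^ι` -/
abbrev Lam (ι : Type*) [Fintype ι] : Submodule ℤ (ι → ℝ) :=
  Submodule.span ℤ (Set.range (Pi.basisFun ℝ ι))

theorem iv_mem_Lam (z : ι → ℤ) : iv z ∈ Lam ι := by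
  classical
  have : iv z = ∑ i, z i • (Pi.basisFun ℝ ι i) := by
    ext j
    simp [iv, Pi.basisFun_apply, Finset.sum_apply, Pi.single_apply]
  rw [this]
  exact Submodule.sum_mem _ fun i _ => Submodule.smul_mem _ _ (Submodule.subset_span ⟨i, rfl⟩)

theorem mem_Lam_iff (x : ι → ℝ) : x ∈ Lam ι ↔ ∃ z : ι → ℤ, iv z = x := by
  classical
  constructor
  · intro hx
    rw [(Pi.basisFun ℝ ι).mem_span_iff_repr_mem ℤ] at hx
    choose z hz using hx
    refine ⟨z, ?_⟩
    ext i
    have := hz i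
    simpa [iv] using this
  · rintro ⟨z, rfl⟩; exact iv_mem_Lam z

instance instVAddInvLam : VAddInvariantMeasure (Lam ι) (ι → ℝ) (volume : Measure (ι → ℝ)) :=
  inferInstanceAs <| VAddInvariantMeasure (Lam ι).toAddSubgroup (ι → ℝ) volume

instance instMeasVAddLam : MeasurableConstVAdd (Lam ι) (ι → ℝ) :=
  inferInstanceAs <| MeasurableConstVAdd (Lam ι).toAddSubgroup (ι → ℝ)

theorem isAddFundamentalDomain_cube :
    IsAddFundamentalDomain (Lam ι) (cube ι) (volume : Measure (ι → ℝ)) := by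
  have := ZSpan.isAddFundamentalDomain (Pi.basisFun ℝ ι) (volume : Measure (ι → ℝ))
  rwa [ZSpan.fundamentalDomain_pi_basisFun] at this

theorem isAddFundamentalDomain_VG {G : Matrix ι ι ℝ} (hG : G.PosDef) :
    IsAddFundamentalDomain (Lam ι) (VG G) (volume : Measure (ι → ℝ)) := by
  refine IsAddFundamentalDomain.mk'' (measurableSet_VG G).nullMeasurableSet ?_ ?_ ?_
  · refine Filter.Eventually.of_forall fun x => ?_
    obtain ⟨z, hz⟩ := exists_sub_mem_VG hG x
    refine ⟨⟨-iv z, (Lam ι).neg_mem (iv_mem_Lam z)⟩, ?_⟩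
    change -iv z + x ∈ VG G
    rw [neg_add_eq_sub]; exact hz
  · intro g hg
    have hg' : (g : ι → ℝ) ≠ 0 := fun h => hg (Subtype.ext h)
    obtain ⟨w, hw⟩ := (mem_Lam_iff _).1 g.2
    refine measure_mono_null ?_ (volume_equidist hG hg')
    intro x hx
    obtain ⟨hx1, hx2⟩ := hx
    rw [Set.mem_vadd_set_iff_neg_vadd_mem] at hx1
    have hx1' : -(g : ι → ℝ) + x ∈ VG G := hx1
    rw [neg_add_eq_sub] at hx1'
    refine le_antisymm ?_ ?_
    · have := hx2 w
      rwa [hw] at this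
    · have := hx1' (-w)
      rw [iv_neg, hw] at this
      simpa using this
  · intro g
    exact (measurePreserving_vadd g volume).quasiMeasurePreserving

/-- integral of a periodic function over any fundamental domain -/
theorem setIntegral_periodic {D D' : Set (ι → ℝ)}
    (hD : IsAddFundamentalDomain (Lam ι) D (volume : Measure (ι → ℝ)))
    (hD' : IsAddFundamentalDomain (Lam ι) D' (volume : Measure (ι → ℝ))) (g : (ι → ℝ) → ℝ)
    (hg : ∀ (x : ι → ℝ) (w : ι → ℤ), g (x + iv w) = g x) :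
    ∫ x in D, g x = ∫ x in D', g x := by
  refine IsAddFundamentalDomain.setIntegral_eq hD hD' ?_
  intro y x
  obtain ⟨w, hw⟩ := (mem_Lam_iff _).1 y.2
  change g ((y : ι → ℝ) + x) = g x
  rw [add_comm, ← hw]; exact hg x w

theorem setIntegral_dsq_VG {G : Matrix ι ι ℝ} (hG : G.PosDef) {D : Set (ι → ℝ)}
    (hD : IsAddFundamentalDomain (Lam ι) D (volume : Measure (ι → ℝ))) (c : ℝ) :
    ∫ x in D, Real.exp (-c * dsq G x) = ∫ x in VG G, Real.exp (-c * qf G x) := by
  rw [setIntegral_periodic hD (isAddFundamentalDomain_VG hG) _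
    (fun x w => by rw [dsq_add_iv])]
  refine setIntegral_congr_fun (measurableSet_VG G) fun x hx => ?_
  simp only [dsq_eq_of_mem_VG hG hx]

/-- `fV` as an integral over the Voronoi cell -/
theorem fV_eq [DecidableEq ι] {G : Matrix ι ι ℝ} (hG : G.PosDef) (s : ℝ) :
    fV s G = (Real.sqrt G.det / s ^ Fintype.card ι) *
      ∫ x in VG G, Real.exp (-(Real.pi / s ^ 2) * qf G x) := by
  rw [fV, setIntegral_dsq_VG hG isAddFundamentalDomain_cube]

theorem volume_VG {G : Matrix ι ι ℝ} (hG : G.PosDef) : volume (VG G) = 1 := by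
  rw [IsAddFundamentalDomain.measure_eq (isAddFundamentalDomain_VG hG)
    (isAddFundamentalDomain_cube (ι := ι))]
  simp [cube, Real.volume_pi_Ico]

end Crest.Agent.R152.WRM4
end

-- ▼ part R152/WRM4c
section

/-!
Row 152, weak reverse Minkowski, module WRM-4 (c): continuity of `fV` and the first order
condition (one-sided version).
-/

set_option linter.unusedSectionVars false
set_option linter.unusedVariables false
set_option linter.deprecated false
set_option autoImplicit false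

open MeasureTheory Metric Matrix Filter Topology

namespace Crest.Agent.R152.WRM4

open Crest.Agent.R152.WRM

variable {ι : Type*} [Fintype ι]

theorem measurable_dsq (G : Matrix ι ι ℝ) : Measurable (dsq G) :=
  Measurable.iInf fun z => ((continuous_qf G).comp (continuous_id.sub continuous_const)).measurable

theorem continuous_S1 : Continuous (S1 : Matrix ι ι ℝ → ℝ) := by
  unfold S1
  refine continuous_finset_sum _ fun i _ => continuous_finset_sum _ fun j _ => ?_
  exact (continuous_id.matrix_elem i j).abs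

theorem dsq_lower {G G0 : Matrix ι ι ℝ} (hG0 : G0.PosDef) {ε : ℝ} (hε : ε ≤ 1)
    (h : ∀ y, (1 - ε) * qf G0 y ≤ qf G y) (x : ι → ℝ) :
    (1 - ε) * dsq G0 x ≤ dsq G x := by
  refine le_ciInf fun z => ?_
  refine le_trans ?_ (h _)
  exact mul_le_mul_of_nonneg_left (dsq_le hG0 x z) (by linarith)

theorem dsq_upper {G G0 : Matrix ι ι ℝ} (hG0 : G0.PosDef) {ε : ℝ} (hε0 : 0 ≤ ε)
    (hnn : ∀ y, 0 ≤ qf G y)
    (h : ∀ y, qf G y ≤ (1 + ε) * qf G0 y) (x : ι → ℝ) :
    dsq G x ≤ (1 + ε) * dsq G0 x := by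
  obtain ⟨z, hz⟩ := exists_min hG0 x
  have h1 : dsq G0 x = qf G0 (x - iv z) := le_antisymm (dsq_le hG0 x z) (le_ciInf hz)
  rw [h1]
  refine le_trans (ciInf_le ⟨0, ?_⟩ z) (h _)
  rintro _ ⟨w, rfl⟩; exact hnn _

/-- uniform comparison of nearby forms -/
theorem qf_compare {G0 G : Matrix ι ι ℝ} {κ : ℝ} (hκ : 0 < κ)
    (hlow : ∀ x : ι → ℝ, κ * ‖x‖ ^ 2 ≤ qf G0 x) (y : ι → ℝ) :
    |qf G y - qf G0 y| ≤ (S1 (G - G0) / κ) * qf G0 y := by
  rw [← qf_sub_left]
  refine (abs_qf_le _ _).trans ?_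
  have h1 : ‖y‖ ^ 2 ≤ qf G0 y / κ := by rw [le_div_iff₀ hκ]; linarith [hlow y]
  calc S1 (G - G0) * ‖y‖ ^ 2 ≤ S1 (G - G0) * (qf G0 y / κ) :=
        mul_le_mul_of_nonneg_left h1 (S1_nonneg _)
    _ = (S1 (G - G0) / κ) * qf G0 y := by ring

theorem tendsto_dsq {G0 : Matrix ι ι ℝ} (hG0 : G0.PosDef) (x : ι → ℝ) :
    Tendsto (fun G : Matrix ι ι ℝ => dsq G x) (𝓝 G0) (𝓝 (dsq G0 x)) := by
  obtain ⟨κ, hκ, hlow⟩ := exists_lower hG0
  have hS : Tendsto (fun G : Matrix ι ι ℝ => S1 (G - G0) / κ) (𝓝 G0) (𝓝 0) := by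
    have h1 : Continuous fun G : Matrix ι ι ℝ => S1 (G - G0) / κ :=
      (continuous_S1.comp (continuous_id.sub continuous_const)).div_const _
    have h2 := h1.tendsto G0
    simpa [S1] using h2
  have hle : ∀ᶠ G in 𝓝 G0, S1 (G - G0) / κ ≤ 1 :=
    (hS.eventually (gt_mem_nhds (zero_lt_one))).mono fun _ h => le_of_lt h
  have hlow1 : Tendsto (fun G : Matrix ι ι ℝ => (1 - S1 (G - G0) / κ) * dsq G0 x) (𝓝 G0)
      (𝓝 (dsq G0 x)) := by
    have := ((tendsto_const_nhds (x := (1:ℝ))).sub hS).mul (tendsto_const_nhds (x := dsq G0 x))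
    simpa using this
  have hup1 : Tendsto (fun G : Matrix ι ι ℝ => (1 + S1 (G - G0) / κ) * dsq G0 x) (𝓝 G0)
      (𝓝 (dsq G0 x)) := by
    have := ((tendsto_const_nhds (x := (1:ℝ))).add hS).mul (tendsto_const_nhds (x := dsq G0 x))
    simpa using this
  refine tendsto_of_tendsto_of_tendsto_of_le_of_le' hlow1 hup1 ?_ ?_
  · filter_upwards [hle] with G hG
    refine dsq_lower hG0 hG (fun y => ?_) x
    have := (abs_le.1 (qf_compare (G := G) hκ hlow y)).1
    linarith
  · filter_upwards [hle] with G hG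
    have hnn : ∀ y, 0 ≤ qf G y := fun y => by
      have h1 := (abs_le.1 (qf_compare (G := G) hκ hlow y)).1
      have h2 : (S1 (G - G0) / κ) * qf G0 y ≤ 1 * qf G0 y :=
        mul_le_mul_of_nonneg_right hG (qf_nonneg hG0 y)
      linarith
    refine dsq_upper hG0 (div_nonneg (S1_nonneg _) hκ.le) hnn (fun y => ?_) x
    have := (abs_le.1 (qf_compare (G := G) hκ hlow y)).2
    linarith

instance instFirstCountableMatrix : FirstCountableTopology (Matrix ι ι ℝ) :=
  inferInstanceAs (FirstCountableTopology (ι → ι → ℝ))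

theorem volume_cube : volume (cube ι) = 1 := by
  simp [cube, Real.volume_pi_Ico]

theorem eventually_nonneg {G0 : Matrix ι ι ℝ} (hG0 : G0.PosDef) :
    ∀ᶠ G in 𝓝 G0, ∀ y, 0 ≤ qf G y := by
  obtain ⟨κ, hκ, hlow⟩ := exists_lower hG0
  have h1 : Continuous fun G : Matrix ι ι ℝ => S1 (G - G0) / κ :=
    (continuous_S1.comp (continuous_id.sub continuous_const)).div_const _
  have h2 : Tendsto (fun G : Matrix ι ι ℝ => S1 (G - G0) / κ) (𝓝 G0) (𝓝 0) := by
    simpa [S1] using h1.tendsto G0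
  have hle : ∀ᶠ G in 𝓝 G0, S1 (G - G0) / κ ≤ 1 :=
    (h2.eventually (gt_mem_nhds (zero_lt_one))).mono fun _ h => le_of_lt h
  filter_upwards [hle] with G hG y
  have h1 := (abs_le.1 (qf_compare (G := G) hκ hlow y)).1
  have h2 : (S1 (G - G0) / κ) * qf G0 y ≤ 1 * qf G0 y :=
    mul_le_mul_of_nonneg_right hG (qf_nonneg hG0 y)
  linarith

theorem tendsto_integral_dsq {G0 : Matrix ι ι ℝ} (hG0 : G0.PosDef) {c : ℝ} (hc : 0 ≤ c) :
    Tendsto (fun G : Matrix ι ι ℝ => ∫ x in cube ι, Real.exp (-c * dsq G x)) (𝓝 G0)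
      (𝓝 (∫ x in cube ι, Real.exp (-c * dsq G0 x))) := by
  refine tendsto_integral_filter_of_dominated_convergence (fun _ => 1) ?_ ?_ ?_ ?_
  · exact Eventually.of_forall fun G =>
      (Real.continuous_exp.measurable.comp ((measurable_dsq G).const_mul _)).aestronglyMeasurable
  · filter_upwards [eventually_nonneg hG0] with G hG
    refine Eventually.of_forall fun x => ?_
    rw [Real.norm_eq_abs, Real.abs_exp, Real.exp_le_one_iff]
    have : 0 ≤ dsq G x := Real.iInf_nonneg fun _ => hG _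
    nlinarith [mul_nonneg hc this]
  · rw [integrable_const_iff]
    right
    rw [isFiniteMeasure_iff, Measure.restrict_apply_univ, volume_cube]
    exact ENNReal.one_lt_top
  · refine Eventually.of_forall fun x => ?_
    exact (Real.continuous_exp.tendsto _).comp ((tendsto_dsq hG0 x).const_mul (-c))

theorem continuousAt_fV [DecidableEq ι] {G0 : Matrix ι ι ℝ} (hG0 : G0.PosDef) (s : ℝ) :
    ContinuousAt (fV s) G0 := by
  have h1 : ContinuousAt (fun G : Matrix ι ι ℝ => Real.sqrt G.det / s ^ Fintype.card ι) G0 :=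
    ((Real.continuous_sqrt.comp (continuous_id.matrix_det)).div_const _).continuousAt
  have h2 := tendsto_integral_dsq hG0 (c := Real.pi / s ^ 2) (by positivity)
  exact h1.mul h2

theorem continuousOn_fV [DecidableEq ι] (s : ℝ) :
    ContinuousOn (fV s) {G : Matrix ι ι ℝ | G.PosDef} := fun _ hG =>
  (continuousAt_fV hG s).continuousWithinAt

end Crest.Agent.R152.WRM4
end

-- ▼ part R152/WRM4d
section

/-!
Row 152, weak reverse Minkowski, module WRM-4 (d): first order condition at a minimiser of `fV`.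
-/

set_option linter.unusedSectionVars false
set_option linter.deprecated false
set_option linter.unusedVariables false
set_option autoImplicit false

open MeasureTheory Metric Matrix Filter Topology

namespace Crest.Agent.R152.WRM4

open Crest.Agent.R152.WRM

variable {ι : Type*} [Fintype ι]

theorem S1_smul (a : ℝ) (M : Matrix ι ι ℝ) : S1 (a • M) = |a| * S1 M := by
  simp only [S1, Matrix.smul_apply, smul_eq_mul, abs_mul, Finset.mul_sum]

theorem S1_add_le (M N : Matrix ι ι ℝ) : S1 (M + N) ≤ S1 M + S1 N := by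
  simp only [S1, ← Finset.sum_add_distrib]
  exact Finset.sum_le_sum fun i _ => Finset.sum_le_sum fun j _ => abs_add_le _ _

theorem hasDerivAt_qf {Gt : ℝ → Matrix ι ι ℝ} {K : Matrix ι ι ℝ} {t0 : ℝ}
    (hd : ∀ i j, HasDerivAt (fun t => Gt t i j) (K i j) t0) (x : ι → ℝ) :
    HasDerivAt (fun t => qf (Gt t) x) (qf K x) t0 := by
  simp only [qf_eq_sum]
  refine HasDerivAt.fun_sum fun i _ => HasDerivAt.fun_sum fun j _ => ?_
  exact ((hd i j).const_mul (x i)).mul_const (x j)

theorem tendsto_S1_slope {Gt : ℝ → Matrix ι ι ℝ} {K : Matrix ι ι ℝ}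
    (hd : ∀ i j, HasDerivAt (fun t => Gt t i j) (K i j) 0) :
    Tendsto (fun t => S1 (t⁻¹ • (Gt t - Gt 0))) (𝓝[>] (0:ℝ)) (𝓝 (S1 K)) := by
  unfold S1
  refine tendsto_finset_sum _ fun i _ => tendsto_finset_sum _ fun j _ => ?_
  have h := (hd i j).tendsto_slope_zero_right
  simp only [zero_add] at h
  have h2 := h.abs
  refine h2.congr fun t => ?_
  simp [Matrix.smul_apply, Matrix.sub_apply]

theorem abs_exp_sub_exp_le {c a b : ℝ} (hc : 0 ≤ c) (ha : 0 ≤ a) (hb : 0 ≤ b) :
    |Real.exp (-c * a) - Real.exp (-c * b)| ≤ c * |a - b| := by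
  have key : ∀ a b : ℝ, 0 ≤ a → a ≤ b → |Real.exp (-c * a) - Real.exp (-c * b)| ≤ c * |a - b| := by
    intro a b ha hab
    have h1 : Real.exp (-c * b) ≤ Real.exp (-c * a) := by
      apply Real.exp_le_exp.2; nlinarith
    rw [abs_of_nonneg (by linarith), abs_of_nonpos (by linarith)]
    have h2 : Real.exp (-c * a) ≤ 1 := by
      rw [Real.exp_le_one_iff]; nlinarith
    have h3 : Real.exp (-c * b) = Real.exp (-c * a) * Real.exp (-c * (b - a)) := by
      rw [← Real.exp_add]; ring_nf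
    have h4 : 1 - c * (b - a) ≤ Real.exp (-c * (b - a)) := by
      have := Real.add_one_le_exp (-c * (b - a))
      linarith
    have h5 : 0 ≤ Real.exp (-c * a) := (Real.exp_pos _).le
    have h6 : 0 ≤ c * (b - a) := mul_nonneg hc (by linarith)
    rw [h3]
    nlinarith [mul_le_mul_of_nonneg_left h4 h5, mul_le_mul_of_nonneg_right h2 h6]
  rcases le_total a b with h | h
  · exact key a b ha h
  · rw [abs_sub_comm, abs_sub_comm a b]; exact key b a hb h

theorem integrableOn_exp_dsq (G : Matrix ι ι ℝ) (hG : ∀ y, 0 ≤ qf G y) {c : ℝ} (hc : 0 ≤ c)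
    {s : Set (ι → ℝ)} (hs : volume s ≠ ⊤) :
    IntegrableOn (fun x => Real.exp (-c * dsq G x)) s := by
  have : IsFiniteMeasure (volume.restrict s) := isFiniteMeasure_restrict.2 hs
  refine Integrable.mono' (integrable_const (1:ℝ))
    (Real.continuous_exp.measurable.comp ((measurable_dsq G).const_mul _)).aestronglyMeasurable ?_
  refine Eventually.of_forall fun x => ?_
  rw [Real.norm_eq_abs, Real.abs_exp, Real.exp_le_one_iff]
  have : 0 ≤ dsq G x := Real.iInf_nonneg fun _ => hG _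
  nlinarith [mul_nonneg hc this]

theorem continuous_exp_qf (G : Matrix ι ι ℝ) (c : ℝ) :
    Continuous fun x => Real.exp (-c * qf G x) :=
  Real.continuous_exp.comp (continuous_const.mul (continuous_qf G))

/-- key comparison -/
theorem integral_diff_nonneg {G G' : Matrix ι ι ℝ} (hG : G.PosDef) (hG' : G'.PosDef) {c : ℝ}
    (hc : 0 ≤ c)
    (hmin : ∫ x in cube ι, Real.exp (-c * dsq G x) ≤ ∫ x in cube ι, Real.exp (-c * dsq G' x)) :
    0 ≤ ∫ x in VG G', (Real.exp (-c * qf G' x) - Real.exp (-c * qf G x)) := by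
  have hcomp := isCompact_VG hG'
  have h1 : IntegrableOn (fun x => Real.exp (-c * qf G' x)) (VG G') :=
    (continuous_exp_qf G' c).continuousOn.integrableOn_compact hcomp
  have h2 : IntegrableOn (fun x => Real.exp (-c * qf G x)) (VG G') :=
    (continuous_exp_qf G c).continuousOn.integrableOn_compact hcomp
  have h3 : IntegrableOn (fun x => Real.exp (-c * dsq G x)) (VG G') :=
    integrableOn_exp_dsq G (qf_nonneg hG) hc (by rw [volume_VG hG']; exact ENNReal.one_ne_top)
  rw [integral_sub h1 h2, sub_nonneg]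
  rw [setIntegral_dsq_VG hG' isAddFundamentalDomain_cube] at hmin
  refine le_trans ?_ hmin
  rw [setIntegral_periodic isAddFundamentalDomain_cube (isAddFundamentalDomain_VG hG') _
    (fun x w => by rw [dsq_add_iv])]
  refine setIntegral_mono h2 h3 fun x => ?_
  apply Real.exp_le_exp.2
  have := dsq_le_qf hG x
  nlinarith

theorem crit_one_sided {G : Matrix ι ι ℝ} (hG : G.PosDef) {c : ℝ} (hc : 0 < c)
    {Gt : ℝ → Matrix ι ι ℝ} {K : Matrix ι ι ℝ} (h0 : Gt 0 = G)
    (hd : ∀ i j, HasDerivAt (fun t => Gt t i j) (K i j) 0)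
    (hpos : ∀ᶠ t in 𝓝[>] (0:ℝ), (Gt t).PosDef)
    (hmin : ∀ᶠ t in 𝓝[>] (0:ℝ), ∫ x in cube ι, Real.exp (-c * dsq G x)
        ≤ ∫ x in cube ι, Real.exp (-c * dsq (Gt t) x)) :
    ∫ x in VG G, qf K x * Real.exp (-c * qf G x) ≤ 0 := by
  classical
  obtain ⟨κ, hκ, hlow⟩ := exists_lower hG
  -- eventual bounds
  have hslope : ∀ᶠ t in 𝓝[>] (0:ℝ), S1 (t⁻¹ • (Gt t - G)) ≤ S1 K + 1 := by
    have := tendsto_S1_slope hd
    rw [h0] at this
    exact (this.eventually (gt_mem_nhds (lt_add_one (S1 K)))).mono fun _ h => le_of_lt h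
  have htpos : ∀ᶠ t in 𝓝[>] (0:ℝ), 0 < t := eventually_mem_nhdsWithin
  have hslope2 : ∀ᶠ t in 𝓝[>] (0:ℝ), S1 (Gt t - G) ≤ (S1 K + 1) * t := by
    filter_upwards [hslope, htpos] with t ht ht0
    rw [S1_smul, abs_of_pos (inv_pos.2 ht0)] at ht
    rw [inv_mul_le_iff₀ ht0] at ht
    linarith
  have hK1 : 0 < S1 K + 1 := by have := S1_nonneg K; linarith
  have hsmall : ∀ᶠ t in 𝓝[>] (0:ℝ), t ≤ min (κ / 2) 1 / (S1 K + 1) := by
    have hp : 0 < min (κ / 2) 1 / (S1 K + 1) := by positivity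
    have : ∀ᶠ t in 𝓝 (0:ℝ), t < min (κ / 2) 1 / (S1 K + 1) := gt_mem_nhds hp
    exact (this.filter_mono nhdsWithin_le_nhds).mono fun _ h => le_of_lt h
  have hS : ∀ᶠ t in 𝓝[>] (0:ℝ), S1 (Gt t - G) ≤ min (κ / 2) 1 := by
    filter_upwards [hslope2, hsmall] with t h1 h2
    refine h1.trans ?_
    rw [le_div_iff₀ hK1] at h2
    linarith
  have hlow2 : ∀ᶠ t in 𝓝[>] (0:ℝ), ∀ x : ι → ℝ, (κ / 2) * ‖x‖ ^ 2 ≤ qf (Gt t) x := by
    filter_upwards [hS] with t ht x
    have h1 := abs_qf_le (Gt t - G) x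
    rw [qf_sub_left] at h1
    have h2 := (abs_le.1 h1).1
    have h3 : S1 (Gt t - G) * ‖x‖ ^ 2 ≤ (κ / 2) * ‖x‖ ^ 2 :=
      mul_le_mul_of_nonneg_right (ht.trans (min_le_left _ _)) (by positivity)
    have h4 := hlow x
    linarith
  have hS2 : ∀ᶠ t in 𝓝[>] (0:ℝ), S1 (Gt t) ≤ S1 G + 1 := by
    filter_upwards [hS] with t ht
    calc S1 (Gt t) = S1 ((Gt t - G) + G) := by rw [sub_add_cancel]
      _ ≤ S1 (Gt t - G) + S1 G := S1_add_le _ _
      _ ≤ 1 + S1 G := by linarith [ht.trans (min_le_right (κ / 2) 1)]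
      _ = _ := add_comm _ _
  let R : ℝ := Real.sqrt ((S1 G + 1) / (κ / 2))
  have hR0 : 0 ≤ R := Real.sqrt_nonneg _
  have hVG : ∀ᶠ t in 𝓝[>] (0:ℝ), ∀ x ∈ VG (Gt t), ‖x‖ ≤ R := by
    filter_upwards [hlow2, hS2] with t h1 h2 x hx
    refine Real.le_sqrt_of_sq_le ((norm_le_of_mem_VG (by positivity) h1 hx).trans ?_)
    gcongr
  -- the functions
  let g : ℝ → (ι → ℝ) → ℝ := fun t => (VG (Gt t)).indicator
    (fun x => t⁻¹ * (Real.exp (-c * qf (Gt t) x) - Real.exp (-c * qf G x)))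
  let g0 : (ι → ℝ) → ℝ := (VG G).indicator (fun x => -c * (qf K x * Real.exp (-c * qf G x)))
  have hlim : Tendsto (fun t => ∫ x, g t x) (𝓝[>] (0:ℝ)) (𝓝 (∫ x, g0 x)) := by
    refine tendsto_integral_filter_of_dominated_convergence
      ((closedBall (0 : ι → ℝ) R).indicator (fun _ => c * ((S1 K + 1) * R ^ 2))) ?_ ?_ ?_ ?_
    · refine Eventually.of_forall fun t => ?_
      refine (AEStronglyMeasurable.indicator ?_ (measurableSet_VG _))
      exact (((continuous_exp_qf (Gt t) c).sub (continuous_exp_qf G c)).const_mul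
        t⁻¹).aestronglyMeasurable
    · filter_upwards [hVG, hslope2, htpos, hpos] with t h1 h2 h3 h4
      refine Eventually.of_forall fun x => ?_
      by_cases hx : x ∈ VG (Gt t)
      · have hxR := h1 x hx
        have hxb : x ∈ closedBall (0 : ι → ℝ) R := by simpa using hxR
        simp only [g, Set.indicator_of_mem hx, Set.indicator_of_mem hxb]
        rw [Real.norm_eq_abs, abs_mul, abs_of_pos (inv_pos.2 h3), inv_mul_le_iff₀ h3]
        refine (abs_exp_sub_exp_le hc.le (qf_nonneg h4 x) (qf_nonneg hG x)).trans ?_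
        have h5 := abs_qf_le (Gt t - G) x
        rw [qf_sub_left] at h5
        have h6 : S1 (Gt t - G) * ‖x‖ ^ 2 ≤ ((S1 K + 1) * t) * R ^ 2 := by
          have := S1_nonneg (Gt t - G)
          gcongr
        calc c * |qf (Gt t) x - qf G x| ≤ c * (((S1 K + 1) * t) * R ^ 2) := by
              gcongr; exact h5.trans h6
          _ = t * (c * ((S1 K + 1) * R ^ 2)) := by ring
      · simp only [g, Set.indicator_of_notMem hx, norm_zero]
        apply Set.indicator_nonneg
        intro _ _; positivity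
    · rw [integrable_indicator_iff measurableSet_closedBall]
      exact integrableOn_const (by exact measure_closedBall_lt_top.ne)
    · -- pointwise convergence
      have hae : ∀ᵐ x : ι → ℝ, ∀ z : ι → ℤ, z ≠ 0 → qf G x ≠ qf G (x - iv z) := by
        rw [ae_all_iff]
        intro z
        by_cases hz : z = 0
        · exact Eventually.of_forall fun x h => absurd hz h
        · have hz' : iv z ≠ 0 := fun h => hz (iv_injective (h.trans iv_zero.symm))
          have := volume_equidist hG hz'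
          rw [← compl_mem_ae_iff] at this
          filter_upwards [this] with x hx _
          exact hx
      filter_upwards [hae] with x hx
      have hder : HasDerivAt (fun t => Real.exp (-c * qf (Gt t) x))
          (-c * (qf K x * Real.exp (-c * qf G x))) 0 := by
        have h1 := ((hasDerivAt_qf hd x).const_mul (-c)).exp
        rw [h0] at h1
        convert! h1 using 1
        ring
      have hsl := hder.tendsto_slope_zero_right
      simp only [zero_add, smul_eq_mul, h0] at hsl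
      by_cases hxV : x ∈ VG G
      · -- eventually in
        have hev : ∀ᶠ t in 𝓝[>] (0:ℝ), x ∈ VG (Gt t) := by
          -- finitely many relevant z
          let B : ℝ := Real.sqrt ((S1 G + 1) / (κ / 2)) * ‖x‖ + ‖x‖
          have hfin : {z : ι → ℤ | ‖iv z‖ ≤ B}.Finite := finite_norm_iv_le B
          have hfar : ∀ᶠ t in 𝓝[>] (0:ℝ), ∀ z : ι → ℤ, B < ‖iv z‖ →
              qf (Gt t) x ≤ qf (Gt t) (x - iv z) := by
            filter_upwards [hlow2, hS2] with t h1 h2 z hz
            have h3 : Real.sqrt ((S1 G + 1) / (κ / 2)) * ‖x‖ < ‖x - iv z‖ := by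
              have : ‖iv z‖ ≤ ‖x‖ + ‖x - iv z‖ := by
                calc ‖iv z‖ = ‖x - (x - iv z)‖ := by congr 1; abel
                  _ ≤ ‖x‖ + ‖x - iv z‖ := norm_sub_le _ _
              simp only [B] at hz
              linarith
            have h4 : (S1 G + 1) / (κ / 2) * ‖x‖ ^ 2 ≤ ‖x - iv z‖ ^ 2 := by
              have h5 : 0 ≤ (S1 G + 1) / (κ / 2) := by
                have := S1_nonneg G; positivity
              calc (S1 G + 1) / (κ / 2) * ‖x‖ ^ 2
                  = (Real.sqrt ((S1 G + 1) / (κ / 2)) * ‖x‖) ^ 2 := by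
                    rw [mul_pow, Real.sq_sqrt h5]
                _ ≤ ‖x - iv z‖ ^ 2 := by gcongr
            calc qf (Gt t) x ≤ |qf (Gt t) x| := le_abs_self _
              _ ≤ S1 (Gt t) * ‖x‖ ^ 2 := abs_qf_le _ _
              _ ≤ (S1 G + 1) * ‖x‖ ^ 2 := by gcongr
              _ = (κ / 2) * ((S1 G + 1) / (κ / 2) * ‖x‖ ^ 2) := by field_simp
              _ ≤ (κ / 2) * ‖x - iv z‖ ^ 2 := by gcongr
              _ ≤ qf (Gt t) (x - iv z) := h1 _
          have hnear : ∀ᶠ t in 𝓝[>] (0:ℝ), ∀ z ∈ {z : ι → ℤ | ‖iv z‖ ≤ B},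
              qf (Gt t) x ≤ qf (Gt t) (x - iv z) := by
            rw [eventually_all_finite hfin]
            intro z _
            by_cases hz : z = 0
            · refine Eventually.of_forall fun t => ?_
              rw [hz, iv_zero, sub_zero]
            · have hlt : qf G x < qf G (x - iv z) := lt_of_le_of_ne (hxV z) (hx z hz)
              have h1 : Tendsto (fun t => qf (Gt t) x) (𝓝[>] (0:ℝ)) (𝓝 (qf G x)) := by
                have := (hasDerivAt_qf hd x).continuousAt.tendsto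
                rw [h0] at this
                exact this.mono_left nhdsWithin_le_nhds
              have h2 : Tendsto (fun t => qf (Gt t) (x - iv z)) (𝓝[>] (0:ℝ))
                  (𝓝 (qf G (x - iv z))) := by
                have := (hasDerivAt_qf hd (x - iv z)).continuousAt.tendsto
                rw [h0] at this
                exact this.mono_left nhdsWithin_le_nhds
              exact (h1.eventually_lt h2 hlt).mono fun _ h => le_of_lt h
          filter_upwards [hfar, hnear] with t h1 h2 z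
          by_cases hz : ‖iv z‖ ≤ B
          · exact h2 z hz
          · exact h1 z (not_le.1 hz)
        simp only [g0, Set.indicator_of_mem hxV]
        refine hsl.congr' ?_
        filter_upwards [hev] with t ht
        simp only [g, Set.indicator_of_mem ht]
      · -- eventually out
        have hev : ∀ᶠ t in 𝓝[>] (0:ℝ), x ∉ VG (Gt t) := by
          have : ∃ z : ι → ℤ, qf G (x - iv z) < qf G x := by
            by_contra hcon
            push Not at hcon
            exact hxV hcon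
          obtain ⟨z, hz⟩ := this
          have h1 : Tendsto (fun t => qf (Gt t) x) (𝓝[>] (0:ℝ)) (𝓝 (qf G x)) := by
            have := (hasDerivAt_qf hd x).continuousAt.tendsto
            rw [h0] at this
            exact this.mono_left nhdsWithin_le_nhds
          have h2 : Tendsto (fun t => qf (Gt t) (x - iv z)) (𝓝[>] (0:ℝ))
              (𝓝 (qf G (x - iv z))) := by
            have := (hasDerivAt_qf hd (x - iv z)).continuousAt.tendsto
            rw [h0] at this
            exact this.mono_left nhdsWithin_le_nhds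
          filter_upwards [h2.eventually_lt h1 hz] with t ht hmem
          exact absurd (hmem z) (not_le.2 ht)
        simp only [g0, Set.indicator_of_notMem hxV]
        refine tendsto_const_nhds.congr' ?_
        filter_upwards [hev] with t ht
        simp only [g, Set.indicator_of_notMem ht]
  have hnn : ∀ᶠ t in 𝓝[>] (0:ℝ), 0 ≤ ∫ x, g t x := by
    filter_upwards [hmin, hpos, htpos] with t h1 h2 h3
    simp only [g]
    rw [integral_indicator (measurableSet_VG _), integral_const_mul]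
    exact mul_nonneg (inv_nonneg.2 h3.le) (integral_diff_nonneg hG h2 hc.le h1)
  have hfinal : 0 ≤ ∫ x, g0 x := ge_of_tendsto hlim hnn
  simp only [g0] at hfinal
  rw [integral_indicator (measurableSet_VG _), integral_const_mul] at hfinal
  nlinarith

theorem crit_path {G : Matrix ι ι ℝ} (hG : G.PosDef) {c : ℝ} (hc : 0 < c)
    {Gt : ℝ → Matrix ι ι ℝ} {K : Matrix ι ι ℝ} (h0 : Gt 0 = G)
    (hd : ∀ i j, HasDerivAt (fun t => Gt t i j) (K i j) 0)
    (hpos : ∀ᶠ t in 𝓝 (0:ℝ), (Gt t).PosDef)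
    (hmin : ∀ᶠ t in 𝓝 (0:ℝ), ∫ x in cube ι, Real.exp (-c * dsq G x)
        ≤ ∫ x in cube ι, Real.exp (-c * dsq (Gt t) x)) :
    ∫ x in VG G, qf K x * Real.exp (-c * qf G x) = 0 := by
  refine le_antisymm ?_ ?_
  · exact crit_one_sided hG hc h0 hd (hpos.filter_mono nhdsWithin_le_nhds)
      (hmin.filter_mono nhdsWithin_le_nhds)
  · have hneg : Tendsto (fun t : ℝ => -t) (𝓝 0) (𝓝 0) := by
      simpa using (continuous_neg.tendsto (0:ℝ))
    have h1 := crit_one_sided (K := -K) (Gt := fun t => Gt (-t)) hG hc (by simpa using h0)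
      (fun i j => by
        have h2 : HasDerivAt (fun t => Gt t i j) (K i j) (-0) := by simpa using hd i j
        have h3 := HasDerivAt.comp (0:ℝ) h2 (hasDerivAt_neg (0:ℝ))
        have h4 : K i j * -1 = (-K) i j := by simp
        rw [h4] at h3
        exact h3)
      ((hneg.eventually hpos).filter_mono nhdsWithin_le_nhds)
      ((hneg.eventually hmin).filter_mono nhdsWithin_le_nhds)
    have h2 : ∀ x, qf (-K) x = - qf K x := fun x => by
      simp [qf, neg_mulVec]
    simp only [h2, neg_mul, integral_neg] at h1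
    simpa using h1

end Crest.Agent.R152.WRM4
end

-- ▼ part R152/WRM4e

/-!
Row 152, weak reverse Minkowski, module WRM-4 (e): first order condition with the determinant
normalisation, and the version in Euclidean space.
-/

set_option linter.unusedSectionVars false
set_option linter.deprecated false
set_option linter.unusedVariables false
set_option autoImplicit false

open MeasureTheory Metric Matrix Filter Topology

namespace Crest.Agent.R152.WRM4

open Crest.Agent.R152.WRM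

variable {ι : Type*} [Fintype ι]

section det

variable [DecidableEq ι]

/-- derivative of `det (G + tK)` at `0` vanishes if `trace (G⁻¹ K) = 0`. -/
theorem hasDerivAt_det {G K : Matrix ι ι ℝ} (hdet : G.det = 1) (htr : (G⁻¹ * K).trace = 0) :
    HasDerivAt (fun t : ℝ => (G + t • K).det) 0 0 := by
  have hu : IsUnit G.det := by rw [hdet]; exact isUnit_one
  have h1 : ∀ t : ℝ, (G + t • K).det =
      1 + ((Polynomial.X : Polynomial ℝ) ^ 2 *
        (det (1 + (Polynomial.X : Polynomial ℝ) • (G⁻¹ * K).map Polynomial.C)).divX.divX).eval t := by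
    intro t
    have h2 : G + t • K = G * (1 + t • (G⁻¹ * K)) := by
      rw [mul_add, mul_one, mul_smul_comm, mul_nonsing_inv_cancel_left _ _ hu]
    rw [h2, det_mul, hdet, one_mul, det_one_add_smul, htr]
    simp only [zero_mul, add_zero, Polynomial.eval_mul, Polynomial.eval_pow, Polynomial.eval_X]
    ring
  have h3 : (fun t : ℝ => (G + t • K).det) = fun t : ℝ =>
      1 + ((Polynomial.X : Polynomial ℝ) ^ 2 *
        (det (1 + (Polynomial.X : Polynomial ℝ) • (G⁻¹ * K).map Polynomial.C)).divX.divX).eval t :=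
    funext h1
  rw [h3]
  have h4 := (Polynomial.hasDerivAt ((Polynomial.X : Polynomial ℝ) ^ 2 *
        (det (1 + (Polynomial.X : Polynomial ℝ) • (G⁻¹ * K).map Polynomial.C)).divX.divX)
          (0:ℝ)).const_add 1
  convert! h4 using 1
  simp [Polynomial.derivative_mul]

/-- The normalised path. -/
noncomputable def pathG (G K : Matrix ι ι ℝ) (t : ℝ) : Matrix ι ι ℝ :=
  ((G + t • K).det ^ (-(1 / (Fintype.card ι : ℝ)))) • (G + t • K)

theorem pathG_zero {G K : Matrix ι ι ℝ} (hdet : G.det = 1) : pathG G K 0 = G := by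
  simp [pathG, hdet]

theorem hasDerivAt_pathG {G K : Matrix ι ι ℝ} (hdet : G.det = 1) (htr : (G⁻¹ * K).trace = 0)
    (i j : ι) : HasDerivAt (fun t => pathG G K t i j) (K i j) 0 := by
  have h1 : HasDerivAt (fun t : ℝ => (G + t • K).det ^ (-(1 / (Fintype.card ι : ℝ)))) 0 0 := by
    have h2 := (hasDerivAt_det hdet htr).rpow_const (p := -(1 / (Fintype.card ι : ℝ)))
      (Or.inl (by simp [hdet]))
    simpa using h2
  have h3 : HasDerivAt (fun t : ℝ => (G + t • K) i j) (K i j) 0 := by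
    have h4 : HasDerivAt (fun t : ℝ => G i j + t * K i j) (1 * K i j) 0 :=
      ((hasDerivAt_id (0:ℝ)).mul_const (K i j)).const_add (G i j)
    simpa using h4
  have h5 := h1.mul h3
  simp only [zero_smul, add_zero, hdet, Real.one_rpow, zero_mul, one_mul, zero_add] at h5
  exact h5

theorem tendsto_pathG {G K : Matrix ι ι ℝ} (hdet : G.det = 1) (htr : (G⁻¹ * K).trace = 0) :
    Tendsto (pathG G K) (𝓝 0) (𝓝 G) := by
  have h1 : Tendsto (fun t => (fun i j => pathG G K t i j : ι → ι → ℝ)) (𝓝 0)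
      (𝓝 (fun i j => G i j)) := by
    refine tendsto_pi_nhds.2 fun i => tendsto_pi_nhds.2 fun j => ?_
    have := (hasDerivAt_pathG hdet htr i j).continuousAt.tendsto
    rwa [pathG_zero hdet] at this
  exact h1

theorem posDef_of_isSymm_of_pos {G : Matrix ι ι ℝ} (hs : G.IsSymm)
    (hp : ∀ x : ι → ℝ, x ≠ 0 → 0 < qf G x) : G.PosDef := by
  refine PosDef.of_dotProduct_mulVec_pos ?_ ?_
  · rw [IsHermitian, conjTranspose_eq_transpose_of_trivial]; exact hs
  · intro x hx
    simpa [qf] using hp x hx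

theorem eventually_posDef {G : Matrix ι ι ℝ} (hG : G.PosDef) :
    ∀ᶠ G' in 𝓝 G, G'.IsSymm → G'.PosDef := by
  obtain ⟨κ, hκ, hlow⟩ := exists_lower hG
  have h1 : Continuous fun G' : Matrix ι ι ℝ => S1 (G' - G) :=
    (continuous_S1.comp (continuous_id.sub continuous_const))
  have h2 : Tendsto (fun G' : Matrix ι ι ℝ => S1 (G' - G)) (𝓝 G) (𝓝 0) := by
    simpa [S1] using h1.tendsto G
  filter_upwards [h2.eventually (gt_mem_nhds hκ)] with G' hG' hs
  refine posDef_of_isSymm_of_pos hs fun x hx => ?_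
  have h3 := (abs_le.1 (abs_qf_le (G' - G) x)).1
  rw [qf_sub_left] at h3
  have hx' : 0 < ‖x‖ ^ 2 := by positivity
  have h4 := hlow x
  nlinarith

theorem isSymm_pathG {G K : Matrix ι ι ℝ} (hG : G.IsSymm) (hK : K.IsSymm) (t : ℝ) :
    (pathG G K t).IsSymm := by
  unfold pathG
  exact (hG.add (hK.smul t)).smul _

theorem eventually_det_pathG [Nonempty ι] {G K : Matrix ι ι ℝ} (hdet : G.det = 1)
    (htr : (G⁻¹ * K).trace = 0) :
    ∀ᶠ t in 𝓝 (0:ℝ), (pathG G K t).det = 1 := by
  have h1 := (hasDerivAt_det hdet htr).continuousAt.tendsto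
  simp only [zero_smul, add_zero, hdet] at h1
  filter_upwards [h1.eventually (lt_mem_nhds zero_lt_one)] with t ht
  unfold pathG
  rw [det_smul, ← Real.rpow_natCast, ← Real.rpow_mul ht.le]
  have hc : (Fintype.card ι : ℝ) ≠ 0 := by
    exact_mod_cast Fintype.card_ne_zero
  have : -(1 / (Fintype.card ι : ℝ)) * (Fintype.card ι : ℝ) = -1 := by field_simp
  rw [this, Real.rpow_neg_one]
  exact inv_mul_cancel₀ ht.ne'

/-- first order condition at a local minimiser of `fV s` on `{PosDef, det = 1}` -/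
theorem crit_gram {G : Matrix ι ι ℝ} (hG : G.PosDef) (hdet : G.det = 1) {s : ℝ} (hs : 0 < s)
    (hmin : ∀ᶠ G' in 𝓝 G, G'.PosDef → G'.det = 1 → fV s G ≤ fV s G')
    {K : Matrix ι ι ℝ} (hK : K.IsSymm) (htr : (G⁻¹ * K).trace = 0) :
    ∫ x in VG G, qf K x * Real.exp (-(Real.pi / s ^ 2) * qf G x) = 0 := by
  rcases isEmpty_or_nonempty ι with he | hne
  · have : ∀ x : ι → ℝ, qf K x = 0 := fun x => by simp [qf_eq_sum]
    simp [this]
  have hpos : ∀ᶠ t in 𝓝 (0:ℝ), (pathG G K t).PosDef := by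
    filter_upwards [(tendsto_pathG hdet htr).eventually (eventually_posDef hG)] with t ht
    exact ht (isSymm_pathG (isSymm_of_posDef hG) hK t)
  have hdet1 := eventually_det_pathG (K := K) hdet htr
  refine crit_path hG (by positivity) (pathG_zero hdet) (hasDerivAt_pathG hdet htr) hpos ?_
  filter_upwards [hpos, hdet1, (tendsto_pathG hdet htr).eventually hmin] with t h1 h2 h3
  have h4 := h3 h1 h2
  rw [fV, fV, hdet, h2] at h4
  have h5 : 0 < Real.sqrt 1 / s ^ Fintype.card ι := by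
    rw [Real.sqrt_one]; positivity
  exact le_of_mul_le_mul_left h4 h5

end det

section Euclid

variable [DecidableEq ι]

/-- the map `x ↦ A x` into Euclidean space -/
noncomputable def Phi (A : Matrix ι ι ℝ) (x : ι → ℝ) : EuclideanSpace ℝ ι := WithLp.toLp 2 (A *ᵥ x)

/-- Voronoi cell of the lattice `A ℤ^ι` in Euclidean space -/
def VE (A : Matrix ι ι ℝ) : Set (EuclideanSpace ℝ ι) :=
  {v | ∀ z : ι → ℤ, ‖v‖ ≤ ‖v - Phi A (iv z)‖}

theorem Phi_sub (A : Matrix ι ι ℝ) (x y : ι → ℝ) : Phi A (x - y) = Phi A x - Phi A y := by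
  ext i; simp [Phi, mulVec_sub]

theorem norm_Phi_sq (A : Matrix ι ι ℝ) (x : ι → ℝ) : ‖Phi A x‖ ^ 2 = qf (Aᵀ * A) x := by
  rw [EuclideanSpace.norm_sq_eq]
  simp only [Phi, Real.norm_eq_abs, sq_abs]
  rw [qf, ← mulVec_mulVec, dotProduct_mulVec, vecMul_transpose, dotProduct]
  exact Finset.sum_congr rfl fun i _ => by ring

theorem qf_gram (A : Matrix ι ι ℝ) (M : Matrix ι ι ℝ) (x : ι → ℝ) :
    qf (Aᵀ * M * A) x = qf M (A *ᵥ x) := by
  rw [qf, qf, ← mulVec_mulVec, ← mulVec_mulVec, dotProduct_mulVec, vecMul_transpose]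

theorem preimage_VE (A : Matrix ι ι ℝ) : Phi A ⁻¹' VE A = VG (Aᵀ * A) := by
  ext x
  simp only [Set.mem_preimage, VE, VG, Set.mem_setOf_eq]
  refine forall_congr' fun z => ?_
  rw [← Phi_sub, ← norm_Phi_sq, ← norm_Phi_sq, sq_le_sq₀ (norm_nonneg _) (norm_nonneg _)]

theorem measurePreserving_Phi {A : Matrix ι ι ℝ} (hA : |A.det| = 1) :
    MeasurePreserving (Phi A) volume volume := by
  have h0 : A.det ≠ 0 := by intro h; simp [h] at hA
  have h1 : MeasurePreserving (toLin' A) (volume : Measure (ι → ℝ)) volume := by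
    refine ⟨(LinearMap.continuous_of_finiteDimensional _).measurable, ?_⟩
    rw [Real.map_matrix_volume_pi_eq_smul_volume_pi h0, abs_inv, hA]
    simp
  exact (PiLp.volume_preserving_toLp ι).comp h1

theorem measurableEmbedding_Phi {A : Matrix ι ι ℝ} (hA : |A.det| = 1) :
    MeasurableEmbedding (Phi A) := by
  have h0 : IsUnit A.det := by
    refine isUnit_iff_ne_zero.2 fun h => ?_
    simp [h] at hA
  have hinj : Function.Injective (Phi A) := by
    intro x y hxy
    have h1 : A *ᵥ x = A *ᵥ y := by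
      simpa [Phi] using hxy
    have h2 := congrArg (fun v => A⁻¹ *ᵥ v) h1
    simpa [mulVec_mulVec, nonsing_inv_mul _ h0] using h2
  have hcont : Continuous (Phi A) := by
    unfold Phi
    exact (PiLp.continuous_toLp 2 _).comp (by fun_prop)
  exact hcont.measurableEmbedding hinj

theorem setIntegral_VE {A : Matrix ι ι ℝ} (hA : |A.det| = 1) (g : EuclideanSpace ℝ ι → ℝ) :
    ∫ v in VE A, g v = ∫ x in VG (Aᵀ * A), g (Phi A x) := by
  rw [← preimage_VE]
  exact ((measurePreserving_Phi hA).setIntegral_preimage_emb (measurableEmbedding_Phi hA) g _).symm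

theorem isClosed_VE (A : Matrix ι ι ℝ) : IsClosed (VE A) := by
  have : VE A = ⋂ z : ι → ℤ, {v | ‖v‖ ≤ ‖v - Phi A (iv z)‖} := by ext; simp [VE]
  rw [this]
  exact isClosed_iInter fun z => isClosed_le continuous_norm
    (continuous_norm.comp (continuous_id.sub continuous_const))

theorem measurableSet_VE (A : Matrix ι ι ℝ) : MeasurableSet (VE A) := (isClosed_VE A).measurableSet

theorem norm_le_sub_iff' {E : Type*} [NormedAddCommGroup E] [InnerProductSpace ℝ E] (x y : E) :
    ‖x‖ ≤ ‖x - y‖ ↔ 2 * inner ℝ y x ≤ ‖y‖ ^ 2 := by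
  rw [← sq_le_sq₀ (norm_nonneg _) (norm_nonneg _), norm_sub_sq_real, real_inner_comm]
  constructor <;> intro h <;> linarith

theorem convex_VE (A : Matrix ι ι ℝ) : Convex ℝ (VE A) := by
  intro x hx z hz a b ha hb hab
  simp only [VE, Set.mem_setOf_eq, norm_le_sub_iff'] at hx hz ⊢
  intro w
  rw [inner_add_right, inner_smul_right, inner_smul_right]
  have h3 := mul_le_mul_of_nonneg_left (hx w) ha
  have h4 := mul_le_mul_of_nonneg_left (hz w) hb
  have h5 : a * ‖Phi A (iv w)‖ ^ 2 + b * ‖Phi A (iv w)‖ ^ 2 = ‖Phi A (iv w)‖ ^ 2 := by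
    rw [← add_mul, hab, one_mul]
  linarith

theorem neg_mem_VE {A : Matrix ι ι ℝ} {x : EuclideanSpace ℝ ι} (hx : x ∈ VE A) : -x ∈ VE A := by
  intro z
  have h := hx (-z)
  have h2 : Phi A (iv (-z)) = - Phi A (iv z) := by
    rw [iv_neg]; ext i; simp [Phi, mulVec_neg]
  rw [h2] at h
  rw [norm_neg]
  calc ‖x‖ ≤ ‖x - -Phi A (iv z)‖ := h
    _ = ‖-x - Phi A (iv z)‖ := by rw [← norm_neg]; congr 1; abel

theorem volume_VE {A : Matrix ι ι ℝ} (hA : |A.det| = 1) (hG : (Aᵀ * A).PosDef) :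
    volume (VE A) = 1 := by
  rw [← volume_VG hG, ← preimage_VE,
    (measurePreserving_Phi hA).measure_preimage (measurableSet_VE A).nullMeasurableSet]

/-- `fV` as a Gaussian integral over the Voronoi cell in Euclidean space. -/
theorem fV_eq_VE {A : Matrix ι ι ℝ} (hA : |A.det| = 1) (hG : (Aᵀ * A).PosDef) (s : ℝ) :
    fV s (Aᵀ * A) = (1 / s ^ Fintype.card ι) *
      ∫ v in VE A, Real.exp (-(Real.pi / s ^ 2) * ‖v‖ ^ 2) := by
  rw [fV_eq hG, setIntegral_VE hA]
  have : (Aᵀ * A).det = 1 := by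
    rw [det_mul, det_transpose, ← abs_mul_abs_self, hA, one_mul]
  rw [this, Real.sqrt_one]
  simp only [norm_Phi_sq]

theorem ball_subset_VE {A : Matrix ι ι ℝ} {r : ℝ}
    (h : ∀ z : ι → ℤ, z ≠ 0 → (2 * r) ^ 2 ≤ qf (Aᵀ * A) (iv z)) :
    closedBall (0 : EuclideanSpace ℝ ι) r ⊆ VE A := by
  intro v hv z
  rw [mem_closedBall, dist_zero_right] at hv
  by_cases hz : z = 0
  · rw [hz, iv_zero]; simp [Phi]
  · have h1 := h z hz
    rw [← norm_Phi_sq] at h1
    have h2 : 0 ≤ r := (norm_nonneg v).trans hv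
    have h3 : 2 * r ≤ ‖Phi A (iv z)‖ := (abs_le_of_sq_le_sq' h1 (norm_nonneg _)).2
    have h4 : ‖Phi A (iv z)‖ ≤ ‖v‖ + ‖v - Phi A (iv z)‖ := by
      calc ‖Phi A (iv z)‖ = ‖v - (v - Phi A (iv z))‖ := by congr 1; abel
        _ ≤ _ := norm_sub_le _ _
    linarith

theorem VE_subset_ball {A : Matrix ι ι ℝ} (hA : |A.det| = 1) {R : ℝ} (hR : 0 ≤ R)
    (h : ∀ x : ι → ℝ, ∃ z : ι → ℤ, qf (Aᵀ * A) (x - iv z) ≤ R ^ 2) :
    VE A ⊆ closedBall (0 : EuclideanSpace ℝ ι) R := by
  intro v hv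
  rw [mem_closedBall, dist_zero_right]
  have h0 : IsUnit A.det := by
    refine isUnit_iff_ne_zero.2 fun h => ?_
    simp [h] at hA
  obtain ⟨z, hz⟩ := h (A⁻¹ *ᵥ v.ofLp)
  rw [← norm_Phi_sq, Phi_sub] at hz
  have h1 : Phi A (A⁻¹ *ᵥ v.ofLp) = v := by
    ext i; simp [Phi, mulVec_mulVec, mul_nonsing_inv _ h0]
  rw [h1] at hz
  exact (hv z).trans (abs_le_of_sq_le_sq' hz hR).2

/-- critical point condition, matrix form -/
theorem crit_VE_matrix {A : Matrix ι ι ℝ} (hA : |A.det| = 1) (hG : (Aᵀ * A).PosDef) {s : ℝ}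
    (hs : 0 < s)
    (hmin : ∀ᶠ G' in 𝓝 (Aᵀ * A), G'.PosDef → G'.det = 1 → fV s (Aᵀ * A) ≤ fV s G')
    {H : Matrix ι ι ℝ} (hH : H.IsSymm) (htr : H.trace = 0) :
    ∫ v in VE A, qf H v.ofLp * Real.exp (-(Real.pi / s ^ 2) * ‖v‖ ^ 2) = 0 := by
  have hu : IsUnit A.det := by
    refine isUnit_iff_ne_zero.2 fun h => ?_
    simp [h] at hA
  have hdet : (Aᵀ * A).det = 1 := by
    rw [det_mul, det_transpose, ← abs_mul_abs_self, hA, one_mul]
  have hK : (Aᵀ * H * A).IsSymm := by
    rw [IsSymm, transpose_mul, transpose_mul, transpose_transpose, hH.eq, mul_assoc]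
  have htr2 : ((Aᵀ * A)⁻¹ * (Aᵀ * H * A)).trace = 0 := by
    have h1 : (Aᵀ * A)⁻¹ * (Aᵀ * H * A) = A⁻¹ * (H * A) := by
      rw [Matrix.mul_inv_rev, mul_assoc, mul_assoc Aᵀ H A, nonsing_inv_mul_cancel_left]
      rwa [det_transpose]
    rw [h1, ← mul_assoc, trace_mul_comm, ← mul_assoc, mul_nonsing_inv _ hu, one_mul, htr]
  have h := crit_gram hG hdet hs hmin hK htr2
  rw [setIntegral_VE hA]
  simp only [norm_Phi_sq]
  rw [← h]
  refine integral_congr_ae (Eventually.of_forall fun x => ?_)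
  simp only [qf_gram, Phi]

/-- critical point condition, linear map form (hypothesis of WRM5 `crit_max`). -/
theorem crit_VE {A : Matrix ι ι ℝ} (hA : |A.det| = 1) (hG : (Aᵀ * A).PosDef) {s : ℝ}
    (hs : 0 < s)
    (hmin : ∀ᶠ G' in 𝓝 (Aᵀ * A), G'.PosDef → G'.det = 1 → fV s (Aᵀ * A) ≤ fV s G')
    (T : EuclideanSpace ℝ ι →ₗ[ℝ] EuclideanSpace ℝ ι) (hT : T.IsSymmetric)
    (htr : LinearMap.trace ℝ _ T = 0) :
    ∫ v in VE A, inner ℝ v (T v) * Real.exp (-(Real.pi / s ^ 2) * ‖v‖ ^ 2) = 0 := by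
  let b := (EuclideanSpace.basisFun ι ℝ).toBasis
  let H : Matrix ι ι ℝ := LinearMap.toMatrix b b T
  have hbv : ∀ i, b i = EuclideanSpace.single i (1:ℝ) := fun i => by
    simp [b]
  have hHij : ∀ i j, H i j = inner ℝ (b i) (T (b j)) := by
    intro i j
    simp only [H, LinearMap.toMatrix_apply]
    rw [hbv i, EuclideanSpace.inner_single_left]
    simp [b]
  have hHs : H.IsSymm := by
    ext i j
    rw [transpose_apply, hHij, hHij, ← hT, real_inner_comm]
  have hHt : H.trace = 0 := by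
    rw [← htr, LinearMap.trace_eq_matrix_trace ℝ b]
  have h := crit_VE_matrix hA hG hs hmin hHs hHt
  rw [← h]
  refine integral_congr_ae (Eventually.of_forall fun v => ?_)
  simp only
  congr 1
  have hTv : (T v).ofLp = H *ᵥ v.ofLp := by
    have hrepr : ∀ w : EuclideanSpace ℝ ι, (⇑(b.repr w) : ι → ℝ) = w.ofLp := by
      intro w; ext i; simp [b]
    have := LinearMap.toMatrix_mulVec_repr b b T v
    rw [hrepr, hrepr] at this
    exact this.symm
  rw [EuclideanSpace.inner_eq_star_dotProduct, hTv]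
  simp [qf, dotProduct_comm]

end Euclid

end Crest.Agent.R152.WRM4
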