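import Crest.Agent.R152.WRM7B
import Mathlib
import Crest.Agent.Lib.PrekopaLeindler
import Crest.Agent.R152.WRM4e_Mg

-- ▼ part R152/WRM7C
section

/-!
# WRM-7, part C: from the ll*-position to the gaussian measure of the body
-/

set_option autoImplicit false

open MeasureTheory Set Real
open scoped ENNReal Pointwise

namespace Crest.Agent.R152.WRM7

/-- The unit ball of a seminorm. -/
def ub {m : ℕ} (N : Seminorm ℝ (Eu m)) : Set (Eu m) := {x | N x ≤ 1}

/-- The support function of the unit ball. -/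
noncomputable def supf {m : ℕ} (N : Seminorm ℝ (Eu m)) (z : Eu m) : ℝ :=
  sSup ((fun x => inner ℝ x z) '' ub N)

section

variable {m : ℕ} {N : Seminorm ℝ (Eu m)} {a b : ℝ}

lemma zero_mem_ub : (0 : Eu m) ∈ ub N := by simp [ub]

lemma neg_mem_ub {x : Eu m} (hx : x ∈ ub N) : -x ∈ ub N := by
  simpa [ub, map_neg_eq_map] using hx


lemma isClosed_ub (hb : ∀ x, N x ≤ b * ‖x‖) : IsClosed (ub N) :=
  isClosed_le (continuous_of_le N hb) continuous_const

lemma norm_le_of_mem (ha : 0 < a) (hab : ∀ x, a * ‖x‖ ≤ N x) {x : Eu m} (hx : x ∈ ub N) :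
    ‖x‖ ≤ 1 / a := by
  rw [le_div_iff₀ ha]
  have := hab x
  have h2 : N x ≤ 1 := hx
  linarith

lemma isCompact_ub (ha : 0 < a) (hab : ∀ x, a * ‖x‖ ≤ N x) (hb : ∀ x, N x ≤ b * ‖x‖) :
    IsCompact (ub N) := by
  apply Metric.isCompact_of_isClosed_isBounded (isClosed_ub hb)
  rw [isBounded_iff_forall_norm_le]
  exact ⟨1 / a, fun x hx => norm_le_of_mem ha hab hx⟩

lemma inner_le_aux (ha : 0 < a) (hab : ∀ x, a * ‖x‖ ≤ N x) (z : Eu m) {x : Eu m}
    (hx : x ∈ ub N) : inner ℝ x z ≤ (1 / a) * ‖z‖ :=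
  (real_inner_le_norm x z).trans
    (mul_le_mul_of_nonneg_right (norm_le_of_mem ha hab hx) (norm_nonneg z))

lemma bddAbove_aux (ha : 0 < a) (hab : ∀ x, a * ‖x‖ ≤ N x) (z : Eu m) :
    BddAbove ((fun x => inner ℝ x z) '' ub N) := by
  refine ⟨(1 / a) * ‖z‖, ?_⟩
  rintro _ ⟨x, hx, rfl⟩
  exact inner_le_aux ha hab z hx

lemma nonempty_aux (z : Eu m) : ((fun x => inner ℝ x z) '' ub N).Nonempty :=
  ⟨_, 0, zero_mem_ub, rfl⟩

lemma inner_le_supf (ha : 0 < a) (hab : ∀ x, a * ‖x‖ ≤ N x) (z : Eu m) {x : Eu m}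
    (hx : x ∈ ub N) : inner ℝ x z ≤ supf N z :=
  le_csSup (bddAbove_aux ha hab z) ⟨x, hx, rfl⟩

lemma supf_le (ha : 0 < a) (hab : ∀ x, a * ‖x‖ ≤ N x) (z : Eu m) :
    supf N z ≤ (1 / a) * ‖z‖ := by
  apply csSup_le (nonempty_aux z)
  rintro _ ⟨x, hx, rfl⟩
  exact inner_le_aux ha hab z hx

lemma exists_supf (ha : 0 < a) (hab : ∀ x, a * ‖x‖ ≤ N x) (hb : ∀ x, N x ≤ b * ‖x‖) (z : Eu m) :
    ∃ x ∈ ub N, inner ℝ x z = supf N z := by
  obtain ⟨x, hx, hmax⟩ := (isCompact_ub ha hab hb).exists_isMaxOn ⟨0, zero_mem_ub⟩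
    (f := fun x : Eu m => inner ℝ x z) (by fun_prop)
  refine ⟨x, hx, le_antisymm (inner_le_supf ha hab z hx) ?_⟩
  apply csSup_le (nonempty_aux z)
  rintro _ ⟨y, hy, rfl⟩
  exact hmax hy

/-- The support function as a seminorm. -/
noncomputable def supS (N : Seminorm ℝ (Eu m)) {a : ℝ} (ha : 0 < a)
    (hab : ∀ x, a * ‖x‖ ≤ N x) : Seminorm ℝ (Eu m) :=
  Seminorm.ofSMulLE (supf N)
    (by
      have h1 : (fun x : Eu m => inner ℝ x (0 : Eu m)) '' ub N = {0} := by
        ext t
        simp only [inner_zero_right, mem_image, mem_singleton_iff]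
        constructor
        · rintro ⟨x, _, h⟩; exact h.symm
        · rintro rfl; exact ⟨0, zero_mem_ub, rfl⟩
      rw [supf, h1, csSup_singleton])
    (by
      intro x y
      apply csSup_le (nonempty_aux _)
      rintro _ ⟨w, hw, rfl⟩
      simp only
      rw [inner_add_right]
      exact add_le_add (inner_le_supf ha hab x hw) (inner_le_supf ha hab y hw))
    (by
      intro r x
      apply csSup_le (nonempty_aux _)
      rintro _ ⟨w, hw, rfl⟩
      simp only
      rw [inner_smul_right, Real.norm_eq_abs]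
      rcases le_or_gt 0 r with hr | hr
      · rw [abs_of_nonneg hr]
        exact mul_le_mul_of_nonneg_left (inner_le_supf ha hab x hw) hr
      · rw [abs_of_neg hr]
        have h1 := inner_le_supf ha hab x (neg_mem_ub hw)
        rw [inner_neg_left] at h1
        nlinarith)


/-- **Lower bound for the Rademacher average of the support function.** -/
lemma rad_supS_ge (ha : 0 < a) (hab : ∀ x, a * ‖x‖ ≤ N x) (hb : ∀ x, N x ≤ b * ‖x‖)
    (hvol : 1 ≤ volume (ub N)) :
    (m : ℝ) / (4 * Real.pi * Real.sqrt (Real.log (m + 2))) ≤ rad (supS N ha hab) := by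
  have hcomp := isCompact_ub ha hab hb
  have hfin : volume (ub N) ≠ ∞ := hcomp.measure_lt_top.ne
  have hne : volume (ub N) ≠ 0 := (lt_of_lt_of_le one_pos hvol).ne'
  have hSb : ∀ x, supS N ha hab x ≤ (1 / a) * ‖x‖ := fun x => supf_le ha hab x
  have hcont := continuous_of_le (supS N ha hab) hSb
  have h1 := urysohn_pl (W := ub N) hcomp.measurableSet hfin hne (h := supS N ha hab)
    hcont.measurable (R := 1 / a)
    (fun z => by rw [abs_of_nonneg (apply_nonneg _ z)]; exact hSb z)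
    (fun x hx z => inner_le_supf ha hab z hx)
  have hlog : 0 ≤ Real.log (volume (ub N)).toReal := by
    apply Real.log_nonneg
    rw [← ENNReal.toReal_one]
    exact (ENNReal.toReal_le_toReal ENNReal.one_ne_top hfin).mpr hvol
  have h2 := gauss_le (supS N ha hab) hSb
  have hm2 : (1:ℝ) < (m : ℝ) + 2 := by
    have : (0:ℝ) ≤ m := Nat.cast_nonneg m
    linarith
  have hτ0 : 0 < Real.sqrt (Real.log (m + 2)) := Real.sqrt_pos.mpr (Real.log_pos hm2)
  have hp := Real.pi_pos
  rw [div_le_iff₀ (by positivity)]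
  have h3 : 2 * Real.pi * ∫ z, gw z * supS N ha hab z ≤
      2 * Real.pi * (Real.sqrt (Real.log (m + 2)) * rad (supS N ha hab)) :=
    mul_le_mul_of_nonneg_left h2 (by positivity)
  nlinarith

/-- **Upper bound for the gaussian average in the ll*-position.** -/
theorem gauss_avg_le (hm : 0 < m) (ha : 0 < a) (hab : ∀ x, a * ‖x‖ ≤ N x)
    (hb : ∀ x, N x ≤ b * ‖x‖) (hvol : 1 ≤ volume (ub N)) {K : ℝ}
    (hK : ∀ F : (Fin m → Bool) → Eu m, (∀ e, N (F e) ≤ 1) →
      rad N * ((∑ e, inner ℝ (F e) (sgv e)) / 2 ^ m) ≤ m * K) :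
    ∫ z, gw z * N z ≤ 4 * Real.pi * K * Real.log (m + 2) := by
  have hm2 : (1:ℝ) < (m : ℝ) + 2 := by
    have : (0:ℝ) ≤ m := Nat.cast_nonneg m
    linarith
  have hlog : 0 < Real.log (m + 2) := Real.log_pos hm2
  set τ := Real.sqrt (Real.log (m + 2)) with hτ
  have hτ0 : 0 < τ := Real.sqrt_pos.mpr hlog
  have hτ2 : τ ^ 2 = Real.log (m + 2) := Real.sq_sqrt hlog.le
  have hp := Real.pi_pos
  have hm0 : (0 : ℝ) < m := Nat.cast_pos.mpr hm
  choose F hF1 hF2 using fun e : Fin m → Bool => exists_supf ha hab hb (sgv e)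
  have h1 := hK F hF1
  have h2 : (∑ e, inner ℝ (F e) (sgv e)) / 2 ^ m = rad (supS N ha hab) := by
    rw [rad]
    congr 1
    exact Finset.sum_congr rfl fun e _ => hF2 e
  rw [h2] at h1
  have h3 := rad_supS_ge ha hab hb hvol
  rw [← hτ] at h3
  have h4 : rad N * ((m : ℝ) / (4 * Real.pi * τ)) ≤ m * K :=
    (mul_le_mul_of_nonneg_left h3 (rad_nonneg N)).trans h1
  have h5 : rad N ≤ 4 * Real.pi * τ * K := by
    rw [mul_div_assoc', div_le_iff₀ (by positivity)] at h4
    have h6 : (m : ℝ) * rad N ≤ m * (4 * Real.pi * τ * K) := by nlinarith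
    exact le_of_mul_le_mul_left h6 hm0
  have h6 := gauss_le N hb
  rw [← hτ] at h6
  calc ∫ z, gw z * N z ≤ τ * rad N := h6
    _ ≤ τ * (4 * Real.pi * τ * K) := mul_le_mul_of_nonneg_left h5 hτ0.le
    _ = 4 * Real.pi * K * τ ^ 2 := by ring
    _ = _ := by rw [hτ2]

/-- Markov's inequality for the gaussian measure, rescaled. -/
lemma gauss_markov (hb : ∀ x, N x ≤ b * ‖x‖) {s : ℝ} (hs : 0 < s) :
    (1 - s * ∫ z, gw z * N z) * s ^ m ≤
      ∫ x in ub N, Real.exp (-(Real.pi / s ^ 2) * ‖x‖ ^ 2) := by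
  have hmeas : MeasurableSet (ub N) := (isClosed_ub hb).measurableSet
  set F : Eu m → ℝ := (ub N).indicator (fun x => Real.exp (-(Real.pi / s ^ 2) * ‖x‖ ^ 2)) with hF
  have h1 : ∫ x in ub N, Real.exp (-(Real.pi / s ^ 2) * ‖x‖ ^ 2) = ∫ x, F x := by
    rw [hF, integral_indicator hmeas]
  have h2 := Measure.integral_comp_smul (volume : Measure (Eu m)) F s
  rw [finrank_euclideanSpace, Fintype.card_fin, abs_of_pos (by positivity), smul_eq_mul] at h2
  have hFs : ∀ z : Eu m, F (s • z) = if N (s • z) ≤ 1 then gw z else 0 := by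
    intro z
    rw [hF]
    by_cases h : N (s • z) ≤ 1
    · rw [if_pos h, Set.indicator_of_mem (show s • z ∈ ub N from h), gw, norm_smul,
        Real.norm_of_nonneg hs.le]
      congr 1
      field_simp
    · rw [if_neg h, Set.indicator_of_notMem (show ¬ s • z ∈ ub N from h)]
  have h3 : ∀ z : Eu m, gw z - s * (gw z * N z) ≤ F (s • z) := by
    intro z
    rw [hFs, map_smul_eq_mul, Real.norm_of_nonneg hs.le]
    have hg := gw_pos z
    have hn : 0 ≤ N z := apply_nonneg N z
    split_ifs with h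
    · have : 0 ≤ s * (gw z * N z) := by positivity
      linarith
    · push Not at h
      nlinarith
  have hI0 : Integrable (fun z : Eu m => gw z) := integrable_exp_neg (m := m) Real.pi_pos
  have hI1 : Integrable (fun z : Eu m => s * (gw z * N z)) := (integrable_gw_sn N hb).const_mul s
  have hFsm : Measurable (fun z : Eu m => F (s • z)) := by
    have : Measurable F := by
      apply Measurable.indicator _ hmeas
      fun_prop
    exact this.comp (measurable_const_smul s)
  have hI2 : Integrable (fun z : Eu m => F (s • z)) := by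
    refine hI0.mono' hFsm.aestronglyMeasurable (Filter.Eventually.of_forall fun z => ?_)
    rw [hFs]
    split_ifs with h
    · rw [Real.norm_of_nonneg (gw_pos z).le]
    · simpa using (gw_pos z).le
  have h4 : ∫ z : Eu m, (gw z - s * (gw z * N z)) ≤ ∫ z : Eu m, F (s • z) :=
    integral_mono (hI0.sub hI1) hI2 h3
  rw [integral_sub hI0 hI1, integral_const_mul, integral_gw, h2] at h4
  rw [h1]
  have hsm : 0 < s ^ m := by positivity
  calc (1 - s * ∫ z, gw z * N z) * s ^ m ≤ ((s ^ m)⁻¹ * ∫ x, F x) * s ^ m :=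
        mul_le_mul_of_nonneg_right h4 hsm.le
    _ = ∫ x, F x := by field_simp

/-- **Output of (7.3)**: the gaussian measure of the unit ball in the ll*-position. -/
theorem gauss_ball_ge (hm : 0 < m) (ha : 0 < a) (hab : ∀ x, a * ‖x‖ ≤ N x)
    (hb : ∀ x, N x ≤ b * ‖x‖) (hvol : 1 ≤ volume (ub N)) {K : ℝ}
    (hK : ∀ F : (Fin m → Bool) → Eu m, (∀ e, N (F e) ≤ 1) →
      rad N * ((∑ e, inner ℝ (F e) (sgv e)) / 2 ^ m) ≤ m * K) {s : ℝ} (hs : 0 < s) :
    (1 - s * (4 * Real.pi * K * Real.log (m + 2))) * s ^ m ≤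
      ∫ x in ub N, Real.exp (-(Real.pi / s ^ 2) * ‖x‖ ^ 2) := by
  refine le_trans ?_ (gauss_markov hb hs)
  apply mul_le_mul_of_nonneg_right _ (by positivity)
  have := mul_le_mul_of_nonneg_left (gauss_avg_le hm ha hab hb hvol hK) hs.le
  linarith

end

end Crest.Agent.R152.WRM7
end

-- ▼ part R152/WRM5d
section

/-!
# Row 152, module WRM-5, part (5.4): from diagonal deformations to all `|det A| = 1`.

`DiagMax m c` is the statement of (5.3).
-/

set_option autoImplicit false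

open MeasureTheory Set Filter Topology
open scoped ENNReal NNReal RealInnerProductSpace

noncomputable section

namespace Crest.Agent.R152

/-- the statement of (5.3). -/
def DiagMax (m : ℕ) (c : ℝ) : Prop :=
  ∀ (W : Set (EuclideanSpace ℝ (Fin m))), MeasurableSet W → Convex ℝ W → (∀ x ∈ W, -x ∈ W) →
    Bornology.IsBounded W → ∀ h : Fin m → ℝ,
    (∫ x in W, (∑ i, h i * x i ^ 2) * Real.exp (-c * ‖x‖ ^ 2)) = 0 →
    ∫ x in W, Real.exp (-c * ∑ i, Real.exp (2 * h i) * x i ^ 2) ≤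
      ∫ x in W, Real.exp (-c * ‖x‖ ^ 2)

theorem inner_diag {m : ℕ} (h : Fin m → ℝ) (x y : EuclideanSpace ℝ (Fin m)) :
    ⟪x, Matrix.toEuclideanLin (Matrix.diagonal h) y⟫ = ∑ i, h i * (x i * y i) := by
  rw [PiLp.inner_apply]
  refine Finset.sum_congr rfl fun i _ => ?_
  rw [Matrix.toLpLin_apply]
  simp only [Matrix.mulVec_diagonal]
  simp
  ring

theorem crit_max_of_diag {m : ℕ} {c : ℝ} (hdiag : DiagMax m c)
    {W : Set (EuclideanSpace ℝ (Fin m))} (hWm : MeasurableSet W) (hWc : Convex ℝ W)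
    (hWs : ∀ x ∈ W, -x ∈ W) (hWb : Bornology.IsBounded W)
    (hcrit : ∀ H : EuclideanSpace ℝ (Fin m) →ₗ[ℝ] EuclideanSpace ℝ (Fin m), H.IsSymmetric →
      LinearMap.trace ℝ _ H = 0 → ∫ x in W, ⟪x, H x⟫ * Real.exp (-c * ‖x‖ ^ 2) = 0)
    (A : EuclideanSpace ℝ (Fin m) →ₗ[ℝ] EuclideanSpace ℝ (Fin m))
    (hA : |LinearMap.det A| = 1) :
    ∫ x in W, Real.exp (-c * ‖A x‖ ^ 2) ≤ ∫ x in W, Real.exp (-c * ‖x‖ ^ 2) := by
  set S : EuclideanSpace ℝ (Fin m) →ₗ[ℝ] EuclideanSpace ℝ (Fin m) :=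
    LinearMap.adjoint A ∘ₗ A with hS
  have hSs : S.IsSymmetric := by
    intro x y
    simp only [hS, LinearMap.comp_apply]
    rw [LinearMap.adjoint_inner_left, LinearMap.adjoint_inner_right]
  have hSx : ∀ x, ⟪x, S x⟫ = ‖A x‖ ^ 2 := by
    intro x
    simp only [hS, LinearMap.comp_apply]
    rw [LinearMap.adjoint_inner_right, real_inner_self_eq_norm_sq]
  have hn : Module.finrank ℝ (EuclideanSpace ℝ (Fin m)) = m := by simp
  set b := hSs.eigenvectorBasis hn with hb
  set μ : Fin m → ℝ := hSs.eigenvalues hn with hμ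
  have hSb : ∀ i, S (b i) = μ i • b i := by
    intro i
    exact hSs.apply_eigenvectorBasis hn i
  have hSr : ∀ v i, b.repr (S v) i = μ i * b.repr v i := fun v i =>
    hSs.eigenvectorBasis_apply_self_apply hn v i
  have hdetA : LinearMap.det A ≠ 0 := by
    intro h0
    rw [h0] at hA
    simp at hA
  have hAinj : Function.Injective A := by
    have := (LinearMap.equivOfDetNeZero A hdetA).injective
    exact this
  have hμpos : ∀ i, 0 < μ i := by
    intro i
    have h1 : ⟪b i, S (b i)⟫ = μ i := by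
      rw [hSb, inner_smul_right, real_inner_self_eq_norm_sq, b.norm_eq_one]
      simp
    rw [← h1, hSx]
    have hne : A (b i) ≠ 0 := by
      intro h0
      have : b i = 0 := hAinj (by rw [h0, map_zero])
      have hn1 := b.norm_eq_one i
      rw [this, norm_zero] at hn1
      exact zero_ne_one hn1
    positivity
  have hprod : ∏ i, μ i = 1 := by
    have h1 : LinearMap.det S = ∏ i, μ i := by
      simpa using hSs.det_eq_prod_eigenvalues hn
    have h2 := A.normDet_sq
    rw [A.normDet_eq_norm_det, Real.norm_eq_abs, hA] at h2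
    rw [← h1, hS, ← h2]
    simp
  set h : Fin m → ℝ := fun i => Real.log (μ i) / 2 with hh
  have hexp : ∀ i, Real.exp (2 * h i) = μ i := by
    intro i
    simp only [hh]
    rw [mul_div_cancel₀ _ (two_ne_zero), Real.exp_log (hμpos i)]
  have hsum : ∑ i, h i = 0 := by
    simp only [hh]
    rw [← Finset.sum_div, ← Real.log_prod (fun i _ => (hμpos i).ne'), hprod]
    simp
  set U := b.repr.symm with hU
  have hmp : MeasurePreserving U := U.measurePreserving
  have hemb : MeasurableEmbedding U := U.toMeasurableEquiv.measurableEmbedding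
  have hcv : ∀ F : EuclideanSpace ℝ (Fin m) → ℝ, ∫ y in U ⁻¹' W, F (U y) = ∫ x in W, F x :=
    fun F => hmp.setIntegral_preimage_emb hemb F W
  have hW'm : MeasurableSet (U ⁻¹' W) := hmp.measurable hWm
  have hW'c : Convex ℝ (U ⁻¹' W) := hWc.linear_preimage U.toLinearMap
  have hW's : ∀ x ∈ U ⁻¹' W, -x ∈ U ⁻¹' W := by
    intro x hx
    have := hWs _ hx
    rw [mem_preimage, map_neg]
    exact this
  have hW'b : Bornology.IsBounded (U ⁻¹' W) := by
    rw [show U ⁻¹' W = U.symm '' W from (U.toEquiv.image_symm_eq_preimage W).symm]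
    exact (U.symm.lipschitz.isBounded_image hWb)
  have hAU : ∀ y, ‖A (U y)‖ ^ 2 = ∑ i, Real.exp (2 * h i) * y i ^ 2 := by
    intro y
    rw [← hSx, ← b.repr.inner_map_map, PiLp.inner_apply]
    refine Finset.sum_congr rfl fun i _ => ?_
    rw [hSr, hexp]
    simp [hU]
    ring
  have key := hdiag (U ⁻¹' W) hW'm hW'c hW's hW'b h ?_
  · rw [← hcv, ← hcv (fun x => Real.exp (-c * ‖x‖ ^ 2))]
    simp only [hAU, LinearIsometryEquiv.norm_map]
    exact key
  · set H : EuclideanSpace ℝ (Fin m) →ₗ[ℝ] EuclideanSpace ℝ (Fin m) :=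
      U.toLinearMap ∘ₗ Matrix.toEuclideanLin (Matrix.diagonal h) ∘ₗ U.symm.toLinearMap with hH
    have hHi : ∀ x y, ⟪x, H y⟫ = ∑ i, h i * (U.symm x i * U.symm y i) := by
      intro x y
      rw [← inner_diag, ← U.symm.inner_map_map x (H y)]
      simp [hH]
    have hHs : H.IsSymmetric := by
      intro x y
      rw [real_inner_comm, hHi, hHi]
      refine Finset.sum_congr rfl fun i _ => ?_
      ring
    have hHt : LinearMap.trace ℝ _ H = 0 := by
      have : H = U.toLinearEquiv.conj (Matrix.toEuclideanLin (Matrix.diagonal h)) := by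
        ext x
        simp [hH, LinearEquiv.conj_apply]
      rw [this, LinearMap.trace_conj']
      have : LinearMap.trace ℝ _ (Matrix.toEuclideanLin (Matrix.diagonal h)) =
          ∑ i, h i := by
        rw [LinearMap.trace_eq_sum_inner _ (EuclideanSpace.basisFun (Fin m) ℝ)]
        refine Finset.sum_congr rfl fun i _ => ?_
        rw [inner_diag]
        simp
      rw [this, hsum]
    have := hcrit H hHs hHt
    rw [← hcv] at this
    rw [← this]
    refine integral_congr_ae (Eventually.of_forall fun y => ?_)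
    simp only
    rw [hHi, LinearIsometryEquiv.norm_map]
    simp [pow_two]


end Crest.Agent.R152
end
end

-- ▼ part R152/WrmB1
section

/-!
# Row 152, weak reverse Minkowski, step (5) part 1

Directional variance of a Gaussian restricted to a symmetric convex set.
-/

set_option autoImplicit false

open MeasureTheory Set
open scoped ENNReal

namespace Crest.Agent.R152.WrmB

variable {m : ℕ}

/-- weighted square norm -/
def wsq (a x : Fin m → ℝ) : ℝ := ∑ i, a i * x i ^ 2

lemma continuous_wsq (a : Fin m → ℝ) : Continuous (wsq a) := by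
  unfold wsq; fun_prop

lemma intOn {K : Set (Fin m → ℝ)} (hK : Bornology.IsBounded K) {f : (Fin m → ℝ) → ℝ}
    (hf : Continuous f) : IntegrableOn f K :=
  (hf.continuousOn.integrableOn_compact hK.isCompact_closure).mono_set subset_closure

lemma wsq_neg (a x : Fin m → ℝ) : wsq a (-x) = wsq a x := by
  simp [wsq]

lemma wsq_mid (a : Fin m → ℝ) (ha : ∀ i, 0 ≤ a i) (x y : Fin m → ℝ) :
    wsq a ((1 - (1/2:ℝ)) • x + (1/2:ℝ) • y) ≤ (wsq a x + wsq a y) / 2 := by
  unfold wsq
  rw [← Finset.sum_add_distrib, Finset.sum_div]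
  refine Finset.sum_le_sum fun i _ => ?_
  have := ha i
  simp only [Pi.add_apply, Pi.smul_apply, smul_eq_mul]
  nlinarith [mul_nonneg this (sq_nonneg (x i - y i))]

/-- Shifted Gaussian mass of a symmetric convex set is maximal at the centre. -/
lemma shift_le {K : Set (Fin m → ℝ)} (hKm : MeasurableSet K) (hKc : Convex ℝ K)
    (hKs : ∀ x ∈ K, -x ∈ K) {c : ℝ} (hc : 0 ≤ c) (a : Fin m → ℝ) (ha : ∀ i, 0 ≤ a i)
    (e : Fin m → ℝ) :
    ∫⁻ x in K, ENNReal.ofReal (Real.exp (-c * wsq a (x - e)))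
      ≤ ∫⁻ x in K, ENNReal.ofReal (Real.exp (-c * wsq a x)) := by
  have hmeas : ∀ e : Fin m → ℝ, Measurable (K.indicator
      fun x => ENNReal.ofReal (Real.exp (-c * wsq a (x - e)))) := by
    intro e
    refine Measurable.indicator ?_ hKm
    have : Continuous fun x : Fin m → ℝ => Real.exp (-c * wsq a (x - e)) := by
      have := continuous_wsq a
      fun_prop
    exact this.measurable.ennreal_ofReal
  have key := Crest.Agent.Lib.PrekopaLeindler.PL_pi m (1/2) (by norm_num) (by norm_num)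
    (K.indicator fun x => ENNReal.ofReal (Real.exp (-c * wsq a (x - e))))
    (K.indicator fun x => ENNReal.ofReal (Real.exp (-c * wsq a (x - (-e)))))
    (K.indicator fun x => ENNReal.ofReal (Real.exp (-c * wsq a (x - 0))))
    (hmeas e) (hmeas (-e)) (hmeas 0) (by
      intro x y
      by_cases hx : x ∈ K
      · by_cases hy : y ∈ K
        · have hz : (1 - (1/2:ℝ)) • x + (1/2:ℝ) • y ∈ K := hKc hx hy (by norm_num) (by norm_num)
            (by norm_num)
          rw [indicator_of_mem hx, indicator_of_mem hy, indicator_of_mem hz]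
          rw [ENNReal.ofReal_rpow_of_pos (Real.exp_pos _), ENNReal.ofReal_rpow_of_pos
            (Real.exp_pos _), ← ENNReal.ofReal_mul (by positivity)]
          refine ENNReal.ofReal_le_ofReal ?_
          rw [← Real.exp_mul, ← Real.exp_mul, ← Real.exp_add]
          refine Real.exp_le_exp.mpr ?_
          have h1 := wsq_mid a ha (x - e) (y - (-e))
          have h2 : (1 - (1/2:ℝ)) • (x - e) + (1/2:ℝ) • (y - (-e))
              = ((1 - (1/2:ℝ)) • x + (1/2:ℝ) • y) - 0 := by
            ext i; simp; ring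
          rw [h2] at h1
          nlinarith [mul_le_mul_of_nonneg_left h1 hc]
        · rw [indicator_of_notMem hy, ENNReal.zero_rpow_of_pos (by norm_num), mul_zero]
          exact bot_le
      · rw [indicator_of_notMem hx, ENNReal.zero_rpow_of_pos (by norm_num), zero_mul]
        exact bot_le)
  rw [lintegral_indicator hKm, lintegral_indicator hKm, lintegral_indicator hKm] at key
  have hsym : ∫⁻ x in K, ENNReal.ofReal (Real.exp (-c * wsq a (x - (-e))))
      = ∫⁻ x in K, ENNReal.ofReal (Real.exp (-c * wsq a (x - e))) := by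
    rw [← lintegral_indicator hKm, ← lintegral_indicator hKm,
      ← lintegral_neg_eq_self (μ := (volume : Measure (Fin m → ℝ)))]
    refine lintegral_congr fun x => ?_
    by_cases hx : x ∈ K
    · rw [indicator_of_mem hx, indicator_of_mem (hKs x hx)]
      have h3 : wsq a (-x - -e) = wsq a (x - e) := by
        rw [← wsq_neg a (x - e)]
        congr 1
        ext i; simp; ring
      rw [h3]
    · have : -x ∉ K := fun h => hx (by simpa using hKs _ h)
      rw [indicator_of_notMem hx, indicator_of_notMem this]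
  rw [hsym] at key
  simp only [sub_zero] at key
  set G := ∫⁻ x in K, ENNReal.ofReal (Real.exp (-c * wsq a (x - e))) with hG
  have hGG : G ^ (1 - (1/2:ℝ)) * G ^ (1/2:ℝ) = G := by
    rw [← ENNReal.rpow_add_of_nonneg _ _ (by norm_num) (by norm_num)]
    norm_num
  rwa [hGG] at key

/-- Expansion of the shifted weighted norm. -/
lemma wsq_sub (a x e : Fin m → ℝ) :
    wsq a (x - e) = wsq a x - 2 * (∑ i, a i * x i * e i) + wsq a e := by
  unfold wsq
  rw [Finset.mul_sum, ← Finset.sum_sub_distrib, ← Finset.sum_add_distrib]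
  refine Finset.sum_congr rfl fun i _ => ?_
  simp only [Pi.sub_apply]; ring

/-- Real form of `shift_le`. -/
lemma shift_le_real {K : Set (Fin m → ℝ)} (hKm : MeasurableSet K) (hKc : Convex ℝ K)
    (hKs : ∀ x ∈ K, -x ∈ K) (hKb : Bornology.IsBounded K) {c : ℝ} (hc : 0 ≤ c)
    (a : Fin m → ℝ) (ha : ∀ i, 0 ≤ a i) (e : Fin m → ℝ) :
    ∫ x in K, Real.exp (-c * wsq a (x - e)) ≤ ∫ x in K, Real.exp (-c * wsq a x) := by
  have hcont : ∀ e : Fin m → ℝ, Continuous fun x : Fin m → ℝ => Real.exp (-c * wsq a (x - e)) := by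
    intro e
    have := continuous_wsq a
    fun_prop
  have h := shift_le hKm hKc hKs hc a ha e
  have h0 := hcont 0
  simp only [sub_zero] at h0
  rw [← ofReal_integral_eq_lintegral_ofReal (intOn hKb (hcont e))
      (Filter.Eventually.of_forall fun x => (Real.exp_pos _).le),
    ← ofReal_integral_eq_lintegral_ofReal (intOn hKb h0)
      (Filter.Eventually.of_forall fun x => (Real.exp_pos _).le)] at h
  rwa [ENNReal.ofReal_le_ofReal_iff (integral_nonneg fun x => (Real.exp_pos _).le)] at h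

/-- Exponential moment form: `E cosh` bound. -/
lemma cosh_le {K : Set (Fin m → ℝ)} (hKm : MeasurableSet K) (hKc : Convex ℝ K)
    (hKs : ∀ x ∈ K, -x ∈ K) (hKb : Bornology.IsBounded K) {c : ℝ} (hc : 0 ≤ c)
    (a : Fin m → ℝ) (ha : ∀ i, 0 ≤ a i) (e : Fin m → ℝ) :
    ∫ x in K, Real.cosh (2 * c * ∑ i, a i * x i * e i) * Real.exp (-c * wsq a x)
      ≤ Real.exp (c * wsq a e) * ∫ x in K, Real.exp (-c * wsq a x) := by
  have hcw := continuous_wsq a
  have h1 := shift_le_real hKm hKc hKs hKb hc a ha e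
  have h2 := shift_le_real hKm hKc hKs hKb hc a ha (-e)
  have i1 : IntegrableOn (fun x => Real.exp (-c * wsq a (x - e))) K := intOn hKb (by fun_prop)
  have i2 : IntegrableOn (fun x => Real.exp (-c * wsq a (x - (-e)))) K := intOn hKb (by fun_prop)
  have h3 : ∫ x in K, Real.cosh (2 * c * ∑ i, a i * x i * e i) * Real.exp (-c * wsq a x)
      = Real.exp (c * wsq a e) * (∫ x in K, (Real.exp (-c * wsq a (x - e))
        + Real.exp (-c * wsq a (x - (-e)))) / 2) := by
    rw [← integral_const_mul]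
    refine integral_congr_ae (Filter.Eventually.of_forall fun x => ?_)
    simp only
    have e1 := wsq_sub a x e
    have e2 := wsq_sub a x (-e)
    have e3 : ∑ i, a i * x i * (-e) i = - ∑ i, a i * x i * e i := by
      rw [← Finset.sum_neg_distrib]; exact Finset.sum_congr rfl fun i _ => by simp
    rw [e3, wsq_neg] at e2
    rw [Real.cosh_eq, e1, e2]
    set s := ∑ i, a i * x i * e i
    have f1 : Real.exp (c * wsq a e) * Real.exp (-c * (wsq a x - 2 * s + wsq a e))
        = Real.exp (2 * c * s) * Real.exp (-c * wsq a x) := by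
      rw [← Real.exp_add, ← Real.exp_add]; congr 1; ring
    have f2 : Real.exp (c * wsq a e) * Real.exp (-c * (wsq a x - 2 * (-s) + wsq a e))
        = Real.exp (-(2 * c * s)) * Real.exp (-c * wsq a x) := by
      rw [← Real.exp_add, ← Real.exp_add]; congr 1; ring
    have f3 : Real.exp (c * wsq a e) * ((Real.exp (-c * (wsq a x - 2 * s + wsq a e))
        + Real.exp (-c * (wsq a x - 2 * (-s) + wsq a e))) / 2)
        = (Real.exp (c * wsq a e) * Real.exp (-c * (wsq a x - 2 * s + wsq a e))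
          + Real.exp (c * wsq a e) * Real.exp (-c * (wsq a x - 2 * (-s) + wsq a e))) / 2 := by
      ring
    rw [f3, f1, f2]
    ring
  rw [h3]
  refine mul_le_mul_of_nonneg_left ?_ (Real.exp_pos _).le
  rw [integral_div, integral_add i1 i2]
  linarith

lemma one_add_sq_half_le_cosh (x : ℝ) : 1 + x ^ 2 / 2 ≤ Real.cosh x := by
  have key : ∀ y : ℝ, 0 ≤ y → 1 + y ^ 2 / 2 ≤ Real.cosh y := by
    intro y hy
    have h1 : Real.cosh y = 1 + 2 * Real.sinh (y / 2) ^ 2 := by
      have h := Real.cosh_two_mul (y / 2)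
      have h' := Real.cosh_sq (y / 2)
      rw [show 2 * (y / 2) = y by ring] at h
      rw [h, h']; ring
    have h2 : y / 2 ≤ Real.sinh (y / 2) := Real.self_le_sinh_iff.mpr (by linarith)
    rw [h1]
    nlinarith [h2, hy]
  rcases le_total 0 x with hx | hx
  · exact key x hx
  · have := key (-x) (by linarith)
    rw [Real.cosh_neg] at this
    nlinarith [this]

/-- **Directional variance bound** for a Gaussian restricted to a symmetric convex set. -/
theorem dirVar {K : Set (Fin m → ℝ)} (hKm : MeasurableSet K) (hKc : Convex ℝ K)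
    (hKs : ∀ x ∈ K, -x ∈ K) (hKb : Bornology.IsBounded K) {c : ℝ} (hc : 0 < c)
    (a : Fin m → ℝ) (ha : ∀ i, 0 ≤ a i) (e : Fin m → ℝ) :
    ∫ x in K, (∑ i, a i * x i * e i) ^ 2 * Real.exp (-c * wsq a x)
      ≤ wsq a e / (2 * c) * ∫ x in K, Real.exp (-c * wsq a x) := by
  have hcw := continuous_wsq a
  set J := ∫ x in K, Real.exp (-c * wsq a x) with hJ
  set I := ∫ x in K, (∑ i, a i * x i * e i) ^ 2 * Real.exp (-c * wsq a x) with hI
  have hJ0 : 0 ≤ J := integral_nonneg fun x => (Real.exp_pos _).le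
  have hwe : 0 ≤ wsq a e := Finset.sum_nonneg fun i _ => mul_nonneg (ha i) (sq_nonneg _)
  have iJ : IntegrableOn (fun x => Real.exp (-c * wsq a x)) K := intOn hKb (by fun_prop)
  have iI : IntegrableOn (fun x => (∑ i, a i * x i * e i) ^ 2 * Real.exp (-c * wsq a x)) K :=
    intOn hKb (by fun_prop)
  -- inequality for each small `τ`
  have key : ∀ τ : ℝ, 0 < τ → 2 * c ^ 2 * I ≤ (Real.exp (c * wsq a e * τ ^ 2) - 1) / τ ^ 2 * J := by
    intro τ hτ
    have h := cosh_le hKm hKc hKs hKb hc.le a ha (τ • e)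
    have hw : wsq a (τ • e) = wsq a e * τ ^ 2 := by
      unfold wsq; rw [Finset.sum_mul]
      exact Finset.sum_congr rfl fun i _ => by simp only [Pi.smul_apply, smul_eq_mul]; ring
    have hs : ∀ x : Fin m → ℝ, ∑ i, a i * x i * (τ • e) i = τ * ∑ i, a i * x i * e i := by
      intro x
      rw [Finset.mul_sum]
      exact Finset.sum_congr rfl fun i _ => by simp only [Pi.smul_apply, smul_eq_mul]; ring
    rw [hw] at h
    have h4 : ∫ x in K, ((1 + 2 * c ^ 2 * τ ^ 2 * (∑ i, a i * x i * e i) ^ 2)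
          * Real.exp (-c * wsq a x))
        ≤ ∫ x in K, Real.cosh (2 * c * ∑ i, a i * x i * (τ • e) i) * Real.exp (-c * wsq a x) := by
      refine setIntegral_mono (intOn hKb (by fun_prop)) (intOn hKb (by fun_prop)) ?_
      intro x
      simp only
      refine mul_le_mul_of_nonneg_right ?_ (Real.exp_pos _).le
      rw [hs x]
      have := one_add_sq_half_le_cosh (2 * c * (τ * ∑ i, a i * x i * e i))
      nlinarith [this]
    have h5 : ∫ x in K, ((1 + 2 * c ^ 2 * τ ^ 2 * (∑ i, a i * x i * e i) ^ 2)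
          * Real.exp (-c * wsq a x)) = J + 2 * c ^ 2 * τ ^ 2 * I := by
      rw [hJ, hI, ← integral_const_mul, ← integral_add iJ (iI.const_mul _)]
      refine integral_congr_ae (Filter.Eventually.of_forall fun x => ?_)
      simp only; ring
    have h6 : J + 2 * c ^ 2 * τ ^ 2 * I ≤ Real.exp (c * (wsq a e * τ ^ 2)) * J := by
      rw [← h5]; exact h4.trans h
    have hτ2 : 0 < τ ^ 2 := by positivity
    rw [div_mul_eq_mul_div, le_div_iff₀ hτ2]
    rw [mul_assoc c]
    nlinarith [h6]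
  have hlim : Filter.Tendsto (fun τ : ℝ => (Real.exp (c * wsq a e * τ ^ 2) - 1) / τ ^ 2 * J)
      (nhdsWithin 0 (Ioi 0)) (nhds (c * wsq a e * J)) := by
    have hd : HasDerivAt (fun u : ℝ => Real.exp (c * wsq a e * u)) (c * wsq a e) 0 := by
      have := ((hasDerivAt_id (0:ℝ)).const_mul (c * wsq a e)).exp
      simpa using this
    have h7 := hd.tendsto_slope_zero_right
    have h8 : Filter.Tendsto (fun τ : ℝ => τ ^ 2) (nhdsWithin 0 (Ioi 0)) (nhdsWithin 0 (Ioi 0)) := by
      refine tendsto_nhdsWithin_iff.mpr ⟨?_, ?_⟩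
      · have : Filter.Tendsto (fun τ : ℝ => τ ^ 2) (nhds 0) (nhds (0 ^ 2)) :=
          (continuous_pow 2).tendsto 0
        rw [zero_pow (by norm_num)] at this
        exact this.mono_left nhdsWithin_le_nhds
      · filter_upwards [self_mem_nhdsWithin] with τ hτ
        have : (0:ℝ) < τ := hτ
        exact pow_pos this 2
    have h9 := (h7.comp h8).mul_const J
    refine h9.congr fun τ => ?_
    simp [smul_eq_mul, div_eq_inv_mul]
  have h10 : 2 * c ^ 2 * I ≤ c * wsq a e * J :=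
    ge_of_tendsto hlim (by filter_upwards [self_mem_nhdsWithin] with τ hτ using key τ hτ)
  rw [div_mul_eq_mul_div, le_div_iff₀ (by positivity)]
  have : c * (I * (2 * c)) ≤ c * (wsq a e * J) := by nlinarith [h10]
  exact le_of_mul_le_mul_left this hc

end Crest.Agent.R152.WrmB
end

-- ▼ part R152/WrmB2
section

/-!
# Row 152, weak reverse Minkowski, step (5) part 2

Variance of a quadratic form under a Gaussian restricted to a symmetric convex set.
-/

set_option autoImplicit false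

open MeasureTheory Set
open scoped ENNReal

namespace Crest.Agent.R152.WrmB

variable {m : ℕ}

lemma lint_scale {F : (Fin m → ℝ) → ℝ≥0∞} (hF : Measurable F) :
    ∫⁻ y, F y = 2 ^ m * ∫⁻ v : Fin m → ℝ, F ((2:ℝ) • v) := by
  have h := Measure.map_addHaar_smul (volume : Measure (Fin m → ℝ)) (r := 2) (by norm_num)
  have h1 : ∫⁻ v : Fin m → ℝ, F ((2:ℝ) • v) = ∫⁻ y, F y ∂(Measure.map (fun v => (2:ℝ) • v) volume) := by
    rw [lintegral_map hF (by fun_prop)]
  have h' : Measure.map (fun v : Fin m → ℝ => (2:ℝ) • v) volume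
      = ENNReal.ofReal |((2:ℝ) ^ m)⁻¹| • volume := by
    have := h
    simp only [Module.finrank_fintype_fun_eq_card, Fintype.card_fin] at this
    exact this
  rw [h1, h', lintegral_smul_measure, smul_eq_mul, ← mul_assoc]
  have : (2:ℝ≥0∞) ^ m * ENNReal.ofReal |((2:ℝ) ^ m)⁻¹| = 1 := by
    rw [abs_of_pos (by positivity), ENNReal.ofReal_inv_of_pos (by positivity),
      ENNReal.ofReal_pow (by norm_num)]
    simp only [ENNReal.ofReal_ofNat]
    exact ENNReal.mul_inv_cancel (by simp) (by simp)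
  rw [this, one_mul]

lemma lint_rot {F : (Fin m → ℝ) → (Fin m → ℝ) → ℝ≥0∞} (hF : Measurable (Function.uncurry F)) :
    ∫⁻ x, ∫⁻ y, F x y = 2 ^ m * ∫⁻ u, ∫⁻ v, F (u + v) (u - v) := by
  have h1 : ∀ x, ∫⁻ y, F x y = 2 ^ m * ∫⁻ v : Fin m → ℝ, F x (x - (2:ℝ) • v) := by
    intro x
    have hx : Measurable fun y => F x y := hF.comp measurable_prodMk_left
    rw [← lintegral_sub_left_eq_self (fun y => F x y) x]
    exact lint_scale (F := fun y => F x (x - y)) (hx.comp (by fun_prop))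
  have hm1 : Measurable (Function.uncurry fun (x v : Fin m → ℝ) => F x (x - (2:ℝ) • v)) := by
    exact hF.comp (f := fun p : (Fin m → ℝ) × (Fin m → ℝ) => (p.1, p.1 - (2:ℝ) • p.2)) (by fun_prop)
  have hm2 : Measurable (Function.uncurry fun (v u : Fin m → ℝ) => F (u + v) (u - v)) := by
    exact hF.comp (f := fun p : (Fin m → ℝ) × (Fin m → ℝ) => (p.2 + p.1, p.2 - p.1)) (by fun_prop)
  calc ∫⁻ x, ∫⁻ y, F x y = ∫⁻ x, 2 ^ m * ∫⁻ v : Fin m → ℝ, F x (x - (2:ℝ) • v) := by
        simp_rw [h1]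
    _ = 2 ^ m * ∫⁻ x, ∫⁻ v : Fin m → ℝ, F x (x - (2:ℝ) • v) := by
        exact lintegral_const_mul _ hm1.lintegral_prod_right'
    _ = 2 ^ m * ∫⁻ v, ∫⁻ x : Fin m → ℝ, F x (x - (2:ℝ) • v) := by
        rw [lintegral_lintegral_swap hm1.aemeasurable]
    _ = 2 ^ m * ∫⁻ v, ∫⁻ u : Fin m → ℝ, F (u + v) (u - v) := by
        congr 1
        refine lintegral_congr fun v => ?_
        rw [← lintegral_add_right_eq_self _ v]
        refine lintegral_congr fun u => ?_
        congr 1
        ext i; simp; ring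
    _ = _ := by
        rw [lintegral_lintegral_swap hm2.aemeasurable]

/-- `q`-form: `∑ h i * a i * x i ^ 2`. -/
def qf (h a x : Fin m → ℝ) : ℝ := ∑ i, h i * a i * x i ^ 2

lemma continuous_qf (h a : Fin m → ℝ) : Continuous (qf h a) := by
  unfold qf; fun_prop

lemma qf_add_sub (h a u v : Fin m → ℝ) :
    qf h a (u + v) - qf h a (u - v) = 4 * ∑ i, a i * v i * (h i * u i) := by
  unfold qf
  rw [Finset.mul_sum, ← Finset.sum_sub_distrib]
  refine Finset.sum_congr rfl fun i _ => ?_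
  simp only [Pi.add_apply, Pi.sub_apply]; ring

lemma wsq_add_sub (a u v : Fin m → ℝ) :
    wsq a (u + v) + wsq a (u - v) = 2 * wsq a u + 2 * wsq a v := by
  unfold wsq
  rw [Finset.mul_sum, Finset.mul_sum, ← Finset.sum_add_distrib, ← Finset.sum_add_distrib]
  refine Finset.sum_congr rfl fun i _ => ?_
  simp only [Pi.add_apply, Pi.sub_apply]; ring

/-- Lintegral form of `dirVar`. -/
lemma dirVar_lint {K : Set (Fin m → ℝ)} (hKm : MeasurableSet K) (hKc : Convex ℝ K)
    (hKs : ∀ x ∈ K, -x ∈ K) (hKb : Bornology.IsBounded K) {c : ℝ} (hc : 0 < c)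
    (a : Fin m → ℝ) (ha : ∀ i, 0 ≤ a i) (e : Fin m → ℝ) :
    ∫⁻ x in K, ENNReal.ofReal ((∑ i, a i * x i * e i) ^ 2 * Real.exp (-c * wsq a x))
      ≤ ∫⁻ x in K, ENNReal.ofReal (wsq a e / (2 * c) * Real.exp (-c * wsq a x)) := by
  have hcw := continuous_wsq a
  have hwe : 0 ≤ wsq a e := Finset.sum_nonneg fun i _ => mul_nonneg (ha i) (sq_nonneg _)
  rw [← ofReal_integral_eq_lintegral_ofReal (intOn hKb (by fun_prop))
      (Filter.Eventually.of_forall fun x => by positivity),
    ← ofReal_integral_eq_lintegral_ofReal (intOn hKb (by fun_prop))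
      (Filter.Eventually.of_forall fun x => by positivity)]
  refine ENNReal.ofReal_le_ofReal ?_
  rw [integral_const_mul]
  exact dirVar hKm hKc hKs hKb hc a ha e

/-- inner integral comparison, for a fixed midpoint `u`. -/
lemma inner_le {V : Set (Fin m → ℝ)} (hVm : MeasurableSet V) (hVc : Convex ℝ V)
    (hVb : Bornology.IsBounded V) {c : ℝ} (hc : 0 < c)
    (a : Fin m → ℝ) (ha : ∀ i, 0 ≤ a i) (h u : Fin m → ℝ) :
    ∫⁻ v, (V.indicator (fun _ => (1:ℝ≥0∞)) (u + v) * V.indicator (fun _ => (1:ℝ≥0∞)) (u - v)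
        * ENNReal.ofReal ((qf h a (u + v) - qf h a (u - v)) ^ 2
          * Real.exp (-c * (wsq a (u + v) + wsq a (u - v)))))
      ≤ ∫⁻ v, (V.indicator (fun _ => (1:ℝ≥0∞)) (u + v) * V.indicator (fun _ => (1:ℝ≥0∞)) (u - v)
        * ENNReal.ofReal ((1 / c) * (∑ i, a i * h i ^ 2 * ((u + v) i + (u - v) i) ^ 2)
          * Real.exp (-c * (wsq a (u + v) + wsq a (u - v))))) := by
  set K : Set (Fin m → ℝ) := {v | u + v ∈ V ∧ u - v ∈ V} with hK
  have hKm : MeasurableSet K := by
    have h1 : MeasurableSet ((fun v => u + v) ⁻¹' V) := hVm.preimage (by fun_prop)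
    have h2 : MeasurableSet ((fun v => u - v) ⁻¹' V) := hVm.preimage (by fun_prop)
    exact h1.inter h2
  have hKc : Convex ℝ K := by
    intro x hx y hy p q hp hq hpq
    constructor
    · have := hVc hx.1 hy.1 hp hq hpq
      have e : p • (u + x) + q • (u + y) = u + (p • x + q • y) := by
        calc p • (u + x) + q • (u + y) = (p + q) • u + (p • x + q • y) := by module
          _ = _ := by rw [hpq, one_smul]
      rwa [e] at this
    · have := hVc hx.2 hy.2 hp hq hpq
      have e : p • (u - x) + q • (u - y) = u - (p • x + q • y) := by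
        calc p • (u - x) + q • (u - y) = (p + q) • u - (p • x + q • y) := by module
          _ = _ := by rw [hpq, one_smul]
      rwa [e] at this
  have hKs : ∀ x ∈ K, -x ∈ K := by
    intro x hx
    refine ⟨?_, ?_⟩
    · have := hx.2; rwa [sub_eq_add_neg] at this
    · have := hx.1; rwa [sub_neg_eq_add]
  have hKb : Bornology.IsBounded K := by
    obtain ⟨R, hR⟩ := hVb.subset_closedBall 0
    refine (Metric.isBounded_closedBall (x := (0 : Fin m → ℝ)) (r := R + ‖u‖)).subset ?_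
    intro v hv
    have h1 := hR hv.1
    rw [mem_closedBall_zero_iff] at h1 ⊢
    have : v = (u + v) - u := by abel
    rw [this]
    exact (norm_sub_le _ _).trans (by linarith)
  have hind : ∀ v, V.indicator (fun _ => (1:ℝ≥0∞)) (u + v) * V.indicator (fun _ => (1:ℝ≥0∞)) (u - v)
      = K.indicator (fun _ => (1:ℝ≥0∞)) v := by
    intro v
    by_cases h1 : u + v ∈ V
    · by_cases h2 : u - v ∈ V
      · rw [indicator_of_mem h1, indicator_of_mem h2, indicator_of_mem (show v ∈ K from ⟨h1, h2⟩),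
          one_mul]
      · rw [indicator_of_notMem h2, indicator_of_notMem (show v ∉ K from fun h => h2 h.2), mul_zero]
    · rw [indicator_of_notMem h1, indicator_of_notMem (show v ∉ K from fun h => h1 h.1), zero_mul]
  have key := dirVar_lint hKm hKc hKs hKb (c := 2 * c) (by linarith) a ha (fun i => h i * u i)
  set κ : ℝ := 16 * Real.exp (-(2 * c) * wsq a u) with hκ
  have hκ0 : 0 ≤ κ := by positivity
  have e1 : ∀ v, V.indicator (fun _ => (1:ℝ≥0∞)) (u + v) * V.indicator (fun _ => (1:ℝ≥0∞)) (u - v)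
        * ENNReal.ofReal ((qf h a (u + v) - qf h a (u - v)) ^ 2
          * Real.exp (-c * (wsq a (u + v) + wsq a (u - v))))
      = K.indicator (fun v => ENNReal.ofReal κ * ENNReal.ofReal
        ((∑ i, a i * v i * (h i * u i)) ^ 2 * Real.exp (-(2 * c) * wsq a v))) v := by
    intro v
    rw [hind v]
    by_cases hv : v ∈ K
    · rw [indicator_of_mem hv, indicator_of_mem hv, one_mul, ← ENNReal.ofReal_mul hκ0]
      congr 1
      rw [qf_add_sub, wsq_add_sub, hκ]
      have : Real.exp (-c * (2 * wsq a u + 2 * wsq a v))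
          = Real.exp (-(2 * c) * wsq a u) * Real.exp (-(2 * c) * wsq a v) := by
        rw [← Real.exp_add]; congr 1; ring
      rw [this]; ring
    · rw [indicator_of_notMem hv, indicator_of_notMem hv, zero_mul]
  have e2 : ∀ v, V.indicator (fun _ => (1:ℝ≥0∞)) (u + v) * V.indicator (fun _ => (1:ℝ≥0∞)) (u - v)
        * ENNReal.ofReal ((1 / c) * (∑ i, a i * h i ^ 2 * ((u + v) i + (u - v) i) ^ 2)
          * Real.exp (-c * (wsq a (u + v) + wsq a (u - v))))
      = K.indicator (fun v => ENNReal.ofReal κ * ENNReal.ofReal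
        (wsq a (fun i => h i * u i) / (2 * (2 * c)) * Real.exp (-(2 * c) * wsq a v))) v := by
    intro v
    rw [hind v]
    by_cases hv : v ∈ K
    · rw [indicator_of_mem hv, indicator_of_mem hv, one_mul, ← ENNReal.ofReal_mul hκ0]
      congr 1
      rw [wsq_add_sub, hκ]
      have h3 : Real.exp (-c * (2 * wsq a u + 2 * wsq a v))
          = Real.exp (-(2 * c) * wsq a u) * Real.exp (-(2 * c) * wsq a v) := by
        rw [← Real.exp_add]; congr 1; ring
      have h4 : ∑ i, a i * h i ^ 2 * ((u + v) i + (u - v) i) ^ 2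
          = 4 * wsq a (fun i => h i * u i) := by
        unfold wsq
        rw [Finset.mul_sum]
        refine Finset.sum_congr rfl fun i _ => ?_
        simp only [Pi.add_apply, Pi.sub_apply]; ring
      rw [h3, h4]
      field_simp
      ring
    · rw [indicator_of_notMem hv, indicator_of_notMem hv, zero_mul]
  rw [lintegral_congr e1, lintegral_congr e2, lintegral_indicator hKm, lintegral_indicator hKm,
    lintegral_const_mul' _ _ ENNReal.ofReal_ne_top, lintegral_const_mul' _ _ ENNReal.ofReal_ne_top]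
  gcongr

lemma intOn_prod {V : Set (Fin m → ℝ)} (hVb : Bornology.IsBounded V)
    {G : (Fin m → ℝ) × (Fin m → ℝ) → ℝ} (hG : Continuous G) :
    IntegrableOn G (V ×ˢ V) (volume.prod volume) := by
  have hb : Bornology.IsBounded (V ×ˢ V) := hVb.prod hVb
  exact (hG.continuousOn.integrableOn_compact hb.isCompact_closure).mono_set subset_closure

lemma lint_to_real {V : Set (Fin m → ℝ)} (hVm : MeasurableSet V)
    (hVb : Bornology.IsBounded V) {G : (Fin m → ℝ) × (Fin m → ℝ) → ℝ} (hG : Continuous G)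
    (hG0 : ∀ p, 0 ≤ G p) :
    ∫⁻ x, ∫⁻ y, (V.indicator (fun _ => (1:ℝ≥0∞)) x * V.indicator (fun _ => (1:ℝ≥0∞)) y
        * ENNReal.ofReal (G (x, y)))
      = ENNReal.ofReal (∫ p in V ×ˢ V, G p ∂(volume.prod volume)) := by
  rw [ofReal_integral_eq_lintegral_ofReal (intOn_prod hVb hG)
    (Filter.Eventually.of_forall hG0), ← lintegral_indicator (hVm.prod hVm)]
  have hmeas : Measurable ((V ×ˢ V).indicator fun p => ENNReal.ofReal (G p)) :=
    hG.measurable.ennreal_ofReal.indicator (hVm.prod hVm)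
  rw [lintegral_prod _ hmeas.aemeasurable]
  refine lintegral_congr fun x => lintegral_congr fun y => ?_
  by_cases hx : x ∈ V
  · by_cases hy : y ∈ V
    · rw [indicator_of_mem hx, indicator_of_mem hy, indicator_of_mem (mk_mem_prod hx hy)]
      simp
    · rw [indicator_of_notMem hy, indicator_of_notMem (show (x, y) ∉ V ×ˢ V from fun h => hy h.2),
        mul_zero, zero_mul]
  · rw [indicator_of_notMem hx, indicator_of_notMem (show (x, y) ∉ V ×ˢ V from fun h => hx h.1),
      zero_mul, zero_mul]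

/-- **Variance of a quadratic form** (weighted Gaussian restricted to a symmetric convex set). -/
theorem quadVar {V : Set (Fin m → ℝ)} (hVm : MeasurableSet V) (hVc : Convex ℝ V)
    (hVs : ∀ x ∈ V, -x ∈ V) (hVb : Bornology.IsBounded V) {c : ℝ} (hc : 0 < c)
    (a : Fin m → ℝ) (ha : ∀ i, 0 ≤ a i) (h : Fin m → ℝ) :
    (∫ x in V, qf h a x ^ 2 * Real.exp (-c * wsq a x)) * (∫ x in V, Real.exp (-c * wsq a x))
        - (∫ x in V, qf h a x * Real.exp (-c * wsq a x)) ^ 2
      ≤ (1 / c) * (∫ x in V, (∑ i, a i * h i ^ 2 * x i ^ 2) * Real.exp (-c * wsq a x))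
          * (∫ x in V, Real.exp (-c * wsq a x)) := by
  have hcw := continuous_wsq a
  have hcq := continuous_qf h a
  set G1 : (Fin m → ℝ) × (Fin m → ℝ) → ℝ := fun p => (qf h a p.1 - qf h a p.2) ^ 2
          * Real.exp (-c * (wsq a p.1 + wsq a p.2)) with hG1
  set G2 : (Fin m → ℝ) × (Fin m → ℝ) → ℝ := fun p =>
    (1 / c) * (∑ i, a i * h i ^ 2 * (p.1 i + p.2 i) ^ 2)
          * Real.exp (-c * (wsq a p.1 + wsq a p.2)) with hG2
  have hG1c : Continuous G1 := by rw [hG1]; fun_prop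
  have hG2c : Continuous G2 := by rw [hG2]; fun_prop
  have hG10 : ∀ p, 0 ≤ G1 p := fun p => by rw [hG1]; positivity
  have hG20 : ∀ p, 0 ≤ G2 p := fun p => by
    rw [hG2]
    have : 0 ≤ ∑ i, a i * h i ^ 2 * (p.1 i + p.2 i) ^ 2 :=
      Finset.sum_nonneg fun i _ => mul_nonneg (mul_nonneg (ha i) (sq_nonneg _)) (sq_nonneg _)
    positivity
  have hmeas : ∀ G : (Fin m → ℝ) × (Fin m → ℝ) → ℝ, Continuous G →
      Measurable (Function.uncurry fun x y : Fin m → ℝ =>
        (V.indicator (fun _ => (1:ℝ≥0∞)) x * V.indicator (fun _ => (1:ℝ≥0∞)) y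
        * ENNReal.ofReal (G (x, y)))) := by
    intro G hG
    have h1 : Measurable (V.indicator (fun _ => (1:ℝ≥0∞))) := measurable_const.indicator hVm
    exact ((h1.comp measurable_fst).mul (h1.comp measurable_snd)).mul hG.measurable.ennreal_ofReal
  have hle : ∫⁻ x, ∫⁻ y, (V.indicator (fun _ => (1:ℝ≥0∞)) x * V.indicator (fun _ => (1:ℝ≥0∞)) y
        * ENNReal.ofReal (G1 (x, y)))
      ≤ ∫⁻ x, ∫⁻ y, (V.indicator (fun _ => (1:ℝ≥0∞)) x * V.indicator (fun _ => (1:ℝ≥0∞)) y
        * ENNReal.ofReal (G2 (x, y))) := by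
    rw [lint_rot (hmeas G1 hG1c), lint_rot (hmeas G2 hG2c)]
    refine mul_le_mul' le_rfl (lintegral_mono fun u => ?_)
    exact inner_le hVm hVc hVb hc a ha h u
  rw [lint_to_real hVm hVb hG1c hG10, lint_to_real hVm hVb hG2c hG20,
    ENNReal.ofReal_le_ofReal_iff (integral_nonneg hG20)] at hle
  set A := ∫ x in V, qf h a x ^ 2 * Real.exp (-c * wsq a x) with hA
  set B := ∫ x in V, Real.exp (-c * wsq a x) with hB
  set C := ∫ x in V, qf h a x * Real.exp (-c * wsq a x) with hC
  set D := ∫ x in V, (∑ i, a i * h i ^ 2 * x i ^ 2) * Real.exp (-c * wsq a x) with hD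
  have e1 : ∫ p in V ×ˢ V, G1 p ∂(volume.prod volume) = 2 * (A * B) - 2 * C ^ 2 := by
    have i1 : ∫ p in V ×ˢ V, (qf h a p.1 ^ 2 * Real.exp (-c * wsq a p.1))
        * Real.exp (-c * wsq a p.2) ∂(volume.prod volume) = A * B :=
      setIntegral_prod_mul (fun x => qf h a x ^ 2 * Real.exp (-c * wsq a x))
        (fun x => Real.exp (-c * wsq a x)) V V
    have i2 : ∫ p in V ×ˢ V, Real.exp (-c * wsq a p.1) *
        (qf h a p.2 ^ 2 * Real.exp (-c * wsq a p.2)) ∂(volume.prod volume) = B * A :=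
      setIntegral_prod_mul (fun x => Real.exp (-c * wsq a x))
        (fun x => qf h a x ^ 2 * Real.exp (-c * wsq a x)) V V
    have i3 : ∫ p in V ×ˢ V, (qf h a p.1 * Real.exp (-c * wsq a p.1)) *
        (qf h a p.2 * Real.exp (-c * wsq a p.2)) ∂(volume.prod volume) = C * C :=
      setIntegral_prod_mul (fun x => qf h a x * Real.exp (-c * wsq a x))
        (fun x => qf h a x * Real.exp (-c * wsq a x)) V V
    have : ∫ p in V ×ˢ V, G1 p ∂(volume.prod volume)
        = ∫ p in V ×ˢ V, ((qf h a p.1 ^ 2 * Real.exp (-c * wsq a p.1)) * Real.exp (-c * wsq a p.2)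
          + Real.exp (-c * wsq a p.1) * (qf h a p.2 ^ 2 * Real.exp (-c * wsq a p.2))
          - 2 * ((qf h a p.1 * Real.exp (-c * wsq a p.1)) *
            (qf h a p.2 * Real.exp (-c * wsq a p.2)))) ∂(volume.prod volume) := by
      refine integral_congr_ae (Filter.Eventually.of_forall fun p => ?_)
      simp only [hG1]
      have : Real.exp (-c * (wsq a p.1 + wsq a p.2))
          = Real.exp (-c * wsq a p.1) * Real.exp (-c * wsq a p.2) := by
        rw [← Real.exp_add]; congr 1; ring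
      rw [this]; ring
    rw [this, integral_sub (intOn_prod hVb (by fun_prop)) (intOn_prod hVb (by fun_prop)),
      integral_add (intOn_prod hVb (by fun_prop)) (intOn_prod hVb (by fun_prop)),
      integral_const_mul, i1, i2, i3]
    ring
  have hodd : ∀ i, ∫ x in V, x i * Real.exp (-c * wsq a x) = 0 := by
    intro i
    have h1 : ∫ x in V, x i * Real.exp (-c * wsq a x)
        = ∫ x in V, -(x i * Real.exp (-c * wsq a x)) := by
      rw [← integral_indicator hVm, ← integral_indicator hVm,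
        ← integral_neg_eq_self (μ := (volume : Measure (Fin m → ℝ)))]
      refine integral_congr_ae (Filter.Eventually.of_forall fun x => ?_)
      simp only
      by_cases hx : x ∈ V
      · rw [indicator_of_mem hx, indicator_of_mem (hVs x hx), wsq_neg]
        simp
      · have : -x ∉ V := fun h => hx (by simpa using hVs _ h)
        rw [indicator_of_notMem hx, indicator_of_notMem this]
    rw [integral_neg] at h1
    linarith
  have e2 : ∫ p in V ×ˢ V, G2 p ∂(volume.prod volume) = (1 / c) * (2 * (D * B)) := by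
    have i1 : ∫ p in V ×ˢ V, ((∑ i, a i * h i ^ 2 * p.1 i ^ 2) * Real.exp (-c * wsq a p.1))
        * Real.exp (-c * wsq a p.2) ∂(volume.prod volume) = D * B :=
      setIntegral_prod_mul (fun x => (∑ i, a i * h i ^ 2 * x i ^ 2) * Real.exp (-c * wsq a x))
        (fun x => Real.exp (-c * wsq a x)) V V
    have i2 : ∫ p in V ×ˢ V, Real.exp (-c * wsq a p.1) *
        ((∑ i, a i * h i ^ 2 * p.2 i ^ 2) * Real.exp (-c * wsq a p.2)) ∂(volume.prod volume)
        = B * D :=
      setIntegral_prod_mul (fun x => Real.exp (-c * wsq a x))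
        (fun x => (∑ i, a i * h i ^ 2 * x i ^ 2) * Real.exp (-c * wsq a x)) V V
    have i3 : ∀ i, ∫ p in V ×ˢ V, (p.1 i * Real.exp (-c * wsq a p.1)) *
        (p.2 i * Real.exp (-c * wsq a p.2)) ∂(volume.prod volume) = 0 := by
      intro i
      have := setIntegral_prod_mul (μ := volume) (ν := volume)
        (fun x : Fin m → ℝ => x i * Real.exp (-c * wsq a x))
        (fun x : Fin m → ℝ => x i * Real.exp (-c * wsq a x)) V V
      rw [hodd i, zero_mul] at this
      exact this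
    have : ∫ p in V ×ˢ V, G2 p ∂(volume.prod volume)
        = ∫ p in V ×ˢ V, (1 / c) * ((((∑ i, a i * h i ^ 2 * p.1 i ^ 2)
              * Real.exp (-c * wsq a p.1)) * Real.exp (-c * wsq a p.2)
          + Real.exp (-c * wsq a p.1) * ((∑ i, a i * h i ^ 2 * p.2 i ^ 2)
              * Real.exp (-c * wsq a p.2)))
          + ∑ i, (2 * (a i * h i ^ 2)) * ((p.1 i * Real.exp (-c * wsq a p.1)) *
            (p.2 i * Real.exp (-c * wsq a p.2)))) ∂(volume.prod volume) := by
      refine integral_congr_ae (Filter.Eventually.of_forall fun p => ?_)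
      simp only [hG2]
      have h3 : Real.exp (-c * (wsq a p.1 + wsq a p.2))
          = Real.exp (-c * wsq a p.1) * Real.exp (-c * wsq a p.2) := by
        rw [← Real.exp_add]; congr 1; ring
      have h4 : ∑ i, a i * h i ^ 2 * (p.1 i + p.2 i) ^ 2
          = (∑ i, a i * h i ^ 2 * p.1 i ^ 2) + (∑ i, a i * h i ^ 2 * p.2 i ^ 2)
            + ∑ i, (2 * (a i * h i ^ 2)) * (p.1 i * p.2 i) := by
        rw [← Finset.sum_add_distrib, ← Finset.sum_add_distrib]
        exact Finset.sum_congr rfl fun i _ => by ring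
      have h5 : ∑ i, (2 * (a i * h i ^ 2)) * ((p.1 i * Real.exp (-c * wsq a p.1)) *
            (p.2 i * Real.exp (-c * wsq a p.2)))
          = (∑ i, (2 * (a i * h i ^ 2)) * (p.1 i * p.2 i))
            * (Real.exp (-c * wsq a p.1) * Real.exp (-c * wsq a p.2)) := by
        rw [Finset.sum_mul]
        exact Finset.sum_congr rfl fun i _ => by ring
      rw [h3, h4, h5]; ring
    rw [this, integral_const_mul, integral_add (intOn_prod hVb (by fun_prop))
      (intOn_prod hVb (by fun_prop)),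
      integral_add (intOn_prod hVb (by fun_prop)) (intOn_prod hVb (by fun_prop)), i1, i2,
      integral_finsetSum _ (fun i _ => intOn_prod hVb (by fun_prop))]
    have : ∑ i, ∫ p in V ×ˢ V, (2 * (a i * h i ^ 2)) * ((p.1 i * Real.exp (-c * wsq a p.1)) *
            (p.2 i * Real.exp (-c * wsq a p.2))) ∂(volume.prod volume) = 0 := by
      refine Finset.sum_eq_zero fun i _ => ?_
      rw [integral_const_mul, i3 i, mul_zero]
    rw [this]; ring
  rw [e1, e2] at hle
  have : (1 / c) * D * B = (1 / c) * (D * B) := by ring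
  rw [this]
  linarith

end Crest.Agent.R152.WrmB
end

-- ▼ part R152/WrmB3
section

/-!
# Row 152, weak reverse Minkowski, step (5) part 3

The diagonal path: for a symmetric convex bounded set `V` which is critical in the diagonal
direction `h`, the Gaussian mass does not increase along `x ↦ exp (t h) x`.
-/

set_option autoImplicit false

open MeasureTheory Set
open scoped ENNReal

namespace Crest.Agent.R152.WrmB

variable {m : ℕ}

/-- differentiation under the integral sign on a bounded set. -/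
lemma hasDerivAt_setInt {V : Set (Fin m → ℝ)} (hVb : Bornology.IsBounded V)
    {F F' : ℝ → (Fin m → ℝ) → ℝ}
    (hF : Continuous (fun p : ℝ × (Fin m → ℝ) => F p.1 p.2))
    (hF' : Continuous (fun p : ℝ × (Fin m → ℝ) => F' p.1 p.2))
    (hd : ∀ t x, HasDerivAt (fun t => F t x) (F' t x) t) (t₀ : ℝ) :
    HasDerivAt (fun t => ∫ x in V, F t x) (∫ x in V, F' t₀ x) t₀ := by
  have hc1 : IsCompact (Metric.closedBall t₀ 1 ×ˢ closure V) :=
    (isCompact_closedBall t₀ 1).prod hVb.isCompact_closure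
  obtain ⟨C, hC⟩ := hc1.exists_bound_of_continuousOn hF'.continuousOn
  have hFt : ∀ t, Continuous (F t) := fun t => hF.comp (Continuous.prodMk_right t)
  have hF't : ∀ t, Continuous (F' t) := fun t => hF'.comp (Continuous.prodMk_right t)
  have hfin : volume V < ∞ := hVb.measure_lt_top
  have : IsFiniteMeasure ((volume : Measure (Fin m → ℝ)).restrict V) :=
    ⟨by rwa [Measure.restrict_apply_univ]⟩
  have hsub : ∀ᵐ x ∂((volume : Measure (Fin m → ℝ)).restrict V), x ∈ closure V := by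
    have h0 : ∀ᵐ x ∂((volume : Measure (Fin m → ℝ)).restrict (closure V)), x ∈ closure V :=
      ae_restrict_mem isClosed_closure.measurableSet
    exact ae_mono (Measure.restrict_mono subset_closure le_rfl) h0
  refine (hasDerivAt_integral_of_dominated_loc_of_deriv_le (s := Metric.closedBall t₀ 1)
    (bound := fun _ => C) (Metric.closedBall_mem_nhds t₀ one_pos) ?_ ?_ ?_ ?_ ?_ ?_).2
  · exact Filter.Eventually.of_forall fun t => (hFt t).aestronglyMeasurable
  · exact intOn hVb (hFt t₀)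
  · exact (hF't t₀).aestronglyMeasurable
  · filter_upwards [hsub] with x hx t ht
    exact hC (t, x) ⟨ht, hx⟩
  · exact integrable_const C
  · exact Filter.Eventually.of_forall fun x t _ => hd t x

/-- weights along the path. -/
noncomputable def wt (h : Fin m → ℝ) (t : ℝ) : Fin m → ℝ := fun i => Real.exp (2 * t * h i)

lemma continuous_wsq_wt (h : Fin m → ℝ) :
    Continuous (fun p : ℝ × (Fin m → ℝ) => wsq (wt h p.1) p.2) := by
  unfold wsq wt; fun_prop

lemma continuous_qf_wt (h : Fin m → ℝ) :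
    Continuous (fun p : ℝ × (Fin m → ℝ) => qf h (wt h p.1) p.2) := by
  unfold qf wt; fun_prop

lemma hasDerivAt_wsq_wt (h x : Fin m → ℝ) (t : ℝ) :
    HasDerivAt (fun t => wsq (wt h t) x) (2 * qf h (wt h t) x) t := by
  unfold wsq wt qf
  rw [Finset.mul_sum]
  refine HasDerivAt.fun_sum fun i _ => ?_
  have h1 : HasDerivAt (fun t : ℝ => Real.exp (2 * t * h i)) (Real.exp (2 * t * h i) * (2 * h i)) t := by
    have := (((hasDerivAt_id t).const_mul 2).mul_const (h i)).exp
    simpa using this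
  have h2 := h1.mul_const (x i ^ 2)
  refine h2.congr_deriv ?_
  ring

lemma hasDerivAt_qf_wt (h x : Fin m → ℝ) (t : ℝ) :
    HasDerivAt (fun t => qf h (wt h t) x) (2 * ∑ i, (wt h t) i * h i ^ 2 * x i ^ 2) t := by
  unfold qf wt
  rw [Finset.mul_sum]
  refine HasDerivAt.fun_sum fun i _ => ?_
  have h1 : HasDerivAt (fun t : ℝ => Real.exp (2 * t * h i)) (Real.exp (2 * t * h i) * (2 * h i)) t := by
    have := (((hasDerivAt_id t).const_mul 2).mul_const (h i)).exp
    simpa using this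
  have h2 := (h1.const_mul (h i)).mul_const (x i ^ 2)
  refine h2.congr_deriv ?_
  ring

/-- Gaussian mass along the diagonal path. -/
noncomputable def gm (V : Set (Fin m → ℝ)) (c : ℝ) (h : Fin m → ℝ) (t : ℝ) : ℝ :=
  ∫ x in V, Real.exp (-c * wsq (wt h t) x)

lemma hasDerivAt_gm {V : Set (Fin m → ℝ)} (hVb : Bornology.IsBounded V) (c : ℝ)
    (h : Fin m → ℝ) (t : ℝ) :
    HasDerivAt (gm V c h) (-(2 * c) * ∫ x in V, qf h (wt h t) x * Real.exp (-c * wsq (wt h t) x))
      t := by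
  have h1 := continuous_wsq_wt h
  have h2 := continuous_qf_wt h
  have := hasDerivAt_setInt hVb (F := fun t x => Real.exp (-c * wsq (wt h t) x))
    (F' := fun t x => -(2 * c) * (qf h (wt h t) x * Real.exp (-c * wsq (wt h t) x)))
    (by fun_prop) (by fun_prop) (fun t x => by
      have h3 := ((hasDerivAt_wsq_wt h x t).const_mul (-c)).exp
      refine h3.congr_deriv ?_
      ring) t
  rw [integral_const_mul] at this
  exact this

lemma hasDerivAt_gm' {V : Set (Fin m → ℝ)} (hVb : Bornology.IsBounded V) (c : ℝ)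
    (h : Fin m → ℝ) (t : ℝ) :
    HasDerivAt (fun t => ∫ x in V, qf h (wt h t) x * Real.exp (-c * wsq (wt h t) x))
      (2 * (∫ x in V, (∑ i, (wt h t) i * h i ^ 2 * x i ^ 2) * Real.exp (-c * wsq (wt h t) x))
        - 2 * c * ∫ x in V, qf h (wt h t) x ^ 2 * Real.exp (-c * wsq (wt h t) x)) t := by
  have h1 := continuous_wsq_wt h
  have h2 := continuous_qf_wt h
  have h4 : Continuous (fun p : ℝ × (Fin m → ℝ) => ∑ i, (wt h p.1) i * h i ^ 2 * p.2 i ^ 2) := by
    unfold wt; fun_prop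
  have := hasDerivAt_setInt hVb (F := fun t x => qf h (wt h t) x * Real.exp (-c * wsq (wt h t) x))
    (F' := fun t x => 2 * ((∑ i, (wt h t) i * h i ^ 2 * x i ^ 2) * Real.exp (-c * wsq (wt h t) x))
      - 2 * c * (qf h (wt h t) x ^ 2 * Real.exp (-c * wsq (wt h t) x)))
    (by fun_prop) (by fun_prop) (fun t x => by
      have h3 := ((hasDerivAt_wsq_wt h x t).const_mul (-c)).exp
      have h5 := (hasDerivAt_qf_wt h x t).mul h3
      refine h5.congr_deriv ?_
      ring) t
  have hw : Continuous (wsq (wt h t)) := continuous_wsq _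
  have hq : Continuous (qf h (wt h t)) := continuous_qf _ _
  rw [integral_sub ((intOn hVb (by fun_prop))) ((intOn hVb (by fun_prop))), integral_const_mul,
    integral_const_mul] at this
  exact this

/-- **Step (5.3)**, weighted form on `Fin m → ℝ`: if `V` is critical in the diagonal direction
`h`, the Gaussian mass of `exp(h) V` is at most that of `V`. -/
theorem diag_le {V : Set (Fin m → ℝ)} (hVm : MeasurableSet V) (hVc : Convex ℝ V)
    (hVs : ∀ x ∈ V, -x ∈ V) (hVb : Bornology.IsBounded V) {c : ℝ} (hc : 0 < c)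
    (h : Fin m → ℝ)
    (hcrit : ∫ x in V, (∑ i, h i * x i ^ 2) * Real.exp (-c * ∑ i, x i ^ 2) = 0) :
    ∫ x in V, Real.exp (-c * ∑ i, Real.exp (2 * h i) * x i ^ 2)
      ≤ ∫ x in V, Real.exp (-c * ∑ i, x i ^ 2) := by
  by_cases hV0 : volume V = 0
  · have : (volume : Measure (Fin m → ℝ)).restrict V = 0 := Measure.restrict_eq_zero.mpr hV0
    simp [this]
  have hg1 : gm V c h 1 = ∫ x in V, Real.exp (-c * ∑ i, Real.exp (2 * h i) * x i ^ 2) := by
    unfold gm wsq wt; simp
  have hg0 : gm V c h 0 = ∫ x in V, Real.exp (-c * ∑ i, x i ^ 2) := by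
    unfold gm wsq wt; simp
  rw [← hg1, ← hg0]
  have hpos : ∀ t, 0 < gm V c h t := by
    intro t
    unfold gm
    have hcw := continuous_wsq (wt h t)
    rw [setIntegral_pos_iff_support_of_nonneg_ae
      (Filter.Eventually.of_forall fun x => (Real.exp_pos _).le) (intOn hVb (by fun_prop))]
    have : Function.support (fun x => Real.exp (-c * wsq (wt h t) x)) = univ := by
      ext x; simp [Real.exp_ne_zero]
    rw [this, univ_inter]
    exact pos_iff_ne_zero.mpr hV0
  set C : ℝ → ℝ := fun t => ∫ x in V, qf h (wt h t) x * Real.exp (-c * wsq (wt h t) x) with hC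
  set R : ℝ → ℝ := fun t => C t / gm V c h t with hR
  have hRd : ∀ t, HasDerivAt R (((2 * (∫ x in V, (∑ i, (wt h t) i * h i ^ 2 * x i ^ 2)
        * Real.exp (-c * wsq (wt h t) x))
        - 2 * c * ∫ x in V, qf h (wt h t) x ^ 2 * Real.exp (-c * wsq (wt h t) x)) * gm V c h t
        - C t * (-(2 * c) * C t)) / gm V c h t ^ 2) t := fun t =>
    (hasDerivAt_gm' hVb c h t).div (hasDerivAt_gm hVb c h t) (hpos t).ne'
  have hmono : Monotone R := by
    refine monotone_of_hasDerivAt_nonneg hRd fun t => ?_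
    refine div_nonneg ?_ (sq_nonneg _)
    have hq := quadVar hVm hVc hVs hVb hc (wt h t) (fun i => (Real.exp_pos _).le) h
    set A := ∫ x in V, qf h (wt h t) x ^ 2 * Real.exp (-c * wsq (wt h t) x)
    set D := ∫ x in V, (∑ i, (wt h t) i * h i ^ 2 * x i ^ 2) * Real.exp (-c * wsq (wt h t) x)
    have hq' : A * gm V c h t - C t ^ 2 ≤ (1 / c) * D * gm V c h t := hq
    have h1 : c * (A * gm V c h t - C t ^ 2) ≤ D * gm V c h t := by
      have := mul_le_mul_of_nonneg_left hq' hc.le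
      have e : c * ((1 / c) * D * gm V c h t) = D * gm V c h t := by field_simp
      rwa [e] at this
    nlinarith [h1]
  have hR0 : R 0 = 0 := by
    have : C 0 = 0 := by
      refine Eq.trans ?_ hcrit
      rw [hC]
      unfold qf wsq wt; simp
    rw [hR]; simp [this]
  have hCpos : ∀ t, 0 ≤ t → 0 ≤ C t := by
    intro t ht
    have h1 : 0 ≤ R t := hR0 ▸ hmono ht
    have h2 : C t = R t * gm V c h t := by rw [hR]; field_simp [(hpos t).ne']
    rw [h2]; exact mul_nonneg h1 (hpos t).le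
  have hanti : AntitoneOn (gm V c h) (Icc 0 1) := by
    refine antitoneOn_of_deriv_nonpos (convex_Icc 0 1)
      (fun t _ => (hasDerivAt_gm hVb c h t).continuousAt.continuousWithinAt)
      (fun t _ => (hasDerivAt_gm hVb c h t).differentiableAt.differentiableWithinAt) ?_
    intro t ht
    rw [interior_Icc] at ht
    rw [(hasDerivAt_gm hVb c h t).deriv]
    have := hCpos t ht.1.le
    have h2 : 0 ≤ 2 * c * ∫ x in V, qf h (wt h t) x * Real.exp (-c * wsq (wt h t) x) :=
      mul_nonneg (by linarith) this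
    linarith
  exact hanti (left_mem_Icc.mpr zero_le_one) (right_mem_Icc.mpr zero_le_one) zero_le_one

/-- **Step (5.3)** on `EuclideanSpace ℝ (Fin m)`. -/
theorem diag_le_euclidean {V : Set (EuclideanSpace ℝ (Fin m))} (hVm : MeasurableSet V)
    (hVc : Convex ℝ V) (hVs : ∀ x ∈ V, -x ∈ V) (hVb : Bornology.IsBounded V) {c : ℝ} (hc : 0 < c)
    (h : Fin m → ℝ)
    (hcrit : ∫ x in V, (∑ i, h i * x i ^ 2) * Real.exp (-c * ‖x‖ ^ 2) = 0) :
    ∫ x in V, Real.exp (-c * ∑ i, Real.exp (2 * h i) * x i ^ 2)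
      ≤ ∫ x in V, Real.exp (-c * ‖x‖ ^ 2) := by
  have hmp := PiLp.volume_preserving_toLp (Fin m)
  have hemb : MeasurableEmbedding (WithLp.toLp 2 : (Fin m → ℝ) → EuclideanSpace ℝ (Fin m)) :=
    (MeasurableEquiv.toLp 2 (Fin m → ℝ)).measurableEmbedding
  have tr : ∀ f : EuclideanSpace ℝ (Fin m) → ℝ,
      ∫ x in V, f x = ∫ x in (WithLp.toLp 2 : (Fin m → ℝ) → _) ⁻¹' V, f (WithLp.toLp 2 x) := by
    intro f
    exact (hmp.setIntegral_preimage_emb hemb f V).symm
  have hn : ∀ x : Fin m → ℝ, ‖(WithLp.toLp 2 x : EuclideanSpace ℝ (Fin m))‖ ^ 2 = ∑ i, x i ^ 2 := by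
    intro x
    rw [EuclideanSpace.norm_sq_eq]
    simp
  rw [tr, tr]
  rw [tr] at hcrit
  simp only [hn] at hcrit ⊢
  refine diag_le (hVm.preimage hmp.measurable) ?_ ?_ ?_ hc h hcrit
  · intro x hx y hy p q hp hq hpq
    exact hVc hx hy hp hq hpq
  · intro x hx
    exact hVs _ hx
  · have h1 := (PiLp.antilipschitzWith_toLp 2 (fun _ : Fin m => ℝ))
    exact h1.isBounded_preimage hVb

end Crest.Agent.R152.WrmB
end

-- ▼ part R152/WRM6A
section

/-!
# Weak K-convexity on the discrete cube (Walsh analysis part)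

Signs are functions `e : Fin m → ℤˣ`.
-/

set_option autoImplicit false

namespace Crest.Agent.R152.WRM6

open Finset

variable {m : ℕ}

/-- Sign vectors. -/
abbrev Sg (m : ℕ) : Type := Fin m → ℤˣ

/-- real value of a unit -/
def sv (u : ℤˣ) : ℝ := ((u : ℤ) : ℝ)

@[simp] lemma sv_one : sv 1 = 1 := by simp [sv]
@[simp] lemma sv_neg_one : sv (-1) = -1 := by simp [sv]

lemma sv_mul (a b : ℤˣ) : sv (a * b) = sv a * sv b := by simp [sv]

lemma sv_cases (u : ℤˣ) : sv u = 1 ∨ sv u = -1 := by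
  rcases Int.units_eq_one_or u with h | h <;> simp [h]

lemma sv_sq (u : ℤˣ) : sv u * sv u = 1 := by
  rcases sv_cases u with h | h <;> simp [h]

lemma sum_units (f : ℤˣ → ℝ) : ∑ u, f u = f 1 + f (-1) := by
  rw [show (Finset.univ : Finset ℤˣ) = {1, -1} from rfl]
  rw [Finset.sum_insert (by decide), Finset.sum_singleton]

/-- Walsh function -/
def walsh (S : Finset (Fin m)) (e : Sg m) : ℝ := ∏ i ∈ S, sv (e i)

lemma walsh_mul (S : Finset (Fin m)) (e f : Sg m) :
    walsh S (e * f) = walsh S e * walsh S f := by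
  simp [walsh, sv_mul, Finset.prod_mul_distrib]

lemma walsh_sq (S : Finset (Fin m)) (e : Sg m) : walsh S e * walsh S e = 1 := by
  rw [walsh, ← Finset.prod_mul_distrib]
  exact Finset.prod_eq_one fun i _ => sv_sq _

lemma sum_prod_cube (g : Fin m → ℤˣ → ℝ) :
    ∑ e : Sg m, ∏ i, g i (e i) = ∏ i, (g i 1 + g i (-1)) := by
  have h := Finset.prod_univ_sum (fun _ : Fin m => (Finset.univ : Finset ℤˣ)) g
  rw [Fintype.piFinset_univ] at h
  rw [← h]
  exact Finset.prod_congr rfl fun i _ => sum_units _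

/-- completeness relation of the Walsh functions -/
lemma sum_walsh_walsh (e f : Sg m) :
    ∑ S : Finset (Fin m), walsh S e * walsh S f = if e = f then (2:ℝ)^m else 0 := by
  have h1 : ∑ S : Finset (Fin m), walsh S e * walsh S f = ∏ i : Fin m, (1 + sv (e i) * sv (f i)) := by
    rw [Finset.prod_one_add]
    rw [Finset.powerset_univ]
    refine Finset.sum_congr rfl fun S _ => ?_
    rw [walsh, walsh, Finset.prod_mul_distrib]
  rw [h1]
  split_ifs with h
  · subst h
    simp only [sv_sq]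
    norm_num
  · obtain ⟨i, hi⟩ := Function.ne_iff.mp h
    apply Finset.prod_eq_zero (Finset.mem_univ i)
    rcases Int.units_eq_one_or (e i) with h1 | h1 <;> rcases Int.units_eq_one_or (f i) with h2 | h2
    · exact absurd (h1.trans h2.symm) hi
    · simp [h1, h2]
    · simp [h1, h2]
    · exact absurd (h1.trans h2.symm) hi

/-- Walsh coefficient (unnormalised) -/
def wc (f : Sg m → ℝ) (S : Finset (Fin m)) : ℝ := ∑ e, f e * walsh S e

lemma wc_inv (f : Sg m → ℝ) (e : Sg m) :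
    ∑ S, wc f S * walsh S e = (2:ℝ)^m * f e := by
  simp only [wc, Finset.sum_mul]
  rw [Finset.sum_comm]
  have : ∀ y : Sg m, ∑ S : Finset (Fin m), f y * walsh S y * walsh S e
      = f y * (if y = e then (2:ℝ)^m else 0) := by
    intro y
    rw [← sum_walsh_walsh, Finset.mul_sum]
    exact Finset.sum_congr rfl fun S _ => by ring
  simp only [this]
  simp [mul_comm]

/-- Parseval -/
lemma parseval (f : Sg m → ℝ) : (2:ℝ)^m * ∑ e, f e ^ 2 = ∑ S, wc f S ^ 2 := by
  rw [Finset.mul_sum]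
  have : ∀ e : Sg m, (2:ℝ)^m * f e ^ 2 = ∑ S, wc f S * walsh S e * f e := by
    intro e
    rw [← Finset.sum_mul, wc_inv]; ring
  simp only [this]
  rw [Finset.sum_comm]
  refine Finset.sum_congr rfl fun S _ => ?_
  have h : wc f S ^ 2 = wc f S * ∑ e, f e * walsh S e := by rw [pow_two]; rfl
  rw [h, Finset.mul_sum]
  exact Finset.sum_congr rfl fun e _ => by ring

/-- convolution of a scalar kernel with a vector valued function -/
def conv {V : Type*} [AddCommGroup V] [Module ℝ V] (k : Sg m → ℝ) (F : Sg m → V) (e : Sg m) : V :=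
  ∑ n, k n • F (e * n)

lemma wc_conv (k : Sg m → ℝ) (f : Sg m → ℝ) (S : Finset (Fin m)) :
    wc (conv k f) S = wc k S * wc f S := by
  simp only [wc, conv, smul_eq_mul, Finset.sum_mul]
  rw [Finset.sum_comm]
  refine Finset.sum_congr rfl fun n _ => ?_
  rw [Finset.mul_sum]
  refine Fintype.sum_equiv (Equiv.mulRight n) _ _ fun e => ?_
  simp only [Equiv.coe_mulRight]
  rw [walsh_mul]
  have := walsh_sq S n
  linear_combination (-(k n * f (e * n) * walsh S e)) * this

/-- `L2(l2)` bound for convolution operators -/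
lemma conv_l2 (k : Sg m → ℝ) (d : ℝ) (hd : ∀ S, |wc k S| ≤ d) (f : Sg m → ℝ) :
    ∑ e, conv k f e ^ 2 ≤ d ^ 2 * ∑ e, f e ^ 2 := by
  have h2 : (0:ℝ) < 2 ^ m := by positivity
  rw [← mul_le_mul_iff_right₀ h2, parseval]
  have : (2:ℝ)^m * (d ^ 2 * ∑ e, f e ^ 2) = ∑ S, d ^ 2 * wc f S ^ 2 := by
    rw [← Finset.mul_sum, ← parseval]; ring
  rw [this]
  refine Finset.sum_le_sum fun S _ => ?_
  rw [wc_conv, mul_pow]
  have : wc k S ^ 2 ≤ d ^ 2 := sq_le_sq' (by have := abs_le.mp (hd S); linarith) (by have := abs_le.mp (hd S); linarith)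
  exact mul_le_mul_of_nonneg_right this (sq_nonneg _)

/-! ### Kernels -/

/-- noise kernel -/
noncomputable def noise (m : ℕ) (r : ℝ) (n : Sg m) : ℝ := ((2:ℝ)^m)⁻¹ * ∏ i, (1 + r * sv (n i))

lemma noise_nonneg {r : ℝ} (h0 : 0 ≤ r) (h1 : r ≤ 1) (n : Sg m) : 0 ≤ noise m r n := by
  unfold noise
  have : 0 ≤ ∏ i, (1 + r * sv (n i)) := by
    refine Finset.prod_nonneg fun i _ => ?_
    rcases sv_cases (n i) with h | h <;> rw [h] <;> linarith
  positivity

lemma wc_noise (r : ℝ) (S : Finset (Fin m)) : wc (noise m r) S = r ^ S.card := by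
  have h1 : ∀ e : Sg m, noise m r e * walsh S e
      = ((2:ℝ)^m)⁻¹ * ∏ i, ((1 + r * sv (e i)) * (if i ∈ S then sv (e i) else 1)) := by
    intro e
    rw [noise, walsh, Finset.prod_mul_distrib, Finset.prod_ite_mem, Finset.univ_inter, mul_assoc]
  simp only [wc, h1]
  rw [← Finset.mul_sum]
  have h2 := sum_prod_cube (m := m) (fun i u => ((1 + r * sv u) * (if i ∈ S then sv u else 1)))
  rw [h2]
  have h3 : ∀ i : Fin m, ((1 + r * sv 1) * (if i ∈ S then sv 1 else 1) + (1 + r * sv (-1)) * (if i ∈ S then sv (-1) else 1))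
      = 2 * (if i ∈ S then r else 1) := by
    intro i
    split_ifs
    · simp; ring
    · simp; ring
  simp only [h3]
  rw [Finset.prod_mul_distrib, Finset.prod_ite_mem, Finset.univ_inter]
  simp only [Finset.prod_const, Finset.card_univ, Fintype.card_fin]
  field_simp

lemma noise_sum (r : ℝ) : ∑ n, noise m r n = 1 := by
  have := wc_noise (m := m) r ∅
  simpa [wc, walsh] using this

/-- kernel of the Rademacher projection -/
noncomputable def rad (m : ℕ) (n : Sg m) : ℝ := ((2:ℝ)^m)⁻¹ * ∑ i, sv (n i)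

lemma wc_rad (S : Finset (Fin m)) : wc (rad m) S = if S.card = 1 then 1 else 0 := by
  have h1 : ∀ e : Sg m, rad m e * walsh S e
      = ∑ i, ((2:ℝ)^m)⁻¹ * ∏ j, ((if j = i then sv (e j) else 1) * (if j ∈ S then sv (e j) else 1)) := by
    intro e
    rw [rad, walsh, mul_assoc, Finset.sum_mul, Finset.mul_sum]
    refine Finset.sum_congr rfl fun i _ => ?_
    rw [Finset.prod_mul_distrib, Finset.prod_ite_mem, Finset.univ_inter]
    simp
  simp only [wc, h1]
  rw [Finset.sum_comm]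
  have h2 : ∀ i : Fin m, ∑ e : Sg m, ((2:ℝ)^m)⁻¹ * ∏ j, ((if j = i then sv (e j) else 1) * (if j ∈ S then sv (e j) else 1))
      = if S = {i} then 1 else 0 := by
    intro i
    rw [← Finset.mul_sum]
    rw [sum_prod_cube (m := m) (fun j u => ((if j = i then sv u else 1) * (if j ∈ S then sv u else 1)))]
    split_ifs with h
    · subst h
      have : ∀ j : Fin m, ((if j = i then sv 1 else 1) * (if j ∈ ({i} : Finset (Fin m)) then sv 1 else 1) +
        (if j = i then sv (-1) else 1) * (if j ∈ ({i} : Finset (Fin m)) then sv (-1) else 1)) = 2 := by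
        intro j
        by_cases hj : j = i
        · subst hj; simp; norm_num
        · simp [hj]; norm_num
      simp only [this]
      simp
    · -- exists j with j ∈ S xor j = i
      have : ∃ j, ¬ (j ∈ S ↔ j = i) := by
        by_contra hcon
        push Not at hcon
        apply h
        ext j
        simp [hcon j]
      obtain ⟨j, hj⟩ := this
      apply mul_eq_zero_of_right
      apply Finset.prod_eq_zero (Finset.mem_univ j)
      by_cases h1 : j ∈ S <;> by_cases h2 : j = i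
      · exact absurd ⟨fun _ => h2, fun _ => h1⟩ hj
      · simp [h1, h2]
      · rw [if_neg h1, if_pos h2, if_pos h2, if_neg h1]; simp
      · exact absurd ⟨fun h => absurd h h1, fun h => absurd h h2⟩ hj
  simp only [h2]
  split_ifs with h
  · obtain ⟨i, rfl⟩ := Finset.card_eq_one.mp h
    simp
  · apply Finset.sum_eq_zero
    intro i _
    rw [if_neg]
    rintro rfl
    simp at h

end Crest.Agent.R152.WRM6
end

-- ▼ part R152/WRM6B
section

/-!
# Weak K-convexity of finite dimensional norms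
-/

set_option autoImplicit false

namespace Crest.Agent.R152.WRM6

open Finset

variable {m : ℕ}

/-- Moment coefficients: nodes `0, …, K`. -/
lemma exists_coeff (K : ℕ) :
    ∃ c : Fin (K+1) → ℝ, ∀ k : ℕ, k ≤ K → ∑ j : Fin (K+1), c j * (j : ℝ) ^ k = if k = 1 then 1 else 0 := by
  set v : Fin (K+1) → ℝ := fun j => (j : ℝ) with hv
  have hinj : Function.Injective v := by
    intro a b h
    simp only [hv] at h
    exact Fin.ext (by exact_mod_cast h)
  have hdet : IsUnit (Matrix.vandermonde v).transpose.det := by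
    rw [Matrix.det_transpose]
    exact isUnit_iff_ne_zero.mpr (Matrix.det_vandermonde_ne_zero_iff.mpr hinj)
  have hsurj : Function.Surjective ((Matrix.vandermonde v).transpose).mulVec :=
    Matrix.mulVec_surjective_iff_isUnit.mpr ((Matrix.isUnit_iff_isUnit_det _).mpr hdet)
  obtain ⟨c, hc⟩ := hsurj (fun k : Fin (K+1) => if (k : ℕ) = 1 then 1 else 0)
  refine ⟨c, fun k hk => ?_⟩
  have h := congrFun hc ⟨k, by omega⟩
  simp only [Matrix.mulVec, dotProduct, Matrix.transpose_apply, Matrix.vandermonde_apply, hv] at h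
  rw [← h]
  exact Finset.sum_congr rfl fun j _ => by ring

/-- mean square (unnormalised) of `N ∘ F` in `L²` -/
noncomputable def nrm2 (f : Sg m → ℝ) : ℝ := Real.sqrt (∑ e, f e ^ 2)

lemma nrm2_nonneg (f : Sg m → ℝ) : 0 ≤ nrm2 f := Real.sqrt_nonneg _

lemma nrm2_eq (f : Sg m → ℝ) : nrm2 f = ‖(WithLp.toLp 2 f : EuclideanSpace ℝ (Sg m))‖ := by
  rw [EuclideanSpace.norm_eq]
  simp [nrm2]

lemma nrm2_mono {f g : Sg m → ℝ} (h0 : ∀ e, 0 ≤ f e) (h : ∀ e, f e ≤ g e) : nrm2 f ≤ nrm2 g := by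
  unfold nrm2
  apply Real.sqrt_le_sqrt
  exact Finset.sum_le_sum fun e _ => pow_le_pow_left₀ (h0 e) (h e) 2

lemma nrm2_add_le (f g : Sg m → ℝ) : nrm2 (fun e => f e + g e) ≤ nrm2 f + nrm2 g := by
  simp only [nrm2_eq]
  have : (WithLp.toLp 2 (fun e => f e + g e) : EuclideanSpace ℝ (Sg m)) = WithLp.toLp 2 f + WithLp.toLp 2 g := rfl
  rw [this]
  exact norm_add_le _ _

lemma nrm2_smul {c : ℝ} (hc : 0 ≤ c) (f : Sg m → ℝ) : nrm2 (fun e => c * f e) = c * nrm2 f := by
  unfold nrm2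
  have : ∑ e, (c * f e) ^ 2 = c ^ 2 * ∑ e, f e ^ 2 := by
    rw [Finset.mul_sum]; exact Finset.sum_congr rfl fun e _ => by ring
  rw [this, Real.sqrt_mul (sq_nonneg c), Real.sqrt_sq hc]

lemma nrm2_sum_le {ι : Type*} (s : Finset ι) (f : ι → Sg m → ℝ) :
    nrm2 (fun e => ∑ i ∈ s, f i e) ≤ ∑ i ∈ s, nrm2 (f i) := by
  classical
  induction s using Finset.induction_on with
  | empty => simp [nrm2]
  | insert a s ha ih =>
    simp only [Finset.sum_insert ha]
    exact (nrm2_add_le _ _).trans (by linarith)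

lemma nrm2_translate (f : Sg m → ℝ) (n : Sg m) : nrm2 (fun e => f (e * n)) = nrm2 f := by
  unfold nrm2
  congr 1
  exact Fintype.sum_equiv (Equiv.mulRight n) _ _ fun e => rfl

/-- convolution with a scalar kernel is bounded by its `ℓ¹` norm, for any seminorm -/
lemma conv_norm {V : Type*} [AddCommGroup V] [Module ℝ V] (N : Seminorm ℝ V) (k : Sg m → ℝ)
    (F : Sg m → V) :
    nrm2 (fun e => N (conv k F e)) ≤ (∑ n, |k n|) * nrm2 (fun e => N (F e)) := by
  have h1 : nrm2 (fun e => N (conv k F e)) ≤ nrm2 (fun e => ∑ n, |k n| * N (F (e * n))) := by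
    apply nrm2_mono (fun e => apply_nonneg N _)
    intro e
    unfold conv
    refine (Finset.le_sum_of_subadditive N (map_zero N).le (map_add_le_add N) _ _).trans ?_
    exact Finset.sum_le_sum fun n _ => by rw [map_smul_eq_mul, Real.norm_eq_abs]
  refine h1.trans ((nrm2_sum_le _ _).trans ?_)
  rw [Finset.sum_mul]
  refine Finset.sum_le_sum fun n _ => ?_
  rw [nrm2_smul (abs_nonneg _), nrm2_translate (fun e => N (F e)) n]

/-- Euclidean length -/
noncomputable def l2 (x : Fin m → ℝ) : ℝ := Real.sqrt (∑ i, x i ^ 2)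

lemma l2_nonneg (x : Fin m → ℝ) : 0 ≤ l2 x := Real.sqrt_nonneg _

lemma l2_sq (x : Fin m → ℝ) : l2 x ^ 2 = ∑ i, x i ^ 2 :=
  Real.sq_sqrt (Finset.sum_nonneg fun _ _ => sq_nonneg _)

/-- convolution operators are bounded on `L²(ℓ²)` by the sup of the multiplier. -/
lemma conv_l2_vec (k : Sg m → ℝ) (d : ℝ) (hd0 : 0 ≤ d) (hd : ∀ S, |wc k S| ≤ d) (F : Sg m → Fin m → ℝ) :
    nrm2 (fun e => l2 (conv k F e)) ≤ d * nrm2 (fun e => l2 (F e)) := by
  unfold nrm2
  rw [← Real.sqrt_sq hd0, ← Real.sqrt_mul (sq_nonneg d)]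
  apply Real.sqrt_le_sqrt
  simp only [l2_sq]
  rw [Finset.sum_comm, Finset.sum_comm (s := Finset.univ) (t := Finset.univ) (f := fun e i => F e i ^ 2),
    Finset.mul_sum]
  refine Finset.sum_le_sum fun i _ => ?_
  have h := conv_l2 k d hd (fun e => F e i)
  refine le_trans (le_of_eq ?_) h
  refine Finset.sum_congr rfl fun e _ => ?_
  congr 1
  simp [conv, Finset.sum_apply]

/-- the Rademacher projection -/
noncomputable def R1 {V : Type*} [AddCommGroup V] [Module ℝ V] (F : Sg m → V) (e : Sg m) : V :=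
  conv (rad m) F e

/-- linear combination of kernels -/
lemma conv_sub {V : Type*} [AddCommGroup V] [Module ℝ V] (k l : Sg m → ℝ) (F : Sg m → V) (e : Sg m) :
    conv (fun n => k n - l n) F e = conv k F e - conv l F e := by
  simp [conv, sub_smul, Finset.sum_sub_distrib]

/-- **weak K-convexity**, kernel form with a free parameter `r`. -/
theorem kconv_aux (K : ℕ) (hK : 1 ≤ K) (c : Fin (K+1) → ℝ)
    (hc : ∀ k : ℕ, k ≤ K → ∑ j : Fin (K+1), c j * (j : ℝ) ^ k = if k = 1 then 1 else 0)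
    (N : Seminorm ℝ (Fin m → ℝ)) (R : ℝ) (hR : 1 ≤ R) (hN1 : ∀ x, N x ≤ R * l2 x)
    (hN2 : ∀ x, l2 x ≤ R * N x) (r : ℝ) (hr : 0 < r) (hrK : (K:ℝ) * r ≤ 1) (F : Sg m → Fin m → ℝ) :
    nrm2 (fun e => N (R1 F e)) ≤
      ((∑ j, |c j|) / r + K * (∑ j, |c j|) * (K * r) ^ K * R ^ 2) * nrm2 (fun e => N (F e)) := by
  set Q : Sg m → ℝ := fun n => r⁻¹ * ∑ j : Fin (K+1), c j * noise m (j * r) n with hQ
  set D : Sg m → ℝ := fun n => Q n - rad m n with hD
  have hKpos : (0:ℝ) < K := by exact_mod_cast hK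
  have hjr : ∀ j : Fin (K+1), (0:ℝ) ≤ j * r ∧ (j:ℝ) * r ≤ 1 := by
    intro j
    refine ⟨by positivity, le_trans ?_ hrK⟩
    have : (j:ℝ) ≤ K := by exact_mod_cast Nat.lt_succ_iff.mp j.2
    exact mul_le_mul_of_nonneg_right this hr.le
  -- ℓ¹ norm of Q
  have hQ1 : ∑ n, |Q n| ≤ (∑ j, |c j|) / r := by
    have : ∀ n, |Q n| ≤ r⁻¹ * ∑ j : Fin (K+1), |c j| * noise m (j * r) n := by
      intro n
      rw [hQ]
      simp only [abs_mul, abs_of_pos (inv_pos.mpr hr)]
      apply mul_le_mul_of_nonneg_left _ (inv_pos.mpr hr).le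
      refine (Finset.abs_sum_le_sum_abs _ _).trans ?_
      refine Finset.sum_le_sum fun j _ => ?_
      rw [abs_mul, abs_of_nonneg (noise_nonneg (hjr j).1 (hjr j).2 n)]
    refine (Finset.sum_le_sum fun n _ => this n).trans ?_
    rw [← Finset.mul_sum, Finset.sum_comm]
    simp only [← Finset.mul_sum, noise_sum, mul_one]
    rw [div_eq_inv_mul]
  -- multiplier of D
  set S1 : ℝ := ∑ j, |c j| with hS1
  have hS1nn : 0 ≤ S1 := Finset.sum_nonneg fun _ _ => abs_nonneg _
  have hDS : ∀ S, |wc D S| ≤ K * S1 * (K * r) ^ K := by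
    intro S
    have hwQ : wc Q S = r⁻¹ * ∑ j : Fin (K+1), c j * (j * r) ^ S.card := by
      have : ∀ e, Q e * walsh S e = r⁻¹ * ∑ j : Fin (K+1), c j * (noise m (j * r) e * walsh S e) := by
        intro e
        rw [hQ]
        simp only [mul_assoc, Finset.sum_mul]
      simp only [wc, this]
      rw [← Finset.mul_sum, Finset.sum_comm]
      congr 1
      refine Finset.sum_congr rfl fun j _ => ?_
      rw [← Finset.mul_sum]
      congr 1
      exact wc_noise _ S
    have hwD : wc D S = r⁻¹ * (∑ j : Fin (K+1), c j * (j * r) ^ S.card) - if S.card = 1 then 1 else 0 := by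
      rw [← hwQ, ← wc_rad]
      simp only [wc, hD, sub_mul, Finset.sum_sub_distrib]
    have hfac : ∑ j : Fin (K+1), c j * ((j:ℝ) * r) ^ S.card = r ^ S.card * ∑ j : Fin (K+1), c j * (j:ℝ) ^ S.card := by
      rw [Finset.mul_sum]; exact Finset.sum_congr rfl fun j _ => by rw [mul_pow]; ring
    by_cases hcard : S.card ≤ K
    · have : wc D S = 0 := by
        rw [hwD, hfac, hc _ hcard]
        split_ifs with h1
        · rw [h1]; field_simp; ring
        · simp
      rw [this, abs_zero]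
      positivity
    · push Not at hcard
      have hne : S.card ≠ 1 := by omega
      rw [hwD, if_neg hne, sub_zero, abs_mul, abs_of_pos (inv_pos.mpr hr)]
      have h1 : |∑ j : Fin (K+1), c j * ((j:ℝ) * r) ^ S.card| ≤ S1 * (K * r) ^ (K+1) := by
        refine (Finset.abs_sum_le_sum_abs _ _).trans ?_
        rw [hS1, Finset.sum_mul]
        refine Finset.sum_le_sum fun j _ => ?_
        rw [abs_mul, abs_of_nonneg (pow_nonneg (hjr j).1 _)]
        apply mul_le_mul_of_nonneg_left _ (abs_nonneg _)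
        calc ((j:ℝ) * r) ^ S.card ≤ ((K:ℝ) * r) ^ S.card := by
              apply pow_le_pow_left₀ (hjr j).1
              have : (j:ℝ) ≤ K := by exact_mod_cast Nat.lt_succ_iff.mp j.2
              exact mul_le_mul_of_nonneg_right this hr.le
          _ ≤ ((K:ℝ) * r) ^ (K+1) := by
              apply pow_le_pow_of_le_one (by positivity) hrK (by omega)
      calc r⁻¹ * |∑ j : Fin (K+1), c j * ((j:ℝ) * r) ^ S.card| ≤ r⁻¹ * (S1 * (K * r) ^ (K+1)) :=
            mul_le_mul_of_nonneg_left h1 (inv_pos.mpr hr).le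
        _ = K * S1 * (K * r) ^ K := by rw [pow_succ]; field_simp
  -- assemble
  have hdecomp : ∀ e, R1 F e = conv Q F e - conv D F e := by
    intro e
    have : conv D F e = conv Q F e - conv (rad m) F e := conv_sub Q (rad m) F e
    rw [this, R1]; abel
  have hstep1 : nrm2 (fun e => N (R1 F e)) ≤ nrm2 (fun e => N (conv Q F e)) + nrm2 (fun e => N (conv D F e)) := by
    refine le_trans ?_ (nrm2_add_le _ _)
    apply nrm2_mono (fun e => apply_nonneg N _)
    intro e
    rw [hdecomp e]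
    exact map_sub_le_add N _ _
  have hstep2 : nrm2 (fun e => N (conv Q F e)) ≤ S1 / r * nrm2 (fun e => N (F e)) :=
    (conv_norm N Q F).trans (mul_le_mul_of_nonneg_right hQ1 (nrm2_nonneg _))
  have hstep3 : nrm2 (fun e => N (conv D F e)) ≤ K * S1 * (K * r) ^ K * R ^ 2 * nrm2 (fun e => N (F e)) := by
    have a1 : nrm2 (fun e => N (conv D F e)) ≤ R * nrm2 (fun e => l2 (conv D F e)) := by
      rw [← nrm2_smul (by linarith)]
      exact nrm2_mono (fun e => apply_nonneg N _) fun e => hN1 _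
    have a2 := conv_l2_vec D (K * S1 * (K * r) ^ K) (by positivity) hDS F
    have a3 : nrm2 (fun e => l2 (F e)) ≤ R * nrm2 (fun e => N (F e)) := by
      rw [← nrm2_smul (by linarith)]
      exact nrm2_mono (fun e => l2_nonneg _) fun e => hN2 _
    have hnn : 0 ≤ K * S1 * (K * r) ^ K := by positivity
    calc nrm2 (fun e => N (conv D F e)) ≤ R * nrm2 (fun e => l2 (conv D F e)) := a1
      _ ≤ R * (K * S1 * (K * r) ^ K * (R * nrm2 (fun e => N (F e)))) := by
          apply mul_le_mul_of_nonneg_left _ (by linarith)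
          exact a2.trans (mul_le_mul_of_nonneg_left a3 hnn)
      _ = K * S1 * (K * r) ^ K * R ^ 2 * nrm2 (fun e => N (F e)) := by ring
  calc nrm2 (fun e => N (R1 F e)) ≤ _ := hstep1
    _ ≤ S1 / r * nrm2 (fun e => N (F e)) + K * S1 * (K * r) ^ K * R ^ 2 * nrm2 (fun e => N (F e)) :=
        add_le_add hstep2 hstep3
    _ = _ := by ring

/-- **Weak K-convexity.** -/
theorem kconv (K : ℕ) (hK : 1 ≤ K) :
    ∃ C : ℝ, 0 < C ∧ ∀ (m : ℕ) (N : Seminorm ℝ (Fin m → ℝ)) (R : ℝ), 1 ≤ R →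
      (∀ x, N x ≤ R * l2 x) → (∀ x, l2 x ≤ R * N x) → ∀ F : Sg m → Fin m → ℝ,
      nrm2 (fun e => N (R1 F e)) ≤ C * R ^ ((2:ℝ) / K) * nrm2 (fun e => N (F e)) := by
  obtain ⟨c, hc⟩ := exists_coeff K
  set S1 : ℝ := ∑ j, |c j| with hS1
  have hS1nn : 0 ≤ S1 := Finset.sum_nonneg fun _ _ => abs_nonneg _
  have hKpos : (0:ℝ) < K := by exact_mod_cast hK
  refine ⟨2 * K * S1 + 1, by positivity, ?_⟩
  intro m N R hR hN1 hN2 F
  have hRpos : 0 < R := by linarith
  set t : ℝ := R ^ ((2:ℝ) / K) with ht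
  have htpos : 0 < t := Real.rpow_pos_of_pos hRpos _
  have ht1 : 1 ≤ t := Real.one_le_rpow hR (by positivity)
  have htK : t ^ K = R ^ 2 := by
    rw [ht, ← Real.rpow_natCast, ← Real.rpow_mul hRpos.le]
    rw [div_mul_cancel₀ _ hKpos.ne']
    norm_num
  set r : ℝ := 1 / (K * t) with hr
  have hrpos : 0 < r := by positivity
  have hKr : (K:ℝ) * r = 1 / t := by rw [hr]; field_simp
  have h := kconv_aux K hK c hc N R hR hN1 hN2 r hrpos (by rw [hKr]; rw [div_le_one htpos]; exact ht1) F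
  refine h.trans ?_
  apply mul_le_mul_of_nonneg_right _ (nrm2_nonneg _)
  rw [hKr, div_pow, one_pow, htK, ← hS1]
  have e1 : S1 / r = K * S1 * t := by rw [hr]; field_simp
  rw [e1]
  have e2 : (K:ℝ) * S1 * (1 / R ^ 2) * R ^ 2 = K * S1 := by field_simp
  rw [e2]
  nlinarith [mul_nonneg hKpos.le hS1nn]

end Crest.Agent.R152.WRM6
end

-- ▼ part R152/WRM6C
section

/-!
# Good position of a norm (minimal mean on sign vectors) and the `ℓ ℓ*` estimate
-/

set_option autoImplicit false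

namespace Crest.Agent.R152.WRM6

open Finset Matrix Filter Topology

variable {m : ℕ}

/-- sign vector as a real vector -/
def sgv (e : Sg m) : Fin m → ℝ := fun i => sv (e i)

/-- average over the cube -/
noncomputable def avg (f : Sg m → ℝ) : ℝ := ((2:ℝ)^m)⁻¹ * ∑ e, f e

lemma avg_nonneg {f : Sg m → ℝ} (h : ∀ e, 0 ≤ f e) : 0 ≤ avg f :=
  mul_nonneg (by positivity) (Finset.sum_nonneg fun e _ => h e)

lemma avg_mono {f g : Sg m → ℝ} (h : ∀ e, f e ≤ g e) : avg f ≤ avg g :=
  mul_le_mul_of_nonneg_left (Finset.sum_le_sum fun e _ => h e) (by positivity)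

lemma avg_add (f g : Sg m → ℝ) : avg (fun e => f e + g e) = avg f + avg g := by
  simp [avg, Finset.sum_add_distrib, mul_add]

lemma avg_const_mul (c : ℝ) (f : Sg m → ℝ) : avg (fun e => c * f e) = c * avg f := by
  simp only [avg, ← Finset.mul_sum]; ring

lemma avg_le_nrm2 (f : Sg m → ℝ) : avg f ≤ (Real.sqrt ((2:ℝ)^m))⁻¹ * nrm2 f := by
  have h2 : (0:ℝ) < 2 ^ m := by positivity
  have hcs : (∑ e : Sg m, f e) ^ 2 ≤ (2:ℝ)^m * ∑ e, f e ^ 2 := by
    have := sq_sum_le_card_mul_sum_sq (s := (Finset.univ : Finset (Sg m))) (f := f)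
    have hc : ((Finset.univ : Finset (Sg m)).card : ℝ) = 2 ^ m := by
      rw [Finset.card_univ]; simp [Fintype.card_pi]
    rw [hc] at this
    exact this
  have h1 : ∑ e : Sg m, f e ≤ Real.sqrt ((2:ℝ)^m) * nrm2 f := by
    rw [nrm2, ← Real.sqrt_mul h2.le]
    exact Real.le_sqrt_of_sq_le hcs
  have hs : Real.sqrt ((2:ℝ)^m) * Real.sqrt ((2:ℝ)^m) = 2 ^ m := Real.mul_self_sqrt h2.le
  have hsp : 0 < Real.sqrt ((2:ℝ)^m) := Real.sqrt_pos.mpr h2
  have h3 : avg f ≤ ((2:ℝ)^m)⁻¹ * (Real.sqrt ((2:ℝ)^m) * nrm2 f) :=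
    mul_le_mul_of_nonneg_left h1 (by positivity)
  refine h3.trans (le_of_eq ?_)
  generalize Real.sqrt ((2:ℝ)^m) = s at hs hsp
  rw [← hs, mul_inv, mul_assoc, ← mul_assoc s⁻¹ s, inv_mul_cancel₀ hsp.ne', one_mul]

lemma sum_sv_sv (j k : Fin m) : ∑ e : Sg m, sv (e j) * sv (e k) = if j = k then (2:ℝ)^m else 0 := by
  have h1 : ∀ e : Sg m, sv (e j) * sv (e k)
      = ∏ l, ((if l = j then sv (e l) else 1) * (if l = k then sv (e l) else 1)) := by
    intro e
    rw [Finset.prod_mul_distrib]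
    simp
  simp only [h1]
  rw [sum_prod_cube (m := m) (fun l u => ((if l = j then sv u else 1) * (if l = k then sv u else 1)))]
  split_ifs with h
  · subst h
    have : ∀ l : Fin m, ((if l = j then sv 1 else 1) * (if l = j then sv 1 else 1) +
        (if l = j then sv (-1) else 1) * (if l = j then sv (-1) else 1)) = 2 := by
      intro l
      by_cases hl : l = j
      · simp [hl]; norm_num
      · simp [hl]; norm_num
    simp only [this]
    simp
  · apply Finset.prod_eq_zero (Finset.mem_univ j)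
    simp [h]

/-- mean norm on sign vectors -/
noncomputable def ell (N : Seminorm ℝ (Fin m → ℝ)) (A : Matrix (Fin m) (Fin m) ℝ) : ℝ :=
  avg (fun e => N (A *ᵥ sgv e))

lemma ell_nonneg (N : Seminorm ℝ (Fin m → ℝ)) (A : Matrix (Fin m) (Fin m) ℝ) : 0 ≤ ell N A :=
  avg_nonneg fun _ => apply_nonneg N _

lemma ell_add_le (N : Seminorm ℝ (Fin m → ℝ)) (A B : Matrix (Fin m) (Fin m) ℝ) :
    ell N (A + B) ≤ ell N A + ell N B := by
  unfold ell
  rw [← avg_add]
  apply avg_mono
  intro e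
  rw [Matrix.add_mulVec]
  exact map_add_le_add N _ _

lemma ell_smul (N : Seminorm ℝ (Fin m → ℝ)) {c : ℝ} (hc : 0 ≤ c) (A : Matrix (Fin m) (Fin m) ℝ) :
    ell N (c • A) = c * ell N A := by
  unfold ell
  rw [← avg_const_mul]
  congr 1
  ext e
  rw [Matrix.smul_mulVec, map_smul_eq_mul, Real.norm_eq_abs, abs_of_nonneg hc]

lemma l2_le_norm (x : Fin m → ℝ) : l2 x ≤ Real.sqrt m * ‖x‖ := by
  unfold l2
  rw [← Real.sqrt_sq (norm_nonneg x), ← Real.sqrt_mul (by positivity)]
  apply Real.sqrt_le_sqrt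
  calc ∑ i, x i ^ 2 ≤ ∑ _i : Fin m, ‖x‖ ^ 2 := by
        refine Finset.sum_le_sum fun i _ => ?_
        rw [← sq_abs]
        exact pow_le_pow_left₀ (abs_nonneg _) (by simpa using norm_le_pi_norm x i) 2
    _ = m * ‖x‖ ^ 2 := by simp

lemma abs_le_l2 (x : Fin m → ℝ) (i : Fin m) : |x i| ≤ l2 x := by
  unfold l2
  apply Real.abs_le_sqrt
  exact Finset.single_le_sum (f := fun i => x i ^ 2) (fun i _ => sq_nonneg _) (Finset.mem_univ i)

lemma continuous_N (N : Seminorm ℝ (Fin m → ℝ)) {R : ℝ} (hR : 1 ≤ R) (hN1 : ∀ x, N x ≤ R * l2 x) :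
    Continuous N := by
  have hc : 0 ≤ R * Real.sqrt m := by positivity
  set c : NNReal := Real.toNNReal (R * Real.sqrt m) with hcdef
  have hcc : (c : ℝ) = R * Real.sqrt m := Real.coe_toNNReal _ hc
  have hval : ∀ x, (c • normSeminorm ℝ (Fin m → ℝ)) x = R * Real.sqrt m * ‖x‖ := by
    intro x
    rw [← hcc]
    rfl
  refine Seminorm.continuous_of_le (q := c • normSeminorm ℝ (Fin m → ℝ)) ?_ ?_
  · have : (⇑(c • normSeminorm ℝ (Fin m → ℝ)) : (Fin m → ℝ) → ℝ)
        = fun x => (R * Real.sqrt m) * ‖x‖ := by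
      ext x
      exact hval x
    rw [this]
    exact continuous_const.mul continuous_norm
  · intro x
    have h := (hN1 x).trans (mul_le_mul_of_nonneg_left (l2_le_norm x) (by linarith))
    rw [hval, mul_assoc]
    exact h

lemma continuous_ell (N : Seminorm ℝ (Fin m → ℝ)) {R : ℝ} (hR : 1 ≤ R) (hN1 : ∀ x, N x ≤ R * l2 x) :
    Continuous (ell N) := by
  unfold ell avg
  refine continuous_const.mul (continuous_finsetSum _ fun e _ => ?_)
  exact (continuous_N N hR hN1).comp (continuous_id.matrix_mulVec continuous_const)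

lemma entry_le (N : Seminorm ℝ (Fin m → ℝ)) {R : ℝ} (hN2 : ∀ x, l2 x ≤ R * N x)
    (A : Matrix (Fin m) (Fin m) ℝ) (i j : Fin m) : |A i j| ≤ R * ell N A := by
  have h1 : A i j = avg (fun e => sv (e j) * (A *ᵥ sgv e) i) := by
    unfold avg
    have : ∀ e : Sg m, sv (e j) * (A *ᵥ sgv e) i = ∑ k, A i k * (sv (e j) * sv (e k)) := by
      intro e
      simp only [Matrix.mulVec, dotProduct, sgv, Finset.mul_sum]
      exact Finset.sum_congr rfl fun k _ => by ring
    simp only [this]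
    rw [Finset.sum_comm]
    simp only [← Finset.mul_sum, sum_sv_sv]
    simp
    field_simp
  calc |A i j| = |avg (fun e => sv (e j) * (A *ᵥ sgv e) i)| := by rw [← h1]
    _ ≤ avg (fun e => R * N (A *ᵥ sgv e)) := by
        unfold avg
        rw [abs_mul, abs_of_nonneg (by positivity : (0:ℝ) ≤ ((2:ℝ)^m)⁻¹)]
        apply mul_le_mul_of_nonneg_left _ (by positivity)
        refine (Finset.abs_sum_le_sum_abs _ _).trans (Finset.sum_le_sum fun e _ => ?_)
        rw [abs_mul]
        have : |sv (e j)| = 1 := by rcases sv_cases (e j) with h | h <;> simp [h]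
        rw [this, one_mul]
        exact (abs_le_l2 _ i).trans (hN2 _)
    _ = R * ell N A := avg_const_mul _ _

/-- existence of a minimiser of `ell` on `det = 1` -/
lemma exists_min (N : Seminorm ℝ (Fin m → ℝ)) {R : ℝ} (hR : 1 ≤ R) (hN1 : ∀ x, N x ≤ R * l2 x)
    (hN2 : ∀ x, l2 x ≤ R * N x) :
    ∃ B : Matrix (Fin m) (Fin m) ℝ, B.det = 1 ∧ ∀ A : Matrix (Fin m) (Fin m) ℝ, A.det = 1 → ell N B ≤ ell N A := by
  set M : ℝ := R * ell N 1 with hM
  set S : Set (Matrix (Fin m) (Fin m) ℝ) := {A | A.det = 1 ∧ ell N A ≤ ell N 1} with hS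
  have hclosed : IsClosed S := by
    apply IsClosed.inter
    · exact isClosed_eq (Continuous.matrix_det continuous_id) continuous_const
    · exact isClosed_le (continuous_ell N hR hN1) continuous_const
  have hcomp : IsCompact S := by
    have hbox : IsCompact (Set.pi Set.univ (fun _ : Fin m => Set.pi Set.univ (fun _ : Fin m => Set.Icc (-M) M))
        : Set (Fin m → Fin m → ℝ)) :=
      isCompact_univ_pi fun _ => isCompact_univ_pi fun _ => isCompact_Icc
    refine IsCompact.of_isClosed_subset hbox hclosed ?_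
    intro A hA
    intro i _ j _
    have h := entry_le N hN2 A i j
    have h2 : R * ell N A ≤ M := mul_le_mul_of_nonneg_left hA.2 (by linarith)
    exact abs_le.mp (h.trans h2)
  have hne : S.Nonempty := ⟨1, by simp [hS]⟩
  obtain ⟨B, hB, hmin⟩ := hcomp.exists_isMinOn hne (continuous_ell N hR hN1).continuousOn
  refine ⟨B, hB.1, fun A hA => ?_⟩
  by_cases h : ell N A ≤ ell N 1
  · exact hmin ⟨hA, h⟩
  · exact hB.2.trans (le_of_lt (not_le.mp h))

lemma hasDerivAt_det (T : Matrix (Fin m) (Fin m) ℝ) :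
    HasDerivAt (fun t : ℝ => (1 + t • T).det) T.trace 0 := by
  set p : Polynomial ℝ := (det (1 + (Polynomial.X : Polynomial ℝ) • T.map Polynomial.C)).divX.divX with hp
  have h : (fun t : ℝ => (1 + t • T).det) = fun t => 1 + T.trace * t + p.eval t * t ^ 2 := by
    ext t
    exact Matrix.det_one_add_smul t T
  rw [h]
  have h1 : HasDerivAt (fun t : ℝ => 1 + T.trace * t) T.trace 0 := by
    simpa using ((hasDerivAt_id (0:ℝ)).const_mul T.trace).const_add 1
  have h2 : HasDerivAt (fun t : ℝ => p.eval t * t ^ 2) 0 0 := by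
    have := (p.hasDerivAt (0:ℝ)).fun_mul (hasDerivAt_pow 2 (0:ℝ))
    simpa using this
  simpa using h1.fun_add h2

/-- first order condition at a minimiser -/
lemma first_order (N : Seminorm ℝ (Fin m → ℝ)) (hm : 0 < m) (B : Matrix (Fin m) (Fin m) ℝ)
    (hB : B.det = 1) (hpos : 0 < ell N B)
    (hmin : ∀ A : Matrix (Fin m) (Fin m) ℝ, A.det = 1 → ell N B ≤ ell N A) (T : Matrix (Fin m) (Fin m) ℝ) :
    T.trace * ell N B ≤ m * ell N (B * T) := by
  set a := ell N (B * T) with ha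
  set b := ell N B with hb
  have ha0 : 0 ≤ a := ell_nonneg _ _
  -- inequality for small positive t
  have key : ∀ t : ℝ, 0 < t → 0 < (1 + t • T).det → (1 + t • T).det * b ^ m ≤ (b + t * a) ^ m := by
    intro t ht hd
    set d := (1 + t • T).det with hdd
    set l : ℝ := d ^ ((m:ℝ)⁻¹) with hl
    have hlpos : 0 < l := Real.rpow_pos_of_pos hd _
    have hlm : l ^ m = d := Real.rpow_inv_natCast_pow hd.le hm.ne'
    have hdet : (l⁻¹ • (B * (1 + t • T))).det = 1 := by
      rw [Matrix.det_smul, Matrix.det_mul, hB, one_mul, Fintype.card_fin, inv_pow, hlm, ← hdd]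
      exact inv_mul_cancel₀ hd.ne'
    have h1 := hmin _ hdet
    rw [ell_smul N (inv_pos.mpr hlpos).le] at h1
    have h2 : ell N (B * (1 + t • T)) ≤ b + t * a := by
      rw [Matrix.mul_add, Matrix.mul_one, Matrix.mul_smul]
      refine (ell_add_le N _ _).trans ?_
      rw [ell_smul N ht.le]
    have h3 : l * b ≤ b + t * a := by
      have : b ≤ l⁻¹ * (b + t * a) := h1.trans (mul_le_mul_of_nonneg_left h2 (inv_pos.mpr hlpos).le)
      calc l * b ≤ l * (l⁻¹ * (b + t * a)) := mul_le_mul_of_nonneg_left this hlpos.le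
        _ = b + t * a := by field_simp
    calc d * b ^ m = (l * b) ^ m := by rw [mul_pow, hlm]
      _ ≤ (b + t * a) ^ m := pow_le_pow_left₀ (by positivity) h3 m
  -- derivative
  have hder : HasDerivAt (fun t : ℝ => (b + t * a) ^ m - (1 + t • T).det * b ^ m)
      (m * b ^ (m-1) * a - T.trace * b ^ m) 0 := by
    have h1 : HasDerivAt (fun t : ℝ => b + t * a) a 0 := by
      simpa using ((hasDerivAt_id (0:ℝ)).mul_const a).const_add b
    have h2 := h1.fun_pow m
    have h3 := (hasDerivAt_det T).mul_const (b ^ m)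
    have h4 := h2.fun_sub h3
    simpa using h4
  have hdetpos : ∀ᶠ t in 𝓝[>] (0:ℝ), 0 < (1 + t • T).det := by
    have hc : ContinuousAt (fun t : ℝ => (1 + t • T).det) 0 := (hasDerivAt_det T).continuousAt
    have : (0:ℝ) < (fun t : ℝ => (1 + t • T).det) 0 := by simp
    exact (hc.eventually (lt_mem_nhds this)).filter_mono nhdsWithin_le_nhds
  have hnonneg : 0 ≤ m * b ^ (m-1) * a - T.trace * b ^ m := by
    have ht := hasDerivAt_iff_tendsto_slope_zero.mp hder
    have ht' := ht.mono_left (nhdsWithin_mono (0:ℝ) (fun t (h : 0 < t) => (ne_of_gt h : t ≠ 0)) :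
      𝓝[>] (0:ℝ) ≤ 𝓝[≠] 0)
    refine ge_of_tendsto ht' ?_
    filter_upwards [hdetpos, self_mem_nhdsWithin] with t h1 h2
    have h2' : (0:ℝ) < t := h2
    have h3 := key t h2' h1
    simp only [zero_add, zero_mul, add_zero, zero_smul, Matrix.det_one, one_mul, sub_self, sub_zero,
      smul_eq_mul]
    apply mul_nonneg (inv_pos.mpr h2').le
    linarith
  have hbm : b ^ m = b ^ (m-1) * b := by
    rw [← pow_succ]; congr 1; omega
  have hbp : 0 < b ^ (m-1) := pow_pos hpos _
  rw [hbm] at hnonneg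
  have : 0 ≤ b ^ (m-1) * (m * a - T.trace * b) := by nlinarith [hnonneg]
  have := nonneg_of_mul_nonneg_right this hbp
  linarith

lemma R1_apply (G : Sg m → Fin m → ℝ) (e : Sg m) (i : Fin m) :
    R1 G e i = ∑ j, (avg fun f => G f i * sv (f j)) * sv (e j) := by
  have h1 : R1 G e i = ∑ n, rad m n * G (e * n) i := by
    simp [R1, conv, Finset.sum_apply]
  rw [h1]
  have h2 : ∑ n, rad m n * G (e * n) i = ∑ f, rad m (e * f) * G f i := by
    refine Fintype.sum_equiv (Equiv.mulLeft e) _ _ fun n => ?_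
    have : e * (e * n) = n := by
      rw [← mul_assoc]
      have : e * e = 1 := by
        ext i; simp
      rw [this, one_mul]
    simp [this]
  rw [h2]
  simp only [avg, rad, Finset.mul_sum, Finset.sum_mul, Pi.mul_apply, sv_mul]
  rw [Finset.sum_comm]
  exact Finset.sum_congr rfl fun j _ => Finset.sum_congr rfl fun f _ => by ring

lemma conv_mulVec (k : Sg m → ℝ) (B : Matrix (Fin m) (Fin m) ℝ) (G : Sg m → Fin m → ℝ) (e : Sg m) :
    B *ᵥ (conv k G e) = conv k (fun f => B *ᵥ G f) e := by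
  simp only [conv]
  rw [← Matrix.mulVecLin_apply, map_sum]
  simp

/-- **Good position** (`ℓ ℓ*` estimate). -/
theorem good_position (K : ℕ) (hK : 1 ≤ K) :
    ∃ C : ℝ, 0 < C ∧ ∀ (m : ℕ) (N : Seminorm ℝ (Fin m → ℝ)) (R : ℝ), 1 ≤ R →
      (∀ x, N x ≤ R * l2 x) → (∀ x, l2 x ≤ R * N x) →
      ∃ A : Matrix (Fin m) (Fin m) ℝ, A.det = 1 ∧
        ∀ G : Sg m → Fin m → ℝ, (∀ e, N (A *ᵥ G e) ≤ 1) →
          ell N A * avg (fun e => G e ⬝ᵥ sgv e) ≤ m * (C * R ^ ((2:ℝ) / K)) := by
  obtain ⟨C, hC, hkc⟩ := kconv K hK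
  refine ⟨C, hC, fun m N R hR hN1 hN2 => ?_⟩
  have hRpos : 0 < R := by linarith
  have hCR : 0 < C * R ^ ((2:ℝ) / K) := mul_pos hC (Real.rpow_pos_of_pos hRpos _)
  obtain ⟨B, hB, hmin⟩ := exists_min N hR hN1 hN2
  refine ⟨B, hB, fun G hG => ?_⟩
  rcases Nat.eq_zero_or_pos m with hm | hm
  · subst hm
    have hN0 : ∀ x : Fin 0 → ℝ, N x = 0 := fun x => by rw [Subsingleton.elim x 0, map_zero]
    have h0 : ell N B = 0 := by
      simp only [ell, avg, hN0, Finset.sum_const_zero, mul_zero]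
    rw [h0]; simp
  have hpos : 0 < ell N B := by
    rcases (ell_nonneg N B).lt_or_eq with h | h
    · exact h
    · exfalso
      have hz : B = 0 := by
        ext i j
        have := entry_le N hN2 B i j
        rw [← h, mul_zero] at this
        simpa using this
      have : Nonempty (Fin m) := ⟨⟨0, hm⟩⟩
      rw [hz, Matrix.det_zero] at hB
      exact zero_ne_one hB
  set T : Matrix (Fin m) (Fin m) ℝ := fun i j => avg fun f => G f i * sv (f j) with hT
  have h1 := first_order N hm B hB hpos hmin T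
  have htr : T.trace = avg (fun e => G e ⬝ᵥ sgv e) := by
    simp only [Matrix.trace, Matrix.diag, hT, avg, dotProduct, sgv]
    rw [← Finset.mul_sum, Finset.sum_comm]
  have hTe : ∀ e : Sg m, T *ᵥ sgv e = R1 G e := by
    intro e
    ext i
    rw [R1_apply]
    rfl
  have h2 : ell N (B * T) ≤ C * R ^ ((2:ℝ) / K) := by
    have e1 : ell N (B * T) = avg (fun e => N (R1 (fun f => B *ᵥ G f) e)) := by
      unfold ell
      congr 1
      ext e
      rw [← Matrix.mulVec_mulVec, hTe, R1, conv_mulVec, ← R1]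
    rw [e1]
    refine (avg_le_nrm2 _).trans ?_
    have h2m : (0:ℝ) < 2 ^ m := by positivity
    have hsp : 0 < Real.sqrt ((2:ℝ)^m) := Real.sqrt_pos.mpr h2m
    have e2 := hkc m N R hR hN1 hN2 (fun f => B *ᵥ G f)
    have e3 : nrm2 (fun e => N (B *ᵥ G e)) ≤ Real.sqrt ((2:ℝ)^m) := by
      refine (nrm2_mono (g := fun _ => 1) (fun e => apply_nonneg N _) hG).trans ?_
      unfold nrm2
      apply Real.sqrt_le_sqrt
      simp
    calc (Real.sqrt ((2:ℝ)^m))⁻¹ * nrm2 (fun e => N (R1 (fun f => B *ᵥ G f) e))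
        ≤ (Real.sqrt ((2:ℝ)^m))⁻¹ * (C * R ^ ((2:ℝ) / K) * Real.sqrt ((2:ℝ)^m)) := by
          apply mul_le_mul_of_nonneg_left _ (inv_pos.mpr hsp).le
          exact e2.trans (mul_le_mul_of_nonneg_left e3 hCR.le)
      _ = C * R ^ ((2:ℝ) / K) := by field_simp
  rw [htr] at h1
  calc ell N B * avg (fun e => G e ⬝ᵥ sgv e) = avg (fun e => G e ⬝ᵥ sgv e) * ell N B := mul_comm _ _
    _ ≤ m * ell N (B * T) := h1
    _ ≤ m * (C * R ^ ((2:ℝ) / K)) := mul_le_mul_of_nonneg_left h2 (by positivity)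

end Crest.Agent.R152.WRM6
end

-- ▼ part R152/WRM6D
section

/-!
# Good position: support function form and Euclidean space form
-/

set_option autoImplicit false

namespace Crest.Agent.R152.WRM6

open Finset Matrix Filter Topology

variable {m : ℕ}

/-- passing from arbitrary test vectors to the support function -/
lemma ell_mul_avg_sSup_le (N : Seminorm ℝ (Fin m → ℝ)) (A : Matrix (Fin m) (Fin m) ℝ) (D : ℝ)
    (h : ∀ G : Sg m → Fin m → ℝ, (∀ e, N (A *ᵥ G e) ≤ 1) →
      ell N A * avg (fun e => G e ⬝ᵥ sgv e) ≤ D) :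
    ell N A * avg (fun e => sSup {t : ℝ | ∃ x : Fin m → ℝ, N (A *ᵥ x) ≤ 1 ∧ t = x ⬝ᵥ sgv e}) ≤ D := by
  have key : ∀ d : ℝ, 0 < d → ell N A * (avg (fun e => sSup {t : ℝ | ∃ x : Fin m → ℝ, N (A *ᵥ x) ≤ 1 ∧ t = x ⬝ᵥ sgv e}) - d) ≤ D := by
    intro d hd
    have hex : ∀ e : Sg m, ∃ x : Fin m → ℝ, N (A *ᵥ x) ≤ 1 ∧
        sSup {t : ℝ | ∃ x : Fin m → ℝ, N (A *ᵥ x) ≤ 1 ∧ t = x ⬝ᵥ sgv e} - d < x ⬝ᵥ sgv e := by
      intro e
      have hne : {t : ℝ | ∃ x : Fin m → ℝ, N (A *ᵥ x) ≤ 1 ∧ t = x ⬝ᵥ sgv e}.Nonempty :=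
        ⟨0, 0, by simp, by simp⟩
      obtain ⟨t, ⟨x, hx, rfl⟩, ht⟩ := exists_lt_of_lt_csSup hne (sub_lt_self _ hd)
      exact ⟨x, hx, ht⟩
    choose G hG1 hG2 using hex
    refine le_trans (mul_le_mul_of_nonneg_left ?_ (ell_nonneg N A)) (h G hG1)
    have : avg (fun e => sSup {t : ℝ | ∃ x : Fin m → ℝ, N (A *ᵥ x) ≤ 1 ∧ t = x ⬝ᵥ sgv e}) - d
        = avg (fun e => sSup {t : ℝ | ∃ x : Fin m → ℝ, N (A *ᵥ x) ≤ 1 ∧ t = x ⬝ᵥ sgv e} - d) := by
      simp only [avg, Finset.sum_sub_distrib, mul_sub]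
      congr 1
      simp [Finset.card_univ, Fintype.card_pi]
    rw [this]
    exact avg_mono fun e => (hG2 e).le
  have hlim : Tendsto (fun d : ℝ => ell N A * (avg (fun e => sSup {t : ℝ | ∃ x : Fin m → ℝ, N (A *ᵥ x) ≤ 1 ∧ t = x ⬝ᵥ sgv e}) - d)) (𝓝[>] 0)
      (𝓝 (ell N A * (avg (fun e => sSup {t : ℝ | ∃ x : Fin m → ℝ, N (A *ᵥ x) ≤ 1 ∧ t = x ⬝ᵥ sgv e}) - 0))) := by
    refine (Continuous.tendsto ?_ 0).mono_left nhdsWithin_le_nhds
    fun_prop
  rw [sub_zero] at hlim
  refine le_of_tendsto hlim ?_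
  filter_upwards [self_mem_nhdsWithin] with d hd
  exact key d hd


/-- sign vector in Euclidean space -/
noncomputable def sgE (e : Sg m) : EuclideanSpace ℝ (Fin m) := WithLp.toLp 2 (sgv e)

lemma l2_eq_norm (x : Fin m → ℝ) : l2 x = ‖(WithLp.toLp 2 x : EuclideanSpace ℝ (Fin m))‖ := by
  rw [EuclideanSpace.norm_eq]
  simp [l2]

/-- **Good position** in `EuclideanSpace`. -/
theorem good_position_euclid (K : ℕ) (hK : 1 ≤ K) :
    ∃ C : ℝ, 0 < C ∧ ∀ (m : ℕ) (N : Seminorm ℝ (EuclideanSpace ℝ (Fin m))) (R : ℝ), 1 ≤ R →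
      (∀ x, N x ≤ R * ‖x‖) → (∀ x, ‖x‖ ≤ R * N x) →
      ∃ A : EuclideanSpace ℝ (Fin m) →ₗ[ℝ] EuclideanSpace ℝ (Fin m), LinearMap.det A = 1 ∧
        (∀ G : Sg m → EuclideanSpace ℝ (Fin m), (∀ e, N (A (G e)) ≤ 1) →
          avg (fun e => N (A (sgE e))) * avg (fun e => inner ℝ (G e) (sgE e)) ≤ m * (C * R ^ ((2:ℝ) / K))) ∧
        avg (fun e => N (A (sgE e))) *
          avg (fun e => sSup {t : ℝ | ∃ x : EuclideanSpace ℝ (Fin m), N (A x) ≤ 1 ∧ t = inner ℝ x (sgE e)})
          ≤ m * (C * R ^ ((2:ℝ) / K)) := by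
  obtain ⟨C, hC, h⟩ := good_position K hK
  refine ⟨C, hC, fun m N R hR h1 h2 => ?_⟩
  set L := (WithLp.linearEquiv 2 ℝ (Fin m → ℝ)).symm with hL
  set N' : Seminorm ℝ (Fin m → ℝ) := N.comp L.toLinearMap with hN'
  have hN'a : ∀ x, N' x = N (WithLp.toLp 2 x) := fun x => rfl
  obtain ⟨A, hA, hG⟩ := h m N' R hR (fun x => by rw [hN'a, l2_eq_norm]; exact h1 _)
    (fun x => by rw [hN'a, l2_eq_norm]; exact h2 _)
  have hAx : ∀ x : EuclideanSpace ℝ (Fin m), Matrix.toEuclideanLin A x = WithLp.toLp 2 (A *ᵥ (WithLp.ofLp x)) :=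
    fun x => rfl
  have hinner : ∀ (x : EuclideanSpace ℝ (Fin m)) (e : Sg m), inner ℝ x (sgE e) = (WithLp.ofLp x) ⬝ᵥ sgv e := by
    intro x e
    rw [PiLp.inner_apply]
    simp only [dotProduct, sgE]
    exact Finset.sum_congr rfl fun i _ => by simp [mul_comm]
  have hell : avg (fun e => N (Matrix.toEuclideanLin A (sgE e))) = ell N' A := rfl
  refine ⟨Matrix.toEuclideanLin A, ?_, ?_, ?_⟩
  · rw [Matrix.toEuclideanLin_eq_toLin_orthonormal, LinearMap.det_toLin, hA]
  · intro G hGe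
    have := hG (fun e => WithLp.ofLp (G e)) (fun e => hGe e)
    simp only [hinner]
    exact this
  · have := ell_mul_avg_sSup_le N' A _ hG
    refine le_trans (le_of_eq ?_) this
    rw [hell]
    congr 2
    ext e
    congr 1
    ext t
    constructor
    · rintro ⟨x, hx, rfl⟩
      exact ⟨WithLp.ofLp x, hx, hinner x e⟩
    · rintro ⟨x, hx, rfl⟩
      exact ⟨WithLp.toLp 2 x, hx, (hinner (WithLp.toLp 2 x) e).symm⟩

end Crest.Agent.R152.WRM6
end

-- ▼ part R152/WRM7D
section

/-!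
# WRM-7, part D: critical convex bodies have large gaussian measure

`gauss_body_ge`: a compact convex symmetric body `V` of volume `≥ 1` with
`closedBall 0 r ⊆ V ⊆ closedBall 0 R` which is critical for the gaussian measure
`exp (-(π / s²) ‖x‖²)` satisfies
`(1 - s * C * Q ^ (2 / K) * log (m + 2)) * s ^ m ≤ ∫ x in V, exp (-(π / s²) ‖x‖²)`.
-/

set_option autoImplicit false

open MeasureTheory Set Real
open scoped ENNReal Pointwise

namespace Crest.Agent.R152.WRM7

lemma exists_seminorm {m : ℕ} {V : Set (Eu m)} (hVcl : IsClosed V) (hVc : Convex ℝ V)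
    (hVs : ∀ x ∈ V, -x ∈ V) {r R : ℝ} (hr : 0 < r) (hball : Metric.closedBall 0 r ⊆ V)
    (hR : V ⊆ Metric.closedBall 0 R) :
    ∃ N : Seminorm ℝ (Eu m), ub N = V ∧ (∀ x, N x ≤ (1 / r) * ‖x‖) ∧ (∀ x, ‖x‖ ≤ R * N x) := by
  have h0 : (0 : Eu m) ∈ V := hball (by simp [hr.le])
  have hnhds : V ∈ nhds (0 : Eu m) := Filter.mem_of_superset (Metric.closedBall_mem_nhds _ hr) hball
  have hbal : Balanced ℝ V := by
    rw [balanced_iff_smul_mem]
    intro a ha x hx
    rw [Real.norm_eq_abs] at ha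
    rcases le_or_gt 0 a with h | h
    · rw [abs_of_nonneg h] at ha
      have := hVc hx h0 h (by linarith : (0:ℝ) ≤ 1 - a) (by ring)
      simpa using this
    · rw [abs_of_neg h] at ha
      have := hVc (hVs x hx) h0 (by linarith : (0:ℝ) ≤ -a) (by linarith : (0:ℝ) ≤ 1 - (-a)) (by ring)
      simpa using this
  have habs : Absorbent ℝ V := absorbent_nhds_zero hnhds
  set N : Seminorm ℝ (Eu m) := gaugeSeminorm hbal hVc habs with hN
  have hub : ub N = V := by
    ext x
    show gauge V x ≤ 1 ↔ x ∈ V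
    rw [gauge_le_one_iff_mem_closure hVc hnhds, hVcl.closure_eq]
  refine ⟨N, hub, ?_, ?_⟩
  · intro x
    rcases eq_or_ne x 0 with rfl | hx
    · simp
    · have hx0 : 0 < ‖x‖ := norm_pos_iff.mpr hx
      have h1 : (r / ‖x‖) • x ∈ V := by
        apply hball
        rw [mem_closedBall_zero_iff, norm_smul, Real.norm_of_nonneg (by positivity)]
        field_simp
        exact le_refl _
      rw [← hub] at h1
      have h2 : N ((r / ‖x‖) • x) ≤ 1 := h1
      rw [map_smul_eq_mul, Real.norm_of_nonneg (by positivity)] at h2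
      rw [div_mul_eq_mul_div, div_le_one hx0] at h2
      rw [one_div, inv_mul_eq_div, le_div_iff₀ hr]
      linarith
  · intro x
    rcases (apply_nonneg N x).eq_or_lt with h | h
    · have h1 : ∀ n : ℕ, (n : ℝ) * ‖x‖ ≤ R := by
        intro n
        have h2 : (n : ℝ) • x ∈ V := by
          rw [← hub]
          show N ((n : ℝ) • x) ≤ 1
          rw [map_smul_eq_mul, ← h, mul_zero]
          norm_num
        have h3 := hR h2
        rw [mem_closedBall_zero_iff, norm_smul, Real.norm_of_nonneg (Nat.cast_nonneg n)] at h3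
        exact h3
      have hx0 : ‖x‖ = 0 := by
        by_contra hne
        have hpos : 0 < ‖x‖ := lt_of_le_of_ne (norm_nonneg x) (Ne.symm hne)
        obtain ⟨n, hn⟩ := exists_nat_gt (R / ‖x‖)
        have := h1 n
        rw [div_lt_iff₀ hpos] at hn
        linarith
      rw [← h, hx0, mul_zero]
    · have h1 : (N x)⁻¹ • x ∈ V := by
        rw [← hub]
        show N ((N x)⁻¹ • x) ≤ 1
        rw [map_smul_eq_mul, Real.norm_of_nonneg (by positivity), inv_mul_cancel₀ h.ne']
      have h2 := hR h1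
      rw [mem_closedBall_zero_iff, norm_smul, Real.norm_of_nonneg (by positivity)] at h2
      rw [inv_mul_eq_div, div_le_iff₀ h] at h2
      exact h2

/-- booleans and units of `ℤ` -/
def bu : Bool ≃ ℤˣ where
  toFun b := if b then 1 else -1
  invFun u := decide (u = 1)
  left_inv b := by cases b <;> simp
  right_inv u := by
    rcases Int.units_eq_one_or u with h | h <;> simp [h]

lemma sgE_bu {m : ℕ} (e : Fin m → Bool) : WRM6.sgE (fun i => bu (e i)) = sgv e := by
  ext i
  show WRM6.sv (bu (e i)) = sg (e i)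
  cases e i <;> simp [bu, sg]

/-- index change -/
def buE (m : ℕ) : (Fin m → Bool) ≃ WRM6.Sg m := Equiv.piCongrRight (fun _ => bu)

lemma avg_eq {m : ℕ} (f : WRM6.Sg m → ℝ) :
    WRM6.avg f = (∑ e : Fin m → Bool, f (fun i => bu (e i))) / 2 ^ m := by
  rw [WRM6.avg, ← Equiv.sum_comp (buE m) f, div_eq_inv_mul]
  rfl

lemma diagMax (m : ℕ) {c : ℝ} (hc : 0 < c) : Crest.Agent.R152.DiagMax m c := fun _ hm hcx hs hb h hcrit =>
  WrmB.diag_le_euclidean hm hcx hs hb hc h hcrit

/-- **Critical bodies have large gaussian measure.** -/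
theorem gauss_body_ge (K : ℕ) (hK : 1 ≤ K) : ∃ C : ℝ, 0 < C ∧ ∀ (m : ℕ) (V : Set (Eu m)),
    0 < m → IsClosed V → Convex ℝ V → (∀ x ∈ V, -x ∈ V) → ∀ r Q : ℝ, 0 < r → 1 ≤ Q → 1 / r ≤ Q →
    Metric.closedBall 0 r ⊆ V → V ⊆ Metric.closedBall 0 Q → 1 ≤ volume V → ∀ s : ℝ, 0 < s →
    (∀ H : Eu m →ₗ[ℝ] Eu m, H.IsSymmetric → LinearMap.trace ℝ _ H = 0 →
      ∫ x in V, inner ℝ x (H x) * Real.exp (-(Real.pi / s ^ 2) * ‖x‖ ^ 2) = 0) →
    (1 - s * (C * Q ^ ((2:ℝ) / K) * Real.log (m + 2))) * s ^ m ≤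
      ∫ x in V, Real.exp (-(Real.pi / s ^ 2) * ‖x‖ ^ 2) := by
  obtain ⟨C₀, hC₀, hgood⟩ := WRM6.good_position_euclid K hK
  refine ⟨4 * Real.pi * C₀, by have := Real.pi_pos; positivity, ?_⟩
  intro m V hm hVcl hVc hVs r Q hr hQ hrQ hball hVQ hvol s hs hcrit
  obtain ⟨N, hub, hN1, hN2⟩ := exists_seminorm hVcl hVc hVs hr hball hVQ
  have hN1' : ∀ x, N x ≤ Q * ‖x‖ := fun x =>
    (hN1 x).trans (mul_le_mul_of_nonneg_right hrQ (norm_nonneg x))
  obtain ⟨A, hdet, hA, -⟩ := hgood m N Q hQ hN1' hN2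
  have hc : 0 < Real.pi / s ^ 2 := by have := Real.pi_pos; positivity
  have hdet0 : LinearMap.det A ≠ 0 := by rw [hdet]; exact one_ne_zero
  let e : Eu m ≃ₗ[ℝ] Eu m := LinearMap.equivOfDetNeZero A hdet0
  have he : ∀ x, e x = A x := fun x => rfl
  let ec : Eu m ≃L[ℝ] Eu m := e.toContinuousLinearEquiv
  have hec : ∀ x, ec x = A x := fun x => rfl
  -- the transported seminorm
  set N' : Seminorm ℝ (Eu m) := N.comp A with hN'
  have hN'x : ∀ x, N' x = N (A x) := fun x => rfl
  have hub' : ub N' = A ⁻¹' V := by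
    ext x
    rw [← hub]
    rfl
  have hQ0 : (0:ℝ) < Q := by linarith
  have hb' : ∀ x, N' x ≤ (Q * ‖(ec : Eu m →L[ℝ] Eu m)‖) * ‖x‖ := by
    intro x
    rw [hN'x, mul_assoc]
    refine (hN1' _).trans (mul_le_mul_of_nonneg_left ?_ hQ0.le)
    exact (ec : Eu m →L[ℝ] Eu m).le_opNorm x
  set D : ℝ := ‖(ec.symm : Eu m →L[ℝ] Eu m)‖ * Q + 1 with hD
  have hD0 : 0 < D := by positivity
  have ha' : ∀ x, (1 / D) * ‖x‖ ≤ N' x := by
    intro x
    rw [one_div, inv_mul_le_iff₀ hD0, hN'x]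
    have h1 : ‖x‖ ≤ ‖(ec.symm : Eu m →L[ℝ] Eu m)‖ * ‖A x‖ := by
      have := (ec.symm : Eu m →L[ℝ] Eu m).le_opNorm (A x)
      have h2 : (ec.symm : Eu m →L[ℝ] Eu m) (A x) = x := by
        rw [← hec]; simp
      rwa [h2] at this
    have h3 := hN2 (A x)
    have h4 : ‖(ec.symm : Eu m →L[ℝ] Eu m)‖ * ‖A x‖ ≤
        ‖(ec.symm : Eu m →L[ℝ] Eu m)‖ * (Q * N (A x)) :=
      mul_le_mul_of_nonneg_left h3 (norm_nonneg _)
    have h5 : 0 ≤ N (A x) := apply_nonneg N _
    rw [hD]
    nlinarith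
  have hmp : MeasurePreserving A (volume : Measure (Eu m)) volume := by
    refine ⟨ec.continuous.measurable, ?_⟩
    rw [Measure.map_linearMap_addHaar_eq_smul_addHaar volume hdet0, hdet]
    simp
  have hemb : MeasurableEmbedding A := ec.toHomeomorph.measurableEmbedding
  have hvol' : 1 ≤ volume (ub N') := by
    rw [hub', hmp.measure_preimage hVcl.measurableSet.nullMeasurableSet]
    exact hvol
  have hK' : ∀ F : (Fin m → Bool) → Eu m, (∀ e, N' (F e) ≤ 1) →
      rad N' * ((∑ e, inner ℝ (F e) (sgv e)) / 2 ^ m) ≤ m * (C₀ * Q ^ ((2:ℝ) / K)) := by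
    intro F hF
    have h1 := hA (fun u => F ((buE m).symm u)) (fun u => hF _)
    rw [avg_eq, avg_eq] at h1
    have h2 : ∀ e : Fin m → Bool, (buE m).symm (fun i => bu (e i)) = e := fun e =>
      (buE m).symm_apply_apply e
    simp only [sgE_bu, h2] at h1
    exact h1
  have h1 := gauss_ball_ge (N := N') hm (by positivity : (0:ℝ) < 1 / D) ha' hb' hvol' hK' hs
  have h2 : ∫ x in ub N', Real.exp (-(Real.pi / s ^ 2) * ‖x‖ ^ 2) =
      ∫ y in V, Real.exp (-(Real.pi / s ^ 2) * ‖(e.symm : Eu m →ₗ[ℝ] Eu m) y‖ ^ 2) := by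
    have hch := hmp.setIntegral_preimage_emb hemb
      (fun y => Real.exp (-(Real.pi / s ^ 2) * ‖(e.symm : Eu m →ₗ[ℝ] Eu m) y‖ ^ 2)) V
    rw [hub', ← hch]
    have : ∀ x, (e.symm : Eu m →ₗ[ℝ] Eu m) (A x) = x := by
      intro x
      rw [← he]; simp
    simp only [this]
  have h3 := Crest.Agent.R152.crit_max_of_diag (diagMax m hc) hVcl.measurableSet hVc hVs
    ((Metric.isBounded_closedBall).subset hVQ) hcrit (e.symm : Eu m →ₗ[ℝ] Eu m) (by
      rw [LinearEquiv.det_coe_symm]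
      have : LinearMap.det (e : Eu m →ₗ[ℝ] Eu m) = 1 := hdet
      rw [this]; simp)
  rw [h2] at h1
  refine le_trans (le_of_eq ?_) (h1.trans h3)
  ring

end Crest.Agent.R152.WRM7
end

-- ▼ part R152/WRM8

set_option autoImplicit false

/-!
# Row 152: the weak reverse Minkowski theorem (helper254's note 9813), final assembly
-/

namespace Crest.Agent.R152.WRM

open Matrix MeasureTheory Filter

/-- stable critical lattices have large `fV` -/
theorem fV_ge_of_crit (K : ℕ) (hK : 1 ≤ K) : ∃ C : ℝ, 0 < C ∧ ∀ (m : ℕ), 0 < m →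
    ∀ G : Matrix (Fin m) (Fin m) ℝ, Stable G → ∀ s : ℝ, 0 < s →
    (∀ᶠ G' in nhds G, G'.PosDef → G'.det = 1 → fV s G ≤ fV s G') →
    1 - s * (C * ((m : ℝ) + 1) ^ ((2:ℝ) / K) * Real.log (m + 2)) ≤ fV s G := by
  obtain ⟨C, hC, h⟩ := WRM7.gauss_body_ge K hK
  refine ⟨C, hC, ?_⟩
  intro m hm G hG s hs hmin
  obtain ⟨A, hGA, hA0⟩ := exists_factor hG.posDef
  subst hGA
  have hA : |A.det| = 1 := by
    have h1 := hG.det_eq
    rw [det_mul, det_transpose] at h1
    have h2 : |A.det| * |A.det| = 1 := by rw [abs_mul_abs_self]; exact h1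
    nlinarith [abs_nonneg A.det]
  have hm1 : (1 : ℝ) ≤ m := by exact_mod_cast hm
  have hball : Metric.closedBall (0 : EuclideanSpace ℝ (Fin m)) (1 / 2) ⊆ WRM4.VE A := by
    apply WRM4.ball_subset_VE
    intro z hz
    have := WRM3.Stable.one_le hG hz
    norm_num
    exact this
  have hsub : WRM4.VE A ⊆ Metric.closedBall (0 : EuclideanSpace ℝ (Fin m)) ((m : ℝ) + 1) := by
    apply WRM4.VE_subset_ball hA (by positivity)
    intro x
    obtain ⟨z, hz⟩ := WRM3.cover_stable hG x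
    refine ⟨z, hz.trans ?_⟩
    nlinarith
  have hmain := h m (WRM4.VE A) hm (WRM4.isClosed_VE A) (WRM4.convex_VE A)
    (fun x hx => WRM4.neg_mem_VE hx) (1 / 2) ((m : ℝ) + 1) (by norm_num) (by linarith)
    (by norm_num; linarith) hball hsub (WRM4.volume_VE hA hG.posDef).ge s hs
    (fun H hH htr => WRM4.crit_VE hA hG.posDef hs hmin H hH htr)
  rw [WRM4.fV_eq_VE hA hG.posDef s, Fintype.card_fin]
  have hsm : 0 < s ^ m := pow_pos hs m
  rw [one_div, ← div_eq_inv_mul, le_div_iff₀ hsm]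
  exact hmain

/-- the minimiser hypothesis of `rho_le_of_min` -/
theorem hmin_of {s : ℝ} (hs : 0 < s) {q : ℝ} (K : ℕ) (hK : 1 ≤ K) (n : ℕ) (C : ℝ)
    (hC : ∀ (m : ℕ), 0 < m →
      ∀ G : Matrix (Fin m) (Fin m) ℝ, Stable G →
      (∀ᶠ G' in nhds G, G'.PosDef → G'.det = 1 → fV s G ≤ fV s G') →
      1 - s * (C * ((m : ℝ) + 1) ^ ((2:ℝ) / K) * Real.log (m + 2)) ≤ fV s G)
    (hC0 : 0 < C)
    (hq : q ≤ 1 - s * (C * ((n : ℝ) + 1) ^ ((2:ℝ) / K) * Real.log (n + 2))) :
    ∀ k, 1 ≤ k → k ≤ n → ∃ G0 : Matrix (Fin k) (Fin k) ℝ, Stable G0 ∧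
      (∀ G : Matrix (Fin k) (Fin k) ℝ, Stable G → fV s G0 ≤ fV s G) ∧
      ((∃ j, 0 < j ∧ j < k ∧ ∃ Z : Matrix (Fin k) (Fin j) ℤ, ((im Z)ᵀ * G0 * im Z).det = 1) ∨
        q ≤ fV s G0) := by
  intro k hk hkn
  obtain ⟨G0, hst, hle⟩ := WRM3.exists_min_stable k (fV s) (WRM4.continuousOn_fV s) (by
    intro G U hG hU
    have h1 : U * U⁻¹ = 1 := mul_nonsing_inv U hU
    exact fV_conj s hG U U⁻¹ h1)
  refine ⟨G0, hst, hle, ?_⟩
  by_cases h : ∃ j, 0 < j ∧ j < k ∧ ∃ Z : Matrix (Fin k) (Fin j) ℤ,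
      ((im Z)ᵀ * G0 * im Z).det = 1
  · exact Or.inl h
  · right
    have hno : ∀ (j : ℕ) (Z : Matrix (Fin k) (Fin j) ℤ), 0 < j → j < k →
        (WRM3.gr G0 Z).det ≠ 1 := by
      intro j Z hj hjk h1
      exact h ⟨j, hj, hjk, Z, h1⟩
    have hev := WRM3.eventually_stable hst hno
    have h1 := hC k hk G0 hst (by
      filter_upwards [hev] with G' hG' hp hd
      exact hle G' (hG' hp hd))
    refine le_trans hq (le_trans ?_ h1)
    have hkn' : (k : ℝ) ≤ n := by exact_mod_cast hkn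
    have hk0 : (0 : ℝ) ≤ k := by positivity
    have e1 : ((k : ℝ) + 1) ^ ((2:ℝ) / K) ≤ ((n : ℝ) + 1) ^ ((2:ℝ) / K) :=
      Real.rpow_le_rpow (by positivity) (by linarith) (by positivity)
    have e2 : Real.log ((k : ℝ) + 2) ≤ Real.log ((n : ℝ) + 2) :=
      Real.log_le_log (by positivity) (by linarith)
    have e3 : 0 ≤ Real.log ((k : ℝ) + 2) := Real.log_nonneg (by linarith)
    have e4 : 0 ≤ ((k : ℝ) + 1) ^ ((2:ℝ) / K) := by positivity
    have e5 : C * ((k : ℝ) + 1) ^ ((2:ℝ) / K) * Real.log (k + 2) ≤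
        C * ((n : ℝ) + 1) ^ ((2:ℝ) / K) * Real.log (n + 2) := by
      gcongr
    nlinarith

/-- **weak reverse Minkowski theorem**, Gaussian sum form -/
theorem wrm_rho {δ : ℝ} (hδ : 0 < δ) : ∃ n0 : ℕ, ∀ n : ℕ, n0 ≤ n → 1 ≤ n ∧ ∀ m ≤ n,
    ∀ G : Matrix (Fin m) (Fin m) ℝ, G.PosDef → SubDet G →
      rho ((n : ℝ) ^ (-δ)) G ≤ Real.exp (2 * (n : ℝ) ^ (-(δ / 4)) * m) := by
  -- choose `K` with `2 / K ≤ δ / 2`
  obtain ⟨K, hK⟩ := exists_nat_ge (max 1 (4 / δ))
  have hK1 : 1 ≤ K := by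
    have : (1 : ℝ) ≤ K := le_trans (le_max_left _ _) hK
    exact_mod_cast this
  have hK2 : (2 : ℝ) / K ≤ δ / 2 := by
    have h1 : 4 / δ ≤ K := le_trans (le_max_right _ _) hK
    have hKpos : (0 : ℝ) < K := by exact_mod_cast hK1
    rw [div_le_iff₀ hδ] at h1
    rw [div_le_div_iff₀ hKpos (by norm_num)]
    nlinarith
  obtain ⟨C, hC, hcrit⟩ := fV_ge_of_crit K hK1
  -- asymptotics
  have hasym : ∀ᶠ n : ℕ in atTop, 1 ≤ n ∧
      (n : ℝ) ^ (-δ) * (C * ((n : ℝ) + 1) ^ ((2:ℝ) / K) * Real.log (n + 2)) ≤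
        (n : ℝ) ^ (-(δ / 4)) ∧ (n : ℝ) ^ (-(δ / 4)) ≤ 1 / 2 := by
    have h1 : Tendsto (fun n : ℕ => (n : ℝ) ^ (-(δ / 4))) atTop (nhds 0) :=
      (tendsto_rpow_neg_atTop (by positivity)).comp tendsto_natCast_atTop_atTop
    have h2 : Tendsto (fun n : ℕ => C * 2 ^ (δ / 2) * (3 * (Real.log (n : ℝ) / (n : ℝ) ^ (δ / 4))))
        atTop (nhds 0) := by
      have h3 : Tendsto (fun x : ℝ => Real.log x / x ^ (δ / 4)) atTop (nhds 0) :=
        (isLittleO_log_rpow_atTop (by positivity)).tendsto_div_nhds_zero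
      have h4 := h3.comp (tendsto_natCast_atTop_atTop (R := ℝ))
      have h5 := (h4.const_mul 3).const_mul (C * 2 ^ (δ / 2))
      simpa using h5
    filter_upwards [h1.eventually_le_const (show (0:ℝ) < 1 / 2 by norm_num),
      h2.eventually_le_const (show (0:ℝ) < 1 by norm_num), eventually_ge_atTop 2] with n hn1 hn2 hn3
    refine ⟨by omega, ?_, hn1⟩
    have hn : (2 : ℝ) ≤ n := by exact_mod_cast hn3
    have hn0 : (0 : ℝ) < n := by linarith
    have e1 : ((n : ℝ) + 1) ^ ((2:ℝ) / K) ≤ 2 ^ (δ / 2) * (n : ℝ) ^ (δ / 2) := by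
      calc ((n : ℝ) + 1) ^ ((2:ℝ) / K) ≤ ((n : ℝ) + 1) ^ (δ / 2) :=
            Real.rpow_le_rpow_of_exponent_le (by linarith) hK2
        _ ≤ (2 * n) ^ (δ / 2) := Real.rpow_le_rpow (by positivity) (by linarith) (by positivity)
        _ = _ := Real.mul_rpow (by norm_num) hn0.le
    have e2 : Real.log ((n : ℝ) + 2) ≤ 3 * Real.log n := by
      have e3 : (n : ℝ) + 2 ≤ (n : ℝ) ^ 3 := by nlinarith [sq_nonneg ((n : ℝ) - 1)]
      calc Real.log ((n : ℝ) + 2) ≤ Real.log ((n : ℝ) ^ 3) := Real.log_le_log (by positivity) e3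
        _ = 3 * Real.log n := by rw [Real.log_pow]; norm_num
    have e4 : 0 ≤ Real.log n := Real.log_nonneg (by linarith)
    have e5 : 0 ≤ Real.log ((n : ℝ) + 2) := Real.log_nonneg (by linarith)
    calc (n : ℝ) ^ (-δ) * (C * ((n : ℝ) + 1) ^ ((2:ℝ) / K) * Real.log (n + 2))
        ≤ (n : ℝ) ^ (-δ) * (C * (2 ^ (δ / 2) * (n : ℝ) ^ (δ / 2)) * (3 * Real.log n)) := by
          gcongr
      _ = (n : ℝ) ^ (-(δ / 4)) *
          (C * 2 ^ (δ / 2) * (3 * (Real.log (n : ℝ) / (n : ℝ) ^ (δ / 4)))) := by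
          have e6 : (n : ℝ) ^ (-δ) * (n : ℝ) ^ (δ / 2) =
              (n : ℝ) ^ (-(δ / 4)) * ((n : ℝ) ^ (δ / 4))⁻¹ := by
            rw [← Real.rpow_neg hn0.le, ← Real.rpow_add hn0, ← Real.rpow_add hn0]
            congr 1
            ring
          rw [div_eq_mul_inv]
          calc (n : ℝ) ^ (-δ) * (C * (2 ^ (δ / 2) * (n : ℝ) ^ (δ / 2)) * (3 * Real.log n))
              = ((n : ℝ) ^ (-δ) * (n : ℝ) ^ (δ / 2)) * (C * 2 ^ (δ / 2) * (3 * Real.log n)) := by
                ring
            _ = _ := by rw [e6]; ring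
      _ ≤ (n : ℝ) ^ (-(δ / 4)) * 1 := by
          gcongr
      _ = _ := mul_one _
  obtain ⟨n0, hn0⟩ := eventually_atTop.1 hasym
  refine ⟨n0, fun n hn => ?_⟩
  obtain ⟨hn1, hb, hhalf⟩ := hn0 n hn
  refine ⟨hn1, ?_⟩
  intro m hm G hG hsub
  have hnpos : (0 : ℝ) < n := by exact_mod_cast hn1
  have hs : 0 < (n : ℝ) ^ (-δ) := Real.rpow_pos_of_pos hnpos _
  set η := (n : ℝ) ^ (-(δ / 4)) with hη
  have hη0 : 0 < η := Real.rpow_pos_of_pos hnpos _
  have hmin := hmin_of (q := 1 - η) hs K hK1 n C (fun m hm G hG => hcrit m hm G hG _ hs) hC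
    (by linarith)
  have h1 := rho_le_of_min hs (q := 1 - η) (by linarith) (by linarith) n hmin m hm G hG hsub
  refine h1.trans ?_
  have h2 : (1 - η)⁻¹ ≤ Real.exp (2 * η) := by
    rw [inv_le_comm₀ (by linarith) (Real.exp_pos _), ← Real.exp_neg]
    -- `exp(-2η) ≤ 1 - η` for `0 ≤ η ≤ 1/2`
    have h3 : Real.exp (-(2 * η)) ≤ 1 / (1 + 2 * η) := by
      rw [Real.exp_neg, ← one_div]
      exact one_div_le_one_div_of_le (by linarith) (by linarith [Real.add_one_le_exp (2 * η)])
    refine h3.trans ?_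
    rw [div_le_iff₀ (by linarith)]
    nlinarith
  calc ((1 - η)⁻¹) ^ m ≤ (Real.exp (2 * η)) ^ m := by
        have : 0 ≤ (1 - η)⁻¹ := inv_nonneg.2 (by linarith)
        gcongr
    _ = Real.exp (2 * η * m) := by rw [← Real.exp_nat_mul]; ring_nf

/-- **weak reverse Minkowski theorem**, counting form, general index type -/
theorem wrm {δ : ℝ} (hδ : 0 < δ) : ∃ n0 : ℕ, ∀ n : ℕ, n0 ≤ n → 1 ≤ n ∧
    ∀ (ι : Type) [Fintype ι] [DecidableEq ι], Fintype.card ι ≤ n →
    ∀ G : Matrix ι ι ℝ, G.PosDef → SubDet G → ∀ r : ℝ,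
      {z : ι → ℤ | qf G (iv z) ≤ r}.Finite ∧
      ({z : ι → ℤ | qf G (iv z) ≤ r}.ncard : ℝ) ≤
        Real.exp (2 * (n : ℝ) ^ (1 - δ / 4) + Real.pi * (n : ℝ) ^ (2 * δ) * r) := by
  obtain ⟨n0, h⟩ := wrm_rho hδ
  refine ⟨n0, fun n hn => ?_⟩
  obtain ⟨hn1, h⟩ := h n hn
  refine ⟨hn1, ?_⟩
  intro ι _ _ hι G hG hsub r
  have hnpos : (0 : ℝ) < n := by exact_mod_cast hn1
  have hs : 0 < (n : ℝ) ^ (-δ) := Real.rpow_pos_of_pos hnpos _
  let e : Fin (Fintype.card ι) ≃ ι := (Fintype.equivFin ι).symm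
  have h1 := h _ hι (G.submatrix e e) (posDef_reindex e hG) (subDet_reindex e hsub)
  rw [rho_reindex] at h1
  obtain ⟨hf, hc⟩ := count_le hs hG h1 r
  refine ⟨hf, hc.trans ?_⟩
  rw [← Real.exp_add]
  apply Real.exp_le_exp.2
  have e1 : Real.pi / ((n : ℝ) ^ (-δ)) ^ 2 * r = Real.pi * (n : ℝ) ^ (2 * δ) * r := by
    have : ((n : ℝ) ^ (-δ)) ^ 2 = ((n : ℝ) ^ (2 * δ))⁻¹ := by
      rw [← Real.rpow_natCast, ← Real.rpow_mul hnpos.le, ← Real.rpow_neg hnpos.le]
      congr 1
      push_cast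
      ring
    rw [this, div_inv_eq_mul]
  rw [e1]
  have e2 : 2 * (n : ℝ) ^ (-(δ / 4)) * (Fintype.card ι : ℝ) ≤ 2 * (n : ℝ) ^ (1 - δ / 4) := by
    have e3 : (n : ℝ) ^ (1 - δ / 4) = (n : ℝ) ^ (-(δ / 4)) * n := by
      rw [show (1 - δ / 4 : ℝ) = -(δ / 4) + 1 by ring, Real.rpow_add hnpos, Real.rpow_one]
    have e4 : (Fintype.card ι : ℝ) ≤ n := by exact_mod_cast hι
    rw [e3]
    have e5 : 0 < (n : ℝ) ^ (-(δ / 4)) := Real.rpow_pos_of_pos hnpos _
    nlinarith
  linarith

end Crest.Agent.R152.WRM
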