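import Crest.Agent.R152.Lat1
import Crest.Agent.R152.WRM3d
import Crest.Agent.R152.WRM8

-- ▼ part R152/Rel1
section

set_option autoImplicit false
set_option linter.unusedSectionVars false

/-!
# Row 152, module REL, part 1: relative Gram matrices (helper877)

Multi-vector distance formula, projection orthogonal to a lattice, discriminant of
`F ⊔ span c`, relative bases of `M / F`.
-/

namespace Crest.Agent.R152.Rel

open Matrix Module Crest.Agent.R152.Lat

section Gen

variable {E : Type*} [NormedAddCommGroup E] [InnerProductSpace ℝ E]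

theorem gram_comb {γ γ' : Type*} [Fintype γ] (w : γ → E) (M : Matrix γ γ' ℝ) :
    gram ℝ (fun j => ∑ i, M i j • w i) = Mᵀ * gram ℝ w * M := by
  ext i j
  simp only [gram_apply, mul_apply, transpose_apply, sum_inner, inner_sum, real_inner_smul_left,
    real_inner_smul_right, Finset.sum_mul]
  refine Finset.sum_congr rfl fun a _ => Finset.sum_congr rfl fun b _ => ?_
  rw [real_inner_comm]
  ring

theorem norm_sq_comb {γ : Type*} [Fintype γ] (w : γ → E) (x : γ → ℝ) :
    ‖∑ i, x i • w i‖ ^ 2 = x ⬝ᵥ (gram ℝ w *ᵥ x) := by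
  rw [← real_inner_self_eq_norm_sq]
  simp only [sum_inner, inner_sum, real_inner_smul_left, real_inner_smul_right, dotProduct,
    mulVec, gram_apply, Finset.mul_sum]
  refine Finset.sum_congr rfl fun a _ => Finset.sum_congr rfl fun b _ => ?_
  rw [real_inner_comm]
  ring

/-- **multi-vector distance formula** -/
theorem det_gram_sum {α β : Type*} [Fintype α] [Fintype β] [DecidableEq α] [DecidableEq β]
    (u : α → E) (v : β → E) (K : Submodule ℝ E) [K.HasOrthogonalProjection]
    (hK : K = Submodule.span ℝ (Set.range u)) :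
    (gram ℝ (Sum.elim u v)).det =
      (gram ℝ u).det * (gram ℝ (fun j => v j - K.starProjection (v j))).det := by
  have h1 : ∀ j, ∃ c : α → ℝ, ∑ i, c i • u i = K.starProjection (v j) := by
    intro j
    have h2 : K.starProjection (v j) ∈ Submodule.span ℝ (Set.range u) := by
      rw [← hK]; exact Submodule.starProjection_apply_mem K (v j)
    exact (Submodule.mem_span_range_iff_exists_fun ℝ).1 h2
  choose c hc using h1
  set M : Matrix (α ⊕ β) (α ⊕ β) ℝ := fromBlocks 1 (Matrix.of fun i j => c j i) 0 1 with hM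
  have hMdet : M.det = 1 := by
    rw [hM, det_fromBlocks_zero₂₁, det_one, det_one, mul_one]
  have h3 : (Sum.elim u v : α ⊕ β → E) = fun j => ∑ i, M i j •
      (Sum.elim u (fun j => v j - K.starProjection (v j)) : α ⊕ β → E) i := by
    funext j
    rw [Fintype.sum_sum_type]
    rcases j with j | j
    · simp [hM, Matrix.one_apply]
    · simp [hM, Matrix.one_apply, hc]
  rw [h3, gram_comb, det_mul, det_mul, det_transpose, hMdet, one_mul, mul_one]
  have h4 : gram ℝ (Sum.elim u (fun j => v j - K.starProjection (v j)) : α ⊕ β → E) =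
      fromBlocks (gram ℝ u) 0 0 (gram ℝ (fun j => v j - K.starProjection (v j))) := by
    ext i j
    rcases i with i | i <;> rcases j with j | j
    · simp [gram_apply]
    · simp only [gram_apply, Sum.elim_inl, Sum.elim_inr, fromBlocks_apply₁₂, Matrix.zero_apply]
      rw [real_inner_comm]
      apply Submodule.starProjection_inner_eq_zero
      rw [hK]; exact Submodule.subset_span ⟨i, rfl⟩
    · simp only [gram_apply, Sum.elim_inl, Sum.elim_inr, fromBlocks_apply₂₁, Matrix.zero_apply]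
      apply Submodule.starProjection_inner_eq_zero
      rw [hK]; exact Submodule.subset_span ⟨j, rfl⟩
    · simp [gram_apply]
  rw [h4, det_fromBlocks_zero₁₂]

end Gen

variable {ι : Type*} [Fintype ι]

/-- real span of a lattice -/
noncomputable def FR (F : Submodule ℤ (ι → ℤ)) : Submodule ℝ (EuclideanSpace ℝ ι) :=
  Submodule.span ℝ (ev '' (F : Set (ι → ℤ)))

/-- projection orthogonal to the real span -/
noncomputable def pr (F : Submodule ℤ (ι → ℤ)) :
    EuclideanSpace ℝ ι →ₗ[ℝ] EuclideanSpace ℝ ι :=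
  LinearMap.id - ((FR F).starProjection : EuclideanSpace ℝ ι →ₗ[ℝ] EuclideanSpace ℝ ι)

theorem pr_apply (F : Submodule ℤ (ι → ℤ)) (x : EuclideanSpace ℝ ι) :
    pr F x = x - (FR F).starProjection x := rfl

/-- squared distance to the real span -/
noncomputable def nq (F : Submodule ℤ (ι → ℤ)) (z : ι → ℤ) : ℝ := ‖pr F (ev z)‖ ^ 2

theorem pr_eq_zero_of_mem {F : Submodule ℤ (ι → ℤ)} {x : EuclideanSpace ℝ ι} (hx : x ∈ FR F) :
    pr F x = 0 := by
  rw [pr_apply, Submodule.starProjection_eq_self_iff.2 hx, sub_self]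

theorem ev_mem_FR {F : Submodule ℤ (ι → ℤ)} {z : ι → ℤ} (hz : z ∈ F) : ev z ∈ FR F :=
  Submodule.subset_span ⟨z, hz, rfl⟩

theorem pr_ev_of_mem {F : Submodule ℤ (ι → ℤ)} {z : ι → ℤ} (hz : z ∈ F) : pr F (ev z) = 0 :=
  pr_eq_zero_of_mem (ev_mem_FR hz)

theorem norm_pr_le (F : Submodule ℤ (ι → ℤ)) (x : EuclideanSpace ℝ ι) : ‖pr F x‖ ≤ ‖x‖ := by
  rw [pr_apply, ← Submodule.starProjection_orthogonal_val]
  exact Submodule.norm_starProjection_apply_le _ x

theorem nq_le (F : Submodule ℤ (ι → ℤ)) (z : ι → ℤ) : nq F z ≤ ((z ⬝ᵥ z : ℤ) : ℝ) := by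
  unfold nq
  rw [← norm_ev_sq]
  gcongr
  exact norm_pr_le F _

theorem FR_eq {α : Type*} [Fintype α] {F : Submodule ℤ (ι → ℤ)} (a : Basis α ℤ F) :
    FR F = Submodule.span ℝ (Set.range (fun i => ev (a i : ι → ℤ))) := by
  apply le_antisymm
  · unfold FR
    rw [Submodule.span_le]
    rintro _ ⟨z, hz, rfl⟩
    have h1 : (⟨z, hz⟩ : F) = ∑ i, a.repr ⟨z, hz⟩ i • a i := (a.sum_repr _).symm
    have h2 : z = ∑ i, a.repr ⟨z, hz⟩ i • (a i : ι → ℤ) := by
      have := congrArg (fun x : F => (x : ι → ℤ)) h1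
      simpa only [AddSubmonoidClass.coe_finsetSum, SetLike.val_smul] using this
    rw [h2, map_sum]
    refine Submodule.sum_mem _ fun i _ => ?_
    rw [map_smul]
    have h3 : (a.repr ⟨z, hz⟩ i • ev (a i : ι → ℤ) : EuclideanSpace ℝ ι)
        = ((a.repr ⟨z, hz⟩ i : ℤ) : ℝ) • ev (a i : ι → ℤ) := by
      rw [← Int.cast_smul_eq_zsmul ℝ]
    rw [h3]
    exact Submodule.smul_mem _ _ (Submodule.subset_span ⟨i, rfl⟩)
  · rw [Submodule.span_le]
    rintro _ ⟨i, rfl⟩
    exact ev_mem_FR (a i).2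


/-- block formula -/
theorem det_gm_sum {α β : Type*} [Fintype α] [Fintype β] [DecidableEq α] [DecidableEq β]
    {F : Submodule ℤ (ι → ℤ)} (a : Basis α ℤ F) (c : β → ι → ℤ) :
    ((gm (Sum.elim (fun i => (a i : ι → ℤ)) c)).det : ℝ) =
      dsc F * (gram ℝ (fun j => pr F (ev (c j)))).det := by
  rw [dsc_eq a, det_gm_cast, det_gm_cast]
  have h1 : (fun i => ev ((Sum.elim (fun i => (a i : ι → ℤ)) c : α ⊕ β → ι → ℤ) i)) =
      Sum.elim (fun i => ev (a i : ι → ℤ)) (fun j => ev (c j)) := by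
    funext i; rcases i with i | i <;> rfl
  rw [h1, det_gram_sum _ _ (FR F) (FR_eq a)]
  rfl

theorem linearIndependent_of_det_gm_ne_zero {κ : Type*} [Fintype κ] [DecidableEq κ]
    {b : κ → ι → ℤ} (h : (gm b).det ≠ 0) : LinearIndependent ℤ b := by
  have h1 : (gram ℝ (fun i => ev (b i))).det ≠ 0 := by
    rw [← det_gm_cast]; exact_mod_cast h
  have h2 : LinearIndependent ℝ (fun i => ev (b i)) := linearIndependent_of_det_gram_ne_zero h1
  have h3 : LinearIndependent ℤ (fun i => ev (b i)) := by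
    refine h2.restrict_scalars ?_
    intro x y hxy
    simpa using hxy
  exact LinearIndependent.of_comp (ev : (ι → ℤ) →ₗ[ℤ] EuclideanSpace ℝ ι) h3

theorem dsc_span {κ : Type*} [Fintype κ] [DecidableEq κ] {b : κ → ι → ℤ}
    (hb : LinearIndependent ℤ b) : dsc (Submodule.span ℤ (Set.range b)) = (gm b).det := by
  rw [dsc_eq (Basis.span hb)]
  congr 2
  funext i
  rw [Basis.span_apply]

theorem rk_span {κ : Type*} [Fintype κ] {b : κ → ι → ℤ}
    (hb : LinearIndependent ℤ b) : rk (Submodule.span ℤ (Set.range b)) = Fintype.card κ :=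
  rk_eq (Basis.span hb)

theorem span_basis {α : Type*} {F : Submodule ℤ (ι → ℤ)} (a : Basis α ℤ F) :
    Submodule.span ℤ (Set.range (fun i => (a i : ι → ℤ))) = F := by
  have h := a.span_eq
  have h2 := congrArg (Submodule.map F.subtype) h
  rw [Submodule.map_span, Submodule.map_top, Submodule.range_subtype, ← Set.range_comp] at h2
  exact h2

theorem span_sum_elim {α β : Type*} {F : Submodule ℤ (ι → ℤ)} (a : Basis α ℤ F)
    (c : β → ι → ℤ) : Submodule.span ℤ (Set.range (Sum.elim (fun i => (a i : ι → ℤ)) c)) =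
      F ⊔ Submodule.span ℤ (Set.range c) := by
  rw [Set.Sum.elim_range, Submodule.span_union, span_basis]

/-- `dsc (F ⊔ span c)` and its rank, when the relative Gram determinant does not vanish -/
theorem dsc_sup_span {β : Type*} [Fintype β] [DecidableEq β] (F : Submodule ℤ (ι → ℤ))
    (c : β → ι → ℤ) (h : (gram ℝ (fun j => pr F (ev (c j)))).det ≠ 0) :
    (dsc (F ⊔ Submodule.span ℤ (Set.range c)) : ℝ) =
      dsc F * (gram ℝ (fun j => pr F (ev (c j)))).det ∧
    rk (F ⊔ Submodule.span ℤ (Set.range c)) = rk F + Fintype.card β := by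
  classical
  set a := Module.Free.chooseBasis ℤ F
  have h1 := det_gm_sum a c
  have h2 : (gm (Sum.elim (fun i => (a i : ι → ℤ)) c)).det ≠ 0 := by
    intro h0
    rw [h0, Int.cast_zero] at h1
    have h3 : (0 : ℝ) < dsc F := by exact_mod_cast dsc_pos F
    rcases mul_eq_zero.1 h1.symm with h4 | h4
    · exact h3.ne' h4
    · exact h h4
  have h3 := linearIndependent_of_det_gm_ne_zero h2
  constructor
  · rw [← h1, ← dsc_span h3, span_sum_elim]
  · rw [← span_sum_elim a c, rk_span h3, Fintype.card_sum, ← rk_eq a]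

end Crest.Agent.R152.Rel
end

-- ▼ part R152/Cheap1
section

set_option autoImplicit false

/-!
# Row 152, module CHEAP, part 1: short bases of positive definite forms

If all sublattices have determinant at least `det G / T`, there is a basis with all
`qf ≤ 4 m^2 T`.
-/

namespace Crest.Agent.R152.Cheap

open Matrix Crest.Agent.R152.WRM Crest.Agent.R152.WRM3

theorem gr_smul {α β : Type*} [Fintype α] (c : ℝ) (G : Matrix α α ℝ) (Z : Matrix α β ℤ) :
    gr (c • G) Z = c • gr G Z := by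
  unfold gr
  rw [Matrix.mul_smul, Matrix.smul_mul]

theorem exists_short_first' {m : ℕ} {G : Matrix (Fin (m+1)) (Fin (m+1)) ℝ} (hG : G.PosDef)
    {T : ℝ} (hT : 1 ≤ T) (hdet : G.det ≤ T) :
    ∃ U : Matrix (Fin (m+1)) (Fin (m+1)) ℤ, IsUnit U.det ∧ gr G U 0 0 ≤ 4 * (m + 1) * T := by
  have hT0 : 0 < T := by linarith
  have hTi : 0 < T⁻¹ := inv_pos.2 hT0
  have hTi1 : T⁻¹ ≤ 1 := inv_le_one_of_one_le₀ hT
  have h1 : (T⁻¹ • G).PosDef := hG.smul hTi
  have h2 : (T⁻¹ • G).det ≤ 1 := by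
    rw [det_smul, Fintype.card_fin, pow_succ]
    have h3 : (T⁻¹) ^ m ≤ 1 := pow_le_one₀ hTi.le hTi1
    have h4 : T⁻¹ * G.det ≤ 1 := by
      rw [inv_mul_le_iff₀ hT0]; linarith
    have h5 : 0 ≤ T⁻¹ * G.det := mul_nonneg hTi.le hG.det_pos.le
    calc T⁻¹ ^ m * T⁻¹ * G.det = T⁻¹ ^ m * (T⁻¹ * G.det) := by ring
      _ ≤ 1 * 1 := mul_le_mul h3 h4 h5 zero_le_one
      _ = 1 := by norm_num
  obtain ⟨U, hU, h⟩ := exists_short_first h1 h2
  refine ⟨U, hU, ?_⟩
  rw [gr_smul, Matrix.smul_apply, smul_eq_mul, inv_mul_le_iff₀ hT0] at h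
  linarith

theorem gr_ext1_ss {m k : ℕ} (G : Matrix (Fin (m+1)) (Fin (m+1)) ℝ) (h0 : G 0 0 ≠ 0)
    (t : Fin k → ℤ) (U : Matrix (Fin m) (Fin k) ℤ) (j : Fin k) :
    gr G (ext1 t U) j.succ j.succ = gr (WRM3.schur G) U j j
      + gr G (ext1 t U) j.succ 0 * gr G (ext1 t U) 0 j.succ / G 0 0 := by
  have h := congrFun (congrFun (schur_gr_ext1 G h0 t U) j) j
  rw [← h]
  simp only [WRM3.schur, Matrix.of_apply, gr_ext1_00]
  ring

/-- **short basis** -/
theorem short_basis : ∀ (m : ℕ) (T : ℝ), 1 ≤ T → ∀ G : Matrix (Fin m) (Fin m) ℝ, G.PosDef →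
    DetGe (G.det / T) G → ∃ U : Matrix (Fin m) (Fin m) ℤ, IsUnit U.det ∧
      ∀ j, gr G U j j ≤ 4 * (m : ℝ) ^ 2 * T := by
  intro m
  induction m with
  | zero =>
    intro T _ G _ _
    exact ⟨1, by simp, fun j => j.elim0⟩
  | succ m ih =>
    intro T hT G hG hd
    have hT0 : 0 < T := by linarith
    have hdet1 : G.det ≤ T := by
      have := hd 0 (Matrix.of fun _ (j : Fin 0) => j.elim0) (by simp)
      rw [div_le_iff₀ hT0] at this
      simpa using this
    obtain ⟨U, hU, hU0⟩ := exists_short_first' hG hT hdet1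
    set G' := gr G U with hG'
    have hGp : G'.PosDef := gr_posDef_unit hG hU
    have h0 : 0 < G' 0 0 := posDef_diag hGp 0
    have hd' : DetGe (G'.det / T) G' := by
      rw [hG', det_gr_unit G hU]; exact hd.gr U
    have hd2 : DetGe ((WRM3.schur G').det / T) (WRM3.schur G') := by
      have h1 := hd'.schur h0
      have h2 : G'.det / T / G' 0 0 = (WRM3.schur G').det / T := by
        rw [det_schur G' h0.ne']
        field_simp
      rwa [h2] at h1
    obtain ⟨V, hV, hVj⟩ := ih T hT (WRM3.schur G') (WRM3.schur_posDef hGp) hd2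
    set c : Fin m → ℝ := fun j => ∑ l : Fin m, G' 0 l.succ * V l j with hc
    set t : Fin m → ℤ := fun j => - round (c j / G' 0 0) with ht
    refine ⟨U * ext1 t V, ?_, ?_⟩
    · rw [Matrix.det_mul, det_ext1]
      exact hU.mul hV
    · intro j
      rw [gr_mul, ← hG']
      have hm : (0 : ℝ) ≤ m := Nat.cast_nonneg m
      refine Fin.cases ?_ (fun j => ?_) j
      · rw [gr_ext1_00]
        push_cast
        have : (m : ℝ) + 1 ≤ ((m : ℝ) + 1) ^ 2 := by nlinarith
        nlinarith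
      · rw [gr_ext1_ss G' h0.ne', gr_ext1_s0, gr_ext1_0s]
        have hs : ∑ l : Fin m, G' l.succ 0 * (V l j : ℝ) = c j := by
          rw [hc]
          refine Finset.sum_congr rfl fun l _ => ?_
          rw [posDef_symm hGp l.succ 0]
        have hs' : ∑ l : Fin m, G' 0 l.succ * (V l j : ℝ) = c j := rfl
        rw [hs, hs']
        have h5 : |G' 0 0 * (t j : ℝ) + c j| ≤ G' 0 0 / 2 := by
          have h6 := abs_sub_round (c j / G' 0 0)
          have h7 : G' 0 0 * (t j : ℝ) + c j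
              = G' 0 0 * (c j / G' 0 0 - (round (c j / G' 0 0) : ℝ)) := by
            rw [ht]; push_cast; field_simp; ring
          rw [h7, abs_mul, abs_of_pos h0]
          nlinarith
        have h8 : (G' 0 0 * (t j : ℝ) + c j) * (G' 0 0 * (t j : ℝ) + c j) / G' 0 0
            ≤ G' 0 0 / 4 := by
          rw [div_le_iff₀ h0]
          have h9 := abs_le.1 h5
          nlinarith [h9.1, h9.2]
        have h10 := hVj j
        push_cast
        nlinarith

end Crest.Agent.R152.Cheap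
end

-- ▼ part R152/Rel2

set_option autoImplicit false
set_option linter.unusedSectionVars false

/-!
# Row 152, module REL, part 2: relative bases, counting classes mod `F`, short generators
-/

namespace Crest.Agent.R152.Rel

open Matrix Module Crest.Agent.R152.Lat Crest.Agent.R152.WRM

variable {ι : Type*} [Fintype ι]

/-- `F` is saturated in `M` -/
def Sat (F M : Submodule ℤ (ι → ℤ)) : Prop := ∀ z ∈ M, ∀ k : ℤ, k ≠ 0 → k • z ∈ F → z ∈ F

/-- relative Gram matrix -/
noncomputable def relG {β : Type*} (F : Submodule ℤ (ι → ℤ)) (c : β → ι → ℤ) : Matrix β β ℝ :=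
  gram ℝ (fun j => pr F (ev (c j)))

theorem relG_apply {β : Type*} (F : Submodule ℤ (ι → ℤ)) (c : β → ι → ℤ) (i j : β) :
    relG F c i j = inner ℝ (pr F (ev (c i))) (pr F (ev (c j))) := rfl

theorem relG_diag {β : Type*} (F : Submodule ℤ (ι → ℤ)) (c : β → ι → ℤ) (j : β) :
    relG F c j j = nq F (c j) := by
  rw [relG_apply, nq, real_inner_self_eq_norm_sq]

theorem relG_posDef {β : Type*} [Fintype β] [DecidableEq β] {F : Submodule ℤ (ι → ℤ)}
    {c : β → ι → ℤ} (h : (relG F c).det ≠ 0) : (relG F c).PosDef :=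
  ((posSemidef_gram ℝ _).posDef_iff_det_ne_zero).2 h

theorem ev_comb {β : Type*} [Fintype β] (c : β → ι → ℤ) (x : β → ℤ) :
    ev (∑ i, x i • c i) = ∑ i, (x i : ℝ) • ev (c i) := by
  rw [map_sum]
  refine Finset.sum_congr rfl fun i _ => ?_
  rw [map_smul, ← Int.cast_smul_eq_zsmul ℝ]

theorem gr_relG {β γ : Type*} [Fintype β] (F : Submodule ℤ (ι → ℤ)) (c : β → ι → ℤ)
    (Z : Matrix β γ ℤ) : WRM3.gr (relG F c) Z = relG F (fun l => ∑ i, Z i l • c i) := by
  have h1 := gram_comb (fun j => pr F (ev (c j))) (im Z)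
  unfold WRM3.gr
  rw [relG, ← h1, relG]
  congr 1
  funext l
  rw [ev_comb, map_sum]
  refine Finset.sum_congr rfl fun i _ => ?_
  rw [map_smul]
  rfl

theorem nq_add_comb {β : Type*} [Fintype β] {F : Submodule ℤ (ι → ℤ)} (c : β → ι → ℤ)
    {f : ι → ℤ} (hf : f ∈ F) (x : β → ℤ) :
    nq F (f + ∑ i, x i • c i) = qf (relG F c) (iv x) := by
  unfold nq qf
  rw [map_add, map_add, pr_ev_of_mem hf, zero_add, ev_comb, map_sum, relG, ← norm_sq_comb]
  congr 2
  refine Finset.sum_congr rfl fun i _ => ?_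
  rw [map_smul]
  rfl

theorem exists_rel_basis {F M : Submodule ℤ (ι → ℤ)} (h : F ≤ M) (hs : Sat F M) :
    ∃ c : Fin (rk M - rk F) → ι → ℤ, (∀ j, c j ∈ M) ∧
      F ⊔ Submodule.span ℤ (Set.range c) = M ∧ (relG F c).det ≠ 0 := by
  classical
  set W : Submodule ℤ M := F.comap M.subtype with hW
  have e : W ≃ₗ[ℤ] F := Submodule.comapSubtypeEquivOfLe h
  have : IsTorsionFree ℤ (M ⧸ W) := by
    constructor
    intro r hr
    have hr0 : r ≠ 0 := hr.ne_zero
    intro x y hxy
    obtain ⟨x, rfl⟩ := W.mkQ_surjective x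
    obtain ⟨y, rfl⟩ := W.mkQ_surjective y
    simp only at hxy
    rw [← map_smul, ← map_smul, ← sub_eq_zero, ← map_sub, Submodule.mkQ_apply,
      Submodule.Quotient.mk_eq_zero, ← smul_sub] at hxy
    rw [← sub_eq_zero, ← map_sub, Submodule.mkQ_apply, Submodule.Quotient.mk_eq_zero]
    exact hs _ (x - y).2 r hr0 hxy
  have hfr : finrank ℤ (M ⧸ W) = rk M - rk F := by
    have h1 := W.finrank_quotient_add_finrank
    have h2 : finrank ℤ W = rk F := LinearEquiv.finrank_eq (Submodule.comapSubtypeEquivOfLe h)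
    unfold rk at h2 ⊢
    omega
  set a := Module.Free.chooseBasis ℤ F with ha
  set bW : Basis _ ℤ W := a.map (Submodule.comapSubtypeEquivOfLe h).symm with hbW
  set bQ : Basis (Fin (rk M - rk F)) ℤ (M ⧸ W) := (Module.finBasis ℤ (M ⧸ W)).reindex
    (finCongr hfr) with hbQ
  set b := bW.sumQuot bQ with hb
  set c : Fin (rk M - rk F) → ι → ℤ := fun j => ((b (Sum.inr j) : M) : ι → ℤ) with hc
  have hbc : (fun i => ((b i : M) : ι → ℤ)) = Sum.elim (fun i => (a i : ι → ℤ)) c := by
    funext i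
    rcases i with i | i
    · simp only [hb, Basis.sumQuot_inl, Sum.elim_inl, hbW, Basis.map_apply]
      rfl
    · rfl
  refine ⟨c, fun j => (b (Sum.inr j) : M).2, ?_, ?_⟩
  · rw [← span_sum_elim a c, ← hbc, span_basis]
  · have h1 := det_gm_sum a c
    rw [← hbc, ← dsc_eq b] at h1
    intro h0
    unfold relG at h0
    rw [h0, mul_zero] at h1
    have h2 : (0 : ℝ) < dsc M := by exact_mod_cast dsc_pos M
    exact h2.ne' h1

theorem exp_two_lc (L : Submodule ℤ (ι → ℤ)) : Real.exp (2 * lc L) = dsc L := by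
  unfold lc
  have h : (0 : ℝ) < dsc L := by exact_mod_cast dsc_pos L
  rw [mul_div_cancel₀ _ (by norm_num : (2:ℝ) ≠ 0), Real.exp_log h]

/-- the relative Gram determinant as an exponential -/
theorem det_relG_eq {β : Type*} [Fintype β] [DecidableEq β] {F : Submodule ℤ (ι → ℤ)}
    {c : β → ι → ℤ} (h : (relG F c).det ≠ 0) :
    (relG F c).det = Real.exp (2 * (lc (F ⊔ Submodule.span ℤ (Set.range c)) - lc F)) := by
  have h1 := (dsc_sup_span F c h).1
  have h2 : (0 : ℝ) < dsc F := by exact_mod_cast dsc_pos F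
  rw [mul_sub, Real.exp_sub, exp_two_lc, exp_two_lc, h1]
  unfold relG
  field_simp

/-- lower bound for sublattice determinants of the relative lattice -/
theorem det_gr_relG_ge {β : Type*} [Fintype β] [DecidableEq β] {F M : Submodule ℤ (ι → ℤ)}
    (hFM : F ≤ M) {c : β → ι → ℤ} (hc : ∀ j, c j ∈ M) {a b : ℝ}
    (ha : ∀ L : Submodule ℤ (ι → ℤ), F ≤ L → L ≤ M → a * ((rk L : ℝ) - rk F) + b ≤ lc L - lc F)
    {k : ℕ} (Z : Matrix β (Fin k) ℤ) (hZ : (WRM3.gr (relG F c) Z).det ≠ 0) :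
    Real.exp (2 * (a * k + b)) ≤ (WRM3.gr (relG F c) Z).det := by
  rw [gr_relG] at hZ ⊢
  set d : Fin k → ι → ℤ := fun l => ∑ i, Z i l • c i with hd
  rw [det_relG_eq hZ]
  have h1 := ha (F ⊔ Submodule.span ℤ (Set.range d)) le_sup_left (by
    apply sup_le hFM
    rw [Submodule.span_le]
    rintro _ ⟨l, rfl⟩
    exact Submodule.sum_mem _ fun i _ => M.smul_mem _ (hc i))
  have h2 := (dsc_sup_span F d hZ).2
  rw [h2, Fintype.card_fin] at h1
  push_cast at h1
  apply Real.exp_le_exp.2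
  linarith

/-- classes mod `F` of the vectors of `M` with squared distance `≤ r` to the span of `F` -/
def cls (F M : Submodule ℤ (ι → ℤ)) (r : ℝ) : Set ((ι → ℤ) ⧸ F) :=
  {q | ∃ z ∈ M, F.mkQ z = q ∧ nq F z ≤ r}

theorem qf_smul_mat {β : Type*} [Fintype β] (t : ℝ) (G : Matrix β β ℝ) (x : β → ℝ) :
    qf (t • G) x = t * qf G x := by
  unfold qf
  rw [Matrix.smul_mulVec, dotProduct_smul, smul_eq_mul]

/-- **weak reverse Minkowski for `M / F`** -/
theorem count_cls {δ : ℝ} (hδ : 0 < δ) : ∃ n0 : ℕ, ∀ n : ℕ, n0 ≤ n → 1 ≤ n ∧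
    ∀ (ι : Type) [Fintype ι], Fintype.card ι ≤ n →
    ∀ F M : Submodule ℤ (ι → ℤ), F ≤ M → Sat F M → ∀ a : ℝ,
      (∀ L : Submodule ℤ (ι → ℤ), F ≤ L → L ≤ M → a * ((rk L : ℝ) - rk F) ≤ lc L - lc F) →
      ∀ r : ℝ, (cls F M r).Finite ∧ ((cls F M r).ncard : ℝ) ≤
        Real.exp (2 * (n : ℝ) ^ (1 - δ / 4) +
          Real.pi * (n : ℝ) ^ (2 * δ) * (Real.exp (-(2 * a)) * r)) := by
  obtain ⟨n0, h⟩ := wrm hδ
  refine ⟨n0, fun n hn => ?_⟩
  obtain ⟨hn1, h⟩ := h n hn
  refine ⟨hn1, ?_⟩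
  intro ι _ hι F M hFM hs a ha r
  classical
  have hrb := exists_rel_basis hFM hs
  generalize hk : rk M - rk F = k at hrb
  obtain ⟨c, hcM, hspan, hdet⟩ := hrb
  have hkn : Fintype.card (Fin k) ≤ n := by
    rw [Fintype.card_fin]
    have := rk_le_card M
    omega
  set t : ℝ := Real.exp (-(2 * a)) with ht
  have ht0 : 0 < t := Real.exp_pos _
  have hG : (t • relG F c).PosDef := (relG_posDef hdet).smul ht0
  have hsub : SubDet (t • relG F c) := by
    intro j Z hZ
    change (WRM3.gr (t • relG F c) Z).det ≠ 0 at hZ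
    change 1 ≤ (WRM3.gr (t • relG F c) Z).det
    rw [Cheap.gr_smul, Matrix.det_smul, Fintype.card_fin] at hZ ⊢
    have h1 : (WRM3.gr (relG F c) Z).det ≠ 0 := fun h0 => hZ (by rw [h0, mul_zero])
    have h2 := det_gr_relG_ge hFM hcM (a := a) (b := 0)
      (fun L h1 h2 => by have := ha L h1 h2; linarith) Z h1
    rw [add_zero] at h2
    have h3 : t ^ j * Real.exp (2 * (a * j)) = 1 := by
      rw [ht, ← Real.exp_nat_mul, ← Real.exp_add]
      rw [show (j : ℝ) * -(2 * a) + 2 * (a * j) = 0 by ring, Real.exp_zero]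
    rw [← h3]
    exact mul_le_mul_of_nonneg_left h2 (pow_pos ht0 _).le
  obtain ⟨hfin, hcard⟩ := h (Fin k) hkn (t • relG F c) hG hsub (t * r)
  set B : Set (Fin k → ℤ) := {z | qf (t • relG F c) (iv z) ≤ t * r} with hB
  have himg : cls F M r ⊆ (fun x : Fin k → ℤ => F.mkQ (∑ i, x i • c i)) '' B := by
    rintro q ⟨z, hz, rfl, hr⟩
    rw [← hspan] at hz
    obtain ⟨f, hf, y, hy, rfl⟩ := Submodule.mem_sup.1 hz
    obtain ⟨x, rfl⟩ := (Submodule.mem_span_range_iff_exists_fun ℤ).1 hy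
    refine ⟨x, ?_, ?_⟩
    · change qf (t • relG F c) (iv x) ≤ t * r
      rw [qf_smul_mat]
      rw [nq_add_comb c hf] at hr
      exact mul_le_mul_of_nonneg_left hr ht0.le
    · simp only [map_add]
      have : F.mkQ f = 0 := by
        rw [Submodule.mkQ_apply, Submodule.Quotient.mk_eq_zero]; exact hf
      rw [this, zero_add]
  have hfin2 : ((fun x : Fin k → ℤ => F.mkQ (∑ i, x i • c i)) '' B).Finite := hfin.image _
  refine ⟨hfin2.subset himg, ?_⟩
  have h5 : (cls F M r).ncard ≤ B.ncard :=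
    (Set.ncard_le_ncard himg hfin2).trans (Set.ncard_image_le hfin)
  calc ((cls F M r).ncard : ℝ) ≤ (B.ncard : ℝ) := by exact_mod_cast h5
    _ ≤ _ := hcard

/-- **short generators** of `M` over `F` -/
theorem exists_short_gens {F M : Submodule ℤ (ι → ℤ)} (h : F ≤ M) (hs : Sat F M)
    {T : ℝ} (hT : 0 ≤ T)
    (hlow : ∀ L : Submodule ℤ (ι → ℤ), F ≤ L → L ≤ M → lc M - T ≤ lc L) :
    ∃ c : Fin (rk M - rk F) → ι → ℤ, (∀ j, c j ∈ M) ∧
      F ⊔ Submodule.span ℤ (Set.range c) = M ∧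
      ∀ j, nq F (c j) ≤ 4 * ((rk M - rk F : ℕ) : ℝ) ^ 2 * Real.exp (2 * T) := by
  classical
  have hrb := exists_rel_basis h hs
  generalize hk : rk M - rk F = k at hrb ⊢
  obtain ⟨c, hcM, hspan, hdet⟩ := hrb
  have hdetM : (relG F c).det = Real.exp (2 * (lc M - lc F)) := by
    rw [det_relG_eq hdet, hspan]
  have hD : WRM3.DetGe ((relG F c).det / Real.exp (2 * T)) (relG F c) := by
    intro j Z hZ
    have h2 := det_gr_relG_ge h hcM (a := 0) (b := lc M - lc F - T)
      (fun L h1 h2 => by have := hlow L h1 h2; linarith) Z hZ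
    rw [hdetM, ← Real.exp_sub]
    refine le_trans (le_of_eq ?_) h2
    congr 1
    ring
  obtain ⟨U, hU, hUj⟩ := Cheap.short_basis k (Real.exp (2 * T))
    (Real.one_le_exp (by positivity)) (relG F c) (relG_posDef hdet) hD
  rw [gr_relG] at hUj
  refine ⟨fun l => ∑ i, U i l • c i, fun l => Submodule.sum_mem _ fun i _ =>
    M.smul_mem _ (hcM i), ?_, fun j => ?_⟩
  · rw [← hspan]
    congr 1
    apply le_antisymm
    · rw [Submodule.span_le]
      rintro _ ⟨l, rfl⟩
      exact Submodule.sum_mem _ fun i _ => Submodule.smul_mem _ _ (Submodule.subset_span ⟨i, rfl⟩)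
    · rw [Submodule.span_le]
      rintro _ ⟨j, rfl⟩
      have hUi : U * U⁻¹ = 1 := Matrix.mul_nonsing_inv _ hU
      have h3 : c j = ∑ l, (U⁻¹) l j • ∑ i, U i l • c i := by
        simp only [Finset.smul_sum, smul_smul]
        rw [Finset.sum_comm]
        simp only [← Finset.sum_smul]
        have h4 : ∀ i, ∑ l, (U⁻¹) l j * U i l = (1 : Matrix (Fin k) (Fin k) ℤ) i j := by
          intro i
          rw [← hUi, Matrix.mul_apply]
          exact Finset.sum_congr rfl fun l _ => mul_comm _ _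
        simp only [h4, Matrix.one_apply, ite_smul, one_smul, zero_smul, Finset.sum_ite_eq',
          Finset.mem_univ, if_true]
      rw [h3]
      exact Submodule.sum_mem _ fun l _ => Submodule.smul_mem _ _ (Submodule.subset_span ⟨l, rfl⟩)
  · have := hUj j
    rwa [relG_diag] at this

end Crest.Agent.R152.Rel
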