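import Mathlib
import Crest.Agent.Lib.PrekopaLeindler

-- ▼ part R152/WRM7A
section

/-!
# WRM-7, part A: the Urysohn-type lower bound from Prekopa–Leindler

`urysohn_pl` : if `W` is a measurable subset of `EuclideanSpace ℝ (Fin m)` of positive finite volume and
`h z ≥ ⟪x, z⟫` for all `x ∈ W`, then
`log (vol W) + m / 2 ≤ 2 π ∫ h z exp (-π ‖z‖²) dz`.
-/

set_option autoImplicit false

open MeasureTheory Set Real
open scoped ENNReal Pointwise

namespace Crest.Agent.R152.WRM7

/-- The Euclidean space of dimension `m`. -/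
abbrev Eu (m : ℕ) := EuclideanSpace ℝ (Fin m)

/-- The gaussian weight `exp (-π ‖z‖²)`. -/
noncomputable def gw {m : ℕ} (z : Eu m) : ℝ := Real.exp (-Real.pi * ‖z‖ ^ 2)

lemma gw_pos {m : ℕ} (z : Eu m) : 0 < gw z := Real.exp_pos _

lemma continuous_gw {m : ℕ} : Continuous (gw : Eu m → ℝ) := by
  unfold gw; fun_prop

lemma integrable_exp_neg {m : ℕ} {b : ℝ} (hb : 0 < b) :
    Integrable (fun z : Eu m => Real.exp (-b * ‖z‖ ^ 2)) := by
  have h := GaussianFourier.integrable_cexp_neg_mul_sq_norm_add (V := Eu m)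
    (b := (b : ℂ)) (by simpa using hb) 0 0
  have h2 := h.norm
  refine h2.congr (Filter.Eventually.of_forall fun z => ?_)
  simp [Complex.norm_exp]
  left
  norm_cast

lemma integral_gw {m : ℕ} : ∫ z : Eu m, gw z = 1 := by
  unfold gw
  rw [GaussianFourier.integral_rexp_neg_mul_sq_norm Real.pi_pos]
  rw [div_self Real.pi_pos.ne', Real.one_rpow]

lemma integral_exp_neg_pi_mul {m : ℕ} {t : ℝ} (ht : 0 < t) :
    ∫ z : Eu m, Real.exp (-(Real.pi * t) * ‖z‖ ^ 2) = (1 / t) ^ ((m : ℝ) / 2) := by
  rw [GaussianFourier.integral_rexp_neg_mul_sq_norm (by positivity)]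
  simp only [finrank_euclideanSpace, Fintype.card_fin]
  congr 1
  field_simp

/-- Functions of at most exponential growth are integrable against the gaussian weight. -/
lemma integrable_gw_mul {m : ℕ} {F : Eu m → ℝ} (hF : AEStronglyMeasurable F volume) {C a : ℝ}
    (h : ∀ z, |F z| ≤ C * Real.exp (a * ‖z‖)) : Integrable (fun z => gw z * F z) := by
  have hI := (integrable_exp_neg (m := m) (b := Real.pi / 2) (by positivity)).const_mul
    (C * Real.exp (a ^ 2 / (2 * Real.pi)))
  refine hI.mono' (continuous_gw.aestronglyMeasurable.mul hF)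
    (Filter.Eventually.of_forall fun z => ?_)
  rw [Real.norm_eq_abs, abs_mul, abs_of_pos (gw_pos z)]
  have hC : 0 ≤ C := by
    have h0 := (abs_nonneg _).trans (h z)
    by_contra hc
    push Not at hc
    have := mul_neg_of_neg_of_pos hc (Real.exp_pos (a * ‖z‖))
    linarith
  calc gw z * |F z| ≤ gw z * (C * Real.exp (a * ‖z‖)) :=
        mul_le_mul_of_nonneg_left (h z) (gw_pos z).le
    _ = C * Real.exp (-Real.pi * ‖z‖ ^ 2 + a * ‖z‖) := by
        rw [gw, Real.exp_add]; ring
    _ ≤ C * Real.exp (a ^ 2 / (2 * Real.pi) + -(Real.pi / 2) * ‖z‖ ^ 2) := by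
        apply mul_le_mul_of_nonneg_left _ hC
        apply Real.exp_le_exp.mpr
        have hp := Real.pi_pos
        have : 0 ≤ (Real.pi / 2) * (‖z‖ - a / Real.pi) ^ 2 := by positivity
        have h2 : (Real.pi / 2) * (‖z‖ - a / Real.pi) ^ 2
            = (Real.pi / 2) * ‖z‖ ^ 2 - a * ‖z‖ + a ^ 2 / (2 * Real.pi) := by
          field_simp
          ring
        rw [h2] at this
        linarith
    _ = _ := by rw [Real.exp_add]; ring

lemma exp_le_second (y : ℝ) : Real.exp y ≤ 1 + y + y ^ 2 * Real.exp |y| := by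
  have h1 : Real.exp y - 1 ≤ y * Real.exp y := by
    have h := Real.add_one_le_exp (-y)
    have hp := Real.exp_pos y
    have : (-y + 1) * Real.exp y ≤ Real.exp (-y) * Real.exp y :=
      mul_le_mul_of_nonneg_right h hp.le
    rw [← Real.exp_add] at this
    simp at this
    linarith
  rcases le_or_gt 0 y with hy | hy
  · rw [abs_of_nonneg hy]
    have : y * (Real.exp y - 1) ≤ y * (y * Real.exp y) := mul_le_mul_of_nonneg_left h1 hy
    nlinarith
  · have h2 : 1 - Real.exp y ≤ -y := by
      have := Real.add_one_le_exp y; linarith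
    have h3 : 1 ≤ Real.exp |y| := Real.one_le_exp (abs_nonneg y)
    have h4 : (-y) * (1 - Real.exp y) ≤ (-y) * (-y) :=
      mul_le_mul_of_nonneg_left h2 (by linarith)
    nlinarith [mul_le_mul_of_nonneg_left h3 (sq_nonneg y)]

/-- The Prekopa–Leindler step. -/
lemma pl_step {m : ℕ} {W : Set (Eu m)} (hWm : MeasurableSet W)
    {h : Eu m → ℝ} (hmeas : Measurable h)
    {R : ℝ} (hR : ∀ z, |h z| ≤ R * ‖z‖) (hh : ∀ x ∈ W, ∀ z : Eu m, inner ℝ x z ≤ h z)
    {t : ℝ} (ht0 : 0 < t) (ht1 : t < 1) :
    (volume W).toReal ^ (1 - t) * ((1 / t) ^ ((m : ℝ) / 2)) ^ t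
      ≤ ∫ z : Eu m, gw z * Real.exp ((1 - t) * (2 * Real.pi * h z)) := by
  have hR0 : ∀ z : Eu m, 0 ≤ R * ‖z‖ := fun z => (abs_nonneg _).trans (hR z)
  set f : Eu m → ℝ≥0∞ := W.indicator (fun _ => 1) with hf
  set g : Eu m → ℝ≥0∞ := fun y => ENNReal.ofReal (Real.exp (-(Real.pi * t) * ‖y‖ ^ 2)) with hg
  set H : Eu m → ℝ≥0∞ := fun z =>
    ENNReal.ofReal (gw z * Real.exp ((1 - t) * (2 * Real.pi * h z))) with hH
  have hfm : Measurable f := measurable_const.indicator hWm
  have hgm : Measurable g := by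
    apply Measurable.ennreal_ofReal
    fun_prop
  have hHm : Measurable H := by
    apply Measurable.ennreal_ofReal
    exact continuous_gw.measurable.mul
      (Real.measurable_exp.comp ((hmeas.const_mul _).const_mul _))
  have key := Lib.PrekopaLeindler.PL_euclidean m t ht0 ht1 f g H hfm hgm hHm (by
    intro x y
    by_cases hx : x ∈ W
    · rw [hf, Set.indicator_of_mem hx, ENNReal.one_rpow, one_mul, hg, hH]
      simp only
      rw [ENNReal.ofReal_rpow_of_pos (Real.exp_pos _)]
      apply ENNReal.ofReal_le_ofReal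
      rw [← Real.exp_mul, gw, ← Real.exp_add]
      apply Real.exp_le_exp.mpr
      set z := (1 - t) • x + t • y with hz
      have h1 : inner ℝ x z ≤ h z := hh x hx z
      have h2 : t • y = z - (1 - t) • x := by rw [hz]; abel
      have h3 : t ^ 2 * ‖y‖ ^ 2 = ‖z‖ ^ 2 - 2 * ((1 - t) * inner ℝ x z) + (1 - t) ^ 2 * ‖x‖ ^ 2 := by
        have : ‖t • y‖ ^ 2 = ‖z - (1 - t) • x‖ ^ 2 := by rw [h2]
        rw [norm_smul, mul_pow, Real.norm_eq_abs, sq_abs, @norm_sub_sq ℝ, inner_smul_right,
          norm_smul, mul_pow, Real.norm_eq_abs, sq_abs] at this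
        rw [this]
        simp only [RCLike.re_to_real]
        rw [real_inner_comm]
      have hp := Real.pi_pos
      have h4 : 0 ≤ (1 - t) ^ 2 * ‖x‖ ^ 2 := by positivity
      have h5 : (1 - t) * inner ℝ x z ≤ (1 - t) * h z :=
        mul_le_mul_of_nonneg_left h1 (by linarith)
      have h6 : -(Real.pi * t) * ‖y‖ ^ 2 * t = - Real.pi * (t ^ 2 * ‖y‖ ^ 2) := by ring
      rw [h6, h3]
      have h7 : -Real.pi * (‖z‖ ^ 2 - 2 * ((1 - t) * inner ℝ x z) + (1 - t) ^ 2 * ‖x‖ ^ 2)
          = -Real.pi * ‖z‖ ^ 2 + 2 * Real.pi * ((1 - t) * inner ℝ x z)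
            - Real.pi * ((1 - t) ^ 2 * ‖x‖ ^ 2) := by ring
      rw [h7]
      have h8 : 0 ≤ Real.pi * ((1 - t) ^ 2 * ‖x‖ ^ 2) := by positivity
      have h9 : 2 * Real.pi * ((1 - t) * inner ℝ x z) ≤ 2 * Real.pi * ((1 - t) * h z) :=
        mul_le_mul_of_nonneg_left h5 (by positivity)
      linarith
    · rw [hf, Set.indicator_of_notMem hx, ENNReal.zero_rpow_of_pos (by linarith), zero_mul]
      exact bot_le)
  have e1 : ∫⁻ x, f x = volume W := by
    rw [hf, lintegral_indicator hWm]; simp
  have e2 : ∫⁻ x, g x = ENNReal.ofReal ((1 / t) ^ ((m : ℝ) / 2)) := by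
    rw [← integral_exp_neg_pi_mul ht0, ofReal_integral_eq_lintegral_ofReal
      (integrable_exp_neg (by positivity))
      (Filter.Eventually.of_forall fun z => (Real.exp_pos _).le)]
  have hHint : Integrable (fun z : Eu m => gw z * Real.exp ((1 - t) * (2 * Real.pi * h z))) := by
    refine integrable_gw_mul (C := 1) (a := 2 * Real.pi * R) ?_ ?_
    · exact (Real.measurable_exp.comp ((hmeas.const_mul _).const_mul _)).aestronglyMeasurable
    · intro z
      rw [abs_of_pos (Real.exp_pos _), one_mul]
      apply Real.exp_le_exp.mpr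
      have h1 : h z ≤ R * ‖z‖ := (le_abs_self _).trans (hR z)
      have h2 : (1 - t) * (2 * Real.pi * h z) ≤ (1 - t) * (2 * Real.pi * (R * ‖z‖)) := by
        apply mul_le_mul_of_nonneg_left _ (by linarith)
        exact mul_le_mul_of_nonneg_left h1 (by positivity)
      have h3 : (1 - t) * (2 * Real.pi * (R * ‖z‖)) ≤ 1 * (2 * Real.pi * (R * ‖z‖)) := by
        apply mul_le_mul_of_nonneg_right (by linarith)
        exact mul_nonneg (by positivity) (hR0 z)
      linarith
  have e3 : ∫⁻ x, H x = ENNReal.ofReal (∫ z : Eu m, gw z * Real.exp ((1 - t) * (2 * Real.pi * h z))) := by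
    rw [ofReal_integral_eq_lintegral_ofReal hHint
      (Filter.Eventually.of_forall fun z => mul_nonneg (gw_pos z).le (Real.exp_pos _).le)]
  rw [e1, e2, e3] at key
  have hint0 : 0 ≤ ∫ z : Eu m, gw z * Real.exp ((1 - t) * (2 * Real.pi * h z)) :=
    integral_nonneg fun z => mul_nonneg (gw_pos z).le (Real.exp_pos _).le
  have key2 := ENNReal.toReal_mono ENNReal.ofReal_ne_top key
  rw [ENNReal.toReal_ofReal hint0, ENNReal.toReal_mul, ← ENNReal.toReal_rpow,
    ← ENNReal.toReal_rpow, ENNReal.toReal_ofReal (by positivity)] at key2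
  exact key2

/-- **Urysohn-type lower bound.** -/
theorem urysohn_pl {m : ℕ} {W : Set (Eu m)} (hWm : MeasurableSet W) (hWfin : volume W ≠ ∞)
    (hW0 : volume W ≠ 0) {h : Eu m → ℝ} (hmeas : Measurable h)
    {R : ℝ} (hR : ∀ z, |h z| ≤ R * ‖z‖) (hh : ∀ x ∈ W, ∀ z : Eu m, inner ℝ x z ≤ h z) :
    Real.log (volume W).toReal + (m : ℝ) / 2 ≤ 2 * Real.pi * ∫ z : Eu m, gw z * h z := by
  set v := (volume W).toReal with hv
  have hv0 : 0 < v := ENNReal.toReal_pos hW0 hWfin
  have hR0 : ∀ z : Eu m, 0 ≤ R * ‖z‖ := fun z => (abs_nonneg _).trans (hR z)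
  set X : Eu m → ℝ := fun z => 2 * Real.pi * h z with hX
  have hXm : Measurable X := hmeas.const_mul _
  have hXb : ∀ z, |X z| ≤ 2 * Real.pi * R * ‖z‖ := by
    intro z
    rw [hX]
    simp only
    rw [abs_mul, abs_of_pos (by positivity : (0:ℝ) < 2 * Real.pi), mul_assoc (2 * Real.pi)]
    exact mul_le_mul_of_nonneg_left (hR z) (by positivity)
  have hXsq : ∀ z, X z ^ 2 * Real.exp |X z| ≤ 2 * Real.exp (2 * (2 * Real.pi * R) * ‖z‖) := by
    intro z
    have h1 : X z ^ 2 ≤ 2 * Real.exp |X z| := by
      have := Real.quadratic_le_exp_of_nonneg (abs_nonneg (X z))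
      rw [← sq_abs]
      nlinarith [abs_nonneg (X z)]
    calc X z ^ 2 * Real.exp |X z| ≤ 2 * Real.exp |X z| * Real.exp |X z| :=
          mul_le_mul_of_nonneg_right h1 (Real.exp_pos _).le
      _ = 2 * Real.exp (2 * |X z|) := by rw [mul_assoc, ← Real.exp_add]; ring_nf
      _ ≤ _ := by
          apply mul_le_mul_of_nonneg_left _ (by norm_num)
          apply Real.exp_le_exp.mpr
          have := hXb z
          nlinarith
  have i1 : Integrable (fun z => gw z * X z) := by
    refine integrable_gw_mul (C := 1) (a := 2 * Real.pi * R) hXm.aestronglyMeasurable ?_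
    intro z
    rw [one_mul]
    refine (hXb z).trans ?_
    have := Real.add_one_le_exp (2 * Real.pi * R * ‖z‖)
    linarith
  have i2 : Integrable (fun z => gw z * (X z ^ 2 * Real.exp |X z|)) := by
    refine integrable_gw_mul (C := 2) (a := 2 * (2 * Real.pi * R)) ?_ ?_
    · exact ((hXm.pow_const 2).mul (Real.measurable_exp.comp
        (measurable_norm.comp hXm))).aestronglyMeasurable
    · intro z
      rw [abs_of_nonneg (by positivity)]
      exact hXsq z
  have i0 : Integrable (fun z : Eu m => gw z) := by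
    have := integrable_exp_neg (m := m) Real.pi_pos
    exact this
  set M := ∫ z, gw z * (X z ^ 2 * Real.exp |X z|) with hM
  have hM0 : 0 ≤ M := integral_nonneg fun z => mul_nonneg (gw_pos z).le (by positivity)
  set EX := ∫ z, gw z * X z with hEX
  have main : ∀ u : ℝ, 0 < u → u < 1 → Real.log v + (m : ℝ) * (1 - u) / 2 ≤ EX + u * M := by
    intro u hu0 hu1
    have hs := pl_step hWm hmeas hR hh (t := 1 - u) (by linarith) (by linarith)
    rw [← hv] at hs
    have e0 : 1 - (1 - u) = u := by ring
    rw [e0] at hs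
    have up : ∫ z : Eu m, gw z * Real.exp (u * (2 * Real.pi * h z)) ≤ 1 + u * EX + u ^ 2 * M := by
      have hle : ∀ z, gw z * Real.exp (u * X z) ≤
          gw z + u * (gw z * X z) + u ^ 2 * (gw z * (X z ^ 2 * Real.exp |X z|)) := by
        intro z
        have h1 := exp_le_second (u * X z)
        have h2 : Real.exp |u * X z| ≤ Real.exp |X z| := by
          apply Real.exp_le_exp.mpr
          rw [abs_mul, abs_of_pos hu0]
          nlinarith [abs_nonneg (X z)]
        have h3 : (u * X z) ^ 2 * Real.exp |u * X z| ≤ u ^ 2 * (X z ^ 2 * Real.exp |X z|) := by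
          calc (u * X z) ^ 2 * Real.exp |u * X z| ≤ (u * X z) ^ 2 * Real.exp |X z| :=
                mul_le_mul_of_nonneg_left h2 (sq_nonneg _)
            _ = _ := by ring
        have h4 : Real.exp (u * X z) ≤ 1 + u * X z + u ^ 2 * (X z ^ 2 * Real.exp |X z|) := by
          linarith
        have h5 := mul_le_mul_of_nonneg_left h4 (gw_pos z).le
        calc gw z * Real.exp (u * X z) ≤ _ := h5
          _ = _ := by ring
      calc ∫ z : Eu m, gw z * Real.exp (u * (2 * Real.pi * h z))
          ≤ ∫ z, (gw z + u * (gw z * X z) + u ^ 2 * (gw z * (X z ^ 2 * Real.exp |X z|))) := by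
            refine integral_mono_of_nonneg
              (Filter.Eventually.of_forall fun z => mul_nonneg (gw_pos z).le (Real.exp_pos _).le)
              ((i0.add (i1.const_mul u)).add (i2.const_mul (u ^ 2)))
              (Filter.Eventually.of_forall hle)
        _ = 1 + u * EX + u ^ 2 * M := by
            have e1 := integral_add (f := fun z => gw z + u * (gw z * X z))
              (g := fun z => u ^ 2 * (gw z * (X z ^ 2 * rexp |X z|)))
              (i0.add (i1.const_mul u)) (i2.const_mul (u ^ 2))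
            have e2 := integral_add (f := fun z : Eu m => gw z)
              (g := fun z => u * (gw z * X z)) i0 (i1.const_mul u)
            rw [e1, e2, integral_const_mul, integral_const_mul, integral_gw]
    have low : 1 + u * Real.log v + (m : ℝ) * (1 - u) * u / 2 ≤
        v ^ u * ((1 / (1 - u)) ^ ((m : ℝ) / 2)) ^ (1 - u) := by
      have hu' : 0 < 1 - u := by linarith
      rw [← Real.rpow_mul (by positivity), Real.rpow_def_of_pos hv0,
        Real.rpow_def_of_pos (by positivity), ← Real.exp_add]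
      have hlog : u ≤ Real.log (1 / (1 - u)) := by
        rw [one_div, Real.log_inv]
        have := Real.log_le_sub_one_of_pos hu'
        linarith
      have h1 := Real.add_one_le_exp (Real.log v * u + Real.log (1 / (1 - u)) * ((m : ℝ) / 2 * (1 - u)))
      have h2 : u * ((m : ℝ) / 2 * (1 - u)) ≤ Real.log (1 / (1 - u)) * ((m : ℝ) / 2 * (1 - u)) :=
        mul_le_mul_of_nonneg_right hlog (by positivity)
      nlinarith
    have h3 : 1 + u * Real.log v + (m : ℝ) * (1 - u) * u / 2 ≤ 1 + u * EX + u ^ 2 * M :=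
      low.trans (hs.trans up)
    have h4 : u * (Real.log v + (m : ℝ) * (1 - u) / 2) ≤ u * (EX + u * M) := by nlinarith
    exact le_of_mul_le_mul_left h4 hu0
  have hEX' : EX = 2 * Real.pi * ∫ z : Eu m, gw z * h z := by
    rw [hEX, ← integral_const_mul]
    congr 1
    ext z
    rw [hX]; ring
  rw [← hEX']
  apply le_of_forall_pos_le_add
  intro ε hε
  set A := M + (m : ℝ) / 2 + 1 with hA
  have hA1 : 1 ≤ A := by
    have : (0:ℝ) ≤ (m : ℝ) / 2 := by positivity
    linarith
  set u := min (1 / 2) (ε / A) with hu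
  have hu0 : 0 < u := lt_min (by norm_num) (by positivity)
  have hu1 : u < 1 := (min_le_left _ _).trans_lt (by norm_num)
  have hm := main u hu0 hu1
  have hu2 : u * A ≤ ε := by
    have : u ≤ ε / A := min_le_right _ _
    calc u * A ≤ ε / A * A := mul_le_mul_of_nonneg_right this (by linarith)
      _ = ε := by field_simp
  rw [hA] at hu2
  nlinarith

end Crest.Agent.R152.WRM7
end

-- ▼ part R152/WRM7B

/-!
# WRM-7, part B: comparison of Gaussian and Rademacher averages of a seminorm
-/

set_option autoImplicit false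

open MeasureTheory Set Real
open scoped ENNReal Pointwise

namespace Crest.Agent.R152.WRM7

/-- The sign of a boolean. -/
def sg (b : Bool) : ℝ := if b then 1 else -1


lemma sg_mul_sg (a b : Bool) : sg a * sg b = sg (a == b) := by
  cases a <;> cases b <;> simp [sg]

/-- The sign vector of a boolean vector. -/
noncomputable def sgv {m : ℕ} (e : Fin m → Bool) : Eu m := WithLp.toLp 2 (fun i => sg (e i))

/-- Coordinatewise multiplication. -/
noncomputable def mulv {m : ℕ} (a : Fin m → ℝ) (x : Eu m) : Eu m :=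
  WithLp.toLp 2 (fun i => a i * x i)

/-- The Rademacher average of a function. -/
noncomputable def rad {m : ℕ} (N : Eu m → ℝ) : ℝ := (∑ e : Fin m → Bool, N (sgv e)) / 2 ^ m

@[simp] lemma sgv_apply {m : ℕ} (e : Fin m → Bool) (i : Fin m) : sgv e i = sg (e i) := rfl

@[simp] lemma mulv_apply {m : ℕ} (a : Fin m → ℝ) (x : Eu m) (i : Fin m) :
    mulv a x i = a i * x i := rfl

lemma mulv_sgv {m : ℕ} (d e : Fin m → Bool) :
    mulv (fun i => sg (d i)) (sgv e) = sgv (fun i => d i == e i) := by
  ext i
  simp [sg_mul_sg]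

lemma sum_sgv_flip {m : ℕ} (N : Eu m → ℝ) (d : Fin m → Bool) :
    ∑ e : Fin m → Bool, N (mulv (fun i => sg (d i)) (sgv e)) = ∑ e : Fin m → Bool, N (sgv e) := by
  have hinv : Function.Involutive (fun e : Fin m → Bool => fun i => d i == e i) := by
    intro e
    ext i
    show (d i == (d i == e i)) = e i
    cases d i <;> cases e i <;> rfl
  rw [← Equiv.sum_comp hinv.toPerm (fun e => N (sgv e))]
  refine Finset.sum_congr rfl fun e _ => ?_
  rw [mulv_sgv]
  rfl

/-- **Contraction principle.** -/
lemma sum_mulv_le {m : ℕ} (N : Seminorm ℝ (Eu m)) {A : ℝ} (hA : 0 ≤ A) {a : Fin m → ℝ}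
    (ha : ∀ i, |a i| ≤ A) :
    ∑ e : Fin m → Bool, N (mulv a (sgv e)) ≤ A * ∑ e : Fin m → Bool, N (sgv e) := by
  have key : ∀ b : Fin m → ℝ, (∀ i, |b i| ≤ 1) →
      ∑ e : Fin m → Bool, N (mulv b (sgv e)) ≤ ∑ e : Fin m → Bool, N (sgv e) := by
    intro b hb
    have hconv : ConvexOn ℝ (univ : Set (Fin m → ℝ))
        (fun b : Fin m → ℝ => ∑ e : Fin m → Bool, N (mulv b (sgv e))) := by
      refine ⟨convex_univ, ?_⟩
      intro x _ y _ p q hp hq hpq
      simp only [smul_eq_mul]
      rw [Finset.mul_sum, Finset.mul_sum, ← Finset.sum_add_distrib]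
      refine Finset.sum_le_sum fun e _ => ?_
      have h1 : mulv (p • x + q • y) (sgv e) = p • mulv x (sgv e) + q • mulv y (sgv e) := by
        ext i
        simp
        ring
      rw [h1]
      refine (map_add_le_add N _ _).trans ?_
      rw [map_smul_eq_mul, map_smul_eq_mul, Real.norm_of_nonneg hp, Real.norm_of_nonneg hq]
    have hmem : b ∈ convexHull ℝ ((univ : Set (Fin m)).pi fun _ => ({-1, 1} : Set ℝ)) := by
      rw [convexHull_pi]
      intro i _
      rw [convexHull_pair, segment_eq_Icc (by norm_num)]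
      exact abs_le.mp (hb i)
    obtain ⟨y, hy, hle⟩ := hconv.exists_ge_of_mem_convexHull (subset_univ _) hmem
    refine hle.trans ?_
    have hy' : y = fun i => sg (decide (y i = 1)) := by
      ext i
      have := hy i (mem_univ i)
      simp only [mem_insert_iff, mem_singleton_iff] at this
      rcases this with h | h
      · rw [h]; norm_num [sg]
      · rw [h]; simp [sg]
    rw [hy']
    exact (sum_sgv_flip (fun x => N x) _).le
  rcases hA.eq_or_lt with h0 | hpos
  · have : a = 0 := by
      ext i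
      have := ha i
      rw [← h0] at this
      simpa using abs_nonpos_iff.mp this
    have h1 : ∀ e : Fin m → Bool, mulv a (sgv e) = 0 := by
      intro e; ext i; simp [this]
    rw [← h0, zero_mul]
    simp [h1]
  · have h1 : ∀ e : Fin m → Bool, N (mulv a (sgv e)) = A * N (mulv (fun i => a i / A) (sgv e)) := by
      intro e
      have : mulv a (sgv e) = A • mulv (fun i => a i / A) (sgv e) := by
        ext i
        simp
        field_simp
      rw [this, map_smul_eq_mul, Real.norm_of_nonneg hA]
    simp only [h1]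
    rw [← Finset.mul_sum]
    apply mul_le_mul_of_nonneg_left _ hA
    apply key
    intro i
    rw [abs_div, abs_of_pos hpos, div_le_one hpos]
    exact ha i

/-- The sign flip as a linear isometry. -/
noncomputable def flipL {m : ℕ} (d : Fin m → Bool) : Eu m ≃ₗᵢ[ℝ] Eu m :=
  LinearIsometryEquiv.piLpCongrRight 2 (fun i =>
    if d i then LinearIsometryEquiv.refl ℝ ℝ else LinearIsometryEquiv.neg ℝ)

lemma flipL_apply {m : ℕ} (d : Fin m → Bool) (x : Eu m) :
    flipL d x = mulv (fun i => sg (d i)) x := by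
  ext i
  simp only [flipL, LinearIsometryEquiv.piLpCongrRight_apply, mulv_apply]
  cases h : d i <;> simp [sg]

lemma gw_flip {m : ℕ} (d : Fin m → Bool) (x : Eu m) :
    gw (mulv (fun i => sg (d i)) x) = gw x := by
  rw [← flipL_apply, gw, gw, LinearIsometryEquiv.norm_map]

lemma integral_flip {m : ℕ} (N : Eu m → ℝ) (d : Fin m → Bool) :
    ∫ z, gw z * N (mulv (fun i => sg (d i)) z) = ∫ z, gw z * N z := by
  have h := (flipL d).measurePreserving.integral_comp
    (flipL d).toHomeomorph.measurableEmbedding (fun z => gw z * N z)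
  rw [← h]
  refine integral_congr_ae (Filter.Eventually.of_forall fun z => ?_)
  simp only [flipL_apply, gw_flip]

lemma continuous_of_le {m : ℕ} (N : Seminorm ℝ (Eu m)) {b : ℝ} (hb : ∀ x, N x ≤ b * ‖x‖) :
    Continuous N := by
  have hb0 : ∀ x : Eu m, 0 ≤ b * ‖x‖ := fun x => (apply_nonneg N x).trans (hb x)
  have : LipschitzWith (Real.toNNReal b) N := by
    apply LipschitzWith.of_dist_le_mul
    intro x y
    rw [Real.dist_eq, dist_eq_norm]
    have h1 : |N x - N y| ≤ N (x - y) := abs_sub_map_le_sub N x y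
    refine h1.trans ((hb _).trans ?_)
    rw [Real.coe_toNNReal']
    exact mul_le_mul_of_nonneg_right (le_max_left _ _) (norm_nonneg _)
  exact this.continuous

/-- The sup norm of a vector. -/
noncomputable def supn {m : ℕ} (z : Eu m) : ℝ := ‖(WithLp.ofLp z : Fin m → ℝ)‖

lemma supn_nonneg {m : ℕ} (z : Eu m) : 0 ≤ supn z := norm_nonneg _

lemma abs_le_supn {m : ℕ} (z : Eu m) (i : Fin m) : |z i| ≤ supn z := by
  have := norm_le_pi_norm (WithLp.ofLp z : Fin m → ℝ) i
  simpa [supn] using this

lemma abs_le_norm {m : ℕ} (z : Eu m) (i : Fin m) : |z i| ≤ ‖z‖ := by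
  have := PiLp.norm_apply_le z i
  simpa using this

lemma supn_le_norm {m : ℕ} (z : Eu m) : supn z ≤ ‖z‖ := by
  rw [supn, pi_norm_le_iff_of_nonneg (norm_nonneg _)]
  intro i
  simpa using abs_le_norm z i

lemma continuous_supn {m : ℕ} : Continuous (supn : Eu m → ℝ) := by
  unfold supn
  exact continuous_norm.comp (PiLp.continuous_ofLp 2 _)

lemma le_exp_norm {m : ℕ} (z : Eu m) : ‖z‖ ≤ Real.exp (1 * ‖z‖) := by
  have := Real.add_one_le_exp (1 * ‖z‖)
  linarith

lemma integrable_gw_sn {m : ℕ} (N : Seminorm ℝ (Eu m)) {b : ℝ} (hb : ∀ x, N x ≤ b * ‖x‖) :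
    Integrable (fun z => gw z * N z) := by
  refine integrable_gw_mul (C := |b|) (a := 1) (continuous_of_le N hb).aestronglyMeasurable ?_
  intro z
  rw [abs_of_nonneg (apply_nonneg N z)]
  calc N z ≤ b * ‖z‖ := hb z
    _ ≤ |b| * ‖z‖ := mul_le_mul_of_nonneg_right (le_abs_self b) (norm_nonneg _)
    _ ≤ |b| * Real.exp (1 * ‖z‖) := mul_le_mul_of_nonneg_left (le_exp_norm z) (abs_nonneg b)

lemma integrable_gw_supn {m : ℕ} : Integrable (fun z : Eu m => gw z * supn z) := by
  refine integrable_gw_mul (C := 1) (a := 1) continuous_supn.aestronglyMeasurable ?_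
  intro z
  rw [abs_of_nonneg (supn_nonneg z), one_mul]
  exact (supn_le_norm z).trans (le_exp_norm z)

/-- Comparison of the Gaussian average and the Rademacher average, first form. -/
lemma gauss_le_rad {m : ℕ} (N : Seminorm ℝ (Eu m)) {b : ℝ} (hb : ∀ x, N x ≤ b * ‖x‖) :
    ∫ z, gw z * N z ≤ (∫ z : Eu m, gw z * supn z) * rad N := by
  have h2m : (0 : ℝ) < 2 ^ m := by positivity
  have hcard : (Fintype.card (Fin m → Bool) : ℝ) = 2 ^ m := by
    simp
  have hint : ∀ d : Fin m → Bool,
      Integrable (fun z => gw z * N (mulv (fun i => sg (d i)) z)) := by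
    intro d
    have h := (flipL d).measurePreserving.integrable_comp_emb
      (flipL d).toHomeomorph.measurableEmbedding (g := fun z => gw z * N z)
    have h2 := h.mpr (integrable_gw_sn N hb)
    refine h2.congr (Filter.Eventually.of_forall fun z => ?_)
    simp only [Function.comp_apply, flipL_apply, gw_flip]
  have h1 : 2 ^ m * ∫ z, gw z * N z =
      ∫ z, gw z * ∑ d : Fin m → Bool, N (mulv (fun i => z i) (sgv d)) := by
    calc 2 ^ m * ∫ z, gw z * N z = ∑ d : Fin m → Bool, ∫ z, gw z * N z := by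
          rw [Finset.sum_const, Finset.card_univ, nsmul_eq_mul, hcard]
      _ = ∑ d : Fin m → Bool, ∫ z, gw z * N (mulv (fun i => sg (d i)) z) := by
          refine Finset.sum_congr rfl fun d _ => ?_
          rw [integral_flip N d]
      _ = ∫ z, ∑ d : Fin m → Bool, gw z * N (mulv (fun i => sg (d i)) z) := by
          rw [integral_finsetSum]
          intro d _
          exact hint d
      _ = _ := by
          refine integral_congr_ae (Filter.Eventually.of_forall fun z => ?_)
          simp only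
          rw [Finset.mul_sum]
          refine Finset.sum_congr rfl fun d _ => ?_
          congr 2
          ext i
          simp [mul_comm]
  have h3 : ∫ z, gw z * ∑ d : Fin m → Bool, N (mulv (fun i => z i) (sgv d))
      ≤ ∫ z : Eu m, (gw z * supn z) * ∑ d : Fin m → Bool, N (sgv d) := by
    refine integral_mono_of_nonneg (Filter.Eventually.of_forall fun z => ?_)
      (integrable_gw_supn.mul_const _) (Filter.Eventually.of_forall fun z => ?_)
    · exact mul_nonneg (gw_pos z).le (Finset.sum_nonneg fun d _ => apply_nonneg N _)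
    · simp only
      rw [mul_assoc]
      apply mul_le_mul_of_nonneg_left _ (gw_pos z).le
      exact sum_mulv_le N (supn_nonneg z) (abs_le_supn z)
  rw [integral_mul_const] at h3
  rw [rad, ← mul_div_assoc, le_div_iff₀ h2m, mul_comm]
  rw [h1]
  exact h3

lemma integral_gw_exp_sq {m : ℕ} (i : Fin m) :
    ∫ z : Eu m, gw z * Real.exp ((Real.pi / 2) * (z i) ^ 2) = Real.sqrt 2 := by
  have h := (PiLp.volume_preserving_toLp (Fin m)).integral_comp
    (MeasurableEquiv.toLp 2 (Fin m → ℝ)).measurableEmbedding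
    (fun z : Eu m => gw z * Real.exp ((Real.pi / 2) * (z i) ^ 2))
  rw [← h]
  set c : Fin m → ℝ := fun j => if j = i then Real.pi / 2 else Real.pi with hc
  have h2 : ∀ x : Fin m → ℝ, gw (WithLp.toLp 2 x : Eu m) *
      Real.exp ((Real.pi / 2) * ((WithLp.toLp 2 x : Eu m) i) ^ 2)
      = ∏ j, Real.exp (-(c j) * (x j) ^ 2) := by
    intro x
    rw [gw, ← Real.exp_add, ← Real.exp_sum, EuclideanSpace.norm_sq_eq]
    congr 1
    simp only [Real.norm_eq_abs, sq_abs]
    rw [Finset.mul_sum]
    have h3 : ∀ j, -(c j) * (x j) ^ 2 = -Real.pi * (x j) ^ 2 +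
        (if j = i then (Real.pi / 2) * (x j) ^ 2 else 0) := by
      intro j
      simp only [hc]
      split_ifs <;> ring
    simp only [h3]
    rw [Finset.sum_add_distrib, Finset.sum_ite_eq' Finset.univ i]
    simp
  simp only [h2]
  rw [integral_fintype_prod_volume_eq_prod (fun j x => Real.exp (-(c j) * x ^ 2))]
  simp only [integral_gaussian]
  have h4 : ∀ j, Real.sqrt (Real.pi / c j) = if j = i then Real.sqrt 2 else 1 := by
    intro j
    simp only [hc]
    split_ifs with hj
    · congr 1
      field_simp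
    · rw [div_self Real.pi_pos.ne', Real.sqrt_one]
  simp only [h4]
  rw [Finset.prod_ite_eq' Finset.univ i]
  simp

lemma integrable_gw_exp_sq {m : ℕ} (i : Fin m) :
    Integrable (fun z : Eu m => gw z * Real.exp ((Real.pi / 2) * (z i) ^ 2)) := by
  have hI := integrable_exp_neg (m := m) (b := Real.pi / 2) (by positivity)
  refine hI.mono' ?_ (Filter.Eventually.of_forall fun z => ?_)
  · apply Continuous.aestronglyMeasurable
    apply continuous_gw.mul
    fun_prop
  · rw [Real.norm_eq_abs, abs_of_nonneg (mul_nonneg (gw_pos z).le (Real.exp_pos _).le), gw,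
      ← Real.exp_add]
    apply Real.exp_le_exp.mpr
    have h1 : (z i) ^ 2 ≤ ‖z‖ ^ 2 := by
      rw [← sq_abs]
      exact pow_le_pow_left₀ (abs_nonneg _) (abs_le_norm z i) 2
    have := mul_le_mul_of_nonneg_left h1 (by positivity : (0:ℝ) ≤ Real.pi / 2)
    linarith

lemma integrable_gw_supn_sq {m : ℕ} : Integrable (fun z : Eu m => gw z * supn z ^ 2) := by
  refine integrable_gw_mul (C := 2) (a := 1) (continuous_supn.pow 2).aestronglyMeasurable ?_
  intro z
  rw [abs_of_nonneg (sq_nonneg _), one_mul]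
  have h1 : supn z ^ 2 ≤ ‖z‖ ^ 2 := pow_le_pow_left₀ (supn_nonneg z) (supn_le_norm z) 2
  have := Real.quadratic_le_exp_of_nonneg (norm_nonneg z)
  nlinarith [norm_nonneg z]

/-- Second moment of the maximum of Gaussian variables. -/
lemma integral_gw_supn_sq {m : ℕ} :
    ∫ z : Eu m, gw z * supn z ^ 2 ≤ Real.log (m + 2) := by
  have hm2 : (2:ℝ) ≤ (m : ℝ) + 2 := by
    have : (0:ℝ) ≤ m := Nat.cast_nonneg m
    linarith
  have hlog0 : 0 < Real.log (m + 2) := Real.log_pos (by linarith)
  rcases Nat.eq_zero_or_pos m with h0 | hpos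
  · subst h0
    have : ∀ z : Eu 0, supn z = 0 := by
      intro z
      have h1 := supn_le_norm z
      have h2 : ‖z‖ = 0 := by
        rw [Subsingleton.elim z 0, norm_zero]
      exact le_antisymm (h2 ▸ h1) (supn_nonneg z)
    simp [this]
    exact Real.log_nonneg (by norm_num)
  · set A : ℝ := Real.sqrt 2 * (m + 2) with hA
    have hs2 : 0 < Real.sqrt 2 := Real.sqrt_pos.mpr (by norm_num)
    have hApos : 0 < A := by positivity
    have hp := Real.pi_pos
    have hpt : ∀ z : Eu m, (Real.pi / 2) * (gw z * supn z ^ 2) ≤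
        (Real.log A - 1) * gw z +
          (1 / A) * ∑ i : Fin m, gw z * Real.exp ((Real.pi / 2) * (z i) ^ 2) := by
      intro z
      set y := (Real.pi / 2) * supn z ^ 2 with hy
      have h1 : y ≤ Real.log A - 1 + Real.exp y / A := by
        have := Real.add_one_le_exp (y - Real.log A)
        rw [Real.exp_sub, Real.exp_log hApos] at this
        linarith
      have h2 : Real.exp y ≤ ∑ i : Fin m, Real.exp ((Real.pi / 2) * (z i) ^ 2) := by
        have : Nonempty (Fin m) := ⟨⟨0, hpos⟩⟩
        obtain ⟨i, hi⟩ : ∃ i : Fin m, supn z = |z i| := by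
          obtain ⟨i, -, hi⟩ := Finset.exists_max_image Finset.univ (fun i => |z i|)
            Finset.univ_nonempty
          refine ⟨i, le_antisymm ?_ (abs_le_supn z i)⟩
          rw [supn, pi_norm_le_iff_of_nonneg (abs_nonneg _)]
          intro j
          simpa using hi j (Finset.mem_univ j)
        rw [hy, hi, sq_abs]
        exact Finset.single_le_sum (f := fun i => Real.exp ((Real.pi / 2) * (z i) ^ 2))
          (fun j _ => (Real.exp_pos _).le) (Finset.mem_univ i)
      have h3 : y ≤ Real.log A - 1 +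
          (1 / A) * ∑ i : Fin m, Real.exp ((Real.pi / 2) * (z i) ^ 2) := by
        refine h1.trans ?_
        have : Real.exp y / A ≤ (1 / A) * ∑ i : Fin m, Real.exp ((Real.pi / 2) * (z i) ^ 2) := by
          rw [div_eq_mul_one_div, mul_comm]
          exact mul_le_mul_of_nonneg_left h2 (by positivity)
        linarith
      have h4 := mul_le_mul_of_nonneg_left h3 (gw_pos z).le
      calc (Real.pi / 2) * (gw z * supn z ^ 2) = gw z * y := by rw [hy]; ring
        _ ≤ _ := h4
        _ = _ := by
            rw [mul_add, ← Finset.mul_sum]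
            ring
    have hI1 : Integrable (fun z : Eu m => (Real.log A - 1) * gw z) :=
      (integrable_exp_neg (m := m) Real.pi_pos).const_mul _
    have hI2 : Integrable (fun z : Eu m =>
        (1 / A) * ∑ i : Fin m, gw z * Real.exp ((Real.pi / 2) * (z i) ^ 2)) :=
      (integrable_finsetSum _ fun i _ => integrable_gw_exp_sq i).const_mul _
    have h5 : ∫ z : Eu m, (Real.pi / 2) * (gw z * supn z ^ 2) ≤
        ∫ z : Eu m, ((Real.log A - 1) * gw z +
          (1 / A) * ∑ i : Fin m, gw z * Real.exp ((Real.pi / 2) * (z i) ^ 2)) :=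
      integral_mono (integrable_gw_supn_sq.const_mul _) (hI1.add hI2) hpt
    have e1 := integral_add (f := fun z : Eu m => (Real.log A - 1) * gw z)
      (g := fun z : Eu m => (1 / A) * ∑ i : Fin m, gw z * Real.exp ((Real.pi / 2) * (z i) ^ 2))
      hI1 hI2
    rw [e1, integral_const_mul, integral_const_mul, integral_const_mul, integral_gw,
      integral_finsetSum _ (fun i _ => integrable_gw_exp_sq i)] at h5
    simp only [integral_gw_exp_sq] at h5
    rw [Finset.sum_const, Finset.card_univ, Fintype.card_fin, nsmul_eq_mul] at h5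
    have h6 : (1 / A) * ((m : ℝ) * Real.sqrt 2) ≤ 1 := by
      rw [hA]
      rw [one_div, inv_mul_le_iff₀ (by positivity)]
      nlinarith
    have h7 : Real.log A ≤ (3 / 2) * Real.log (m + 2) := by
      rw [hA, Real.log_mul hs2.ne' (by positivity), Real.log_sqrt (by norm_num)]
      have : Real.log 2 ≤ Real.log (m + 2) := Real.log_le_log (by norm_num) hm2
      linarith
    have h8 : (Real.pi / 2) * ∫ z : Eu m, gw z * supn z ^ 2 ≤ (3 / 2) * Real.log (m + 2) := by
      linarith
    have h9 : (3 / 2) * Real.log (m + 2) ≤ (Real.pi / 2) * Real.log (m + 2) := by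
      have := Real.pi_gt_three
      nlinarith
    exact le_of_mul_le_mul_left (h8.trans h9) (by positivity)

/-- First moment of the maximum of Gaussian variables. -/
lemma integral_gw_supn {m : ℕ} :
    ∫ z : Eu m, gw z * supn z ≤ Real.sqrt (Real.log (m + 2)) := by
  have hm2 : (1:ℝ) < (m : ℝ) + 2 := by
    have : (0:ℝ) ≤ m := Nat.cast_nonneg m
    linarith
  set τ := Real.sqrt (Real.log (m + 2)) with hτ
  have hlog : 0 < Real.log (m + 2) := Real.log_pos hm2
  have hτ0 : 0 < τ := Real.sqrt_pos.mpr hlog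
  have hτ2 : τ ^ 2 = Real.log (m + 2) := Real.sq_sqrt hlog.le
  have h1 : ∀ z : Eu m, 2 * τ * (gw z * supn z) ≤ gw z * supn z ^ 2 + τ ^ 2 * gw z := by
    intro z
    have h := mul_nonneg (gw_pos z).le (sq_nonneg (supn z - τ))
    nlinarith
  have hI : Integrable (fun z : Eu m => τ ^ 2 * gw z) :=
    (integrable_exp_neg (m := m) Real.pi_pos).const_mul _
  have h2 : ∫ z : Eu m, 2 * τ * (gw z * supn z) ≤
      ∫ z : Eu m, (gw z * supn z ^ 2 + τ ^ 2 * gw z) :=
    integral_mono (integrable_gw_supn.const_mul _) (integrable_gw_supn_sq.add hI) h1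
  rw [integral_add integrable_gw_supn_sq hI, integral_const_mul, integral_const_mul,
    integral_gw] at h2
  have h3 := integral_gw_supn_sq (m := m)
  have h4 : 2 * τ * ∫ z : Eu m, gw z * supn z ≤ 2 * τ * τ := by nlinarith
  exact le_of_mul_le_mul_left h4 (by positivity)

lemma rad_nonneg {m : ℕ} (N : Seminorm ℝ (Eu m)) : 0 ≤ rad N :=
  div_nonneg (Finset.sum_nonneg fun _ _ => apply_nonneg N _) (by positivity)

/-- **Comparison of the Gaussian and the Rademacher average of a seminorm.** -/
theorem gauss_le {m : ℕ} (N : Seminorm ℝ (Eu m)) {b : ℝ} (hb : ∀ x, N x ≤ b * ‖x‖) :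
    ∫ z, gw z * N z ≤ Real.sqrt (Real.log (m + 2)) * rad N :=
  (gauss_le_rad N hb).trans (mul_le_mul_of_nonneg_right integral_gw_supn (rad_nonneg N))

end Crest.Agent.R152.WRM7
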